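import Vale.Agent.P363.Defs
import Vale.Agent.P370.Dens
import Vale.Agent.P370.Geom

/-!
Internal definitions of the P363 disproof and the interfaces between its parts
(see `skeleton/P363/PROOF.md`).
-/

namespace Vale.Agent.P363

open MeasureTheory Vale.Agent.P370
open scoped ContDiff

noncomputable section

/-! ### Real Sobolev functions and forms -/

/-- Configuration space. -/
abbrev Cf (N : ℕ) := Fin N → Pt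

/-- Reflection in the plane `x i = 0`. -/
def rf (i : Fin 3) (x : Pt) : Pt := Function.update x i (-x i)

/-- The open quadrant. -/
def Qd : Set Pt := {x | 0 < x 0 ∧ 0 < x 1}

/-- Classical gradient. -/
def gr1 (u : Pt → ℝ) : Fin 3 → Pt → ℝ := fun k => pd k u

/-- Real `H¹` functions on space, with weak gradient. -/
def H1 (u : Pt → ℝ) (g : Fin 3 → Pt → ℝ) : Prop :=
  MemLp u 2 ∧ ∀ k, MemLp (g k) 2 ∧ ∀ φ : Pt → ℝ, ContDiff ℝ ∞ φ → HasCompactSupport φ →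
    ∫ x, u x * pd k φ x = -∫ x, g k x * φ x

/-- One-body bilinear form of `-Δ/2 + V`. -/
def q1 (V u : Pt → ℝ) (g : Fin 3 → Pt → ℝ) (u' : Pt → ℝ) (g' : Fin 3 → Pt → ℝ) : ℝ :=
  1 / 2 * (∑ k, ∫ x, g k x * g' k x) + ∫ x, V x * (u x * u' x)

/-- Weak solutions of `(-Δ/2 + q) u = s`. -/
def Sol (q s u : Pt → ℝ) (g : Fin 3 → Pt → ℝ) : Prop :=
  ∀ ζ, C1c ζ → q1 q u g ζ (gr1 ζ) = ∫ x, s x * ζ x

/-- Weak subsolutions: `(-Δ/2 + q) u ≤ τ`. -/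
def Sub (q τ u : Pt → ℝ) (g : Fin 3 → Pt → ℝ) : Prop :=
  ∀ ζ, C1c ζ → (∀ x, 0 ≤ ζ x) → q1 q u g ζ (gr1 ζ) ≤ ∫ x, τ x * ζ x

/-- Infinitesimally form bounded potentials. -/
def FB (V : Pt → ℝ) : Prop :=
  Measurable V ∧ ∀ θ : ℝ, 0 < θ → ∃ C : ℝ, ∀ ψ, C1c ψ → Integrable (fun x => V x * ψ x ^ 2) ∧
    ∫ x, |V x| * ψ x ^ 2 ≤ θ * (∫ x, gsq ψ x) + C * ∫ x, ψ x ^ 2

/-- Potentials of small form norm. -/
def Small (W : Pt → ℝ) (ε : ℝ) : Prop :=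
  Measurable W ∧ ∀ ψ, C1c ψ → Integrable (fun x => W x * ψ x ^ 2) ∧
    ∫ x, |W x| * ψ x ^ 2 ≤ ε * ((∫ x, gsq ψ x) + ∫ x, ψ x ^ 2)

/-- Continuously differentiable with compact support, on configuration space. -/
def C1N {N : ℕ} (f : Cf N → ℝ) : Prop := ContDiff ℝ 1 f ∧ HasCompactSupport f

/-- Classical gradient on configuration space. -/
def gr {N : ℕ} (f : Cf N → ℝ) : Fin N → Fin 3 → Cf N → ℝ := fun i k x => fderiv ℝ f x (dirn i k)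

/-- Real `H¹` functions on configuration space, with weak gradient. -/
def RH {N : ℕ} (f : Cf N → ℝ) (G : Fin N → Fin 3 → Cf N → ℝ) : Prop :=
  MemLp f 2 ∧ ∀ i k, MemLp (G i k) 2 ∧ ∀ φ : Cf N → ℝ, ContDiff ℝ ∞ φ → HasCompactSupport φ →
    ∫ x, f x * fderiv ℝ φ x (dirn i k) = -∫ x, G i k x * φ x

/-- Many-body bilinear form: one-body potential `V`, repulsion with coupling `lam`. -/
def bil {N : ℕ} (V : Pt → ℝ) (lam : ℝ) (f : Cf N → ℝ) (G : Fin N → Fin 3 → Cf N → ℝ)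
    (f' : Cf N → ℝ) (G' : Fin N → Fin 3 → Cf N → ℝ) : ℝ :=
  1 / 2 * (∑ i, ∑ k, ∫ x, G i k x * G' i k x) + (∑ i, ∫ x, V (x i) * (f x * f' x)) +
    lam * ∑ i, ∑ j, if i < j then ∫ x, ker (x i - x j) * (f x * f' x) else 0

/-- Antisymmetry in the first two positions. -/
def Asym (f : Cf 3 → ℝ) : Prop := ∀ᵐ x : Cf 3, f (x ∘ Equiv.swap 0 1) = -f x

/-- Normalised minimisers among real functions antisymmetric in the first two positions. -/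
def MinA (V : Pt → ℝ) (lam : ℝ) (ψ : Cf 3 → ℝ) (G : Fin 3 → Fin 3 → Cf 3 → ℝ) : Prop :=
  RH ψ G ∧ Asym ψ ∧ ∫ x, ψ x ^ 2 = 1 ∧
    ∀ φ H, RH φ H → Asym φ → bil V lam ψ G ψ G * ∫ x, φ x ^ 2 ≤ bil V lam φ H φ H

/-- Sum of the three marginals. -/
def dens3 (ψ : Cf 3 → ℝ) (x : Pt) : ℝ := ∑ i : Fin 3, ∫ y : Cf 2, ψ (i.insertNth x y) ^ 2

/-- Asymptotic nodal planes: the density is symmetric, and around suitable points of the axis it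
vanishes to bounded order and is small near both planes. -/
def Nodal (n : Pt → ℝ) : Prop :=
  (∀ᵐ x, n (rf 0 x) = n x) ∧ (∀ᵐ x, n (rf 1 x) = n x) ∧
  ∃ r₀ C c : ℝ, 0 < r₀ ∧ 0 < c ∧ ∀ r K η : ℝ, 0 < r → 0 < K → 0 < η →
    ∃ (p : Pt) (θ : ℝ), p 0 = 0 ∧ p 1 = 0 ∧ 0 < θ ∧ ∫ x in Metric.ball p r₀, n x ≤ C * θ ∧
      ∀ s, r ≤ s → s ≤ r₀ → c * s ^ 7 * θ ≤ ∫ x in Metric.ball p s, n x ∧
        ∀ i : Fin 3, i ≠ 2 → ∫ x in Metric.ball p (s / 2), min (s ^ 2 / x i ^ 2) K * n x ≤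
          C * (∫ x in Metric.ball p s, n x) + η * θ

/-- Potential of unit charges at the given points, with coupling `lam`. -/
def vp (pts : List Pt) (lam : ℝ) : Pt → ℝ := pot (pts.map fun p => (p, lam))

/-! ### The five-site model -/

/-- Half-size of a well. -/
def aw : ℝ := 10 ^ 8
/-- Distance of the corner wells from the hub. -/
def Lc : ℝ := 10 ^ 16
/-- Tolerance. -/
def tol : ℝ := 1 / 10 ^ 6
/-- One-body gap. -/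
def gam : ℝ := 1 / 10 ^ 100

/-- One-body form of the model; site `0` is the hub. -/
def Kf (c : Fin 5 → ℝ) : ℝ :=
  1 / 4 * (∑ i : Fin 4, (c i.succ - c 0) ^ 2) + 2 * ∑ i : Fin 4, c i.succ ^ 2

/-- Repulsion of the model, with on-site value `u`. -/
def Vm (u : ℝ) (a b : Fin 5) : ℝ :=
  if a = b then u else if a = 0 ∨ b = 0 then 1 else
    if (a.val + b.val) % 2 = 0 then 1 / 2 else 7071068 / 10 ^ 7

/-- Action of the two reflections on the sites. -/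
def pr (i : Fin 3) : Fin 5 → Fin 5 := if i = 0 then ![0, 2, 1, 4, 3] else ![0, 4, 3, 2, 1]

/-- Coefficients of a one-body function. -/
def co5 (φ : Fin 5 → Pt → ℝ) (ψ : Pt → ℝ) (a : Fin 5) : ℝ := ∫ x, φ a x * ψ x

/-- Linear combinations of orbitals. -/
def lc5 (φ : Fin 5 → Pt → ℝ) (c : Fin 5 → ℝ) (x : Pt) : ℝ := ∑ a, c a * φ a x

/-- The orbital that is odd under both reflections. -/
def oo (φ : Fin 5 → Pt → ℝ) (x : Pt) : ℝ := (φ 1 x - φ 2 x + φ 3 x - φ 4 x) / 2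

/-- Sharp orbitals `φ` and smooth orbitals `η`, with the two-body estimates. -/
structure Orb (φ η : Fin 5 → Pt → ℝ) : Prop where
  bm : ∀ a, BM (φ a)
  bdd : ∃ r, ∀ a x, φ a x ≠ 0 → ‖x‖ ≤ r
  nonneg : ∀ a x, 0 ≤ φ a x
  disj : ∀ a b x, a ≠ b → φ a x * φ b x = 0
  one : ∀ a, ∫ x, φ a x ^ 2 = 1
  symφ : ∀ i : Fin 3, i ≠ 2 → ∀ a x, φ (pr i a) (rf i x) = φ a x
  symη : ∀ i : Fin 3, i ≠ 2 → ∀ a x, η (pr i a) (rf i x) = η a x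
  quad : ∀ x, φ 1 x ≠ 0 → x ∈ Qd
  smooth : ∀ a, ContDiff ℝ ∞ (η a) ∧ HasCompactSupport (η a)
  agree : ∀ a b x, φ b x ≠ 0 → η a x = φ a x
  close : ∀ c : Fin 5 → ℝ, ∫ x, (lc5 η c x - lc5 φ c x) ^ 2 ≤ tol * ∑ a, c a ^ 2
  tlow : ∀ a b, (Vm (10 ^ 5) a b - tol) / Lc ≤
    ∫ p : Pt × Pt, min (ker (p.1 - p.2)) 1 * (φ a p.1 ^ 2 * φ b p.2 ^ 2)
  tup : ∃ u : ℝ, 0 ≤ u ∧ ∀ d : Fin 5 → Fin 5 → ℝ,
    ∫ p : Pt × Pt, ker (p.1 - p.2) * (∑ a, ∑ b, d a b * (η a p.1 * η b p.2)) ^ 2 ≤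
      ∑ a, ∑ b, (Vm u a b + tol) / Lc * d a b ^ 2

/-- One-body hypotheses of the many-body reduction; the unit of energy is `lam / Lc`. -/
structure OB (V : Pt → ℝ) (lam E : ℝ) (φ η : Fin 5 → Pt → ℝ) : Prop where
  orb : Orb φ η
  fb : FB V
  symV : ∀ i : Fin 3, i ≠ 2 → ∀ x, V (rf i x) = V x
  lam_pos : 0 < lam
  lam_le : lam * 10 ^ 30 ≤ gam
  low : ∀ ψ, C1c ψ → (E - tol * (lam / Lc)) * (∫ x, ψ x ^ 2) + lam / Lc * Kf (co5 φ ψ) +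
    gam * ((∫ x, ψ x ^ 2) - ∑ a, co5 φ ψ a ^ 2) ≤ qV V ψ
  up : ∀ c : Fin 5 → ℝ, qV V (lc5 η c) ≤
    E * (∫ x, lc5 η c x ^ 2) + lam / Lc * Kf c + tol * (lam / Lc) * ∑ a, c a ^ 2

/-- Output of the many-body reduction: ground states `Φ` of two and `ψ` of three electrons. -/
structure MB (V : Pt → ℝ) (lam E : ℝ) (φ : Fin 5 → Pt → ℝ) (Φ : Cf 2 → ℝ)
    (GΦ : Fin 2 → Fin 3 → Cf 2 → ℝ) (ψ : Cf 3 → ℝ) (Gψ : Fin 3 → Fin 3 → Cf 3 → ℝ)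
    (E₂ E₃ A : ℝ) : Prop where
  hΦ : RH Φ GΦ
  one : ∫ y, Φ y ^ 2 = 1
  swap : ∀ᵐ y : Cf 2, Φ (y ∘ Equiv.swap 0 1) = Φ y
  even : ∀ i : Fin 3, i ≠ 2 → ∀ᵐ y : Cf 2, Φ (fun j => rf i (y j)) = Φ y
  eq2 : ∀ χ, C1N χ → bil V lam Φ GΦ χ (gr χ) = E₂ * ∫ y, Φ y * χ y
  gap : ∀ χ : Cf 2 → ℝ, C1N χ → (E₂ + lam / Lc / 100) * (∫ y, χ y ^ 2) -
    lam / Lc / 100 * (∫ y, Φ y * χ y) ^ 2 ≤ bil V lam χ (gr χ) χ (gr χ)
  min : MinA V lam ψ Gψ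
  odd : ∀ i : Fin 3, i ≠ 2 → ∀ᵐ x : Cf 3, ψ (fun j => rf i (x j)) = -ψ x
  eq3 : ∀ χ, C1N χ → bil V lam ψ Gψ χ (gr χ) = E₃ * ∫ x, ψ x * χ x
  e2 : |E₂ - 2 * E| ≤ 10 * (lam / Lc)
  e3 : |E₃ - 3 * E| ≤ 10 * (lam / Lc)
  close : ∃ c : (Fin 3 → Fin 5) → ℝ, ∑ α, c α ^ 2 ≤ 1 ∧
    ∫ x, (ψ x - ∑ α, c α * ∏ i, φ (α i) (x i)) ^ 2 ≤ lam / gam
  amp : A = ∫ x, oo φ x * ∫ y : Cf 2, ψ (Fin.cons x y) * Φ y
  amp_ge : 1 / 4 ≤ A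

/-- Coercivity outside a ball. -/
def Coer (V : Pt → ℝ) (E R P : ℝ) : Prop :=
  ∀ v, C1c v → 1 / 4 * (∫ x, gsq v x) + (E + 10) * (∫ x, v x ^ 2) -
    P * ∫ x in {x | nrm x ≤ R + 1}, v x ^ 2 ≤ qV V v

/-- The scalar system: Dyson orbital `f`, amplitude `a`, excited amplitudes `ρ` and `b`,
density `n`. -/
structure Scal (V : Pt → ℝ) (lam k g Λ β A : ℝ) (φ : Fin 5 → Pt → ℝ) (f a ρ b n : Pt → ℝ) :
    Prop where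
  hf : ∃ (gf : Fin 3 → Pt → ℝ) (s q₁ s₂ : Pt → ℝ), H1 f gf ∧ MemLp s 2 ∧ Measurable q₁ ∧
    Sol (fun x => V x + k) (fun x => -s x) f gf ∧ ∀ᵐ x, |s x| ≤ Λ * a x ∧
      s x = (2 * lam / nrm x + q₁ x) * f x + s₂ x ∧ |q₁ x| ≤ Λ / nrm x ^ 2 ∧
      |s₂ x| ≤ Λ / nrm x ^ 2 * ρ x
  odd : ∀ i : Fin 3, i ≠ 2 → ∀ᵐ x, f (rf i x) = -f x
  ha : ∃ ga, H1 a ga ∧ Sub (fun x => V x + k) 0 a ga
  hρ : ∃ gρ τ, H1 ρ gρ ∧ MemLp τ 2 ∧ Sub (fun x => V x + k + g) τ ρ gρ ∧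
    ∀ᵐ x, τ x ≤ Λ / nrm x ^ 2 * |f x|
  hb : ∃ gb, H1 b gb ∧ Sub (fun x => V x + k + g) 0 b gb
  nonneg : ∀ x, 0 ≤ a x ∧ 0 ≤ ρ x ∧ 0 ≤ b x
  pyth : ∀ᵐ x, a x ^ 2 = f x ^ 2 + ρ x ^ 2
  dens : ∀ᵐ x, n x = 2 * a x ^ 2 + b x ^ 2
  symm : ∀ i : Fin 3, i ≠ 2 → ∀ᵐ x, n (rf i x) = n x
  norm : ∫ x, a x ^ 2 ≤ 1
  close_f : ∫ x, (f x - A * oo φ x) ^ 2 ≤ β
  close_a : ∃ e : Pt → ℝ, MemLp e 2 ∧ ∫ x, e x ^ 2 ≤ β ∧ ∀ᵐ x, a x ≤ (∑ i, φ i x) + e x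

/-- Shells just outside the ball of radius `R`. -/
def Sh (R s t : ℝ) : Set Pt := {x | R + s / R ≤ nrm x ∧ nrm x ≤ R + t / R}

/-- The potential in the vacuum. -/
def Vac (V : Pt → ℝ) (R Z : ℝ) : Prop :=
  ∀ x, R + 1 / 8 / R ≤ nrm x → |V x + Z / nrm x| ≤ 1 / nrm x ^ 2

/-- Boundary data on the shell. -/
def Shell (R Ca μ a₀ : ℝ) (f a : Pt → ℝ) : Prop :=
  ∀ᵐ x, x ∈ Sh R (1 / 4) (3 / 4) → a x ≤ Ca ∧ (x ∈ Qd →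
    μ * (x 0 * x 1 * Real.exp (2 * R ^ 2 * (x 2 / nrm x - 1))) - a₀ ≤ f x)

/-- Data of a molecule in scaled units. -/
structure Mol where
  /-- unit charges -/
  pts : List Pt
  /-- coupling -/
  lam : ℝ
  /-- radius of the ball -/
  R : ℝ
  /-- bound for everything subexponential -/
  P : ℝ
  /-- exponentially small unit -/
  sm : ℝ
  /-- size of the reference state on the shell -/
  nu : ℝ
  /-- total charge -/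
  Z : ℝ
  /-- one-body level -/
  E : ℝ
  /-- smooth potential -/
  U : Pt → ℝ
  /-- error of small form norm -/
  W₁ : Pt → ℝ
  /-- bounded error -/
  W₂ : Pt → ℝ
  /-- Agmon weight -/
  G : Pt → ℝ
  /-- subsolution -/
  Θ : Pt → ℝ
  /-- sharp orbitals -/
  φ : Fin 5 → Pt → ℝ
  /-- smooth orbitals -/
  η : Fin 5 → Pt → ℝ
  /-- allowed region -/
  N : Set Pt
  /-- plateau of the first corner well -/
  A : Set Pt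

/-- The potential of the molecule. -/
def Mol.V (M : Mol) : Pt → ℝ := vp M.pts M.lam

/-- Properties of the weight `G`, relative to the sets `N`, `A`. -/
structure Wt (U : Pt → ℝ) (E R P sm nu : ℝ) (G : Pt → ℝ) (φ : Fin 5 → Pt → ℝ) (N A : Set Pt) :
    Prop where
  G1 : ContDiff ℝ 1 G
  Gb : ∃ C, ∀ x, |G x| ≤ C
  Gd : ∀ x, gsq G x ≤ P
  ag : ∀ v, C1c v → 4 * (∫ x, v x ^ 2) ≤ qV U v - E * (∫ x, v x ^ 2) -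
    1 / 2 * (∫ x, gsq G x * v x ^ 2) + P * ∫ x in N, v x ^ 2
  mN : MeasurableSet N
  mA : MeasurableSet A
  AQ : A ⊆ Qd
  NR : ∀ x ∈ N, nrm x ≤ R
  GN : ∀ x ∈ N, Real.exp (G x) * sm ^ 7 ≤ 1
  GA : ∀ x ∈ N ∩ A, G x ≤ 0
  φN : ∀ i, ∀ x ∈ N, Real.exp (G x) * φ i x ≤ P
  Gsh : ∀ x ∈ Sh R (1 / 8) (7 / 8), 1 ≤ P * nu * Real.exp (G x)

/-- Properties of the subsolution `Θ`. -/
structure Th (U : Pt → ℝ) (E R P sm nu : ℝ) (G Θ : Pt → ℝ) (φ : Fin 5 → Pt → ℝ) (N A : Set Pt) :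
    Prop where
  C2 : ContDiff ℝ 2 Θ
  supp : tsupport Θ ⊆ {x | nrm x ≤ R + 2}
  zero : ∀ x, x 0 = 0 ∨ x 1 = 0 → Θ x = 0
  nonneg : ∀ x ∈ Qd, 0 ≤ Θ x
  ΘA : ∀ x ∈ N ∩ A, Θ x ≤ P * φ 1 x
  ΘN : ∀ x ∈ N, x ∈ Qd → x ∉ A → Real.exp (G x) * Θ x ≤ sm
  ΘL : ∀ x ∈ Qd, Real.exp (G x) * (-(1 / 2) * lap Θ x + (U x - E + 3) * Θ x) ≤
    sm + (N ∩ A).indicator (fun _ => P) x
  Θb : ∀ x, Real.exp (G x) * |Θ x| ≤ P ∧ ∀ k, Real.exp (G x) * |pd k Θ x| ≤ P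
  Θsh : ∀ x ∈ Sh R (1 / 4) (3 / 4), x ∈ Qd →
    nu * (x 0 * x 1 * Real.exp (2 * R ^ 2 * (x 2 / nrm x - 1)) / P - sm) ≤ Θ x

/-- Everything the design provides.  `E₁` is the level of the smooth potential. -/
structure Mol.OK (M : Mol) : Prop where
  ne : M.pts ≠ []
  ob : OB M.V M.lam M.E M.φ M.η
  sm_pos : 0 < M.sm
  nu_pos : 0 < M.nu
  R_ge : 10 ≤ M.R
  R_le : M.R ≤ M.P
  P_ge : 10 ^ 200 ≤ M.P
  P_le : M.P ^ 1000 * M.sm ≤ 1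
  lam_le : M.lam ≤ M.sm ^ 12
  lam_ge : M.sm ^ 12 ≤ M.P * M.lam
  E_eq : |M.E + 3 / 2 * M.R ^ 2| ≤ M.R / 2
  Z_eq : |M.Z - M.R ^ 3| ≤ 1
  vac : Vac M.V M.R M.Z
  coer : Coer M.V M.E M.R M.P
  split : ∀ x, M.V x = M.U x + M.W₁ x + M.W₂ x
  mU : Measurable M.U
  Ub : ∀ x, |M.U x| ≤ M.P
  W1 : Small M.W₁ M.sm
  mW2 : Measurable M.W₂
  W2 : ∀ x, 0 ≤ M.W₂ x ∧ M.W₂ x ≤ 1
  shV : ∀ x ∈ Sh M.R (1 / 8) (7 / 8), M.V x ≤ M.U x + 1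
  wt : ∃ E₁, |E₁ - M.E| ≤ 1 ∧ Wt M.U E₁ M.R M.P M.sm M.nu M.G M.φ M.N M.A ∧
    Th M.U E₁ M.R M.P M.sm M.nu M.G M.Θ M.φ M.N M.A

end

end Vale.Agent.P363
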