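import Vale.Agent.P363.Des
import Vale.Agent.P370.MassA
import Vale.Agent.P370.Newton

/-! Calculus for `pd`, `lap`, `gsq`: rules, jets at a point, the formula of Bochner, the
inequality of Jacobi. -/

namespace Vale.Agent.P363.D26

open MeasureTheory Vale.Agent.P370 Filter Topology
open scoped ContDiff

noncomputable section

/-- Smooth functions. -/
abbrev Sm (f : Pt → ℝ) : Prop := ContDiff ℝ ∞ f

variable {f g : Pt → ℝ} {x : Pt}

theorem d2_le (j : ℕ) : (j : WithTop ℕ∞) ≤ ∞ := by exact_mod_cast le_top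

theorem Sm.da (h : Sm f) (x : Pt) : DifferentiableAt ℝ f x := h.differentiable (by simp) x

theorem Sm.pd (h : Sm f) (k : Fin 3) : Sm (pd k f) := nw_contDiff_pd h (by simp) k

theorem Sm.lap (h : Sm f) : Sm (lap f) := ContDiff.sum fun k _ => (h.pd k).pd k

theorem Sm.gsq (h : Sm f) : Sm (gsq f) := ContDiff.sum fun k _ => (h.pd k).pow 2

theorem sm_coord (j : Fin 3) : Sm fun x => x j := contDiff_apply ℝ ℝ j

theorem d2_pd_const (c : ℝ) (k : Fin 3) : pd k (fun _ => c) = fun _ => 0 := by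
  funext x
  simp [pd]

theorem d2_pd_coord (j k : Fin 3) : pd k (fun x => x j) = fun _ => ek k j := by
  funext x
  rw [pd, (hasFDerivAt_apply (𝕜 := ℝ) j x).fderiv]
  rfl

theorem d2_add (hf : DifferentiableAt ℝ f x) (hg : DifferentiableAt ℝ g x) (k : Fin 3) :
    pd k (fun y => f y + g y) x = pd k f x + pd k g x := by
  simp [pd, fderiv_fun_add hf hg]

theorem d2_sub (hf : DifferentiableAt ℝ f x) (hg : DifferentiableAt ℝ g x) (k : Fin 3) :
    pd k (fun y => f y - g y) x = pd k f x - pd k g x := by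
  simp [pd, fderiv_fun_sub hf hg]

theorem d2_mul (hf : DifferentiableAt ℝ f x) (hg : DifferentiableAt ℝ g x) (k : Fin 3) :
    pd k (fun y => f y * g y) x = f x * pd k g x + pd k f x * g x := by
  simp [pd, fderiv_fun_mul hf hg, mul_comm]

theorem d2_comp {P : ℝ → ℝ} {c : ℝ} (hP : HasDerivAt P c (f x)) (hf : DifferentiableAt ℝ f x)
    (k : Fin 3) : pd k (fun y => P (f y)) x = c * pd k f x := by
  rw [pd, show (fun y => P (f y)) = P ∘ f from rfl, (hP.comp_hasFDerivAt x hf.hasFDerivAt).fderiv]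
  rfl

theorem Sm.pd_add (hf : Sm f) (hg : Sm g) (k : Fin 3) :
    P370.pd k (fun y => f y + g y) = fun y => P370.pd k f y + P370.pd k g y :=
  funext fun x => d2_add (hf.da x) (hg.da x) k

theorem Sm.pd_sub (hf : Sm f) (hg : Sm g) (k : Fin 3) :
    P370.pd k (fun y => f y - g y) = fun y => P370.pd k f y - P370.pd k g y :=
  funext fun x => d2_sub (hf.da x) (hg.da x) k

theorem Sm.pd_mul (hf : Sm f) (hg : Sm g) (k : Fin 3) :
    P370.pd k (fun y => f y * g y) = fun y => f y * P370.pd k g y + P370.pd k f y * g y :=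
  funext fun x => d2_mul (hf.da x) (hg.da x) k

theorem Sm.pd_cmul (hf : Sm f) (c : ℝ) (k : Fin 3) :
    P370.pd k (fun y => c * f y) = fun y => c * P370.pd k f y := by
  rw [Sm.pd_mul contDiff_const hf, d2_pd_const]
  simp

theorem d2_pd_sum {F : Fin 3 → Pt → ℝ} (h : ∀ i, Sm (F i)) (k : Fin 3) :
    pd k (fun y => ∑ i, F i y) = fun y => ∑ i, pd k (F i) y := by
  funext x
  simp [pd, fderiv_fun_sum fun i _ => (h i).da x]

theorem Sm.pd_comm (hf : Sm f) (j k : Fin 3) :
    P370.pd j (P370.pd k f) = P370.pd k (P370.pd j f) := by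
  funext x
  have h1 : DifferentiableAt ℝ (fderiv ℝ f) x :=
    (hf.fderiv_right (m := ∞) (by simp)).differentiable (by simp) x
  have h2 := (hf.contDiffAt (x := x)).isSymmSndFDerivAt (by simpa using d2_le 2)
  unfold P370.pd
  rw [fderiv_clm_apply h1 (differentiableAt_const _), fderiv_clm_apply h1 (differentiableAt_const _)]
  simpa using h2 _ _

theorem Sm.lap_add (hf : Sm f) (hg : Sm g) :
    P370.lap (fun y => f y + g y) = fun y => P370.lap f y + P370.lap g y := by
  funext x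
  simp only [P370.lap, hf.pd_add hg, (hf.pd _).pd_add (hg.pd _), Finset.sum_add_distrib]

theorem Sm.lap_sub (hf : Sm f) (hg : Sm g) :
    P370.lap (fun y => f y - g y) = fun y => P370.lap f y - P370.lap g y := by
  funext x
  simp only [P370.lap, hf.pd_sub hg, (hf.pd _).pd_sub (hg.pd _), Finset.sum_sub_distrib]

theorem Sm.lap_cmul (hf : Sm f) (c : ℝ) :
    P370.lap (fun y => c * f y) = fun y => c * P370.lap f y := by
  funext x
  simp only [P370.lap, hf.pd_cmul, (hf.pd _).pd_cmul, Finset.mul_sum]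

theorem d2_lap_const (c : ℝ) : lap (fun _ => c) = fun _ => 0 := by
  funext x
  simp [lap, d2_pd_const]

/-- The formula of Bochner. -/
theorem Sm.bochner (hf : Sm f) (x : Pt) : P370.lap (P370.gsq f) x =
    2 * (∑ j, ∑ k, P370.pd j (P370.pd k f) x ^ 2) +
      2 * ∑ k, P370.pd k f x * P370.pd k (P370.lap f) x := by
  have h1 : ∀ j, P370.pd j (P370.gsq f) =
      fun y => ∑ k, 2 * (P370.pd k f y * P370.pd j (P370.pd k f) y) := fun j => by
    unfold P370.gsq
    simp only [sq]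
    rw [d2_pd_sum fun k => (hf.pd k).mul (hf.pd k)]
    funext y
    refine Finset.sum_congr rfl fun k _ => ?_
    rw [(hf.pd k).pd_mul (hf.pd k)]
    ring
  have h2 : ∀ k, P370.pd k (P370.lap f) x = ∑ j, P370.pd j (P370.pd j (P370.pd k f)) x := fun k => by
    unfold P370.lap
    rw [d2_pd_sum fun j => (hf.pd j).pd j]
    exact Finset.sum_congr rfl fun j _ => by rw [(hf.pd j).pd_comm k j, hf.pd_comm k j]
  have h3 : ∀ j, P370.pd j (P370.pd j (P370.gsq f)) x = ∑ k, 2 * (P370.pd k f x *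
      P370.pd j (P370.pd j (P370.pd k f)) x + P370.pd j (P370.pd k f) x ^ 2) := fun j => by
    rw [h1, d2_pd_sum fun k => contDiff_const.mul ((hf.pd k).mul ((hf.pd k).pd j))]
    refine Finset.sum_congr rfl fun k _ => ?_
    rw [Sm.pd_cmul ((hf.pd k).mul ((hf.pd k).pd j)), (hf.pd k).pd_mul ((hf.pd k).pd j), sq]
  simp only [P370.lap, h3] at h2 ⊢
  simp only [h2, Fin.sum_univ_three]
  ring

/-! ### Jets -/

/-- Norm of a derivative. -/
def nD (j : ℕ) (f : Pt → ℝ) (x : Pt) : ℝ := ‖iteratedFDeriv ℝ j f x‖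

theorem nD_zero (f : Pt → ℝ) (x : Pt) : nD 0 f x = |f x| := norm_iteratedFDeriv_zero

theorem nD_nonneg (j : ℕ) (f : Pt → ℝ) (x : Pt) : 0 ≤ nD j f x := norm_nonneg _

theorem Sm.nD_pd (hf : Sm f) (j : ℕ) (k : Fin 3) (x : Pt) :
    nD j (P370.pd k f) x ≤ nD (j + 1) f x := by
  have h1 : ContDiff ℝ ∞ (fderiv ℝ f) := hf.fderiv_right (by simp)
  have := norm_iteratedFDeriv_clm_apply_const (c := ek k) (n := j) (x := x) h1.contDiffAt (d2_le j)
  rwa [nw_norm_ek, one_mul, norm_iteratedFDeriv_fderiv] at this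

theorem Sm.nD_lap (hf : Sm f) (j : ℕ) (x : Pt) : nD j (P370.lap f) x ≤ 3 * nD (j + 2) f x := by
  unfold P370.lap nD
  rw [iteratedFDeriv_fun_sum_apply fun k _ => (((hf.pd k).pd k).of_le (d2_le j)).contDiffAt]
  refine (norm_sum_le _ _).trans ((Finset.sum_le_sum fun k _ =>
    ((hf.pd k).nD_pd j k x).trans (hf.nD_pd (j + 1) k x)).trans ?_)
  simp [nD]

theorem Sm.nD_sub (hf : Sm f) (hg : Sm g) (j : ℕ) (x : Pt) :
    nD j (fun y => f y - g y) x ≤ nD j f x + nD j g x := by
  unfold nD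
  rw [fun_iteratedFDeriv_sub_apply (hf.of_le (d2_le j)).contDiffAt (hg.of_le (d2_le j)).contDiffAt]
  exact norm_sub_le _ _

theorem Sm.nD_add (hf : Sm f) (hg : Sm g) (j : ℕ) (x : Pt) :
    nD j (fun y => f y + g y) x ≤ nD j f x + nD j g x := by
  unfold nD
  rw [fun_iteratedFDeriv_add_apply (hf.of_le (d2_le j)).contDiffAt (hg.of_le (d2_le j)).contDiffAt]
  exact norm_add_le _ _

theorem Sm.nD_cmul (hf : Sm f) (c : ℝ) (j : ℕ) (x : Pt) :
    nD j (fun y => c * f y) x = |c| * nD j f x := by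
  unfold nD
  have := iteratedFDeriv_const_smul_apply' (a := c) (hf.of_le (d2_le j)).contDiffAt (x := x)
  simp only [smul_eq_mul] at this
  rw [this, norm_smul, Real.norm_eq_abs]

theorem nD_congr (h : f =ᶠ[𝓝 x] g) (j : ℕ) : nD j f x = nD j g x := by
  unfold nD
  rw [(h.iteratedFDeriv ℝ j).self_of_nhds]

theorem nD_of_zero (h : f =ᶠ[𝓝 x] fun _ => 0) (j : ℕ) : nD j f x = 0 := by
  rw [nD_congr h]
  simp [nD]

theorem Sm.nD_mul (hf : Sm f) (hg : Sm g) {M a b : ℝ} {r : ℕ} (h1 : ∀ j ≤ r, nD j f x ≤ M ^ j * a)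
    (h2 : ∀ j ≤ r, nD j g x ≤ M ^ j * b) {j : ℕ} (hj : j ≤ r) :
    nD j (fun y => f y * g y) x ≤ (2 * M) ^ j * (a * b) := by
  refine (norm_iteratedFDeriv_mul_le hf hg x (d2_le j)).trans ?_
  rw [two_mul, add_pow, Finset.sum_mul]
  refine Finset.sum_le_sum fun i hi => ?_
  have a1 := h1 i ((Nat.lt_succ_iff.1 (Finset.mem_range.1 hi)).trans hj)
  calc (j.choose i : ℝ) * nD i f x * nD (j - i) g x
      ≤ (j.choose i : ℝ) * (M ^ i * a) * (M ^ (j - i) * b) :=
        mul_le_mul (mul_le_mul_of_nonneg_left a1 (Nat.cast_nonneg _))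
          (h2 _ ((Nat.sub_le _ _).trans hj)) (nD_nonneg _ _ _)
          (mul_nonneg (Nat.cast_nonneg _) ((nD_nonneg _ _ _).trans a1))
    _ = _ := by ring

theorem nD_sq (x : Pt) {ρ : ℝ} (h0 : 0 < ρ) (h : |x 2| ≤ ρ) (j : ℕ) :
    nD j (fun y => y 2 ^ 2) x ≤ ρ⁻¹ ^ j * (2 * ρ ^ 2) := by
  have h1 := (ContinuousLinearMap.proj 2 : Pt →L[ℝ] ℝ).iteratedFDeriv_comp_right
    (f := fun t : ℝ => t ^ 2) (n := ∞) (by fun_prop) x (d2_le j)
  have h2 : ‖(ContinuousLinearMap.proj 2 : Pt →L[ℝ] ℝ)‖ ≤ 1 :=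
    ContinuousLinearMap.opNorm_le_bound _ zero_le_one fun y => by simpa using norm_le_pi_norm y 2
  have h3 : nD j (fun y => y 2 ^ 2) x ≤ |iteratedDeriv j (fun t : ℝ => t ^ 2) (x 2)| := by
    refine (congrArg norm h1).le.trans
      ((ContinuousMultilinearMap.norm_compContinuousLinearMap_le _ _).trans ?_)
    rw [norm_iteratedFDeriv_eq_norm_iteratedDeriv]
    exact mul_le_of_le_one_right (norm_nonneg _)
      (Finset.prod_le_one (fun _ _ => norm_nonneg _) fun _ _ => h2)
  refine h3.trans ?_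
  rw [iteratedDeriv_pow]
  rcases j with _ | _ | _ | j
  · simp only [Nat.descFactorial_zero, Nat.cast_one, one_mul, pow_zero, Nat.sub_zero, abs_pow]
    nlinarith [abs_nonneg (x 2)]
  · have e : ρ⁻¹ ^ (0 + 1) * (2 * ρ ^ 2) = 2 * ρ := by
      rw [zero_add, pow_one]
      field_simp
    rw [e]
    simpa [abs_mul] using h
  · have e : ρ⁻¹ ^ (0 + 1 + 1) * (2 * ρ ^ 2) = 2 := by
      rw [zero_add, one_add_one_eq_two]
      field_simp
    rw [e]
    simp
  · rw [Nat.descFactorial_eq_zero_iff_lt.2 (by omega)]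
    simp only [Nat.cast_zero, zero_mul, abs_zero]
    positivity

theorem Sm.bdd (hf : Sm f) {R : ℝ} (h : ∀ x, R ≤ nrm x → f x = 0) :
    ∃ C, 1 ≤ C ∧ ∀ j ≤ 4, ∀ x, nD j f x ≤ C := by
  have hc : HasCompactSupport f := HasCompactSupport.intro (isCompact_closedBall 0 R)
    fun x hx => h x (by
      rw [mem_closedBall_zero_iff, not_le] at hx
      exact hx.le.trans (norm_le_nrm x))
  choose B hB using fun j : ℕ => (hf.continuous_iteratedFDeriv (d2_le j)).bounded_above_of_compact_support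
    (hc.iteratedFDeriv j)
  have h0 : ∀ j, 0 ≤ B j := fun j => (norm_nonneg _).trans (hB j 0)
  refine ⟨1 + ∑ j ∈ Finset.range 5, B j, le_add_of_nonneg_right (Finset.sum_nonneg fun j _ => h0 j),
    fun j hj x => (hB j x).trans ?_⟩
  have := Finset.single_le_sum (fun j _ => h0 j) (Finset.mem_range.2 (Nat.lt_succ_of_le hj))
  linarith

theorem Sm.abs_pd (hf : Sm f) (k : Fin 3) (x : Pt) : |P370.pd k f x| ≤ nD 1 f x :=
  (nD_zero _ _).symm.le.trans (hf.nD_pd 0 k x)

theorem Sm.abs_pd2 (hf : Sm f) (j k : Fin 3) (x : Pt) : |P370.pd j (P370.pd k f) x| ≤ nD 2 f x :=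
  ((hf.pd k).abs_pd j x).trans (hf.nD_pd 1 k x)

theorem Sm.abs_lap (hf : Sm f) (x : Pt) : |P370.lap f x| ≤ 3 * nD 2 f x :=
  (nD_zero _ _).symm.le.trans (hf.nD_lap 0 x)

theorem Sm.abs_pd_lap (hf : Sm f) (k : Fin 3) (x : Pt) :
    |P370.pd k (P370.lap f) x| ≤ 3 * nD 3 f x := (hf.lap.abs_pd k x).trans (hf.nD_lap 1 x)

theorem Sm.abs_lap2 (hf : Sm f) (x : Pt) : |P370.lap (P370.lap f) x| ≤ 9 * nD 4 f x := by
  have := hf.lap.abs_lap x
  have := hf.nD_lap 2 x
  linarith

/-! ### Reflections -/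

theorem d2_pd_rf (hf : Sm f) {i : Fin 3} (h : ∀ x, f (rf i x) = f x) (k : Fin 3) (x : Pt) :
    pd k f (rf i x) = (if k = i then -1 else 1) * pd k f x := by
  let L : Pt →L[ℝ] Pt := ContinuousLinearMap.pi fun j =>
    (if j = i then -1 else 1 : ℝ) • ContinuousLinearMap.proj j
  have hL : ∀ y, L y = rf i y := fun y => funext fun j => by
    by_cases e : j = i
    · subst e
      simp [L, rf]
    · simp [L, rf, e]
  have h1 : f = f ∘ L := funext fun y => by rw [Function.comp_apply, hL, h]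
  have h2 : L (ek k) = (if k = i then -1 else 1 : ℝ) • ek k := funext fun j => by
    change (if j = i then -1 else 1 : ℝ) * ek k j = (if k = i then -1 else 1 : ℝ) * ek k j
    by_cases e : j = k
    · rw [e]
    · simp [ek, e]
  have h3 : pd k f x = (if k = i then -1 else 1) * pd k f (rf i x) := by
    conv_lhs => rw [pd, h1, ((hf.da _).hasFDerivAt.comp x L.hasFDerivAt).fderiv]
    rw [ContinuousLinearMap.comp_apply, h2, map_smul, hL, smul_eq_mul, pd]
  rw [h3]
  split_ifs <;> ring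

theorem d2_gsq_rf (hf : Sm f) {i : Fin 3} (h : ∀ x, f (rf i x) = f x) (x : Pt) :
    gsq f (rf i x) = gsq f x :=
  Finset.sum_congr rfl fun k _ => by
    rw [d2_pd_rf hf h]
    split_ifs <;> ring

/-! ### The inequality of Jacobi -/

theorem jacobi {b : Fin 3 → Pt → ℝ} (hb : ∀ k, Sm (b k)) {v : Pt → ℝ} (hv : C1c v) :
    ∫ x, (∑ k, (pd k (b k) x - b k x ^ 2)) * v x ^ 2 ≤ ∫ x, gsq v x := by
  have hv2 : C1c fun x => v x * v x := ⟨hv.1.mul hv.1, hv.2.mul_right⟩
  have cv := hv.1.continuous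
  have cp := nw_cont_pd hv.1
  have i1 : ∀ k, Integrable fun x => v x * v x * pd k (b k) x := fun k =>
    (hv2.1.continuous.mul ((hb k).pd k).continuous).integrable_of_hasCompactSupport hv2.2.mul_right
  have i2 : ∀ k, Integrable fun x => pd k (fun x => v x * v x) x * b k x := fun k =>
    ((nw_cont_pd hv2.1 k).mul (hb k).continuous).integrable_of_hasCompactSupport
      (nw_supp_pd hv2.2 k).mul_right
  have i3 : Integrable fun x => (∑ k, (pd k (b k) x - b k x ^ 2)) * (v x * v x) :=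
    ((continuous_finsetSum _ fun k _ => ((hb k).pd k).continuous.sub
      ((hb k).continuous.pow 2)).mul hv2.1.continuous).integrable_of_hasCompactSupport
        hv2.2.mul_left
  have i4 : ∀ k, Integrable fun x =>
      v x * v x * pd k (b k) x + pd k (fun x => v x * v x) x * b k x := fun k => (i1 k).add (i2 k)
  have e : ∫ x, ∑ k, (v x * v x * pd k (b k) x + pd k (fun x => v x * v x) x * b k x) = 0 := by
    rw [integral_finsetSum _ fun k _ => i4 k]
    refine Finset.sum_eq_zero fun k _ => ?_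
    rw [integral_add (i1 k) (i2 k), integral_mul_pd hv2 ((hb k).of_le (by simp)) k, neg_add_cancel]
  rw [← add_zero (∫ x, gsq v x), ← e, ← integral_add hv.integrable_gsq
    (integrable_finsetSum _ fun k _ => i4 k)]
  simp only [sq (v _)]
  refine integral_mono i3 (hv.integrable_gsq.add
    (integrable_finsetSum _ fun k _ => i4 k)) fun x => ?_
  have hd := hv.1.differentiable one_ne_zero x
  simp only [gsq, d2_mul hd hd, Fin.sum_univ_three]
  nlinarith [sq_nonneg (pd 0 v x + b 0 x * v x), sq_nonneg (pd 1 v x + b 1 x * v x),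
    sq_nonneg (pd 2 v x + b 2 x * v x)]

end

end Vale.Agent.P363.D26
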