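import Vale.Agent.P363.D2a

/-! Elementary facts on the design: supports, bounds, symmetry, jets, numbers. -/

namespace Vale.Agent.P363

open MeasureTheory Vale.Agent.P370 Filter Topology
open scoped ContDiff

namespace D26

noncomputable section

variable {x : Pt}

theorem d2_bmp_ne {a t : ℝ} (h : bmp a t ≠ 0) : |t| < a + 1 := not_le.1 fun h' => h (bmp_zero h')

theorem d2_bmp_neg (a t : ℝ) : bmp a (-t) = bmp a t := by
  simp [bmp, mul_comm, sub_eq_add_neg]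

theorem sm_pc : Sm pc := by
  unfold pc
  exact ((sm_coord 0).add (sm_coord 1)).div_const _

theorem sm_qc : Sm qc := by
  unfold qc
  exact ((sm_coord 0).sub (sm_coord 1)).div_const _

theorem sm_sqb (h : ℝ) (a : Fin 5) : Sm (sqb h a) :=
  ((contDiff_bmp h).comp (sm_pc.sub contDiff_const)).mul
    ((contDiff_bmp h).comp (sm_qc.sub contDiff_const))

theorem sm_dd : Sm dd :=
  ((contDiff_const.sub ((contDiff_const.sub ((contDiff_bmp _).comp sm_pc)).mul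
    (contDiff_const.sub ((contDiff_bmp _).comp sm_qc)))).mul (sm_sqb _ 0)).add
      (contDiff_const.mul (ContDiff.sum fun a _ => sm_sqb aw a))

theorem sm_rho2 : Sm rho2 := ((sm_coord 0).pow 2).add ((sm_coord 1).pow 2)

theorem d2_nrm_sq (x : Pt) : nrm x ^ 2 = x 0 ^ 2 + x 1 ^ 2 + x 2 ^ 2 := by
  rw [nrm, Real.sq_sqrt (by positivity), Fin.sum_univ_three]

theorem d2_pq_sq (x : Pt) : pc x ^ 2 + qc x ^ 2 = x 0 ^ 2 + x 1 ^ 2 := by
  rw [pc, qc, div_pow, div_pow, Real.sq_sqrt zero_le_two]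
  ring

theorem d2_sqb0 (h : ℝ) (x : Pt) : sqb h 0 x = bmp h (pc x) * bmp h (qc x) := by simp [sqb, ctr]

theorem d2_sqb_mem (h : ℝ) (a : Fin 5) (x : Pt) : 0 ≤ sqb h a x ∧ sqb h a x ≤ 1 :=
  ⟨mul_nonneg (bmp_nonneg _ _) (bmp_nonneg _ _),
    mul_le_one₀ (bmp_le_one _ _) (bmp_nonneg _ _) (bmp_le_one _ _)⟩

theorem d2_sqb0_ne {h : ℝ} (h0 : sqb h 0 x ≠ 0) : |pc x| < h + 1 ∧ |qc x| < h + 1 := by
  rw [d2_sqb0] at h0
  exact ⟨d2_bmp_ne (left_ne_zero_of_mul h0), d2_bmp_ne (right_ne_zero_of_mul h0)⟩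

theorem d2_ctr (a : Fin 5) : |(ctr a).1| ≤ Lc ∧ |(ctr a).2| ≤ Lc ∧ ((ctr a).1 = 0 ∨ (ctr a).2 = 0) := by
  have : (0 : ℝ) < Lc := by norm_num [Lc]
  fin_cases a <;> simp [ctr, abs_of_pos this, this.le]

theorem d2_dd_ne (h : dd x ≠ 0) : |pc x| < Lc + aw + 2 ∧ |qc x| < Lc + aw + 2 := by
  by_cases h1 : crs x = 0
  · rw [dd, h1, zero_add] at h
    obtain ⟨a, -, ha⟩ := Finset.exists_ne_zero_of_sum_ne_zero (right_ne_zero_of_mul h)
    have h2 := d2_bmp_ne (left_ne_zero_of_mul ha)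
    have h3 := d2_bmp_ne (right_ne_zero_of_mul ha)
    have h4 := abs_sub_abs_le_abs_sub (pc x) (ctr a).1
    have h5 := abs_sub_abs_le_abs_sub (qc x) (ctr a).2
    constructor <;> linarith [(d2_ctr a).1, (d2_ctr a).2.1]
  · have := d2_sqb0_ne (right_ne_zero_of_mul h1)
    constructor <;> linarith [this.1, this.2]

theorem d2_three (t : ℝ) : bmp aw t + bmp aw (t - Lc) + bmp aw (t + Lc) ≤ 1 := by
  have h : ∀ s, Lc / 2 ≤ s ∨ Lc / 2 ≤ -s → bmp aw s = 0 := fun s hs =>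
    bmp_zero (le_trans (by norm_num [aw, Lc]) (le_abs.2 hs))
  have : (0 : ℝ) < Lc := by norm_num [Lc]
  rcases le_total t (-(Lc / 2)) with h1 | h1
  · rw [h t (Or.inr (by linarith)), h (t - Lc) (Or.inr (by linarith))]
    linarith [bmp_le_one aw (t + Lc)]
  rcases le_total t (Lc / 2) with h2 | h2
  · rw [h (t + Lc) (Or.inl (by linarith)), h (t - Lc) (Or.inr (by linarith))]
    linarith [bmp_le_one aw t]
  · rw [h (t + Lc) (Or.inl (by linarith)), h t (Or.inl h2)]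
    linarith [bmp_le_one aw (t - Lc)]

theorem d2_sum (x : Pt) : ∑ a, sqb aw a x = bmp aw (pc x) * bmp aw (qc x) +
    (bmp aw (pc x - Lc) + bmp aw (pc x + Lc)) * bmp aw (qc x) +
    bmp aw (pc x) * (bmp aw (qc x - Lc) + bmp aw (qc x + Lc)) := by
  simp [Fin.sum_univ_five, sqb, ctr]
  ring

theorem d2_crs_mem (x : Pt) : 0 ≤ crs x ∧ crs x ≤ 1 := by
  have h1 := sub_nonneg.2 (bmp_le_one (aw + 1) (pc x))
  have h2 := sub_nonneg.2 (bmp_le_one (aw + 1) (qc x))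
  have h3 := mul_le_one₀ (sub_le_self 1 (bmp_nonneg (aw + 1) (pc x))) h2
    (sub_le_self 1 (bmp_nonneg (aw + 1) (qc x)))
  exact ⟨mul_nonneg (sub_nonneg.2 h3) (d2_sqb_mem _ _ _).1,
    mul_le_one₀ (sub_le_self 1 (mul_nonneg h1 h2)) (d2_sqb_mem _ _ _).1 (d2_sqb_mem _ _ _).2⟩

theorem d2_dd_mem (x : Pt) : 0 ≤ dd x ∧ dd x ≤ 7 := by
  have h1 : ∑ a, sqb aw a x ≤ 1 := by
    rw [d2_sum]
    have a1 := add_nonneg (bmp_nonneg aw (pc x - Lc)) (bmp_nonneg aw (pc x + Lc))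
    have a2 := add_nonneg (bmp_nonneg aw (qc x - Lc)) (bmp_nonneg aw (qc x + Lc))
    have a3 := mul_le_one₀ (d2_three (pc x)) (by linarith [bmp_nonneg aw (qc x)]) (d2_three (qc x))
    nlinarith [mul_nonneg a1 a2]
  have h2 : 0 ≤ ∑ a, sqb aw a x := Finset.sum_nonneg fun a _ => (d2_sqb_mem _ _ _).1
  have := d2_crs_mem x
  constructor <;> rw [dd] <;> linarith [this.1, this.2]

theorem d2_dd_seven {a : Fin 5} (h1 : |pc x - (ctr a).1| ≤ aw) (h2 : |qc x - (ctr a).2| ≤ aw) :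
    dd x = 7 := by
  refine (d2_dd_mem x).2.antisymm ?_
  have h3 : sqb aw a x ≤ ∑ a, sqb aw a x :=
    Finset.single_le_sum (fun a _ => (d2_sqb_mem aw a x).1) (Finset.mem_univ a)
  rw [sqb, bmp_one h1, bmp_one h2] at h3
  have h4 := abs_sub_abs_le_abs_sub (pc x) (ctr a).1
  have h5 := abs_sub_abs_le_abs_sub (qc x) (ctr a).2
  have h6 : crs x = 1 := by
    rw [crs, d2_sqb0, bmp_one (t := pc x) (a := Lc + aw + 1) (by linarith [(d2_ctr a).1]),
      bmp_one (t := qc x) (a := Lc + aw + 1) (by linarith [(d2_ctr a).2.1])]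
    rcases (d2_ctr a).2.2 with h | h <;> simp only [h, sub_zero] at h1 h2
    · rw [bmp_one (t := pc x) (by linarith)]
      ring
    · rw [bmp_one (t := qc x) (by linarith)]
      ring
  rw [dd, h6]
  linarith

theorem d2_rf {i : Fin 3} (hi : i ≠ 2) (x : Pt) : rf i x 2 = x 2 ∧ rho2 (rf i x) = rho2 x ∧
    (pc (rf i x) = -qc x ∧ qc (rf i x) = -pc x ∨ pc (rf i x) = qc x ∧ qc (rf i x) = pc x) := by
  fin_cases i
  · refine ⟨by simp [rf], by simp [rf, rho2], Or.inl ⟨?_, ?_⟩⟩ <;> simp [rf, pc, qc] <;> ring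
  · refine ⟨by simp [rf], by simp [rf, rho2], Or.inr ⟨?_, ?_⟩⟩ <;> simp [rf, pc, qc] <;> ring
  · exact (hi rfl).elim

theorem d2_sqb_rf {i : Fin 3} (hi : i ≠ 2) (h : ℝ) (x : Pt) : sqb h 0 (rf i x) = sqb h 0 x := by
  rcases (d2_rf hi x).2.2 with e | e <;> simp only [d2_sqb0, e.1, e.2, d2_bmp_neg, mul_comm]

theorem d2_dd_rf {i : Fin 3} (hi : i ≠ 2) (x : Pt) : dd (rf i x) = dd x := by
  have h1 : ∀ t, bmp aw (-t - Lc) = bmp aw (t + Lc) := fun t => by
    rw [← d2_bmp_neg]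
    congr 1
    ring
  have h2 : ∀ t, bmp aw (-t + Lc) = bmp aw (t - Lc) := fun t => by
    rw [← d2_bmp_neg]
    congr 1
    ring
  rcases (d2_rf hi x).2.2 with e | e <;>
    simp only [dd, crs, d2_sum, d2_sqb_rf hi, e.1, e.2, d2_bmp_neg, h1, h2] <;> ring

/-! ### The compactly supported pieces -/

/-- Piece of the action proportional to the large parameter. -/
def W1 (x : Pt) : ℝ := bmp 1 (x 2) * dd x
/-- Piece of the action that cancels the lateral confinement. -/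
def W2 (x : Pt) : ℝ := bmp 1 (x 2) * (1 / 2 * rho2 x * sqb (2 * Lc) 0 x)
/-- Profile of the extra potential. -/
def W3 (x : Pt) : ℝ := sqb (2 * Lc - 1) 0 x * bmp 3 (4 * x 2)

theorem sm_W1 : Sm W1 := ((contDiff_bmp 1).comp (sm_coord 2)).mul sm_dd

theorem sm_W2 : Sm W2 :=
  ((contDiff_bmp 1).comp (sm_coord 2)).mul ((contDiff_const.mul sm_rho2).mul (sm_sqb _ _))

theorem sm_W3 : Sm W3 := (sm_sqb _ _).mul ((contDiff_bmp 3).comp (contDiff_const.mul (sm_coord 2)))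

theorem d2_near (h1 : |pc x| < 2 * Lc + 1) (h2 : |qc x| < 2 * Lc + 1) (h3 : |x 2| < 2) :
    nrm x < 3 * Lc := by
  have a1 := sq_lt_sq' (abs_lt.1 h1).1 (abs_lt.1 h1).2
  have a2 := sq_lt_sq' (abs_lt.1 h2).1 (abs_lt.1 h2).2
  have a3 := sq_lt_sq' (abs_lt.1 h3).1 (abs_lt.1 h3).2
  refine lt_of_pow_lt_pow_left₀ 2 (by norm_num [Lc]) ?_
  rw [d2_nrm_sq, ← d2_pq_sq]
  norm_num [Lc] at a1 a2 a3 ⊢
  linarith

theorem d2_far (h : 3 * Lc ≤ nrm x) : W1 x = 0 ∧ W2 x = 0 ∧ W3 x = 0 := by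
  have hl : Lc + aw + 2 ≤ 2 * Lc + 1 := by norm_num [Lc, aw]
  refine ⟨by_contra fun h0 => h.not_gt ?_, by_contra fun h0 => h.not_gt ?_,
    by_contra fun h0 => h.not_gt ?_⟩
  · have := d2_dd_ne (right_ne_zero_of_mul h0)
    exact d2_near (by linarith [this.1]) (by linarith [this.2])
      (by linarith [d2_bmp_ne (left_ne_zero_of_mul h0)])
  · have := d2_sqb0_ne (right_ne_zero_of_mul (right_ne_zero_of_mul h0))
    exact d2_near this.1 this.2 (by linarith [d2_bmp_ne (left_ne_zero_of_mul h0)])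
  · have := d2_sqb0_ne (left_ne_zero_of_mul h0)
    have h1 := d2_bmp_ne (right_ne_zero_of_mul h0)
    rw [abs_mul, abs_of_pos four_pos] at h1
    exact d2_near (by linarith [this.1]) (by linarith [this.2]) (by linarith)

theorem d2_bound : ∃ C : ℝ, 1 ≤ C ∧ ∀ j ≤ 4, ∀ x, nD j W1 x ≤ C ∧ nD j W2 x ≤ C ∧ nD j W3 x ≤ C := by
  obtain ⟨a, ha, h1⟩ := sm_W1.bdd fun x hx => (d2_far hx).1
  obtain ⟨b, hb, h2⟩ := sm_W2.bdd fun x hx => (d2_far hx).2.1
  obtain ⟨c, hc, h3⟩ := sm_W3.bdd fun x hx => (d2_far hx).2.2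
  exact ⟨a + b + c, by linarith, fun j hj x =>
    ⟨by linarith [h1 j hj x], by linarith [h2 j hj x], by linarith [h3 j hj x]⟩⟩

/-- A bound for the derivatives of the pieces. -/
def CW : ℝ := d2_bound.choose

theorem CW_ge : 1 ≤ CW := d2_bound.choose_spec.1

theorem CW_le {j : ℕ} (hj : j ≤ 4) (x : Pt) : nD j W1 x ≤ CW ∧ nD j W2 x ≤ CW ∧ nD j W3 x ≤ CW :=
  d2_bound.choose_spec.2 j hj x

/-- Diagonal quadratic forms. -/
def qd (a : Fin 3 → ℝ) (y : Pt) : ℝ := ∑ k, a k / 2 * (y k * y k)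

theorem sm_qd (a : Fin 3 → ℝ) : Sm (qd a) :=
  ContDiff.sum fun k _ => contDiff_const.mul ((sm_coord k).mul (sm_coord k))

theorem pd_qd (a : Fin 3 → ℝ) (k : Fin 3) : pd k (qd a) = fun y => a k * y k := by
  unfold qd
  rw [d2_pd_sum fun k => contDiff_const.mul ((sm_coord k).mul (sm_coord k))]
  funext y
  simp only [Sm.pd_cmul ((sm_coord _).mul (sm_coord _)), (sm_coord _).pd_mul (sm_coord _),
    d2_pd_coord]
  fin_cases k <;> simp [Fin.sum_univ_three, ek] <;> ring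

theorem pd2_qd (a : Fin 3 → ℝ) (j k : Fin 3) : pd j (pd k (qd a)) = fun _ => a k * ek j k := by
  rw [pd_qd, (sm_coord k).pd_cmul, d2_pd_coord]

theorem lap_qd (a : Fin 3 → ℝ) : lap (qd a) = fun _ => a 0 + a 1 + a 2 := by
  funext y
  simp [lap, pd2_qd, ek, Fin.sum_univ_three]

end

end D26

open D26

noncomputable section

variable {x : Pt}

namespace Des

variable (D : Des)

/-- The compactly supported part of the action. -/
def Wd2 (x : Pt) : ℝ := D.n * W1 x + W2 x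

/-- The variation of the anisotropy around `x`. -/
def Ed2 (x y : Pt) : ℝ := 1 / 2 * ((D.c y - D.c x) * y 2 ^ 2)

theorem sm_Wd2 : Sm D.Wd2 := (contDiff_const.mul sm_W1).add sm_W2

theorem Yf_eq2 : D.Yf = fun y => qd ![1, 1, 0] y - D.Wd2 y := by
  funext y
  simp [Yf, qd, Wd2, W1, W2, Dt, rho2, Fin.sum_univ_three]
  ring

theorem Zf_eq2 (x : Pt) : D.Zf = fun y => qd ![0, 0, 1 + D.c x] y + D.Ed2 x y := by
  funext y
  simp [Zf, qd, Ed2, Fin.sum_univ_three]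
  ring

theorem Gam_eq2 : D.Gam = fun y => √D.n - √D.n * W3 y := by
  funext y
  rw [Gam, W3]
  ring

theorem sm_Yf : Sm D.Yf := D.Yf_eq2 ▸ (sm_qd _).sub D.sm_Wd2

theorem sm_Gam : Sm D.Gam := D.Gam_eq2 ▸ contDiff_const.sub (contDiff_const.mul sm_W3)

theorem Gam_mem2 (x : Pt) : 0 ≤ D.Gam x ∧ D.Gam x ≤ √D.n := by
  have h1 := mul_nonneg (d2_sqb_mem (2 * Lc - 1) 0 x).1 (bmp_nonneg 3 (4 * x 2))
  have h2 := mul_le_one₀ (d2_sqb_mem (2 * Lc - 1) 0 x).2 (bmp_nonneg 3 (4 * x 2)) (bmp_le_one _ _)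
  exact ⟨mul_nonneg (Real.sqrt_nonneg _) (by linarith),
    mul_le_of_le_one_right (Real.sqrt_nonneg _) (by linarith)⟩

theorem Wd2_le (hn : 0 ≤ D.n) {j : ℕ} (hj : j ≤ 4) (x : Pt) : nD j D.Wd2 x ≤ CW * (D.n + 1) := by
  refine (Sm.nD_add (contDiff_const.mul sm_W1) sm_W2 j x).trans ?_
  rw [sm_W1.nD_cmul, abs_of_nonneg hn]
  nlinarith [(CW_le hj x).1, (CW_le hj x).2.1]

theorem Wd2_far (h : 3 * Lc < nrm x) (j : ℕ) : nD j D.Wd2 x = 0 :=
  nD_of_zero ((continuousAt_const.eventually_lt continuous_nrm.continuousAt h).mono fun y hy => by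
    simp [Wd2, d2_far hy.le]) j

theorem Wd2_side (h : 2 * Lc < |pc x| ∨ 2 * Lc < |qc x|) {j : ℕ} (hj : j ≤ 4) :
    nD j D.Wd2 x ≤ CW := by
  have h1 : ∀ᶠ y in 𝓝 x, 2 * Lc < |pc y| ∨ 2 * Lc < |qc y| := h.elim
    (fun h => (continuousAt_const.eventually_lt sm_pc.continuous.abs.continuousAt h).mono
      fun _ => Or.inl)
    fun h => (continuousAt_const.eventually_lt sm_qc.continuous.abs.continuousAt h).mono
      fun _ => Or.inr
  rw [nD_congr (g := W2) (h1.mono fun y hy => ?_)]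
  · exact (CW_le hj x).2.1
  have hl : Lc + aw + 2 ≤ 2 * Lc := by norm_num [Lc, aw]
  have : dd y = 0 := by_contra fun h0 => by
    have := d2_dd_ne h0
    rcases hy with h | h <;> linarith [this.1, this.2]
  simp [Wd2, W1, this]

theorem Wd2_z (h : |x 2| < 1) : pd 2 D.Wd2 x = 0 := by
  have h1 : HasDerivAt (fun t : ℝ => x + t • ek 2) (ek 2) 0 := by
    simpa using ((hasDerivAt_id (0 : ℝ)).smul_const (ek 2)).const_add x
  have h2 := (D.sm_Wd2.da (x + (0 : ℝ) • ek 2)).hasFDerivAt.comp_hasDerivAt 0 h1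
  rw [zero_smul, add_zero] at h2
  refine h2.unique ((hasDerivAt_const 0 (D.Wd2 x)).congr_of_eventuallyEq ?_)
  have h3 : ∀ᶠ t : ℝ in 𝓝 0, |x 2 + t| < 1 :=
    ContinuousAt.eventually_lt (by fun_prop) continuousAt_const (by simpa using h)
  filter_upwards [h3] with t ht
  have e1 : pc (x + t • ek 2) = pc x := by simp [pc, ek]
  have e2 : qc (x + t • ek 2) = qc x := by simp [qc, ek]
  have e3 : rho2 (x + t • ek 2) = rho2 x := by simp [rho2, ek]
  have e4 : (x + t • ek 2) 2 = x 2 + t := by simp [ek]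
  simp only [Function.comp_apply, Wd2, W1, W2, dd, crs, sqb, e1, e2, e3, e4, bmp_one ht.le,
    bmp_one h.le]

variable {D}

theorem OK.sm_Ed2 (h : D.OK) (x : Pt) : Sm (D.Ed2 x) :=
  contDiff_const.mul ((h.smooth.sub contDiff_const).mul ((sm_coord 2).pow 2))

theorem OK.sm_Zf (h : D.OK) : Sm D.Zf := D.Zf_eq2 0 ▸ (sm_qd _).add (h.sm_Ed2 0)

theorem OK.sm_S (h : D.OK) : Sm D.S := (h.sm_Zf.add D.sm_Yf).add contDiff_const

theorem OK.Ed2_le (h : D.OK) (hL : 0 < D.Ls) (x : Pt) {j : ℕ} (hj : j ≤ 4) : nD j (D.Ed2 x) x ≤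
    (2 * (D.Ls + nrm x)⁻¹) ^ j * (del * (1 + D.c x) * (D.Ls + nrm x) ^ 2) := by
  have h0 := nrm_nonneg x
  suffices h1 : ∀ j ≤ 4, nD j (fun y => D.c y - D.c x) x ≤
      (D.Ls + nrm x)⁻¹ ^ j * (del * (1 + D.c x)) by
    have h2 := Sm.nD_mul (h.smooth.sub contDiff_const) ((sm_coord 2).pow 2) h1
      (fun j _ => nD_sq x (by linarith) (by linarith [abs_le_nrm x 2]) j) hj
    unfold Ed2
    rw [Sm.nD_cmul ((h.smooth.sub contDiff_const).mul ((sm_coord 2).pow 2)), abs_of_pos one_half_pos]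
    linarith
  intro j hj
  rcases Nat.eq_zero_or_pos j with rfl | hj0
  · have := h.nonneg x
    rw [nD_zero, sub_self, abs_zero, del]
    positivity
  · refine (Sm.nD_sub h.smooth contDiff_const j x).trans ?_
    have := h.der j hj0 hj x
    rw [nD, nD, iteratedFDeriv_const_of_ne hj0.ne', inv_pow, inv_mul_eq_div]
    simpa using this

theorem OK.pd_c2 (h : D.OK) (x : Pt) (k : Fin 3) :
    |pd k D.c x| ≤ del * (1 + D.c x) / (D.Ls + nrm x) := by
  simpa using (Sm.abs_pd h.smooth k x).trans (h.der 1 le_rfl (by norm_num) x)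

theorem OK.pd_c2_core (h : D.OK) (hx : nrm x < D.Ls) (k : Fin 3) : pd k D.c x = 0 := by
  rw [(nw_pd_congr (g := fun _ => D.Om) ((continuous_nrm.continuousAt.eventually_lt
    continuousAt_const hx).mono fun y hy => h.core y hy.le) k).self_of_nhds, d2_pd_const]

end Des

namespace D26

/-! ### Numbers -/

/-- The parameter is large compared with `C`. -/
structure Num (D : Des) (C : ℝ) : Prop where
  lg : C ≤ Real.log D.n
  ll : C * (Real.log D.n * Real.log (D.n * D.Lg)) ≤ √D.n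
  n_ge : 1 ≤ D.n

theorem ev_num (C : ℝ) (hC : 0 ≤ C) : P363.Ev fun D => Num D C := fun C₀ => by
  have h1 := (isLittleO_log_rpow_rpow_atTop 2 (s := 1 / 2) (by norm_num)).bound
    (c := 1 / (C * (C₀ + 1) + 1)) (by positivity)
  obtain ⟨n₀, h⟩ := eventually_atTop.1 (h1.and ((Real.tendsto_log_atTop.eventually_ge_atTop C).and
    (eventually_ge_atTop 1)))
  refine ⟨n₀, fun D hn hD hL => ?_⟩
  obtain ⟨h2, h3, h4⟩ := h D.n hn
  refine ⟨h3, ?_, h4⟩
  have h5 := Real.log_nonneg h4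
  have h6 : 0 < D.Lg := lt_of_lt_of_le (by rw [Des.Ls]; positivity) hD.L_le
  have h7 : Real.log (D.n * D.Lg) ≤ (C₀ + 1) * Real.log D.n := by
    have := Real.log_le_log h6 hL
    rw [Real.log_pow] at this
    rw [Real.log_mul (by positivity) h6.ne']
    linarith
  rw [Real.rpow_two, ← Real.sqrt_eq_rpow, Real.norm_of_nonneg (sq_nonneg _),
    Real.norm_of_nonneg (Real.sqrt_nonneg _), one_div, inv_mul_eq_div,
    le_div_iff₀ (by positivity)] at h2
  nlinarith [mul_le_mul_of_nonneg_left h7 (mul_nonneg hC h5), sq_nonneg (Real.log D.n)]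

end D26

end

end Vale.Agent.P363
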