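import Vale.Agent.P363.D3Geo

/-! Part D3: existence of cells whose masses are multiples of `lam`. -/

namespace Vale.Agent.P363

open MeasureTheory Vale.Agent.P370

theorem d3Cell_meas (R : ℝ) : MeasurableSet (Oq R) :=
  (measurableSet_le continuous_nrm.measurable measurable_const).inter
    ((measurableSet_le measurable_const (measurable_pi_apply 0)).inter
      (measurableSet_le measurable_const (measurable_pi_apply 1)))

theorem d3Cell_vol (R : ℝ) : volume (Oq R) ≠ ⊤ :=
  ne_top_of_le_ne_top (measure_closedBall_lt_top (x := (0 : Pt)) (r := R)).ne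
    (measure_mono fun y hy => mem_closedBall_zero_iff.2 ((norm_le_nrm y).trans hy.1))

theorem d3Cell_rk {k : Fin 3 → ℤ} (hk : k ≠ 0) : ∑ a, (par k a).natAbs < ∑ a, (k a).natAbs := by
  obtain ⟨a, ha⟩ := Function.ne_iff.1 hk
  refine Finset.sum_lt_sum (fun b _ => ?_) ⟨a, Finset.mem_univ _, ?_⟩
  · have := (d3Geo_par k b).1
    rw [← Int.natCast_natAbs, ← Int.natCast_natAbs] at this
    exact_mod_cast this
  · unfold par
    rcases lt_or_gt_of_ne ha with h | h
    · rw [Int.sign_eq_neg_one_of_neg h]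
      have : k a < 0 := h
      omega
    · rw [Int.sign_eq_one_of_pos h]
      have : 0 < k a := h
      omega

theorem d3Cell_par (k : Fin 3 → ℤ) (a : Fin 3) : |(k a : ℝ) - par k a| ≤ 1 := by
  have h : |k a - par k a| ≤ 1 := by
    unfold par
    rcases lt_trichotomy (k a) 0 with h | h | h
    · rw [Int.sign_eq_neg_one_of_neg h]
      simp
    · simp [h]
    · rw [Int.sign_eq_one_of_pos h]
      simp
  exact_mod_cast h

theorem d3Cell_bary {g : Pt → ℝ} (hm : Measurable g) (hi : Integrable g) (h0 : ∀ y, 0 ≤ g y)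
    {q : Pt} {δ : ℝ} (hδ : 0 ≤ δ) (hs : ∀ y, g y ≠ 0 → ∀ a, |y a - q a| ≤ δ) :
    ∃ p : Pt, (∀ a, |p a - q a| ≤ δ) ∧ ∀ a, ∫ y, g y * (y a - p a) = 0 := by
  by_cases h : ∫ y, g y = 0
  · refine ⟨q, fun a => by simpa using hδ, fun a => integral_eq_zero_of_ae ?_⟩
    filter_upwards [(integral_eq_zero_iff_of_nonneg h0 hi).1 h] with y hy
    simp only [Pi.zero_apply] at hy ⊢
    rw [hy, zero_mul]
  have hp : 0 < ∫ y, g y := lt_of_le_of_ne (integral_nonneg h0) (Ne.symm h)
  have hb : ∀ a y, ‖g y * (y a - q a)‖ ≤ g y * δ := fun a y => by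
    by_cases hy : g y = 0
    · simp [hy]
    · rw [norm_mul, Real.norm_of_nonneg (h0 y)]
      exact mul_le_mul_of_nonneg_left (hs y hy a) (h0 y)
  have hi' : ∀ a, Integrable fun y => g y * (y a - q a) := fun a =>
    Integrable.mono' (hi.mul_const δ)
      (hm.mul ((measurable_pi_apply a).sub_const _)).aestronglyMeasurable
      (Filter.Eventually.of_forall (hb a))
  refine ⟨fun a => q a + (∫ y, g y * (y a - q a)) / ∫ y, g y, fun a => ?_, fun a => ?_⟩
  · rw [add_sub_cancel_left, abs_div, abs_of_pos hp, div_le_iff₀ hp]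
    have h1 := norm_integral_le_of_norm_le (hi.mul_const δ) (Filter.Eventually.of_forall (hb a))
    rw [integral_mul_const, Real.norm_eq_abs] at h1
    linarith
  · have h1 : ∀ y : Pt, g y * (y a - (q a + (∫ y, g y * (y a - q a)) / ∫ y, g y)) =
        g y * (y a - q a) - g y * ((∫ y, g y * (y a - q a)) / ∫ y, g y) := fun y => by ring
    simp only [h1]
    rw [integral_sub (hi' a) (hi.mul_const _), integral_mul_const, mul_div_cancel₀ _ h, sub_self]


theorem exists_cells {R B c lam h d : ℝ} {ρ : Pt → ℝ} (hm : Measurable ρ) (hR : 10 ≤ R)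
    (h0 : 0 < h) (h1 : h ≤ 1) (hd : 30 * h ≤ d) (hl : 0 < lam) (hc : lam ≤ c * h ^ 3)
    (hρ : ∀ y ∈ Oq R, c ≤ ρ y ∧ ρ y ≤ B) {N : ℕ} (hN : ∫ y in Oq R, ρ y = N * lam) :
    ∃ (s : Finset (Fin 3 → ℤ)) (σ : (Fin 3 → ℤ) → Pt → ℝ) (p : (Fin 3 → ℤ) → Pt)
      (n : (Fin 3 → ℤ) → ℕ), Cells s σ p B (N * lam) d ∧
        (∀ y, ∑ j ∈ s, σ j y = (Oq R).indicator ρ y) ∧ (∀ j ∈ s, ∫ y, σ j y = n j * lam) ∧
        ∑ j ∈ s, n j = N := by
  classical
  obtain ⟨I, κ, hκ, h0I, hpar, hnear, hvol⟩ := lattice hR h0 h1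
  have hc0 : 0 < c := (mul_pos_iff_of_pos_right (by positivity)).1 (hl.trans_le hc)
  have hB : 0 ≤ B := by
    have h2 : (0 : Pt) ∈ Oq R := ⟨by simp [nrm]; linarith, le_rfl, le_rfl⟩
    linarith [(hρ 0 h2).1, (hρ 0 h2).2]
  set A : (Fin 3 → ℤ) → Set Pt := fun k => {y | y ∈ Oq R ∧ κ y = k} with hA
  have mA : ∀ k, MeasurableSet (A k) := fun k =>
    (d3Cell_meas R).inter (hκ (measurableSet_singleton k))
  have vA : ∀ k, volume (A k) ≠ ⊤ := fun k =>
    ne_top_of_le_ne_top (d3Cell_vol R) (measure_mono fun y hy => hy.1)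
  have iO : IntegrableOn ρ (Oq R) :=
    Integrable.mono' (integrableOn_const (C := B) (d3Cell_vol R)) hm.aestronglyMeasurable
      ((ae_restrict_mem (d3Cell_meas R)).mono fun y hy => by
        rw [Real.norm_of_nonneg (hc0.le.trans (hρ y hy).1)]
        exact (hρ y hy).2)
  set f : (Fin 3 → ℤ) → Pt → ℝ := fun k => (A k).indicator ρ with hf
  have mf : ∀ k, Measurable (f k) := fun k => hm.indicator (mA k)
  have fi : ∀ k, Integrable (f k) := fun k =>
    (integrable_indicator_iff (mA k)).2 (iO.mono_set fun y hy => hy.1)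
  have f0 : ∀ k y, 0 ≤ f k y := fun k y =>
    Set.indicator_nonneg (fun y hy => hc0.le.trans (hρ y hy.1).1) y
  have fs : ∀ y, ∑ k ∈ I, f k y = (Oq R).indicator ρ y := fun y => by
    by_cases hy : y ∈ Oq R
    · rw [Set.indicator_of_mem hy, Finset.sum_eq_single (κ y)]
      · exact Set.indicator_of_mem (show y ∈ A (κ y) from ⟨hy, rfl⟩) _
      · exact fun k _ hk => Set.indicator_of_notMem (fun h => hk h.2.symm) _
      · exact fun h => absurd (hnear y hy).1 h
    · rw [Set.indicator_of_notMem hy]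
      exact Finset.sum_eq_zero fun k _ => Set.indicator_of_notMem (fun h => hy h.1) _
  have fm : ∀ k ∈ I, lam ≤ ∫ y, f k y := fun k hk => by
    rw [hf]
    simp only
    rw [integral_indicator (mA k)]
    have h2 : ∫ _ in A k, c ≤ ∫ y in A k, ρ y :=
      setIntegral_mono_on (integrableOn_const (vA k)) (iO.mono_set fun y hy => hy.1) (mA k)
        fun y hy => (hρ y hy.1).1
    rw [setIntegral_const, smul_eq_mul] at h2
    have h3 := mul_le_mul_of_nonneg_right (hvol k hk) hc0.le
    linarith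
  have ft : ∑ k ∈ I, ∫ y, f k y = N * lam := by
    rw [← integral_finsetSum _ fun k _ => fi k, ← hN, ← integral_indicator (d3Cell_meas R)]
    exact integral_congr_ae (Filter.Eventually.of_forall fs)
  obtain ⟨r, n, r0, hr⟩ := flow I 0 par (fun k => ∑ a, (k a).natAbs) h0I
    (fun k hk hk0 => ⟨hpar k hk, d3Cell_rk hk0⟩) (fun k => ∫ y, f k y) hl ft
  set w : (Fin 3 → ℤ) → ℝ := fun k => if k ∈ I then r k / ∫ y, f k y else 0 with hw
  have w01 : ∀ k, 0 ≤ w k ∧ w k ≤ 1 := fun k => by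
    by_cases hk : k ∈ I
    · simp only [hw, if_pos hk]
      have h2 := hl.trans_le (fm k hk)
      exact ⟨div_nonneg (hr k hk).1 h2.le, (div_le_one h2).2 ((hr k hk).2.1.trans (fm k hk))⟩
    · simp only [hw, if_neg hk]
      exact ⟨le_rfl, zero_le_one⟩
  have wm : ∀ k ∈ I, w k * ∫ y, f k y = r k := fun k hk => by
    simp only [hw, if_pos hk]
    exact div_mul_cancel₀ _ (hl.trans_le (fm k hk)).ne'
  have w0 : w 0 = 0 := by simp only [hw, if_pos h0I, r0, zero_div]
  set σ : (Fin 3 → ℤ) → Pt → ℝ := fun k y => (1 - w k) * f k y +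
    ∑ j ∈ I.filter fun j => j ≠ 0 ∧ par j = k, w j * f j y with hσ
  have mσ : ∀ k, Measurable (σ k) := fun k =>
    ((mf k).const_mul _).add (Finset.measurable_sum _ fun j _ => (mf j).const_mul _)
  have iσ : ∀ k, Integrable (σ k) := fun k =>
    ((fi k).const_mul _).add (integrable_finsetSum _ fun j _ => (fi j).const_mul _)
  have σ0 : ∀ k y, 0 ≤ σ k y := fun k y =>
    add_nonneg (mul_nonneg (sub_nonneg.2 (w01 k).2) (f0 k y))
      (Finset.sum_nonneg fun j _ => mul_nonneg (w01 j).1 (f0 j y))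
  have σs : ∀ y, ∑ k ∈ I, σ k y = (Oq R).indicator ρ y := fun y => by
    have h2 : ∑ k ∈ I, ∑ j ∈ I.filter fun j => j ≠ 0 ∧ par j = k, w j * f j y =
        ∑ j ∈ I.filter fun j => j ≠ 0, w j * f j y := by
      rw [← Finset.sum_fiberwise_of_maps_to (s := I.filter fun j => j ≠ 0) (t := I) (g := par)
        fun j hj => hpar j (Finset.mem_filter.1 hj).1]
      exact Finset.sum_congr rfl fun k _ => by rw [Finset.filter_filter]
    have h3 : ∑ j ∈ I, w j * f j y = ∑ j ∈ I.filter fun j => j ≠ 0, w j * f j y := by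
      rw [Finset.filter_ne', ← Finset.add_sum_erase _ _ h0I, w0, zero_mul, zero_add]
    simp only [hσ]
    rw [Finset.sum_add_distrib, h2, ← h3, ← Finset.sum_add_distrib, ← fs]
    exact Finset.sum_congr rfl fun k _ => by ring
  have σm : ∀ k ∈ I, ∫ y, σ k y = n k * lam := fun k hk => by
    simp only [hσ]
    rw [integral_add ((fi k).const_mul _) (integrable_finsetSum _ fun j _ => (fi j).const_mul _),
      integral_finsetSum _ fun j _ => (fi j).const_mul _, integral_const_mul, ← (hr k hk).2.2,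
      sub_mul, one_mul, wm k hk]
    congr 1
    exact Finset.sum_congr rfl fun j hj => by
      rw [integral_const_mul, wm j (Finset.mem_filter.1 hj).1]
  have σm' : ∀ k ∈ I, ∫ y, σ k y = (n k).toNat * lam := fun k hk => by
    have h2 : 0 ≤ (n k : ℝ) * lam := σm k hk ▸ integral_nonneg (σ0 k)
    have h3 : 0 ≤ n k := by exact_mod_cast nonneg_of_mul_nonneg_left h2 hl
    rw [σm k hk, ← Int.cast_natCast, Int.toNat_of_nonneg h3]
  have σt : ∑ k ∈ I, ∫ y, σ k y = N * lam := by
    rw [← integral_finsetSum _ fun k _ => iσ k, ← hN, ← integral_indicator (d3Cell_meas R)]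
    exact integral_congr_ae (Filter.Eventually.of_forall σs)
  have fn : ∀ k y, f k y ≠ 0 → ∀ a, |y a - h * k a| ≤ 5 * h := fun k y hy a => by
    have h2 : y ∈ A k := by
      by_contra hc
      exact hy (Set.indicator_of_notMem hc _)
    rw [← h2.2]
    exact (hnear y h2.1).2 a
  have σn : ∀ k y, σ k y ≠ 0 → ∀ a, |y a - h * k a| ≤ 6 * h := fun k y hy a => by
    by_cases h2 : f k y = 0
    · simp only [hσ, h2, mul_zero, zero_add] at hy
      obtain ⟨j, hj, hj'⟩ := Finset.exists_ne_zero_of_sum_ne_zero hy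
      have h3 := fn j y (right_ne_zero_of_mul hj') a
      have h4 : |h * (j a : ℝ) - h * k a| ≤ h := by
        rw [← (Finset.mem_filter.1 hj).2.2, ← mul_sub, abs_mul, abs_of_pos h0]
        exact mul_le_of_le_one_right h0.le (d3Cell_par j a)
      linarith [abs_sub_le (y a) (h * j a) (h * k a)]
    · linarith [fn k y h2 a]
  choose p hp using fun k => d3Cell_bary (mσ k) (iσ k) (σ0 k) (q := fun a => h * k a)
    (by positivity : 0 ≤ 6 * h) (σn k)
  refine ⟨I, σ, p, fun k => (n k).toNat, ⟨mσ, fun k _ => iσ k, σ0, fun y => ?_, σt.le,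
    fun k _ y hy => ?_, fun k _ => (hp k).2⟩, σs, σm', ?_⟩
  · rw [σs]
    by_cases hy : y ∈ Oq R
    · rw [Set.indicator_of_mem hy]
      exact (hρ y hy).2
    · rwa [Set.indicator_of_notMem hy]
  · have h2 : ‖y - p k‖ ≤ 12 * h := (pi_norm_le_iff_of_nonneg (by positivity)).2 fun a => by
      rw [Pi.sub_apply, Real.norm_eq_abs]
      have h3 := (hp k).1 a
      rw [abs_sub_comm] at h3
      linarith [abs_sub_le (y a) (h * k a) (p k a), σn k y hy a]
    linarith [nrm_le_norm (y - p k)]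
  · rw [Finset.sum_congr rfl σm', ← Finset.sum_mul] at σt
    exact_mod_cast mul_right_cancel₀ hl.ne' σt

end Vale.Agent.P363
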