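import Vale.Agent.P363.Des
import Vale.Agent.P370.Newton

/-! Part D3: definitions.  A charge density is cut in cells of small diameter; every cell is
replaced by a point charge at its barycentre. -/

namespace Vale.Agent.P363

open MeasureTheory Vale.Agent.P370

/-- The closed quadrant of the ball. -/
def Oq (R : ℝ) : Set Pt := {y | nrm y ≤ R ∧ 0 ≤ y 0 ∧ 0 ≤ y 1}

/-- Cells: densities `σ j` of total size at most `B`, total mass at most `M`, concentrated within
distance `d` of their barycentres `p j`. -/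
structure Cells {ι : Type} (s : Finset ι) (σ : ι → Pt → ℝ) (p : ι → Pt) (B M d : ℝ) : Prop where
  meas : ∀ j, Measurable (σ j)
  int : ∀ j ∈ s, Integrable (σ j)
  nonneg : ∀ j y, 0 ≤ σ j y
  le : ∀ y, ∑ j ∈ s, σ j y ≤ B
  mass : ∑ j ∈ s, ∫ y, σ j y ≤ M
  supp : ∀ j ∈ s, ∀ y, σ j y ≠ 0 → nrm (y - p j) ≤ d
  bary : ∀ j ∈ s, ∀ k, ∫ y, σ j y * (y k - p j k) = 0

/-- The error potential. -/
noncomputable def cerr {ι : Type} (s : Finset ι) (σ : ι → Pt → ℝ) (p : ι → Pt) (x : Pt) : ℝ :=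
  ∑ j ∈ s, ((∫ y, ker (x - y) * σ j y) - (∫ y, σ j y) * ker (x - p j))

/-- The contribution of the point charges near `x`. -/
noncomputable def cnear {ι : Type} (s : Finset ι) (σ : ι → Pt → ℝ) (p : ι → Pt) (d : ℝ) (x : Pt) :
    ℝ :=
  ∑ j ∈ s, if nrm (x - p j) < 4 * d then (∫ y, σ j y) * ker (x - p j) else 0

/-- Sum over the four reflections. -/
def S4 (f : Pt → ℝ) (x : Pt) : ℝ := f x + f (rf 0 x) + f (rf 1 x) + f (rf 0 (rf 1 x))

/-- The parent of a lattice point. -/
def par (k : Fin 3 → ℤ) : Fin 3 → ℤ := fun a => k a - Int.sign (k a)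

end Vale.Agent.P363
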