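import Vale.Agent.P363.D3Def

/-! Part D3: the far field of the cells.

`ker_taylor`: put `u = x - p`, `v = y - p`, `a = nrm u`, `b = nrm (x - y)`, `t = ∑ k, u k * v k`.
Then `b ^ 2 = a ^ 2 - 2 t + nrm v ^ 2`, `|t| ≤ a d`, `|a - b| ≤ d` and
`1 / b - 1 / a - t / a ^ 3 = t (a - b) (2 a + b) / (a ^ 3 b (a + b)) - nrm v ^ 2 / (a b (a + b))`,
which is at most `3 d ^ 2 / (a ^ 2 b)` in absolute value; `b ≤ 5 a / 4`.
`Cells.far`: multiply by `σ j y`, integrate, the linear term vanishes by `bary`.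
`Cells.pt`: split the sum in the indices with `nrm (x - p j) < 4 d` and the others.  Near indices:
`∑ ∫ ker σ j ≤ B ∫ over nrm (x - y) ≤ 5 d of ker = 50 π B d ^ 2` (`rpow_in`, `ker_eq_rpow`).  Far
indices: for `3 d ≤ b`, `1 / b ^ 3 ≤ (1 / e) b ^ (-11/4) 1_{b ≤ 1} + 1` because `e ^ 4 ≤ b`;
`rpow_in` with exponent `11 / 4` gives `16 π`. -/

namespace Vale.Agent.P363

open MeasureTheory Vale.Agent.P370

theorem D3Far_real {a b c t d : ℝ} (hd : 0 < d) (ha : 4 * d ≤ a) (hab : |a - b| ≤ d)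
    (hb : b ^ 2 = a ^ 2 - 2 * t + c ^ 2) (hc : c ^ 2 ≤ d ^ 2) (ht : |t| ≤ a * d) :
    |b⁻¹ - a⁻¹ - t / a ^ 3| ≤ 5 * d ^ 2 / b ^ 3 := by
  obtain ⟨h1, h2⟩ := abs_le.1 hab
  have a0 : 0 < a := by linarith
  have b0 : 0 < b := by linarith
  have e : b⁻¹ - a⁻¹ - t / a ^ 3 =
      (t * (a - b) * (2 * a + b) - c ^ 2 * a ^ 2) / (a ^ 3 * b * (a + b)) := by
    have : c ^ 2 = b ^ 2 - a ^ 2 + 2 * t := by linarith
    rw [this]
    field_simp
    ring
  have h3 : |t * (a - b) * (2 * a + b)| ≤ a * d * d * (2 * a + b) := by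
    rw [abs_mul, abs_mul, abs_of_pos (show 0 < 2 * a + b by positivity)]
    gcongr
  have h4 : |c ^ 2 * a ^ 2| ≤ d ^ 2 * a ^ 2 := by
    rw [abs_of_nonneg (by positivity)]
    gcongr
  have h5 : |t * (a - b) * (2 * a + b) - c ^ 2 * a ^ 2| ≤ 3 * d ^ 2 * (a * (a + b)) := by
    refine (abs_sub _ _).trans ?_
    nlinarith [mul_pos (mul_pos a0 b0) (pow_pos hd 2)]
  have h6 : 3 * b ^ 2 ≤ 5 * a ^ 2 := by nlinarith
  rw [e, abs_div, abs_of_pos (show 0 < a ^ 3 * b * (a + b) by positivity),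
    div_le_div_iff₀ (by positivity) (by positivity)]
  calc _ ≤ 3 * d ^ 2 * (a * (a + b)) * b ^ 3 := by gcongr
    _ = d ^ 2 * (a * b * (a + b)) * (3 * b ^ 2) := by ring
    _ ≤ d ^ 2 * (a * b * (a + b)) * (5 * a ^ 2) := by gcongr
    _ = _ := by ring

theorem D3Far_sq (x : Pt) : nrm x ^ 2 = ∑ k, x k ^ 2 :=
  Real.sq_sqrt (Finset.sum_nonneg fun _ _ => sq_nonneg _)

theorem D3Far_tri (x y p : Pt) : nrm (x - p) ≤ nrm (x - y) + nrm (y - p) := by
  simpa using nrm_add_le (x - y) (y - p)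

theorem ker_taylor {x y p : Pt} {d : ℝ} (hd : 0 < d) (h1 : nrm (y - p) ≤ d)
    (h2 : 4 * d ≤ nrm (x - p)) : 3 * d ≤ nrm (x - y) ∧
      |ker (x - y) - ker (x - p) - ∑ k, (x k - p k) / nrm (x - p) ^ 3 * (y k - p k)| ≤
        5 * d ^ 2 / nrm (x - y) ^ 3 := by
  have t1 := D3Far_tri x y p
  have t2 := D3Far_tri x p y
  rw [nrm_sub_comm p y] at t2
  refine ⟨by linarith, ?_⟩
  have e : ∑ k, (x k - p k) / nrm (x - p) ^ 3 * (y k - p k) =
      (∑ k, (x - p) k * (y - p) k) / nrm (x - p) ^ 3 := by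
    rw [Finset.sum_div]
    exact Finset.sum_congr rfl fun k _ => by simp only [Pi.sub_apply]; ring
  have hc := pow_le_pow_left₀ (nrm_nonneg _) h1 2
  rw [e]
  refine D3Far_real (c := nrm (y - p)) hd h2 (abs_le.2 ⟨by linarith, by linarith⟩) ?_ hc ?_
  · simp only [D3Far_sq, Fin.sum_univ_three, Pi.sub_apply]
    ring
  · refine abs_le_of_sq_le_sq' ?_ (mul_nonneg (nrm_nonneg _) hd.le) |> abs_le.2
    refine (Finset.sum_mul_sq_le_sq_mul_sq _ _ _).trans ?_
    rw [← D3Far_sq, ← D3Far_sq, mul_pow]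
    exact mul_le_mul_of_nonneg_left hc (sq_nonneg _)

variable {ι : Type} {s : Finset ι} {σ : ι → Pt → ℝ} {p : ι → Pt} {B M d : ℝ}

theorem Cells.le_one (h : Cells s σ p B M d) {j : ι} (hj : j ∈ s) (y : Pt) : σ j y ≤ B :=
  (Finset.single_le_sum (f := fun j => σ j y) (fun j _ => h.nonneg j y) hj).trans (h.le y)

/-- From `integrable_ker_mul`. -/
theorem Cells.int_ker (h : Cells s σ p B M d) {j : ι} (hj : j ∈ s) (x : Pt) :
    Integrable fun y => ker (x - y) * σ j y := by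
  refine integrable_ker_mul (h.meas j).aestronglyMeasurable (C := B) (fun y => ?_)
    (E := Metric.closedBall (p j) d) (isCompact_closedBall _ _).measure_lt_top.ne
    (fun y hy => ?_) x
  · rw [abs_of_nonneg (h.nonneg j y)]
    exact h.le_one hj y
  · by_contra h0
    exact hy (mem_closedBall_iff_norm.2 ((norm_le_nrm _).trans (h.supp j hj y h0)))

/-- One far cell; `w` is any bounded measurable majorant of the cubic kernel on the cell. -/
theorem Cells.far (h : Cells s σ p B M d) (hd : 0 < d) {j : ι} (hj : j ∈ s) {x : Pt}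
    (hx : 4 * d ≤ nrm (x - p j)) {w : Pt → ℝ} (hw : Integrable fun y => w y * σ j y)
    (hle : ∀ y, σ j y ≠ 0 → 3 * d ≤ nrm (x - y) → 1 / nrm (x - y) ^ 3 ≤ w y) :
    |(∫ y, ker (x - y) * σ j y) - (∫ y, σ j y) * ker (x - p j)| ≤
      5 * d ^ 2 * ∫ y, w y * σ j y := by
  have i1 := h.int_ker hj x
  have i2 := (h.int j hj).mul_const (ker (x - p j))
  have i3 : ∀ k, Integrable fun y => σ j y * (y k - p j k) := fun k => by
    refine ((h.int j hj).mul_const d).mono'
      ((h.meas j).mul ((measurable_pi_apply k).sub measurable_const)).aestronglyMeasurable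
      (ae_of_all _ fun y => ?_)
    rw [Real.norm_eq_abs, abs_mul, abs_of_nonneg (h.nonneg j y)]
    rcases eq_or_ne (σ j y) 0 with h0 | h0
    · simp [h0]
    · exact mul_le_mul_of_nonneg_left ((abs_le_nrm (y - p j) k).trans (h.supp j hj y h0))
        (h.nonneg j y)
  have i4 := fun k => (i3 k).const_mul ((x k - p j k) / nrm (x - p j) ^ 3)
  have i5 := integrable_finsetSum Finset.univ fun k _ => i4 k
  have i6 : Integrable fun y => ker (x - y) * σ j y - σ j y * ker (x - p j) := i1.sub i2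
  have e : (∫ y, ker (x - y) * σ j y) - (∫ y, σ j y) * ker (x - p j) =
      ∫ y, (ker (x - y) * σ j y - σ j y * ker (x - p j) -
        ∑ k, (x k - p j k) / nrm (x - p j) ^ 3 * (σ j y * (y k - p j k))) := by
    rw [integral_sub i6 i5, integral_sub i1 i2, integral_mul_const,
      integral_finsetSum _ fun k _ => i4 k]
    simp only [integral_const_mul, h.bary j hj, mul_zero, Finset.sum_const_zero, sub_zero]
  rw [e, ← integral_const_mul, ← Real.norm_eq_abs]
  refine norm_integral_le_of_norm_le (hw.const_mul _) (ae_of_all _ fun y => ?_)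
  rcases eq_or_ne (σ j y) 0 with h0 | h0
  · simp [h0]
  · obtain ⟨h1, h2⟩ := ker_taylor hd (h.supp j hj y h0) hx
    have h3 := hle y h0 h1
    have e2 : ker (x - y) * σ j y - σ j y * ker (x - p j) -
        ∑ k, (x k - p j k) / nrm (x - p j) ^ 3 * (σ j y * (y k - p j k)) =
        (ker (x - y) - ker (x - p j) -
          ∑ k, (x k - p j k) / nrm (x - p j) ^ 3 * (y k - p j k)) * σ j y := by
      simp only [Fin.sum_univ_three]
      ring
    rw [e2, Real.norm_eq_abs, abs_mul, abs_of_nonneg (h.nonneg j y), ← mul_assoc]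
    refine mul_le_mul_of_nonneg_right (h2.trans ?_) (h.nonneg j y)
    rw [div_eq_mul_one_div]
    exact mul_le_mul_of_nonneg_left h3 (by positivity)

/-- Away from all the cells (a cell with `σ j = 0` contributes nothing). -/
theorem Cells.vac (h : Cells s σ p B M d) (hd : 0 < d) {x : Pt} {δ : ℝ} (hδ : 5 * d ≤ δ)
    (hx : ∀ j ∈ s, ∀ y, σ j y ≠ 0 → δ ≤ nrm (x - y)) :
    |cerr s σ p x| ≤ 5 * d ^ 2 * M / δ ^ 3 := by
  have δ0 : 0 < δ := by linarith
  have key : ∀ j ∈ s, |(∫ y, ker (x - y) * σ j y) - (∫ y, σ j y) * ker (x - p j)| ≤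
      5 * d ^ 2 / δ ^ 3 * ∫ y, σ j y := fun j hj => by
    by_cases h0 : ∀ y, σ j y = 0
    · simp [h0]
    · obtain ⟨y₀, hy₀⟩ := not_forall.1 h0
      have t := D3Far_tri x (p j) y₀
      rw [nrm_sub_comm (p j)] at t
      have h1 := h.far hd hj (x := x) (by linarith [hx j hj y₀ hy₀, h.supp j hj y₀ hy₀])
        (w := fun _ => 1 / δ ^ 3) ((h.int j hj).const_mul _) fun y hy _ =>
          one_div_le_one_div_of_le (by positivity) (pow_le_pow_left₀ δ0.le (hx j hj y hy) 3)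
      rw [integral_const_mul] at h1
      exact h1.trans_eq (by ring)
  refine (Finset.abs_sum_le_sum_abs _ _).trans ((Finset.sum_le_sum key).trans ?_)
  rw [← Finset.mul_sum]
  exact (mul_le_mul_of_nonneg_left h.mass (by positivity)).trans_eq (by ring)

theorem D3Far_int (h : Cells s σ p B M d) {W : Pt → ℝ} (hW : Integrable W) {j : ι} (hj : j ∈ s) :
    Integrable fun y => W y * σ j y :=
  hW.mul_bdd (c := B) (h.meas j).aestronglyMeasurable (ae_of_all _ fun y => by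
    rw [Real.norm_of_nonneg (h.nonneg j y)]; exact h.le_one hj y)

theorem D3Far_sum (h : Cells s σ p B M d) {W : Pt → ℝ} (hW : Integrable W) (h0 : ∀ y, 0 ≤ W y) :
    ∑ j ∈ s, ∫ y, W y * σ j y ≤ B * ∫ y, W y := by
  rw [← integral_finsetSum _ fun j hj => D3Far_int h hW hj, ← integral_const_mul]
  refine integral_mono (integrable_finsetSum _ fun j hj => D3Far_int h hW hj) (hW.const_mul B)
    fun y => ?_
  simp only [← Finset.mul_sum]
  rw [mul_comm B]
  exact mul_le_mul_of_nonneg_left (h.le y) (h0 y)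

theorem D3Far_cube {e b : ℝ} (he : 0 < e) (hb : e ^ 4 ≤ b) :
    1 / b ^ 3 ≤ e⁻¹ * b ^ (-(11 / 4 : ℝ)) := by
  have b0 : 0 < b := (pow_pos he 4).trans_le hb
  have h1 : b ^ (-(1 / 4 : ℝ)) ≤ e⁻¹ := by
    refine (Real.rpow_le_rpow_of_nonpos (pow_pos he 4) hb (by norm_num)).trans_eq ?_
    rw [← Real.rpow_natCast, ← Real.rpow_mul he.le, ← Real.rpow_neg_one]
    norm_num
  have h2 : 1 / b ^ 3 = b ^ (-(1 / 4 : ℝ)) * b ^ (-(11 / 4 : ℝ)) := by
    rw [← Real.rpow_add b0, one_div, ← Real.rpow_natCast, ← Real.rpow_neg b0.le]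
    norm_num
  rw [h2]
  exact mul_le_mul_of_nonneg_right h1 (by positivity)

/-- Pointwise bound. -/
theorem Cells.pt {e : ℝ} (h : Cells s σ p B M (e ^ 4)) (he : 0 < e) (he1 : e ≤ 1) (x : Pt) :
    |cerr s σ p x| ≤ 500 * (B + M) * e ^ 7 + cnear s σ p (e ^ 4) x := by
  have hd : 0 < e ^ 4 := pow_pos he 4
  obtain ⟨a1, a2⟩ := rpow_in (a := 1) (b := 5 * e ^ 4) (by norm_num) (by positivity) x
  obtain ⟨b1, b2⟩ := rpow_in (a := 11 / 4) (b := 1) (by norm_num) one_pos x
  rw [← integrable_indicator_iff (measurableSet_nball _ _)] at a1 b1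
  rw [← integral_indicator (measurableSet_nball _ _)] at a2 b2
  set w₁ := {y | nrm (x - y) ≤ 5 * e ^ 4}.indicator fun y => nrm (x - y) ^ (-1 : ℝ) with hw₁
  set w₂ := {y | nrm (x - y) ≤ 1}.indicator fun y => nrm (x - y) ^ (-(11 / 4) : ℝ) with hw₂
  have n1 : ∀ y, 0 ≤ w₁ y := fun y =>
    Set.indicator_nonneg (fun y _ => Real.rpow_nonneg (nrm_nonneg _) _) y
  have n2 : ∀ y, 0 ≤ w₂ y := fun y =>
    Set.indicator_nonneg (fun y _ => Real.rpow_nonneg (nrm_nonneg _) _) y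
  have m1 : ∀ j, 0 ≤ ∫ y, w₁ y * σ j y := fun j =>
    integral_nonneg fun y => mul_nonneg (n1 y) (h.nonneg j y)
  have m2 : ∀ j, 0 ≤ ∫ y, w₂ y * σ j y := fun j =>
    integral_nonneg fun y => mul_nonneg (n2 y) (h.nonneg j y)
  have m3 : ∀ j, 0 ≤ ∫ y, σ j y := fun j => integral_nonneg (h.nonneg j)
  have key : ∀ j ∈ s, |(∫ y, ker (x - y) * σ j y) - (∫ y, σ j y) * ker (x - p j)| ≤
      (∫ y, w₁ y * σ j y) + 5 * e ^ 7 * (∫ y, w₂ y * σ j y) + 5 * e ^ 8 * (∫ y, σ j y) +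
        if nrm (x - p j) < 4 * e ^ 4 then (∫ y, σ j y) * ker (x - p j) else 0 := fun j hj => by
    have := m1 j
    have := m2 j
    have := m3 j
    split_ifs with hn
    · have h1 : ∫ y, ker (x - y) * σ j y = ∫ y, w₁ y * σ j y := by
        refine integral_congr_ae (ae_of_all _ fun y => ?_)
        rcases eq_or_ne (σ j y) 0 with h0 | h0
        · simp only [h0, mul_zero]
        · have t := D3Far_tri x (p j) y
          rw [nrm_sub_comm (p j)] at t
          have hy : y ∈ {y | nrm (x - y) ≤ 5 * e ^ 4} := by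
            show nrm (x - y) ≤ _
            linarith [h.supp j hj y h0]
          simp only [hw₁, Set.indicator_of_mem hy, ker_eq_rpow]
      have h2 := mul_nonneg (m3 j) (ker_nonneg (x - p j))
      have h3 : 0 ≤ 5 * e ^ 7 * (∫ y, w₂ y * σ j y) + 5 * e ^ 8 * ∫ y, σ j y := by positivity
      rw [h1, abs_le]
      constructor <;> linarith
    · have i1 := (D3Far_int h b1 hj).const_mul e⁻¹
      have e1 : (fun y => (e⁻¹ * w₂ y + 1) * σ j y) = fun y => e⁻¹ * (w₂ y * σ j y) + σ j y :=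
        funext fun y => by ring
      have h1 := h.far hd hj (not_lt.1 hn) (w := fun y => e⁻¹ * w₂ y + 1)
        (by rw [e1]; exact i1.add (h.int j hj)) fun y _ hy => by
          by_cases h2 : nrm (x - y) ≤ 1
          · have h3 := D3Far_cube he (show e ^ 4 ≤ nrm (x - y) by linarith)
            have hy : y ∈ {y | nrm (x - y) ≤ 1} := h2
            simp only [hw₂, Set.indicator_of_mem hy]
            linarith
          · have h3 : 1 / nrm (x - y) ^ 3 ≤ 1 :=
              div_le_one_of_le₀ (one_le_pow₀ (not_le.1 h2).le) (pow_nonneg (nrm_nonneg _) _)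
            have h4 := mul_nonneg (inv_pos.2 he).le (n2 y)
            linarith
      rw [e1, integral_add i1 (h.int j hj), integral_const_mul] at h1
      have h2 : 5 * (e ^ 4) ^ 2 * (e⁻¹ * (∫ y, w₂ y * σ j y) + ∫ y, σ j y) =
          5 * e ^ 7 * (∫ y, w₂ y * σ j y) + 5 * e ^ 8 * ∫ y, σ j y := by
        field_simp
      linarith
  refine (Finset.abs_sum_le_sum_abs _ _).trans ((Finset.sum_le_sum key).trans ?_)
  simp only [Finset.sum_add_distrib, ← Finset.mul_sum]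
  refine add_le_add ?_ le_rfl
  have s1 := D3Far_sum h a1 n1
  have s2 := D3Far_sum h b1 n2
  rw [a2, show (3 - 1 : ℝ) = 2 by norm_num, Real.rpow_two] at s1
  rw [b2, Real.one_rpow] at s2
  have hB : 0 ≤ B := (Finset.sum_nonneg fun j _ => h.nonneg j 0).trans (h.le 0)
  have hM : 0 ≤ M := (Finset.sum_nonneg fun j _ => m3 j).trans h.mass
  have h7 : 0 < e ^ 7 := pow_pos he 7
  have h8 : e ^ 8 ≤ e ^ 7 := pow_le_pow_of_le_one he.le he1 (by norm_num)
  have s3 : ∑ j ∈ s, ∫ y, w₁ y * σ j y ≤ 160 * (B * e ^ 7) := by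
    refine s1.trans ?_
    calc B * (4 * Real.pi * (5 * e ^ 4) ^ 2 / 2) = 50 * Real.pi * (B * e ^ 8) := by ring
      _ ≤ 50 * 3.15 * (B * e ^ 7) := by gcongr; exact Real.pi_lt_d2.le
      _ ≤ _ := by nlinarith [mul_nonneg hB h7.le]
  have s4 : ∑ j ∈ s, ∫ y, w₂ y * σ j y ≤ 60 * B := by
    refine s2.trans ?_
    rw [show B * (4 * Real.pi * 1 / (3 - 11 / 4)) = 16 * (B * Real.pi) by ring]
    nlinarith [mul_le_mul_of_nonneg_left Real.pi_lt_d2.le hB]
  have s5 := mul_le_mul_of_nonneg_left s4 h7.le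
  have s6 := mul_le_mul h8 h.mass (Finset.sum_nonneg fun j _ => m3 j) h7.le
  nlinarith [mul_nonneg hB h7.le, mul_nonneg hM h7.le]

end Vale.Agent.P363
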