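import Vale.Agent.P363.D3Def

/-! Part D3: rounding of masses along a tree, and the lattice. -/

namespace Vale.Agent.P363

open MeasureTheory Vale.Agent.P370

/-- Every vertex passes the fractional part of the mass of its subtree to its parent. -/
theorem flow {K : Type} [DecidableEq K] (I : Finset K) (o : K) (pa : K → K) (rk : K → ℕ)
    (ho : o ∈ I) (hpa : ∀ k ∈ I, k ≠ o → pa k ∈ I ∧ rk (pa k) < rk k) (m : K → ℝ) {lam : ℝ}
    (hl : 0 < lam) {N : ℕ} (hN : ∑ k ∈ I, m k = N * lam) :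
    ∃ (r : K → ℝ) (n : K → ℤ), r o = 0 ∧ ∀ k ∈ I, 0 ≤ r k ∧ r k ≤ lam ∧
      m k - r k + ∑ c ∈ I.filter fun c => c ≠ o ∧ pa c = k, r c = n k * lam := by
  have key : ∀ j : ℕ, ∃ (r : K → ℝ) (n : K → ℤ), ∀ k ∈ I, I.sup rk + 1 ≤ rk k + j →
      0 ≤ r k ∧ r k < lam ∧
        m k - r k + ∑ c ∈ I.filter fun c => c ≠ o ∧ pa c = k, r c = n k * lam := by
    intro j
    induction j with
    | zero =>
      refine ⟨0, 0, fun k hk h => ?_⟩
      have := Finset.le_sup (f := rk) hk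
      omega
    | succ j ih =>
      obtain ⟨r, n, h⟩ := ih
      set a : K → ℝ := fun k => (m k + ∑ c ∈ I.filter fun c => c ≠ o ∧ pa c = k, r c) / lam
        with ha
      refine ⟨fun k => if rk k + j = I.sup rk then lam * Int.fract (a k) else r k,
        fun k => if rk k + j = I.sup rk then ⌊a k⌋ else n k, fun k hk hj => ?_⟩
      have h1 : ∑ c ∈ I.filter fun c => c ≠ o ∧ pa c = k,
          (if rk c + j = I.sup rk then lam * Int.fract (a c) else r c) =
          ∑ c ∈ I.filter fun c => c ≠ o ∧ pa c = k, r c := by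
        refine Finset.sum_congr rfl fun c hc => if_neg ?_
        rw [Finset.mem_filter] at hc
        have h2 := (hpa c hc.1 hc.2.1).2
        rw [hc.2.2] at h2
        omega
      rw [h1]
      by_cases h2 : rk k + j = I.sup rk
      · simp only [if_pos h2]
        refine ⟨mul_nonneg hl.le (Int.fract_nonneg _),
          mul_lt_of_lt_one_right hl (Int.fract_lt_one _), ?_⟩
        have h3 : a k * lam = m k + ∑ c ∈ I.filter fun c => c ≠ o ∧ pa c = k, r c :=
          div_mul_cancel₀ _ hl.ne'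
        rw [Int.fract]
        linarith
      · simp only [if_neg h2]
        exact h k hk (by omega)
  obtain ⟨r, n, h⟩ := key (I.sup rk + 1)
  have h' := fun k hk => h k hk (Nat.le_add_left _ _)
  refine ⟨r, n, ?_, fun k hk => ⟨(h' k hk).1, (h' k hk).2.1.le, (h' k hk).2.2⟩⟩
  have h1 : ∑ k ∈ I, ∑ c ∈ I.filter fun c => c ≠ o ∧ pa c = k, r c =
      ∑ c ∈ I.filter fun c => c ≠ o, r c := by
    rw [← Finset.sum_fiberwise_of_maps_to (s := I.filter fun c => c ≠ o) (t := I) (g := pa)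
      fun c hc => (hpa c (Finset.mem_filter.1 hc).1 (Finset.mem_filter.1 hc).2).1]
    exact Finset.sum_congr rfl fun k _ => by rw [Finset.filter_filter]
  have h2 : ∑ k ∈ I, r k = r o + ∑ c ∈ I.filter fun c => c ≠ o, r c := by
    rw [Finset.filter_ne', Finset.add_sum_erase _ _ ho]
  have h3 := Finset.sum_congr rfl fun k hk => (h' k hk).2.2
  rw [Finset.sum_add_distrib, Finset.sum_sub_distrib, h1, h2, hN, ← Finset.sum_mul] at h3
  have h4 : r o = ((N - ∑ k ∈ I, n k : ℤ) : ℝ) * lam := by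
    push_cast
    linarith
  have h5 := (h' o ho).1
  have h6 := (h' o ho).2.1
  rw [h4] at h5 h6
  have h7 : (0 : ℝ) ≤ ((N - ∑ k ∈ I, n k : ℤ) : ℝ) := nonneg_of_mul_nonneg_left h5 hl
  have h8 : ((N - ∑ k ∈ I, n k : ℤ) : ℝ) < 1 := by
    by_contra hc
    nlinarith [not_lt.1 hc]
  have h9 : (N - ∑ k ∈ I, n k : ℤ) = 0 := by
    have h10 : (0 : ℤ) ≤ N - ∑ k ∈ I, n k := by exact_mod_cast h7
    have h11 : (N - ∑ k ∈ I, n k : ℤ) < 1 := by exact_mod_cast h8
    omega
  rw [h4, h9, Int.cast_zero, zero_mul]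

theorem d3Geo_par (k : Fin 3 → ℤ) (a : Fin 3) : |par k a| ≤ |k a| ∧ (0 ≤ k a → 0 ≤ par k a) := by
  unfold par
  rcases lt_trichotomy (k a) 0 with h | h | h
  · rw [Int.sign_eq_neg_one_of_neg h, abs_of_neg h, abs_of_nonpos (by omega)]
    omega
  · rw [h]
    simp
  · rw [Int.sign_eq_one_of_pos h, abs_of_pos h, abs_of_nonneg (by omega)]
    omega

theorem d3Geo_fl {h : ℝ} (h0 : 0 < h) (u : ℝ) :
    |u - h * (⌊u / h⌋ : ℝ)| ≤ h ∧ (|(⌊u / h⌋ : ℝ)| + 1) * h ≤ |u| + 2 * h := by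
  have h1 := Int.floor_le (u / h)
  have h2 := Int.lt_floor_add_one (u / h)
  rw [le_div_iff₀ h0] at h1
  rw [div_lt_iff₀ h0] at h2
  refine ⟨abs_le.2 ⟨by linarith, by linarith⟩, ?_⟩
  have h3 : |(⌊u / h⌋ : ℝ)| * h ≤ |u| + h := by
    rw [← abs_of_pos h0, ← abs_mul, abs_of_pos h0, abs_le]
    constructor <;> linarith [neg_abs_le u, le_abs_self u]
  linarith

theorem d3Geo_sum {R h : ℝ} (h0 : 0 < h) {u : Pt} (hu : nrm u ≤ R - 4 * h) :
    ∑ a, (|u a| + 2 * h) ^ 2 ≤ R ^ 2 := by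
  have h1 : nrm u ^ 2 = |u 0| ^ 2 + |u 1| ^ 2 + |u 2| ^ 2 := by
    unfold nrm
    rw [Real.sq_sqrt (Finset.sum_nonneg fun _ _ => sq_nonneg _), Fin.sum_univ_three, sq_abs, sq_abs,
      sq_abs]
  have h2 := nrm_nonneg u
  have h3 : |u 0| + |u 1| + |u 2| ≤ 2 * nrm u := by
    refine abs_le_of_sq_le_sq' ?_ (by linarith) |>.2
    nlinarith [sq_nonneg (|u 0| - |u 1|), sq_nonneg (|u 0| - |u 2|), sq_nonneg (|u 1| - |u 2|)]
  have h4 : (nrm u + 4 * h) ^ 2 ≤ R ^ 2 := pow_le_pow_left₀ (by linarith) (by linarith) 2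
  rw [Fin.sum_univ_three]
  nlinarith [mul_le_mul_of_nonneg_left h3 h0.le]


/-- The lattice: `κ y` is a lattice point near `y`, and every fibre contains a cube. -/
theorem lattice {R h : ℝ} (hR : 10 ≤ R) (h0 : 0 < h) (h1 : h ≤ 1) :
    ∃ (I : Finset (Fin 3 → ℤ)) (κ : Pt → Fin 3 → ℤ), Measurable κ ∧ 0 ∈ I ∧
      (∀ k ∈ I, par k ∈ I) ∧ (∀ y ∈ Oq R, κ y ∈ I ∧ ∀ a, |y a - h * κ y a| ≤ 5 * h) ∧
      ∀ k ∈ I, h ^ 3 ≤ volume.real {y | y ∈ Oq R ∧ κ y = k} := by
  have hR0 : 0 < R := by linarith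
  set I : Finset (Fin 3 → ℤ) := (Fintype.piFinset fun _ => Finset.Icc (-⌈R / h⌉) ⌈R / h⌉).filter
    fun k => 0 ≤ k 0 ∧ 0 ≤ k 1 ∧ ∑ a, ((|(k a : ℝ)| + 1) * h) ^ 2 ≤ R ^ 2 with hI
  have mem : ∀ k, k ∈ I ↔ 0 ≤ k 0 ∧ 0 ≤ k 1 ∧ ∑ a, ((|(k a : ℝ)| + 1) * h) ^ 2 ≤ R ^ 2 := by
    intro k
    rw [hI, Finset.mem_filter, and_iff_right_iff_imp]
    intro hk
    rw [Fintype.mem_piFinset]
    intro a
    have h2 : ((|(k a : ℝ)| + 1) * h) ^ 2 ≤ R ^ 2 :=
      (Finset.single_le_sum (f := fun a => ((|(k a : ℝ)| + 1) * h) ^ 2)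
        (fun _ _ => sq_nonneg _) (Finset.mem_univ a)).trans hk.2.2
    have h3 := (abs_le_of_sq_le_sq' h2 hR0.le).2
    have h4 : |(k a : ℝ)| ≤ R / h := by
      rw [le_div_iff₀ h0]
      linarith
    have h5 : |(k a : ℝ)| ≤ (⌈R / h⌉ : ℝ) := h4.trans (Int.le_ceil _)
    rw [Finset.mem_Icc, ← abs_le]
    exact_mod_cast h5
  set fl : Pt → Fin 3 → ℤ := fun y a => ⌊y a / h⌋ with hfl
  have mfl : Measurable fl :=
    measurable_pi_lambda _ fun a => Int.measurable_floor.comp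
      (show Measurable fun y : Pt => y a / h by fun_prop)
  have hθ : 0 ≤ 1 - 4 * h / R := by
    rw [sub_nonneg, div_le_one hR0]
    linarith
  refine ⟨I, fun y => if fl y ∈ I then fl y else fl ((1 - 4 * h / R) • y), ?_, ?_, ?_, ?_, ?_⟩
  · exact Measurable.ite (mfl I.measurableSet) mfl (mfl.comp (measurable_const_smul _))
  · rw [mem]
    refine ⟨le_rfl, le_rfl, ?_⟩
    simp only [Pi.zero_apply, Int.cast_zero, abs_zero, zero_add, one_mul, Finset.sum_const,
      Finset.card_univ, Fintype.card_fin, nsmul_eq_mul]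
    push_cast
    nlinarith
  · intro k hk
    rw [mem] at hk ⊢
    refine ⟨(d3Geo_par k 0).2 hk.1, (d3Geo_par k 1).2 hk.2.1, le_trans ?_ hk.2.2⟩
    refine Finset.sum_le_sum fun a _ => ?_
    have h2 : |(par k a : ℝ)| ≤ |(k a : ℝ)| := by exact_mod_cast (d3Geo_par k a).1
    gcongr
  · intro y hy
    by_cases h2 : fl y ∈ I
    · simp only [if_pos h2]
      exact ⟨h2, fun a => (d3Geo_fl h0 (y a)).1.trans (by linarith)⟩
    · simp only [if_neg h2]
      set u := (1 - 4 * h / R) • y with hu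
      have hn : nrm u ≤ R - 4 * h := by
        rw [hu, nrm_smul, abs_of_nonneg hθ]
        calc (1 - 4 * h / R) * nrm y ≤ (1 - 4 * h / R) * R :=
              mul_le_mul_of_nonneg_left hy.1 hθ
          _ = R - 4 * h := by field_simp
      refine ⟨(mem _).2 ⟨Int.floor_nonneg.2 (div_nonneg (mul_nonneg hθ hy.2.1) h0.le),
        Int.floor_nonneg.2 (div_nonneg (mul_nonneg hθ hy.2.2) h0.le), ?_⟩, fun a => ?_⟩
      · refine le_trans (Finset.sum_le_sum fun a _ => ?_) (d3Geo_sum h0 hn)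
        exact pow_le_pow_left₀ (by positivity) (d3Geo_fl h0 (u a)).2 2
      · have h3 := (d3Geo_fl h0 (u a)).1
        have h4 : |y a - u a| ≤ 4 * h := by
          have h5 : y a - u a = 4 * h / R * y a := by
            rw [hu, Pi.smul_apply, smul_eq_mul]
            ring
          rw [h5, abs_mul, abs_of_nonneg (by positivity)]
          calc 4 * h / R * |y a| ≤ 4 * h / R * R :=
                mul_le_mul_of_nonneg_left ((abs_le_nrm y a).trans hy.1) (by positivity)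
            _ = 4 * h := by field_simp
        have h6 := abs_sub_le (y a) (u a) (h * (fl u a : ℝ))
        linarith
  · intro k hk
    have h2 : volume.real (Set.pi Set.univ fun a : Fin 3 =>
        Set.Ico ((k a : ℝ) * h) ((k a + 1) * h)) = h ^ 3 := by
      rw [measureReal_def, Real.volume_pi_Ico_toReal fun a => by nlinarith]
      have h3 : ∀ a : Fin 3, ((k a : ℝ) + 1) * h - k a * h = h := fun a => by ring
      simp only [h3, Finset.prod_const, Finset.card_univ, Fintype.card_fin]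
    rw [← h2]
    refine measureReal_mono (fun y hy => ?_) (ne_top_of_le_ne_top
      (measure_closedBall_lt_top (x := (0 : Pt)) (r := R)).ne (measure_mono fun y hy => ?_))
    · have h3 : fl y = k := funext fun a => by
        have h4 := hy a (Set.mem_univ a)
        rw [hfl]
        simp only
        rw [Int.floor_eq_iff, le_div_iff₀ h0, div_lt_iff₀ h0]
        exact h4
      have hk' := (mem k).1 hk
      refine ⟨⟨?_, ?_, ?_⟩, by simp only [h3, if_pos hk]⟩
      · unfold nrm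
        rw [Real.sqrt_le_left hR0.le]
        refine le_trans (Finset.sum_le_sum fun a _ => ?_) hk'.2.2
        have h4 := hy a (Set.mem_univ a)
        refine sq_le_sq' ?_ ?_
        · nlinarith [neg_abs_le (k a : ℝ), h4.1]
        · nlinarith [le_abs_self (k a : ℝ), h4.2]
      · have h4 : (0 : ℝ) ≤ k 0 := by exact_mod_cast hk'.1
        exact (mul_nonneg h4 h0.le).trans (hy 0 (Set.mem_univ _)).1
      · have h4 : (0 : ℝ) ≤ k 1 := by exact_mod_cast hk'.2.1
        exact (mul_nonneg h4 h0.le).trans (hy 1 (Set.mem_univ _)).1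
    · rw [mem_closedBall_zero_iff]
      exact (norm_le_nrm y).trans hy.1.1

end Vale.Agent.P363
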