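import Vale.Agent.P363.D3Far

/-! Part D3: the near field of the cells and potentials of small form norm.

`Cells.count`: a cell with `‖x - p j‖ ≤ 8 d` lives in the cube `‖y - x‖ ≤ 9 d` (`norm_le_nrm`) of
volume `(18 d) ^ 3` (`Real.volume_pi_closedBall`), so the masses add up to at most `B (18 d) ^ 3`.
`Cells.near`: apply `hardy` of P370/Newton with `c = p j`, `r = 4 d` to every term, exchange sum
and integral, use `Cells.count`.
`Cells.small`: `Cells.pt` and `Cells.near`; `cerr` is measurable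
(`StronglyMeasurable.integral_prod_right` or `Measurable.stronglyMeasurable`).
`d3_pd_rf`: `rf i` is a continuous linear equivalence (`ContinuousLinearEquiv.comp_right_fderiv`);
it preserves the volume (`d3_mp_rf`, from `volume_preserving_pi` with `neg` in one slot). -/

namespace Vale.Agent.P363

open MeasureTheory Vale.Agent.P370

lemma d3n_apply (i j : Fin 3) (x : Pt) : rf i x j = if j = i then -x j else x j := by
  by_cases hj : j = i
  · subst hj; simp [rf]
  · simp [rf, hj]

theorem d3_rf_rf (i : Fin 3) (x : Pt) : rf i (rf i x) = x := funext fun j => by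
  simp only [d3n_apply]; split_ifs <;> ring

theorem d3_rf_comm (x : Pt) : rf 1 (rf 0 x) = rf 0 (rf 1 x) := funext fun j => by
  simp only [d3n_apply]; split_ifs <;> ring

theorem d3_nrm_rf (i : Fin 3) (x : Pt) : nrm (rf i x) = nrm x := by
  unfold nrm
  congr 1
  refine Finset.sum_congr rfl fun k _ => ?_
  rw [d3n_apply]; split_ifs <;> ring

theorem d3_ker_rf (i : Fin 3) (x y : Pt) : ker (x - rf i y) = ker (rf i x - y) := by
  have h : x - rf i y = rf i (rf i x - y) := funext fun j => by
    simp only [d3n_apply, Pi.sub_apply]; split_ifs <;> ring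
  rw [h, ker, d3_nrm_rf, ker]

/-- The reflection as a linear equivalence. -/
noncomputable def d3nR (i : Fin 3) : Pt ≃L[ℝ] Pt :=
  (LinearEquiv.ofInvolutive
    ({ toFun := rf i
       map_add' := fun x y => funext fun j => by
         simp only [d3n_apply, Pi.add_apply]; split_ifs <;> ring
       map_smul' := fun c x => funext fun j => by
         simp only [d3n_apply, Pi.smul_apply, smul_eq_mul, RingHom.id_apply]
         split_ifs <;> ring } : Pt →ₗ[ℝ] Pt) (d3_rf_rf i)).toContinuousLinearEquiv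

theorem d3_meas_rf (i : Fin 3) : Measurable (rf i) := (d3nR i).continuous.measurable

theorem d3_mp_rf (i : Fin 3) : MeasurePreserving (rf i) volume volume := by
  have h : rf i = fun x j => (fun (j : Fin 3) (t : ℝ) => if j = i then -t else t) j (x j) :=
    funext fun x => funext fun j => d3n_apply i j x
  rw [h]
  refine volume_preserving_pi (f := fun (j : Fin 3) (t : ℝ) => if j = i then -t else t)
    fun j => ?_
  by_cases hj : j = i
  · simp only [hj, if_true]; exact Measure.measurePreserving_neg volume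
  · simp only [hj, if_false]; exact MeasurePreserving.id volume

theorem d3_int_rf (i : Fin 3) (f : Pt → ℝ) : ∫ x, f (rf i x) = ∫ x, f x :=
  (d3_mp_rf i).integral_comp (d3nR i).toHomeomorph.measurableEmbedding f

theorem d3_pd_rf (i k : Fin 3) (f : Pt → ℝ) (x : Pt) :
    pd k (fun y => f (rf i y)) x = (if k = i then -1 else 1) * pd k f (rf i x) := by
  have h := (d3nR i).comp_right_fderiv (f := f) (x := x)
  have e : rf i (ek k) = (if k = i then -1 else 1 : ℝ) • ek k := funext fun j => by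
    simp only [d3n_apply, ek, Pi.smul_apply, Pi.single_apply, smul_eq_mul]
    split_ifs <;> simp_all
  have h2 : pd k (fun y => f (rf i y)) x = fderiv ℝ f (rf i x) (rf i (ek k)) :=
    congrArg (· (ek k)) h
  rw [h2, e, map_smul, smul_eq_mul, pd]

theorem d3_lap_rf (i : Fin 3) (f : Pt → ℝ) (x : Pt) :
    lap (fun y => f (rf i y)) x = lap f (rf i x) := by
  refine Finset.sum_congr rfl fun k _ => ?_
  have h : pd k (fun y => f (rf i y)) =
      (if k = i then -1 else 1 : ℝ) • fun y => pd k f (rf i y) := funext (d3_pd_rf i k f)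
  have h2 := d3_pd_rf i k (pd k f) x
  rw [h, pd, fderiv_const_smul_field, Pi.smul_apply, smul_apply, ← pd, h2]
  split_ifs <;> simp

theorem Small.d3_rf {W : Pt → ℝ} {ε : ℝ} (h : Small W ε) (i : Fin 3) :
    Small (fun x => W (rf i x)) ε := by
  refine ⟨h.1.comp (d3_meas_rf i), fun ψ hψ => ?_⟩
  obtain ⟨h1, h2⟩ := h.2 (fun x => ψ (rf i x))
    ⟨hψ.1.comp (d3nR i).contDiff, hψ.2.comp_homeomorph (d3nR i).toHomeomorph⟩
  have e : ∀ x, gsq (fun x => ψ (rf i x)) x = gsq ψ (rf i x) := fun x =>
    Finset.sum_congr rfl fun k _ => by rw [d3_pd_rf]; split_ifs <;> ring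
  refine ⟨by simpa only [Function.comp_def, d3_rf_rf] using
    (d3_mp_rf i).integrable_comp_of_integrable h1, ?_⟩
  simp only [e] at h2
  rw [d3_int_rf i (gsq ψ), d3_int_rf i fun x => ψ x ^ 2, ← d3_int_rf i] at h2
  simpa only [d3_rf_rf] using h2

lemma d3n_abs {W ψ : Pt → ℝ} (h : Integrable fun x => W x * ψ x ^ 2) :
    Integrable fun x => |W x| * ψ x ^ 2 := by
  simpa only [abs_mul, abs_sq] using h.abs

lemma d3n_sq {ψ : Pt → ℝ} (h : C1c ψ) : Integrable fun x => ψ x ^ 2 :=
  (h.1.continuous.memLp_of_hasCompactSupport h.2).integrable_sq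

lemma d3n_pos (ψ : Pt → ℝ) : 0 ≤ ∫ x, gsq ψ x :=
  integral_nonneg fun _ => Finset.sum_nonneg fun _ _ => sq_nonneg _

lemma d3n_dom {W W' : Pt → ℝ} {ε : ℝ} (h : Small W' ε) (hm : Measurable W)
    (hle : ∀ x, |W x| ≤ |W' x|) : Small W ε := by
  refine ⟨hm, fun ψ hψ => ?_⟩
  obtain ⟨h1, h2⟩ := h.2 ψ hψ
  have h3 : ∀ x, |W x| * ψ x ^ 2 ≤ |W' x| * ψ x ^ 2 := fun x =>
    mul_le_mul_of_nonneg_right (hle x) (sq_nonneg _)
  have h4 : Integrable fun x => W x * ψ x ^ 2 :=
    (d3n_abs h1).mono' (hm.aestronglyMeasurable.mul (d3n_sq hψ).1)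
      (Filter.Eventually.of_forall fun x => by rw [Real.norm_eq_abs, abs_mul, abs_sq]; exact h3 x)
  exact ⟨h4, (integral_mono (d3n_abs h4) (d3n_abs h1) h3).trans h2⟩

theorem Small.d3_add {W W' : Pt → ℝ} {ε ε' : ℝ} (h : Small W ε) (h' : Small W' ε') :
    Small (fun x => W x + W' x) (ε + ε') := by
  refine ⟨h.1.add h'.1, fun ψ hψ => ?_⟩
  obtain ⟨h1, h2⟩ := h.2 ψ hψ
  obtain ⟨h3, h4⟩ := h'.2 ψ hψ
  have h5 : Integrable fun x => (W x + W' x) * ψ x ^ 2 := by
    simpa only [add_mul] using h1.fun_add h3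
  refine ⟨h5, (integral_mono (d3n_abs h5) ((d3n_abs h1).fun_add (d3n_abs h3)) fun x => ?_).trans ?_⟩
  · simp only [← add_mul]
    exact mul_le_mul_of_nonneg_right (abs_add_le _ _) (sq_nonneg _)
  · rw [integral_add (d3n_abs h1) (d3n_abs h3), add_mul]
    exact add_le_add h2 h4

theorem Small.d3_mono {W : Pt → ℝ} {ε ε' : ℝ} (h : Small W ε) (h' : ε ≤ ε') : Small W ε' :=
  ⟨h.1, fun ψ hψ => ⟨(h.2 ψ hψ).1, (h.2 ψ hψ).2.trans (mul_le_mul_of_nonneg_right h'
    (add_nonneg (d3n_pos ψ) (integral_nonneg fun _ => sq_nonneg _)))⟩⟩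

theorem d3_small_bdd {W : Pt → ℝ} {ε : ℝ} (hm : Measurable W) (h : ∀ x, |W x| ≤ ε) :
    Small W ε := by
  have h0 : 0 ≤ ε := (abs_nonneg _).trans (h 0)
  refine d3n_dom (W' := fun _ => ε) ⟨measurable_const, fun ψ hψ => ⟨(d3n_sq hψ).const_mul ε, ?_⟩⟩
    hm fun x => (h x).trans (le_abs_self _)
  rw [integral_const_mul, abs_of_nonneg h0]
  exact mul_le_mul_of_nonneg_left (le_add_of_nonneg_left (d3n_pos ψ)) h0

variable {ι : Type} {s : Finset ι} {σ : ι → Pt → ℝ} {p : ι → Pt} {B M d : ℝ}

theorem Cells.count (h : Cells s σ p B M d) (hd : 0 < d) (x : Pt) :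
    ∑ j ∈ s, (if ‖x - p j‖ ≤ 8 * d then ∫ y, σ j y else 0) ≤ B * (18 * d) ^ 3 := by
  have hS : MeasurableSet (Metric.closedBall x (9 * d)) := measurableSet_closedBall
  have h1 : ∀ j ∈ s, (if ‖x - p j‖ ≤ 8 * d then ∫ y, σ j y else 0) ≤
      ∫ y in Metric.closedBall x (9 * d), σ j y := fun j hj => by
    split_ifs with hx
    · refine (setIntegral_eq_integral_of_forall_compl_eq_zero fun y hy => ?_).ge
      by_contra h0
      refine hy (mem_closedBall_iff_norm.2 ?_)
      have h2 := (norm_le_nrm _).trans (h.supp j hj y h0)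
      have h3 := norm_sub_le_norm_sub_add_norm_sub y (p j) x
      rw [norm_sub_rev (p j)] at h3
      linarith
    · exact integral_nonneg (h.nonneg j)
  refine (Finset.sum_le_sum h1).trans ?_
  rw [← integral_finsetSum _ fun j hj => (h.int j hj).integrableOn]
  refine (setIntegral_mono (integrable_finsetSum _ fun j hj => (h.int j hj).integrableOn)
    (integrableOn_const measure_closedBall_lt_top.ne) h.le).trans (le_of_eq ?_)
  rw [setIntegral_const, smul_eq_mul, mul_comm, measureReal_def,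
    Real.volume_pi_closedBall x (by positivity), ENNReal.toReal_ofReal (by positivity)]
  simp only [Fintype.card_fin]
  ring

theorem cells_near : ∃ C : ℝ, 1 ≤ C ∧ ∀ {ι : Type} {s : Finset ι} {σ : ι → Pt → ℝ} {p : ι → Pt}
    {B M d : ℝ}, Cells s σ p B M d → 0 < d → 4 * d ≤ 1 →
      Small (cnear s σ p d) (C * B * d ^ 2) := by
  obtain ⟨C, hC, H⟩ := hardy
  refine ⟨1458 * C, by linarith, fun {ι s σ p B M d} h hd hd1 => ?_⟩
  have hS : ∀ j, MeasurableSet {x | nrm (x - p j) < 4 * d} := fun j =>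
    (isOpen_lt (continuous_nrm.comp (continuous_sub_right (p j))) continuous_const).measurableSet
  have hT : ∀ j (r : ℝ), MeasurableSet {x : Pt | ‖x - p j‖ ≤ r} := fun j r =>
    (isClosed_le (by fun_prop) continuous_const).measurableSet
  have hm : ∀ j, 0 ≤ ∫ y, σ j y := fun j => integral_nonneg (h.nonneg j)
  refine ⟨Finset.measurable_sum _ fun j _ => Measurable.ite (hS j)
    ((measurable_ker.comp (measurable_sub_const (p j))).const_mul _) measurable_const,
    fun ψ hψ => ?_⟩
  have ik : ∀ j, Integrable fun x => ker (x - p j) * ψ x ^ 2 := fun j =>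
    integrable_ker_mul_cc (f := fun x => ψ x ^ 2) (hψ.1.continuous.pow 2)
      (hψ.2.comp_left (g := (· ^ 2)) (by simp)) _
  have iF : Integrable fun x => ψ x ^ 2 + gsq ψ x := (d3n_sq hψ).add hψ.integrable_gsq
  have hF : ∀ x, 0 ≤ ψ x ^ 2 + gsq ψ x := fun x =>
    add_nonneg (sq_nonneg _) (Finset.sum_nonneg fun _ _ => sq_nonneg _)
  have e : ∀ x, cnear s σ p d x * ψ x ^ 2 = ∑ j ∈ s, (∫ y, σ j y) *
      {x | nrm (x - p j) < 4 * d}.indicator (fun x => ker (x - p j) * ψ x ^ 2) x := fun x => by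
    rw [cnear, Finset.sum_mul]
    refine Finset.sum_congr rfl fun j _ => ?_
    simp only [Set.indicator, Set.mem_ofPred_eq]
    split_ifs <;> ring
  have e0 : ∀ x, |cnear s σ p d x| = cnear s σ p d x := fun x =>
    abs_of_nonneg (Finset.sum_nonneg fun j _ => by
      split_ifs
      exacts [mul_nonneg (hm j) (ker_nonneg _), le_rfl])
  have i1 := fun j => ((ik j).indicator (hS j)).const_mul (∫ y, σ j y)
  have i2 := fun j => (iF.indicator (hT j (2 * (4 * d)))).const_mul (∫ y, σ j y)
  simp only [e0, e]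
  refine ⟨integrable_finsetSum _ fun j _ => i1 j, ?_⟩
  rw [integral_finsetSum _ fun j _ => i1 j]
  have h1 : ∀ j ∈ s, ∫ x, (∫ y, σ j y) *
      {x | nrm (x - p j) < 4 * d}.indicator (fun x => ker (x - p j) * ψ x ^ 2) x ≤
      C / (4 * d) * ∫ x, (∫ y, σ j y) *
        {x | ‖x - p j‖ ≤ 2 * (4 * d)}.indicator (fun x => ψ x ^ 2 + gsq ψ x) x := fun j _ => by
    rw [integral_const_mul, integral_const_mul, mul_left_comm, integral_indicator (hS j),
      integral_indicator (hT j _)]
    refine mul_le_mul_of_nonneg_left (le_trans ?_ (H ψ (p j) _ hψ (by positivity) hd1)) (hm j)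
    exact setIntegral_mono_set (ik j).integrableOn (Filter.Eventually.of_forall fun x =>
      mul_nonneg (ker_nonneg _) (sq_nonneg _)) (Filter.Eventually.of_forall fun x hx =>
        (norm_le_nrm _).trans (le_of_lt hx))
  refine (Finset.sum_le_sum h1).trans ?_
  rw [← Finset.mul_sum, ← integral_finsetSum _ fun j _ => i2 j]
  have h2 := integral_mono (integrable_finsetSum s fun j _ => i2 j)
    (iF.const_mul (B * (18 * d) ^ 3)) fun x => by
      refine le_trans (le_of_eq ?_) (mul_le_mul_of_nonneg_right (h.count hd x) (hF x))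
      rw [Finset.sum_mul]
      refine Finset.sum_congr rfl fun j _ => ?_
      have : 2 * (4 * d) = 8 * d := by ring
      simp only [Set.indicator, Set.mem_ofPred_eq, this]
      split_ifs <;> ring
  refine (mul_le_mul_of_nonneg_left h2 (by positivity)).trans (le_of_eq ?_)
  rw [integral_const_mul, integral_add (d3n_sq hψ) hψ.integrable_gsq]
  field_simp
  ring

theorem cells_small : ∃ C : ℝ, 1 ≤ C ∧ ∀ {ι : Type} {s : Finset ι} {σ : ι → Pt → ℝ} {p : ι → Pt}
    {B M e : ℝ}, Cells s σ p B M (e ^ 4) → 0 < e → e ≤ 1 / 2 →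
      Small (cerr s σ p) (C * (B + M) * e ^ 7) := by
  obtain ⟨C, hC, H⟩ := cells_near
  refine ⟨500 + C, by linarith, fun {ι s σ p B M e} h he he1 => ?_⟩
  have hB : 0 ≤ B := (Finset.sum_nonneg fun j _ => h.nonneg j 0).trans (h.le 0)
  have hM : 0 ≤ M := (Finset.sum_nonneg fun j _ => integral_nonneg (h.nonneg j)).trans h.mass
  have h4 : e ^ 4 ≤ (1 / 2) ^ 4 := pow_le_pow_left₀ he.le he1 4
  have h1 := (d3_small_bdd (W := fun _ => 500 * (B + M) * e ^ 7) measurable_const fun _ =>
    (abs_of_nonneg (by positivity)).le).d3_add (H h (by positivity) (by linarith))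
  refine (d3n_dom h1 (Finset.measurable_sum _ fun j _ => Measurable.sub ?_
    ((measurable_ker.comp (by fun_prop)).const_mul _)) fun x =>
      (h.pt he (by linarith) x).trans (le_abs_self _)).d3_mono ?_
  · exact (StronglyMeasurable.integral_prod_right' (f := fun z : Pt × Pt =>
      ker (z.1 - z.2) * σ j z.2) ((measurable_ker.comp (by fun_prop)).mul
        ((h.meas j).comp measurable_snd)).stronglyMeasurable).measurable
  · have h7 : 0 ≤ e ^ 7 := by positivity
    have h8 : (e ^ 4) ^ 2 ≤ e ^ 7 := by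
      rw [← pow_mul]; exact pow_le_pow_of_le_one he.le (by linarith) (by norm_num)
    have hCB : 0 ≤ C * B := by positivity
    nlinarith [mul_le_mul_of_nonneg_left h8 hCB,
      mul_nonneg (mul_nonneg (by linarith : 0 ≤ C) hM) h7]

end Vale.Agent.P363
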