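import Vale.Agent.P363.D3Near
import Vale.Agent.P349.Newton

/-! Part D3: the potential `ub R + F` comes from a charge density on the ball.

`ball_pot`: transfer `Vale.Agent.P349.nw_real` (with the indicator of `Iic R`) along
`WithLp.toLp 2` (`nrm_eq`, `emb_toLp`, `PiLp.volume_preserving_toLp`), then `integral_radial`
for `r ↦ 1_{r ≤ R} (max r a)⁻¹`, `a = nrm x`.
`dens_pot`, `dens_mass`: `lap F` vanishes where `L < nrm y` (`lap_congr`), so its integrals over the
ball are integrals over the space; `newton`, `integral_lap`.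
`quad_split`: for a measurable set `S` invariant under `rf i`, the integral over `S` is the integral
of `f y + f (rf i y)` over `S ∩ {0 ≤ y i}` (the plane is a null set); apply this twice. -/

namespace Vale.Agent.P363

open MeasureTheory Vale.Agent.P370
open scoped ContDiff

theorem d3_meas_ball (R : ℝ) : MeasurableSet {y : Pt | nrm y ≤ R} :=
  measurableSet_le continuous_nrm.measurable measurable_const

theorem d3_meas_Oq (R : ℝ) : MeasurableSet (Oq R) :=
  (d3_meas_ball R).inter ((measurableSet_le measurable_const (measurable_pi_apply 0)).inter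
    (measurableSet_le measurable_const (measurable_pi_apply 1)))

theorem d3_vol_ne (R : ℝ) : volume {y : Pt | nrm y ≤ R} ≠ ⊤ := by
  refine ((measure_mono fun y hy => ?_).trans_lt
    (measure_closedBall_lt_top (x := (0 : Pt)) (r := R))).ne
  exact mem_closedBall_zero_iff.2 ((norm_le_nrm y).trans hy)

theorem ball_vol {R : ℝ} (hR : 0 < R) :
    volume.real {y : Pt | nrm y ≤ R} = 4 * Real.pi / 3 * R ^ 3 := by
  have h := (rpow_in (a := 0) (by norm_num) hR 0).2
  simp only [zero_sub, nrm_neg, neg_zero, Real.rpow_zero, sub_zero, integral_const,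
    MeasurableSet.univ, measureReal_restrict_apply, Set.univ_inter, smul_eq_mul, mul_one] at h
  rw [h, show (3 : ℝ) = (3 : ℕ) by norm_num, Real.rpow_natCast]
  ring

theorem d3newt_rad {R a : ℝ} (hR : 0 < R) (ha : 0 ≤ a) :
    ∫ r in (0 : ℝ)..R, r ^ 2 * (max r a)⁻¹ =
      if a ≤ R then R ^ 2 / 2 - a ^ 2 / 6 else R ^ 3 / 3 * a⁻¹ := by
  have h1 : ∀ b, 0 ≤ b → b ≤ a → Set.EqOn (fun r : ℝ => r ^ 2 * a⁻¹) (fun r => r ^ 2 * (max r a)⁻¹)
      (Set.uIcc 0 b) := fun b hb hba r hr => by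
    rw [Set.uIcc_of_le hb] at hr
    simp only [max_eq_right (hr.2.trans hba)]
  have h2 : ∀ b, 0 ≤ b → b ≤ a → ∫ r in (0 : ℝ)..b, r ^ 2 * (max r a)⁻¹ = b ^ 3 / 3 * a⁻¹ := by
    intro b hb hba
    rw [← intervalIntegral.integral_congr (h1 b hb hba), intervalIntegral.integral_mul_const,
      integral_pow]
    norm_num
  split_ifs with h
  · have h3 : Set.EqOn (fun r : ℝ => r) (fun r => r ^ 2 * (max r a)⁻¹) (Set.uIcc a R) :=
      fun r hr => by
        rw [Set.uIcc_of_le h] at hr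
        simp only [max_eq_left hr.1]
        rcases eq_or_ne r 0 with rfl | h0
        · simp
        · field_simp
    have i1 : IntervalIntegrable (fun r : ℝ => r ^ 2 * (max r a)⁻¹) volume 0 a :=
      ((by fun_prop : Continuous fun r : ℝ => r ^ 2 * a⁻¹).continuousOn.congr
        (h1 a ha le_rfl).symm).intervalIntegrable
    have i2 : IntervalIntegrable (fun r : ℝ => r ^ 2 * (max r a)⁻¹) volume a R :=
      (continuousOn_id.congr h3.symm).intervalIntegrable
    rw [← intervalIntegral.integral_add_adjacent_intervals i1 i2, h2 a ha le_rfl,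
      ← intervalIntegral.integral_congr h3, integral_id]
    rcases eq_or_ne a 0 with rfl | h0
    · simp
    · field_simp
      ring
  · exact h2 R hR.le (not_le.1 h).le

theorem ball_pot {R : ℝ} (hR : 0 < R) (x : Pt) :
    ∫ y in {y : Pt | nrm y ≤ R}, ker (x - y) = -(4 * Real.pi / 3 * ub R x) := by
  have hg : Measurable ((Set.Iic R).indicator fun _ : ℝ => (1 : ℝ)) :=
    measurable_const.indicator measurableSet_Iic
  have h1 := (Vale.Agent.P349.nw_real hg (c := 1) (R := R)
    (fun r => Set.indicator_nonneg (fun _ _ => zero_le_one) r)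
    (fun r => Set.indicator_le_self' (fun _ _ => zero_le_one) r)
    (fun r hr => Set.indicator_of_notMem (s := Set.Iic R) (not_le.2 hr) _) (WithLp.toLp 2 x)).2.2
  rw [← (PiLp.volume_preserving_toLp (Fin 3)).integral_comp (emb_toLp (Fin 3)),
    ← (PiLp.volume_preserving_toLp (Fin 3)).integral_comp (emb_toLp (Fin 3))] at h1
  simp only [← WithLp.toLp_sub, ← nrm_eq] at h1
  have h2 : ∫ y in {y : Pt | nrm y ≤ R}, ker (x - y) =
      ∫ y : Pt, (Set.Iic R).indicator (fun _ : ℝ => (1 : ℝ)) (nrm y) * (nrm (y - x))⁻¹ := by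
    rw [← integral_indicator (d3_meas_ball R)]
    refine integral_congr_ae (Filter.Eventually.of_forall fun y => ?_)
    by_cases hy : nrm y ≤ R
    · simp [Set.indicator, hy, ker, nrm_sub_comm x y]
    · simp [Set.indicator, hy]
  have h3 : ∫ r in Set.Ioi (0 : ℝ), r ^ 2 * ((Set.Iic R).indicator (fun _ : ℝ => (1 : ℝ)) r *
      (max r (nrm x))⁻¹) = ∫ r in (0 : ℝ)..R, r ^ 2 * (max r (nrm x))⁻¹ := by
    rw [intervalIntegral.integral_of_le hR.le, ← Set.Ioi_inter_Iic,
      ← setIntegral_indicator measurableSet_Iic]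
    refine integral_congr_ae (Filter.Eventually.of_forall fun r => ?_)
    by_cases hr : r ≤ R <;> simp [Set.indicator, hr]
  rw [h2, h1, integral_radial fun r => (Set.Iic R).indicator (fun _ : ℝ => (1 : ℝ)) r *
    (max r (nrm x))⁻¹, h3, d3newt_rad hR (nrm_nonneg x), ub]
  split_ifs <;> ring

theorem d3_meas_ub (R : ℝ) : Measurable (ub R) := by
  have h := continuous_nrm.measurable
  exact Measurable.ite (d3_meas_ball R) (by fun_prop) (by fun_prop)

theorem d3newt_supp {L : ℝ} {F : Pt → ℝ} (h0 : ∀ x, L ≤ nrm x → F x = 0) : HasCompactSupport F :=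
  HasCompactSupport.intro (isCompact_closedBall 0 L) fun x hx =>
    h0 x ((not_le.1 fun h => hx (mem_closedBall_zero_iff.2 h)).le.trans (norm_le_nrm x))

theorem d3newt_lap {R L : ℝ} {F : Pt → ℝ} (hR : L ≤ R) (h0 : ∀ x, L ≤ nrm x → F x = 0) (y : Pt)
    (hy : y ∉ {y : Pt | nrm y ≤ R}) : lap F y = 0 := by
  have h1 : F =ᶠ[nhds y] fun _ => 0 := by
    filter_upwards [continuous_nrm.continuousAt.eventually
      (lt_mem_nhds (hR.trans_lt (not_le.1 hy)))] with z hz
    exact h0 z hz.le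
  have h2 : ∀ k, pd k (fun _ => (0 : ℝ)) = fun _ => 0 := fun k => funext fun z => by simp [pd]
  rw [lap_congr h1]
  simp [lap, h2]

theorem dens_pot {R L : ℝ} {F : Pt → ℝ} (hL : 0 < L) (hR : L ≤ R) (hF : ContDiff ℝ ∞ F)
    (h0 : ∀ x, L ≤ nrm x → F x = 0) (x : Pt) :
    ∫ y in {y : Pt | nrm y ≤ R}, ker (x - y) * ((3 + lap F y) / (4 * Real.pi)) =
      -(ub R x + F x) := by
  have hF2 : ContDiff ℝ 2 F := hF.of_le (WithTop.coe_le_coe.2 (le_top : (2 : ℕ∞) ≤ ⊤))
  have hc := d3newt_supp h0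
  have i1 := integrableOn_ker (d3_vol_ne R) x
  have i2 : Integrable fun y => ker (x - y) * lap F y := by
    simpa only [ker_sub_comm x] using integrable_ker_mul_cc (continuous_lap hF2)
      (hc.of_isClosed_subset (isClosed_tsupport _) (tsupport_lap F)) x
  have e : ∀ y, ker (x - y) * ((3 + lap F y) / (4 * Real.pi)) =
      (4 * Real.pi)⁻¹ * (3 * ker (x - y) + ker (x - y) * lap F y) := fun y => by ring
  simp only [e]
  rw [integral_const_mul, integral_add (i1.const_mul 3) i2.integrableOn, integral_const_mul,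
    ball_pot (hL.trans_le hR), setIntegral_eq_integral_of_forall_compl_eq_zero fun y hy => by
      rw [d3newt_lap hR h0 y hy, mul_zero], newton hF2 hc]
  have := Real.pi_pos
  field_simp
  ring

theorem dens_mass {R L : ℝ} {F : Pt → ℝ} (hL : 0 < L) (hR : L ≤ R) (hF : ContDiff ℝ ∞ F)
    (h0 : ∀ x, L ≤ nrm x → F x = 0) :
    ∫ y in {y : Pt | nrm y ≤ R}, (3 + lap F y) / (4 * Real.pi) = R ^ 3 := by
  have hF2 : ContDiff ℝ 2 F := hF.of_le (WithTop.coe_le_coe.2 (le_top : (2 : ℕ∞) ≤ ⊤))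
  have hc := d3newt_supp h0
  have i2 : Integrable (lap F) := (continuous_lap hF2).integrable_of_hasCompactSupport
    (hc.of_isClosed_subset (isClosed_tsupport _) (tsupport_lap F))
  have i1 : IntegrableOn (fun _ : Pt => (3 : ℝ)) {y : Pt | nrm y ≤ R} :=
    integrableOn_const (d3_vol_ne R)
  rw [integral_div, integral_add i1 i2.integrableOn,
    setIntegral_eq_integral_of_forall_compl_eq_zero (d3newt_lap hR h0), integral_lap hF2 hc,
    setIntegral_const, ball_vol (hL.trans_le hR)]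
  have := Real.pi_pos
  simp only [smul_eq_mul]
  field_simp
  ring

theorem d3newt_half {S : Set Pt} (hS : MeasurableSet S) (i : Fin 3) (hi : ∀ y, rf i y ∈ S ↔ y ∈ S)
    {f : Pt → ℝ} (hf : IntegrableOn f S) : ∫ y in S, f y =
      (∫ y in S ∩ {y | 0 ≤ y i}, f y) + ∫ y in S ∩ {y | 0 ≤ y i}, f (rf i y) := by
  have hH : MeasurableSet {y : Pt | 0 ≤ y i} :=
    measurableSet_le measurable_const (measurable_pi_apply i)
  rw [← integral_inter_add_sdiff hH hf, ← integral_indicator (hS.diff hH), ← d3_int_rf i,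
    ← integral_indicator (s := S ∩ _) (f := fun y => f (rf i y)) (hS.inter hH)]
  congr 1
  refine integral_congr_ae ?_
  filter_upwards [Measure.ae_eval_ne (fun _ : Fin 3 => (volume : Measure ℝ)) i 0] with y hy
  have h1 : rf i y ∈ S \ {y | 0 ≤ y i} ↔ y ∈ S ∩ {y | 0 ≤ y i} := by
    have h2 : rf i y i = -y i := by simp [rf]
    simp only [Set.mem_sdiff, Set.mem_inter_iff, hi, Set.mem_ofPred_eq, h2, not_le, neg_lt_zero]
    exact and_congr_right fun _ => ⟨le_of_lt, fun h => lt_of_le_of_ne h hy.symm⟩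
  by_cases h : y ∈ S ∩ {y | 0 ≤ y i}
  · rw [Set.indicator_of_mem h, Set.indicator_of_mem (h1.2 h)]
  · rw [Set.indicator_of_notMem h, Set.indicator_of_notMem fun h' => h (h1.1 h')]

theorem quad_split {R : ℝ} {f : Pt → ℝ} (hf : IntegrableOn f {y : Pt | nrm y ≤ R}) :
    ∫ y in {y : Pt | nrm y ≤ R}, f y = (∫ y in Oq R, f y) + (∫ y in Oq R, f (rf 0 y)) +
      (∫ y in Oq R, f (rf 1 y)) + ∫ y in Oq R, f (rf 0 (rf 1 y)) := by
  have hB := d3_meas_ball R
  have hH : MeasurableSet {y : Pt | 0 ≤ y 0} :=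
    measurableSet_le measurable_const (measurable_pi_apply 0)
  have hi : ∀ i y, rf i y ∈ {y : Pt | nrm y ≤ R} ↔ y ∈ {y : Pt | nrm y ≤ R} := fun i y => by
    simp only [Set.mem_ofPred_eq, d3_nrm_rf]
  have hf0 : IntegrableOn (fun y => f (rf 0 y)) {y : Pt | nrm y ≤ R} := by
    have h := ((d3_mp_rf 0).restrict_preimage hB).integrable_comp_of_integrable hf
    rwa [show rf 0 ⁻¹' {y : Pt | nrm y ≤ R} = {y : Pt | nrm y ≤ R} from Set.ext (hi 0)] at h
  have hi1 : ∀ y, rf 1 y ∈ {y : Pt | nrm y ≤ R} ∩ {y | 0 ≤ y 0} ↔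
      y ∈ {y : Pt | nrm y ≤ R} ∩ {y | 0 ≤ y 0} := fun y => by
    have h2 : rf 1 y 0 = y 0 := by simp [rf]
    simp only [Set.mem_inter_iff, Set.mem_ofPred_eq, h2, d3_nrm_rf]
  have e : {y : Pt | nrm y ≤ R} ∩ {y | 0 ≤ y 0} ∩ {y | 0 ≤ y 1} = Oq R :=
    Set.ext fun y => and_assoc
  rw [d3newt_half hB 0 (hi 0) hf,
    d3newt_half (hB.inter hH) 1 hi1 (hf.mono_set Set.inter_subset_left),
    d3newt_half (hB.inter hH) 1 hi1 (hf0.mono_set Set.inter_subset_left), e]
  ring

end Vale.Agent.P363
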