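import Vale.Agent.P363.Basic
import Vale.Agent.P370.TwoBodyA
import Vale.Agent.P370.Radial

/-! Part D4a: abstract two-body estimates for sharp orbitals `φ` and smooth orbitals `η`. -/

namespace Vale.Agent.P363

open MeasureTheory Vale.Agent.P370

/-- Pointwise lower bound of the kernel on the supports (`tb_ae`, `integral_prod_mul`). -/
theorem d4a_tlow {f g : Pt → ℝ} (mf : Measurable f) (mg : Measurable g) (hf : ∫ x, f x ^ 2 = 1)
    (hg : ∫ x, g x ^ 2 = 1) {κ : ℝ}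
    (h : ∀ x y, f x ≠ 0 → g y ≠ 0 → x ≠ y → κ ≤ min (ker (x - y)) 1) :
    κ ≤ ∫ p : Pt × Pt, min (ker (p.1 - p.2)) 1 * (f p.1 ^ 2 * g p.2 ^ 2) := by
  have i1 : Integrable fun x => f x ^ 2 :=
    Integrable.of_integral_ne_zero (by rw [hf]; exact one_ne_zero)
  have i2 : Integrable fun x => g x ^ 2 :=
    Integrable.of_integral_ne_zero (by rw [hg]; exact one_ne_zero)
  have i3 : Integrable fun p : Pt × Pt => f p.1 ^ 2 * g p.2 ^ 2 := i1.mul_prod i2
  have i4 : Integrable fun p : Pt × Pt => min (ker (p.1 - p.2)) 1 * (f p.1 ^ 2 * g p.2 ^ 2) :=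
    i3.bdd_mul ((measurable_ker.comp (measurable_fst.sub measurable_snd)).min
        measurable_const).aestronglyMeasurable
      (Filter.Eventually.of_forall fun p => by
        rw [Real.norm_of_nonneg (le_min (ker_nonneg _) zero_le_one)]
        exact min_le_right _ _)
  have j3 : ∫ p : Pt × Pt, f p.1 ^ 2 * g p.2 ^ 2 = 1 := by
    rw [Measure.volume_eq_prod, integral_prod_mul (fun x => f x ^ 2) fun x => g x ^ 2, hf, hg,
      one_mul]
  refine le_trans (le_of_eq ?_) (integral_mono_ae (i3.const_mul κ) i4 ?_)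
  · rw [integral_const_mul, j3, mul_one]
  · filter_upwards [tb_ae] with p hp
    by_cases h1 : f p.1 = 0
    · simp [h1]
    by_cases h2 : g p.2 = 0
    · simp [h2]
    exact mul_le_mul_of_nonneg_right (h _ _ h1 h2 fun e => hp (by rw [e])) (by positivity)

lemma d4aA_point {φ η : Fin 5 → Pt → ℝ} (disj : ∀ a b x, a ≠ b → φ a x * φ b x = 0)
    (agree : ∀ a b x, φ b x ≠ 0 → η a x = φ a x) (d : Fin 5 → Fin 5 → ℝ) (x y : Pt) :
    (∑ a, ∑ b, d a b * (η a x * η b y)) ^ 2 ≤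
      (∑ a, ∑ b, d a b ^ 2 * (φ a x ^ 2 * φ b y ^ 2)) + (∑ a, ∑ b, d a b ^ 2) *
        ((∑ a, (η a x - φ a x) ^ 2) * (∑ a, η a y ^ 2) +
          (∑ a, η a x ^ 2) * ∑ a, (η a y - φ a y) ^ 2) := by
  have n1 : 0 ≤ ∑ a, ∑ b, d a b ^ 2 * (φ a x ^ 2 * φ b y ^ 2) := by positivity
  have n2 : 0 ≤ ∑ a, ∑ b, d a b ^ 2 := by positivity
  have n3 : 0 ≤ (∑ a, (η a x - φ a x) ^ 2) * ∑ a, η a y ^ 2 := by positivity
  have n4 : 0 ≤ (∑ a, η a x ^ 2) * ∑ a, (η a y - φ a y) ^ 2 := by positivity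
  have cs : (∑ a, ∑ b, d a b * (η a x * η b y)) ^ 2 ≤
      (∑ a, ∑ b, d a b ^ 2) * ((∑ a, η a x ^ 2) * ∑ a, η a y ^ 2) := by
    have := Finset.sum_mul_sq_le_sq_mul_sq Finset.univ (fun p : Fin 5 × Fin 5 => d p.1 p.2)
      fun p => η p.1 x * η p.2 y
    rw [Finset.sum_mul_sum]
    simpa only [mul_pow, Fintype.sum_prod_type (α₁ := Fin 5) (α₂ := Fin 5)] using this
  by_cases hx : ∀ a, φ a x = 0
  · simp only [hx, sub_zero] at n1 n3 ⊢
    nlinarith [mul_nonneg n2 n4]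
  by_cases hy : ∀ a, φ a y = 0
  · simp only [hy, sub_zero] at n1 n4 ⊢
    nlinarith [mul_nonneg n2 n3]
  push Not at hx hy
  obtain ⟨a0, ha⟩ := hx
  obtain ⟨b0, hb⟩ := hy
  have e : ∑ a, ∑ b, d a b * (η a x * η b y) = d a0 b0 * (φ a0 x * φ b0 y) := by
    rw [Finset.sum_eq_single a0, Finset.sum_eq_single b0, agree a0 a0 x ha, agree b0 b0 y hb]
    · intro b _ hbb
      rw [agree b b0 y hb, (mul_eq_zero.1 (disj b b0 y hbb)).resolve_right hb]
      simp
    · simp
    · intro a _ haa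
      rw [agree a a0 x ha, (mul_eq_zero.1 (disj a a0 x haa)).resolve_right ha]
      simp
    · simp
  have k : d a0 b0 ^ 2 * (φ a0 x ^ 2 * φ b0 y ^ 2) ≤
      ∑ a, ∑ b, d a b ^ 2 * (φ a x ^ 2 * φ b y ^ 2) :=
    (Finset.single_le_sum (f := fun b => d a0 b ^ 2 * (φ a0 x ^ 2 * φ b y ^ 2))
      (fun b _ => by positivity) (Finset.mem_univ b0)).trans
      (Finset.single_le_sum (f := fun a => ∑ b, d a b ^ 2 * (φ a x ^ 2 * φ b y ^ 2))
        (fun a _ => by positivity) (Finset.mem_univ a0))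
  rw [e, mul_pow, mul_pow]
  nlinarith [mul_nonneg n2 (add_nonneg n3 n4)]

lemma d4aA_off {φ η : Fin 5 → Pt → ℝ} (mφ : ∀ a, Measurable (φ a)) (mη : ∀ a, Measurable (η a))
    (agree : ∀ a b x, φ b x ≠ 0 → η a x = φ a x) {M s δ : ℝ} (hs : 0 ≤ s)
    (hM : ∀ a x, η a x ^ 2 ≤ M) (hE : ∀ a x, x ∉ box s s s → η a x = 0)
    (hδ : ∀ a, ∫ x, (η a x - φ a x) ^ 2 ≤ δ) :
    Integrable (fun p : Pt × Pt => ker (p.1 - p.2) *
      ((∑ a, (η a p.1 - φ a p.1) ^ 2) * (∑ a, η a p.2 ^ 2) +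
        (∑ a, η a p.1 ^ 2) * ∑ a, (η a p.2 - φ a p.2) ^ 2)) ∧
    ∫ p : Pt × Pt, ker (p.1 - p.2) *
      ((∑ a, (η a p.1 - φ a p.1) ^ 2) * (∑ a, η a p.2 ^ 2) +
        (∑ a, η a p.1 ^ 2) * ∑ a, (η a p.2 - φ a p.2) ^ 2) ≤ 50 * M * (7 + 8 * s ^ 3) * δ := by
  have hM0 : 0 ≤ M := (sq_nonneg _).trans (hM 0 0)
  have m1 : Measurable fun x => ∑ a, (η a x - φ a x) ^ 2 := by fun_prop
  have m2 : Measurable fun x => ∑ a, η a x ^ 2 := by fun_prop
  have mk : Measurable fun p : Pt × Pt => ker (p.1 - p.2) :=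
    measurable_ker.comp (measurable_fst.sub measurable_snd)
  have i1 : ∀ a, Integrable fun x => (η a x - φ a x) ^ 2 := fun a => by
    have k1 : Integrable ((box s s s).indicator fun _ => M) :=
      (integrable_indicator_iff (measurableSet_box s s s)).2
        (integrableOn_const (isCompact_box s s s).measure_lt_top.ne)
    refine k1.mono' (((mη a).sub (mφ a)).pow_const 2).aestronglyMeasurable
      (Filter.Eventually.of_forall fun x => ?_)
    rw [Real.norm_of_nonneg (sq_nonneg _)]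
    by_cases h : φ a x = 0
    · by_cases hx : x ∈ box s s s
      · rw [Set.indicator_of_mem hx, h, sub_zero]
        exact hM a x
      · rw [Set.indicator_of_notMem hx, h, hE a x hx]
        simp
    · rw [agree a a x h, sub_self, zero_pow two_ne_zero]
      exact Set.indicator_nonneg (fun _ _ => hM0) x
  have i2 : Integrable fun x => ∑ a, (η a x - φ a x) ^ 2 :=
    integrable_finsetSum _ fun a _ => i1 a
  have j2 : ∫ x, ∑ a, (η a x - φ a x) ^ 2 ≤ 5 * δ := by
    rw [integral_finsetSum _ fun a _ => i1 a]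
    refine (Finset.sum_le_card_nsmul _ _ δ fun a _ => hδ a).trans ?_
    simp
  have b2 : ∀ x, ∑ a, η a x ^ 2 ≤ 5 * M := fun x => by
    refine (Finset.sum_le_card_nsmul _ _ M fun a _ => hM a x).trans ?_
    simp
  have pot := tb_pot3 m2 (fun x => by positivity) b2 (measurableSet_box s s s)
    (isCompact_box _ _ _).measure_lt_top.ne fun x hx => Finset.sum_eq_zero fun a _ => by
      rw [hE a x hx]
      simp
  rw [volume_box hs hs hs] at pot
  obtain ⟨i3, j3⟩ := tb_pot mk (fun _ => ker_nonneg _) m1 m2 (fun x => by positivity)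
    (fun x => by positivity) i2 pot
  obtain ⟨i4, j4⟩ := tb_pot' mk (fun _ => ker_nonneg _) (fun x y => ker_sub_comm x y) m1 m2
    (fun x => by positivity) (fun x => by positivity) i2 pot
  simp only [mul_add (ker _)]
  refine ⟨i3.add i4, ?_⟩
  rw [integral_add i3 i4]
  have k := mul_le_mul_of_nonneg_left j2 (show 0 ≤ 5 * M * (7 + 8 * s * s * s) by positivity)
  calc _ ≤ 2 * (5 * M * (7 + 8 * s * s * s) * (5 * δ)) := by linarith
    _ = _ := by ring

/-- Pattern: `tb_point`, `OK.off_up`, `OK.two_up` of P370/TwoBody.  On the diagonal only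
integrability is needed (`tb_pot`, `tb_pot3`; `φ a ^ 2 ≤ η a ^ 2` by `agree`). -/
theorem d4a_tup {φ η : Fin 5 → Pt → ℝ} (mφ : ∀ a, Measurable (φ a)) (mη : ∀ a, Measurable (η a))
    (disj : ∀ a b x, a ≠ b → φ a x * φ b x = 0) (one : ∀ a, ∫ x, φ a x ^ 2 = 1)
    (agree : ∀ a b x, φ b x ≠ 0 → η a x = φ a x) {M s δ : ℝ} (hs : 0 ≤ s)
    (hM : ∀ a x, η a x ^ 2 ≤ M) (hE : ∀ a x, x ∉ box s s s → η a x = 0)
    (hδ : ∀ a, ∫ x, (η a x - φ a x) ^ 2 ≤ δ) {W : Fin 5 → Fin 5 → ℝ}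
    (hW : ∀ a b, a ≠ b → ∀ x y, φ a x ≠ 0 → φ b y ≠ 0 → ker (x - y) ≤ W a b) :
    ∃ u : ℝ, 0 ≤ u ∧ ∀ d : Fin 5 → Fin 5 → ℝ,
      ∫ p : Pt × Pt, ker (p.1 - p.2) * (∑ a, ∑ b, d a b * (η a p.1 * η b p.2)) ^ 2 ≤
        ∑ a, ∑ b, ((if a = b then u else W a b) + 50 * M * (7 + 8 * s ^ 3) * δ) * d a b ^ 2 := by
  have hM0 : 0 ≤ M := (sq_nonneg _).trans (hM 0 0)
  have mk : Measurable fun p : Pt × Pt => ker (p.1 - p.2) :=
    measurable_ker.comp (measurable_fst.sub measurable_snd)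
  have i0 : ∀ a, Integrable fun x => φ a x ^ 2 := fun a =>
    Integrable.of_integral_ne_zero (by rw [one]; exact one_ne_zero)
  have hF1 : ∀ a b, Integrable fun p : Pt × Pt => ker (p.1 - p.2) * (φ a p.1 ^ 2 * φ b p.2 ^ 2) :=
    fun a b => (tb_pot mk (fun _ => ker_nonneg _) ((mφ a).pow_const 2) ((mφ b).pow_const 2)
      (fun _ => sq_nonneg _) (fun _ => sq_nonneg _) (i0 a)
      (tb_pot3 (B := M) ((mφ b).pow_const 2) (fun _ => sq_nonneg _)
        (fun y => by
          by_cases h : φ b y = 0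
          · rw [h, zero_pow two_ne_zero]
            exact hM0
          · rw [← agree b b y h]
            exact hM b y)
        (measurableSet_box s s s) (isCompact_box _ _ _).measure_lt_top.ne fun y hy => by
          by_cases h : φ b y = 0
          · rw [h, zero_pow two_ne_zero]
          · rw [← agree b b y h, hE b y hy, zero_pow two_ne_zero])).1
  have n0 : ∀ a, 0 ≤ ∫ p : Pt × Pt, ker (p.1 - p.2) * (φ a p.1 ^ 2 * φ a p.2 ^ 2) := fun a =>
    integral_nonneg fun p => mul_nonneg (ker_nonneg _) (by positivity)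
  refine ⟨∑ a, ∫ p : Pt × Pt, ker (p.1 - p.2) * (φ a p.1 ^ 2 * φ a p.2 ^ 2),
    Finset.sum_nonneg fun a _ => n0 a, fun d => ?_⟩
  have hF3 : ∀ a b, ∫ p : Pt × Pt, ker (p.1 - p.2) * (φ a p.1 ^ 2 * φ b p.2 ^ 2) ≤
      if a = b then ∑ a, ∫ p : Pt × Pt, ker (p.1 - p.2) * (φ a p.1 ^ 2 * φ a p.2 ^ 2)
      else W a b := fun a b => by
    split_ifs with h
    · subst h
      exact Finset.single_le_sum (fun a _ => n0 a) (Finset.mem_univ a)
    · refine (integral_mono (hF1 a b) (((i0 a).mul_prod (i0 b)).const_mul (W a b))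
        fun p => ?_).trans (le_of_eq ?_)
      · by_cases h1 : φ a p.1 = 0
        · simp [h1]
        by_cases h2 : φ b p.2 = 0
        · simp [h2]
        exact mul_le_mul_of_nonneg_right (hW a b h _ _ h1 h2) (by positivity)
      · rw [integral_const_mul, Measure.volume_eq_prod,
          integral_prod_mul (fun x => φ a x ^ 2) fun x => φ b x ^ 2, one, one, mul_one, mul_one]
  obtain ⟨i1, j1⟩ := d4aA_off mφ mη agree hs hM hE hδ
  have i2 : ∀ a, Integrable fun p : Pt × Pt =>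
      ∑ b, d a b ^ 2 * (ker (p.1 - p.2) * (φ a p.1 ^ 2 * φ b p.2 ^ 2)) := fun a =>
    integrable_finsetSum _ fun b _ => (hF1 a b).const_mul _
  have i3 : Integrable fun p : Pt × Pt =>
      ∑ a, ∑ b, d a b ^ 2 * (ker (p.1 - p.2) * (φ a p.1 ^ 2 * φ b p.2 ^ 2)) :=
    integrable_finsetSum _ fun a _ => i2 a
  have i4 := i1.const_mul (∑ a, ∑ b, d a b ^ 2)
  refine (integral_mono_of_nonneg (Filter.Eventually.of_forall fun p =>
    mul_nonneg (ker_nonneg _) (sq_nonneg _)) (i3.add i4)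
    (Filter.Eventually.of_forall fun p => ?_)).trans ?_
  · refine (mul_le_mul_of_nonneg_left (d4aA_point disj agree d p.1 p.2) (ker_nonneg _)).trans ?_
    rw [mul_add, Pi.add_apply, mul_left_comm, Finset.mul_sum]
    refine add_le_add (Finset.sum_le_sum fun a _ => ?_) le_rfl
    rw [Finset.mul_sum]
    refine Finset.sum_le_sum fun b _ => ?_
    rw [mul_left_comm]
  · simp only [Pi.add_apply]
    rw [integral_add i3 i4, integral_const_mul, integral_finsetSum _ fun a _ => i2 a]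
    refine (add_le_add le_rfl (mul_le_mul_of_nonneg_left j1 (by positivity))).trans ?_
    rw [Finset.sum_mul, ← Finset.sum_add_distrib]
    refine Finset.sum_le_sum fun a _ => ?_
    rw [integral_finsetSum _ fun b _ => (hF1 a b).const_mul _, Finset.sum_mul,
      ← Finset.sum_add_distrib]
    refine Finset.sum_le_sum fun b _ => ?_
    rw [integral_const_mul, ← mul_add, mul_comm]
    exact mul_le_mul_of_nonneg_right (add_le_add (hF3 a b) le_rfl) (sq_nonneg _)

/-- Pointwise Cauchy-Schwarz. -/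
theorem d4a_close {φ η : Fin 5 → Pt → ℝ} (hi : ∀ a, Integrable fun x => (η a x - φ a x) ^ 2)
    {δ : ℝ} (hδ : ∀ a, ∫ x, (η a x - φ a x) ^ 2 ≤ δ) (c : Fin 5 → ℝ) :
    ∫ x, (lc5 η c x - lc5 φ c x) ^ 2 ≤ 5 * δ * ∑ a, c a ^ 2 := by
  have i2 : Integrable fun x => ∑ a, (η a x - φ a x) ^ 2 :=
    integrable_finsetSum _ fun a _ => hi a
  have j2 : ∫ x, ∑ a, (η a x - φ a x) ^ 2 ≤ 5 * δ := by
    rw [integral_finsetSum _ fun a _ => hi a]
    refine (Finset.sum_le_card_nsmul _ _ δ fun a _ => hδ a).trans ?_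
    simp
  refine (integral_mono_of_nonneg (Filter.Eventually.of_forall fun x => sq_nonneg _)
    (i2.const_mul (∑ a, c a ^ 2)) (Filter.Eventually.of_forall fun x => ?_)).trans ?_
  · have := Finset.sum_mul_sq_le_sq_mul_sq Finset.univ c fun a => η a x - φ a x
    simpa only [lc5, mul_sub, Finset.sum_sub_distrib] using this
  · rw [integral_const_mul, mul_comm]
    exact mul_le_mul_of_nonneg_right j2 (by positivity)

end Vale.Agent.P363
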