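import Vale.Agent.P363.Des
import Vale.Agent.P370.MassA
import Vale.Agent.P370.Radial

/-! Part D4a: geometry of the wells, symmetries, profiles. -/

namespace Vale.Agent.P363

open MeasureTheory Vale.Agent.P370
open scoped ContDiff

theorem d4a_pc0 (x : Pt) : pc (rf 0 x) = -qc x := by
  simp only [pc, qc, rf, Function.update_self, ne_eq, one_ne_zero, not_false_eq_true,
    Function.update_of_ne]
  ring

theorem d4a_qc0 (x : Pt) : qc (rf 0 x) = -pc x := by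
  simp only [pc, qc, rf, Function.update_self, ne_eq, one_ne_zero, not_false_eq_true,
    Function.update_of_ne]
  ring

theorem d4a_pc1 (x : Pt) : pc (rf 1 x) = qc x := by
  simp only [pc, qc, rf, Function.update_self, ne_eq, zero_ne_one, not_false_eq_true,
    Function.update_of_ne]
  ring

theorem d4a_qc1 (x : Pt) : qc (rf 1 x) = pc x := by
  simp only [pc, qc, rf, Function.update_self, ne_eq, zero_ne_one, not_false_eq_true,
    Function.update_of_ne]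
  ring

theorem d4a_z {i : Fin 3} (hi : i ≠ 2) (x : Pt) : rf i x 2 = x 2 :=
  Function.update_of_ne hi.symm _ _

theorem d4a_i {i : Fin 3} (hi : i ≠ 2) : i = 0 ∨ i = 1 := by omega

theorem d4a_bmp_abs {s t : ℝ} (h : |s| = |t|) (a : ℝ) : bmp a s = bmp a t := by
  rcases abs_eq_abs.1 h with h | h
  · rw [h]
  · rw [h, bmp, bmp, mul_comm, sub_neg_eq_add, ← sub_eq_add_neg]

theorem d4a_bmp_neg (a t : ℝ) : bmp a (-t) = bmp a t := d4a_bmp_abs (abs_neg t) a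

theorem d4a_bmp_ne {a t : ℝ} (h : bmp a t ≠ 0) : |t| < a + 1 :=
  not_le.1 fun h' => h (bmp_zero h')

theorem d4a_ctr_rf {i : Fin 3} (hi : i ≠ 2) (a : Fin 5) (x : Pt) :
    |pc (rf i x) - (ctr (pr i a)).1| = |qc x - (ctr a).2| ∧
      |qc (rf i x) - (ctr (pr i a)).2| = |pc x - (ctr a).1| := by
  rcases d4a_i hi with rfl | rfl
  · rw [d4a_pc0, d4a_qc0, ← abs_neg (-qc x - _), ← abs_neg (-pc x - _)]
    fin_cases a <;> simp [ctr, pr] <;> congr 1 <;> ring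
  · rw [d4a_pc1, d4a_qc1]
    fin_cases a <;> simp [ctr, pr]

theorem d4a_sqb_rf {i : Fin 3} (hi : i ≠ 2) (h : ℝ) (a : Fin 5) (x : Pt) :
    sqb h (pr i a) (rf i x) = sqb h a x := by
  rw [sqb, sqb, d4a_bmp_abs (d4a_ctr_rf hi a x).1, d4a_bmp_abs (d4a_ctr_rf hi a x).2, mul_comm]

theorem d4a_pr0 (i : Fin 3) : pr i 0 = 0 := by
  unfold pr
  split_ifs <;> rfl

theorem d4a_pr_ne (i : Fin 3) (a : Fin 5) : pr i a = 0 ↔ a = 0 := by
  revert i a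
  decide

theorem d4a_pr_sum (i : Fin 3) (f : Fin 5 → ℝ) : ∑ a, f (pr i a) = ∑ a, f a := by
  unfold pr
  split_ifs <;> simp [Fin.sum_univ_five] <;> ring

theorem d4a_sqb0_rf {i : Fin 3} (hi : i ≠ 2) (h : ℝ) (x : Pt) :
    sqb h 0 (rf i x) = sqb h 0 x := by
  rw [← d4a_sqb_rf hi h 0 x, d4a_pr0]

theorem d4a_Aw_rf {i : Fin 3} (hi : i ≠ 2) (a : Fin 5) (x : Pt) :
    rf i x ∈ Aw (pr i a) ↔ x ∈ Aw a := by
  simp only [Aw, Set.mem_ofPred_eq, (d4a_ctr_rf hi a x).1, (d4a_ctr_rf hi a x).2, d4a_z hi]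
  tauto

theorem d4a_lon_rf {i : Fin 3} (hi : i ≠ 2) (a : Fin 5) (x : Pt) :
    lon (pr i a) (rf i x) = lon a x ∧ |tra (pr i a) (rf i x)| = |tra a x| := by
  rcases d4a_i hi with rfl | rfl
  · fin_cases a <;> simp [lon, tra, pr, d4a_pc0, d4a_qc0]
  · fin_cases a <;> simp [lon, tra, pr, d4a_pc1, d4a_qc1]

theorem d4a_Xi_rf {i : Fin 3} (hi : i ≠ 2) (x : Pt) : Xi (rf i x) = Xi x := by
  rw [Xi, Xi, d4a_sqb0_rf hi, d4a_z hi]

theorem d4a_th1_rf {i : Fin 3} (hi : i ≠ 2) (a : Fin 5) (x : Pt) :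
    th1 (pr i a) (rf i x) = th1 a x := by
  rw [th1, th1, (d4a_lon_rf hi a x).1, d4a_bmp_abs (d4a_lon_rf hi a x).2, d4a_Xi_rf hi]

theorem d4a_th_rf {i : Fin 3} (hi : i ≠ 2) (a : Fin 5) (x : Pt) :
    th (pr i a) (rf i x) = th a x := by
  simp only [th, d4a_pr_ne, d4a_th1_rf hi, d4a_Xi_rf hi]
  rw [← d4a_pr_sum i fun b => th1 b (rf i x)]
  simp only [d4a_th1_rf hi]

theorem d4a_dd_rf {i : Fin 3} (hi : i ≠ 2) (x : Pt) : dd (rf i x) = dd x := by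
  rw [dd, dd, ← d4a_pr_sum i fun b => sqb aw b (rf i x), crs, crs, d4a_sqb0_rf hi]
  simp only [d4a_sqb_rf hi]
  rcases d4a_i hi with rfl | rfl
  · rw [d4a_pc0, d4a_qc0, d4a_bmp_neg, d4a_bmp_neg, mul_comm (1 - bmp _ (qc x))]
  · rw [d4a_pc1, d4a_qc1, mul_comm (1 - bmp _ (qc x))]

theorem d4a_rho_rf {i : Fin 3} (hi : i ≠ 2) (x : Pt) : rho2 (rf i x) = rho2 x := by
  rcases d4a_i hi with rfl | rfl <;> simp [rho2, rf]

theorem d4a_phi0_rf {D : Des} (h : D.OK) {i : Fin 3} (hi : i ≠ 2) (x : Pt) :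
    D.φ0 (rf i x) = D.φ0 x := by
  simp only [Des.φ0, Des.S, Des.Zf, Des.Yf, Des.Dt, h.even, d4a_z hi, d4a_rho_rf hi,
    d4a_dd_rf hi, d4a_sqb0_rf hi]

/-! ### The ramp -/

theorem d4a_rb (u : ℝ) (h : u ≤ aw + 2 ∨ Lc - aw - 2 ≤ u) :
    bmp (Lc / 2 - aw - 3) (u - Lc / 2) = 0 := by
  refine bmp_zero (le_abs.2 ?_)
  rcases h with h | h
  · right; linarith
  · left; linarith

theorem d4a_rc : Continuous fun u => bmp (Lc / 2 - aw - 3) (u - Lc / 2) :=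
  (contDiff_bmp _).continuous.comp (continuous_id.sub continuous_const)

theorem d4a_rmono : Monotone fun t => ∫ u in (0 : ℝ)..t, bmp (Lc / 2 - aw - 3) (u - Lc / 2) := by
  intro s t hst
  have := intervalIntegral.integral_add_adjacent_intervals (d4a_rc.intervalIntegrable (μ := volume)
    0 s) (d4a_rc.intervalIntegrable s t)
  have h2 : 0 ≤ ∫ u in s..t, bmp (Lc / 2 - aw - 3) (u - Lc / 2) :=
    intervalIntegral.integral_nonneg hst fun u _ => bmp_nonneg _ _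
  dsimp only
  linarith

theorem d4a_r0 {t : ℝ} (h : t ≤ aw + 2) :
    ∫ u in (0 : ℝ)..t, bmp (Lc / 2 - aw - 3) (u - Lc / 2) = 0 := by
  rw [intervalIntegral.integral_congr (g := fun _ => 0) fun u hu => d4a_rb u (Or.inl ?_),
    intervalIntegral.integral_zero]
  have h1 : (0 : ℝ) ≤ aw + 2 := by norm_num [aw]
  exact hu.2.trans (max_le h1 h)

theorem d4a_r1 {t : ℝ} (h : Lc - aw - 2 ≤ t) :
    ∫ u in (0 : ℝ)..t, bmp (Lc / 2 - aw - 3) (u - Lc / 2) =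
      ∫ u in (0 : ℝ)..Lc, bmp (Lc / 2 - aw - 3) (u - Lc / 2) := by
  rw [← intervalIntegral.integral_add_adjacent_intervals (d4a_rc.intervalIntegrable 0 t)
    (d4a_rc.intervalIntegrable t Lc), intervalIntegral.integral_congr (a := t) (g := fun _ => 0)
    fun u hu => d4a_rb u (Or.inr ?_), intervalIntegral.integral_zero, add_zero]
  have h1 : Lc - aw - 2 ≤ Lc := by norm_num [aw, Lc]
  exact (le_min h h1).trans hu.1

theorem d4a_rpos : 0 < ∫ u in (0 : ℝ)..Lc, bmp (Lc / 2 - aw - 3) (u - Lc / 2) := by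
  have h1 := intervalIntegral.integral_add_adjacent_intervals (d4a_rc.intervalIntegrable
    (μ := volume) 0 (Lc / 2)) (d4a_rc.intervalIntegrable (Lc / 2) (Lc / 2 + 1))
  have h2 : ∫ u in (Lc / 2)..(Lc / 2 + 1), bmp (Lc / 2 - aw - 3) (u - Lc / 2) = 1 := by
    rw [intervalIntegral.integral_congr (g := fun _ => 1) fun u hu => bmp_one ?_]
    · simp
    · rw [Set.uIcc_of_le (by linarith)] at hu
      have : (1 : ℝ) ≤ Lc / 2 - aw - 3 := by norm_num [aw, Lc]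
      rw [abs_le]
      constructor <;> linarith [hu.1, hu.2]
  have h3 := d4a_rmono (show Lc / 2 + 1 ≤ Lc by norm_num [Lc])
  have h4 := d4a_rmono (show 0 ≤ Lc / 2 by norm_num [Lc])
  simp only [intervalIntegral.integral_same] at h3 h4
  linarith

theorem d4a_rmp0 {t : ℝ} (h : t ≤ aw + 2) : rmp t = 0 := by rw [rmp, d4a_r0 h, zero_div]

theorem d4a_rmp1 {t : ℝ} (h : Lc - aw - 2 ≤ t) : rmp t = 1 := by
  rw [rmp, d4a_r1 h, div_self d4a_rpos.ne']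

theorem d4a_rmp_mem (t : ℝ) : 0 ≤ rmp t ∧ rmp t ≤ 1 := by
  have h1 := d4a_rmono (min_le_left t (aw + 2))
  have h2 := d4a_rmono (le_max_left t (Lc - aw - 2))
  simp only [d4a_r0 (min_le_right t _), d4a_r1 (le_max_right t _)] at h1 h2
  exact ⟨div_nonneg h1 d4a_rpos.le, (div_le_one d4a_rpos).2 h2⟩

theorem d4a_rmp_cd : ContDiff ℝ ∞ rmp :=
  (ma_prim ((contDiff_bmp _).comp (contDiff_id.sub contDiff_const)) 0).div_const _

/-! ### Smoothness -/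

theorem d4a_pc_cd : ContDiff ℝ ∞ pc := by unfold pc; fun_prop

theorem d4a_qc_cd : ContDiff ℝ ∞ qc := by unfold qc; fun_prop

theorem d4a_sqb_cd (h : ℝ) (a : Fin 5) : ContDiff ℝ ∞ (sqb h a) :=
  ((contDiff_bmp h).comp (d4a_pc_cd.sub contDiff_const)).mul
    ((contDiff_bmp h).comp (d4a_qc_cd.sub contDiff_const))

theorem d4a_Xi_cd : ContDiff ℝ ∞ Xi :=
  (d4a_sqb_cd _ _).mul ((contDiff_bmp 2).comp (contDiff_const.mul (contDiff_apply ℝ ℝ 2)))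

theorem d4a_lon_cd (a : Fin 5) : ContDiff ℝ ∞ (lon a) ∧ ContDiff ℝ ∞ (tra a) := by
  fin_cases a
  exacts [⟨contDiff_const, contDiff_const⟩, ⟨d4a_pc_cd, d4a_qc_cd⟩, ⟨d4a_qc_cd.neg, d4a_pc_cd⟩,
    ⟨d4a_pc_cd.neg, d4a_qc_cd⟩, ⟨d4a_qc_cd, d4a_pc_cd⟩]

theorem d4a_th1_cd (a : Fin 5) : ContDiff ℝ ∞ (th1 a) :=
  ((d4a_rmp_cd.comp (d4a_lon_cd a).1).mul ((contDiff_bmp _).comp (d4a_lon_cd a).2)).mul d4a_Xi_cd

theorem d4a_th_cd (a : Fin 5) : ContDiff ℝ ∞ (th a) := by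
  unfold th
  split_ifs
  · exact d4a_Xi_cd.sub (ContDiff.sum fun b _ => d4a_th1_cd b)
  · exact d4a_th1_cd a

theorem d4a_dd_cd : ContDiff ℝ ∞ dd :=
  ((contDiff_const.sub ((contDiff_const.sub ((contDiff_bmp _).comp d4a_pc_cd)).mul
    (contDiff_const.sub ((contDiff_bmp _).comp d4a_qc_cd)))).mul (d4a_sqb_cd _ _)).add
    (contDiff_const.mul (ContDiff.sum fun a _ => d4a_sqb_cd _ a))

theorem d4a_phi0_cd {D : Des} (h : D.OK) : ContDiff ℝ ∞ D.φ0 := by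
  have h1 : ContDiff ℝ ∞ rho2 := by unfold rho2; fun_prop
  have h2 : ContDiff ℝ ∞ D.Dt := (contDiff_const.mul d4a_dd_cd).add
    ((contDiff_const.mul h1).mul (d4a_sqb_cd _ _))
  have h3 : ContDiff ℝ ∞ D.Zf := (contDiff_const.mul (contDiff_const.add h.smooth)).mul
    ((contDiff_apply ℝ ℝ 2).pow 2)
  have h4 : ContDiff ℝ ∞ D.Yf := (contDiff_const.mul h1).sub
    (((contDiff_bmp 1).comp (contDiff_apply ℝ ℝ 2)).mul h2)
  exact ((h3.add h4).add contDiff_const).neg.exp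

/-! ### Values of the profiles -/

theorem d4a_sqb_mem (h : ℝ) (a : Fin 5) (x : Pt) : 0 ≤ sqb h a x ∧ sqb h a x ≤ 1 :=
  ⟨mul_nonneg (bmp_nonneg _ _) (bmp_nonneg _ _),
    mul_le_one₀ (bmp_le_one _ _) (bmp_nonneg _ _) (bmp_le_one _ _)⟩

theorem d4a_Xi_mem (x : Pt) : 0 ≤ Xi x ∧ Xi x ≤ 1 :=
  ⟨mul_nonneg (d4a_sqb_mem _ _ _).1 (bmp_nonneg _ _),
    mul_le_one₀ (d4a_sqb_mem _ _ _).2 (bmp_nonneg _ _) (bmp_le_one _ _)⟩

theorem d4a_th1_mem (a : Fin 5) (x : Pt) : 0 ≤ th1 a x ∧ th1 a x ≤ 1 :=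
  ⟨mul_nonneg (mul_nonneg (d4a_rmp_mem _).1 (bmp_nonneg _ _)) (d4a_Xi_mem x).1,
    mul_le_one₀ (mul_le_one₀ (d4a_rmp_mem _).2 (bmp_nonneg _ _) (bmp_le_one _ _))
      (d4a_Xi_mem x).1 (d4a_Xi_mem x).2⟩

theorem d4a_th_sq (a : Fin 5) (x : Pt) : th a x ^ 2 ≤ 25 := by
  have h1 := d4a_Xi_mem x
  have h2 := fun b => d4a_th1_mem b x
  have h3 : |th a x| ≤ 5 := by
    rw [th, abs_le]
    split_ifs
    · rw [Fin.sum_univ_five]
      constructor <;> linarith [h2 0, h2 1, h2 2, h2 3, h2 4, (h2 0).1, (h2 1).1, (h2 2).1,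
        (h2 3).1, (h2 4).1, (h2 0).2, (h2 1).2, (h2 2).2, (h2 3).2, (h2 4).2]
    · constructor <;> linarith [(h2 a).1, (h2 a).2]
  nlinarith [sq_abs (th a x), abs_nonneg (th a x)]

theorem d4a_th_ne {a : Fin 5} {x : Pt} (h : th a x ≠ 0) :
    |pc x| < Lc + aw + 4 ∧ |qc x| < Lc + aw + 4 ∧ |x 2| < 3 / 4 := by
  have h1 : Xi x ≠ 0 := fun h0 => h (by simp [th, th1, h0])
  obtain ⟨h2, h3⟩ := mul_ne_zero_iff.1 h1
  obtain ⟨h4, h5⟩ := mul_ne_zero_iff.1 h2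
  have k1 := d4a_bmp_ne h3
  have k2 := d4a_bmp_ne h4
  have k3 := d4a_bmp_ne h5
  simp only [ctr, Matrix.cons_val_zero, sub_zero] at k2 k3
  rw [abs_mul, abs_of_pos (by norm_num : (0 : ℝ) < 4)] at k1
  exact ⟨by linarith, by linarith, by linarith⟩

theorem d4a_ctr_le (a : Fin 5) : |(ctr a).1| ≤ Lc ∧ |(ctr a).2| ≤ Lc ∧
    ((ctr a).1 = 0 ∨ (ctr a).2 = 0) := by
  have : (0 : ℝ) ≤ Lc := by norm_num [Lc]
  fin_cases a <;> simp [ctr, abs_of_nonneg this, this]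

theorem d4a_abs_le {s c h : ℝ} (h1 : |s - c| ≤ h) (h2 : |c| ≤ Lc) : |s| ≤ Lc + h := by
  have := abs_sub_abs_le_abs_sub s c
  linarith

theorem d4a_Xi_one {b : Fin 5} {x : Pt} (hx : x ∈ Aw b) : Xi x = 1 := by
  have h1 := d4a_abs_le hx.1 (d4a_ctr_le b).1
  have h2 := d4a_abs_le hx.2.1 (d4a_ctr_le b).2.1
  have h3 : |4 * x 2| ≤ 2 := by
    rw [abs_mul, abs_of_pos (by norm_num : (0 : ℝ) < 4)]
    linarith [hx.2.2]
  simp only [Xi, sqb, ctr, Matrix.cons_val_zero, sub_zero]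
  rw [bmp_one (by linarith), bmp_one (by linarith), bmp_one h3]
  norm_num

theorem d4a_th1_Aw (a : Fin 5) {b : Fin 5} {x : Pt} (hx : x ∈ Aw b) :
    th1 a x = if a = b ∧ a ≠ 0 then 1 else 0 := by
  have h1 := abs_le.1 hx.1
  have h2 := abs_le.1 hx.2.1
  have h3 : (0 : ℝ) ≤ aw := by norm_num [aw]
  have h4 : (0 : ℝ) ≤ Lc := by norm_num [Lc]
  rw [th1, d4a_Xi_one hx, mul_one]
  split_ifs with h
  · obtain ⟨rfl, h⟩ := h
    rw [d4a_rmp1, bmp_one, mul_one]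
    · rw [abs_le]
      fin_cases a <;> simp [ctr, tra] at h h1 h2 ⊢ <;> constructor <;> linarith [h1.1, h1.2, h2.1, h2.2]
    · fin_cases a <;> simp [ctr, lon] at h h1 h2 ⊢ <;> linarith [h1.1, h1.2, h2.1, h2.2]
  · rw [d4a_rmp0, zero_mul]
    fin_cases a <;> fin_cases b <;> simp [ctr, lon] at h h1 h2 ⊢ <;>
      linarith [h1.1, h1.2, h2.1, h2.2]

theorem d4a_th_Aw (a : Fin 5) {b : Fin 5} {x : Pt} (hx : x ∈ Aw b) :
    th a x = if a = b then 1 else 0 := by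
  simp only [th, d4a_th1_Aw _ hx, d4a_Xi_one hx, Fin.sum_univ_five]
  fin_cases a <;> fin_cases b <;> simp

end Vale.Agent.P363
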