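import Vale.Agent.P363.Des
import Vale.Agent.P370.Reg

/-! Shared facts about the design: smoothness and symmetry. -/

namespace Vale.Agent.P363

open MeasureTheory Vale.Agent.P370
open scoped ContDiff

/-! ### Smoothness -/

theorem cd_co (k : Fin 3) : ContDiff ℝ ∞ fun x : Pt => x k := contDiff_apply ℝ ℝ k
theorem cd_pc : ContDiff ℝ ∞ pc := ((cd_co 0).add (cd_co 1)).div_const _
theorem cd_qc : ContDiff ℝ ∞ qc := ((cd_co 0).sub (cd_co 1)).div_const _
theorem cd_sqb (h : ℝ) (a : Fin 5) : ContDiff ℝ ∞ (sqb h a) :=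
  ((contDiff_bmp h).comp (cd_pc.sub contDiff_const)).mul
    ((contDiff_bmp h).comp (cd_qc.sub contDiff_const))
theorem cd_crs : ContDiff ℝ ∞ crs :=
  (contDiff_const.sub ((contDiff_const.sub ((contDiff_bmp _).comp cd_pc)).mul
    (contDiff_const.sub ((contDiff_bmp _).comp cd_qc)))).mul (cd_sqb _ _)
theorem cd_dd : ContDiff ℝ ∞ dd :=
  cd_crs.add (contDiff_const.mul (ContDiff.sum fun a _ => cd_sqb aw a))
theorem cd_rho2 : ContDiff ℝ ∞ rho2 := ((cd_co 0).pow 2).add ((cd_co 1).pow 2)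
theorem cd_rmp : ContDiff ℝ ∞ rmp :=
  (ma_prim (f := fun u => bmp (Lc / 2 - aw - 3) (u - Lc / 2))
    ((contDiff_bmp _).comp (contDiff_id.sub contDiff_const)) 0).div_const _
theorem cd_Xi : ContDiff ℝ ∞ Xi :=
  (cd_sqb _ _).mul ((contDiff_bmp 2).comp (contDiff_const.mul (cd_co 2)))
theorem cd_lon (a : Fin 5) : ContDiff ℝ ∞ (lon a) := by
  fin_cases a
  exacts [contDiff_const, cd_pc, cd_qc.neg, cd_pc.neg, cd_qc]
theorem cd_tra (a : Fin 5) : ContDiff ℝ ∞ (tra a) := by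
  fin_cases a
  exacts [contDiff_const, cd_qc, cd_pc, cd_qc, cd_pc]
theorem cd_th1 (a : Fin 5) : ContDiff ℝ ∞ (th1 a) :=
  ((cd_rmp.comp (cd_lon a)).mul ((contDiff_bmp _).comp (cd_tra a))).mul cd_Xi
theorem cd_th (a : Fin 5) : ContDiff ℝ ∞ (th a) := by
  by_cases h : a = 0
  · have : th a = fun x => Xi x - ∑ b, th1 b x := funext fun x => if_pos h
    rw [this]
    exact cd_Xi.sub (ContDiff.sum fun b _ => cd_th1 b)
  · have : th a = th1 a := funext fun x => if_neg h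
    rw [this]
    exact cd_th1 a
theorem cd_hub : ContDiff ℝ ∞ hub := (cd_sqb _ _).mul ((contDiff_bmp 1).comp (cd_co 2))
theorem Des.cd_Dt (D : Des) : ContDiff ℝ ∞ D.Dt :=
  (contDiff_const.mul cd_dd).add ((contDiff_const.mul cd_rho2).mul (cd_sqb _ _))
theorem Des.cd_Yf (D : Des) : ContDiff ℝ ∞ D.Yf :=
  (contDiff_const.mul cd_rho2).sub (((contDiff_bmp 1).comp (cd_co 2)).mul D.cd_Dt)
theorem Des.cd_Gam (D : Des) : ContDiff ℝ ∞ D.Gam :=
  contDiff_const.mul (contDiff_const.sub ((cd_sqb _ _).mul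
    ((contDiff_bmp 3).comp (contDiff_const.mul (cd_co 2)))))
theorem Des.OK.cd_Zf {D : Des} (h : D.OK) : ContDiff ℝ ∞ D.Zf :=
  (contDiff_const.mul (contDiff_const.add h.smooth)).mul ((cd_co 2).pow 2)
theorem Des.OK.cd_S {D : Des} (h : D.OK) : ContDiff ℝ ∞ D.S :=
  (h.cd_Zf.add D.cd_Yf).add contDiff_const
theorem Des.OK.cd_φ0 {D : Des} (h : D.OK) : ContDiff ℝ ∞ D.φ0 := h.cd_S.neg.exp
theorem cd_pd {f : Pt → ℝ} (hf : ContDiff ℝ ∞ f) (k : Fin 3) : ContDiff ℝ ∞ (pd k f) :=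
  nw_contDiff_pd hf (by exact_mod_cast le_top) k
theorem cd_gsq {f : Pt → ℝ} (hf : ContDiff ℝ ∞ f) : ContDiff ℝ ∞ (gsq f) :=
  ContDiff.sum fun k _ => (cd_pd hf k).pow 2
theorem cd_lap {f : Pt → ℝ} (hf : ContDiff ℝ ∞ f) : ContDiff ℝ ∞ (lap f) :=
  ContDiff.sum fun k _ => cd_pd (cd_pd hf k) k
theorem Des.OK.cd_Vref {D : Des} (h : D.OK) : ContDiff ℝ ∞ D.Vref :=
  (contDiff_const.mul (cd_gsq h.cd_S)).sub (contDiff_const.mul (cd_lap h.cd_S))
theorem Des.OK.cd_F {D : Des} (h : D.OK) : ContDiff ℝ ∞ D.F :=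
  (((h.cd_Vref.add D.cd_Gam).sub contDiff_const).add contDiff_const).sub
    (contDiff_const.mul (ContDiff.sum fun k _ => (cd_co k).pow 2))
theorem cont_nrm : Continuous nrm := by unfold nrm; fun_prop
theorem measurable_ub (R : ℝ) : Measurable (ub R) := by
  have := cont_nrm.measurable
  exact Measurable.ite (measurableSet_le this measurable_const)
    (((this.pow_const 2).const_mul _).sub measurable_const) (measurable_const.div this).neg
theorem Des.OK.measurable_U {D : Des} (h : D.OK) : Measurable D.U :=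
  (measurable_ub _).add h.cd_F.continuous.measurable

/-! ### Rotated coordinates and symmetry -/

theorem pc_sq_add (x : Pt) : pc x ^ 2 + qc x ^ 2 = rho2 x := by
  simp only [pc, qc, rho2, div_pow, Real.sq_sqrt (by norm_num : (0 : ℝ) ≤ 2)]
  ring
theorem nrm_sq_eq (x : Pt) : nrm x ^ 2 = rho2 x + x 2 ^ 2 := by
  rw [nrm, Real.sq_sqrt (by positivity), Fin.sum_univ_three, rho2]
theorem rf_sq (i k : Fin 3) (x : Pt) : rf i x k ^ 2 = x k ^ 2 := by
  unfold rf
  by_cases h : k = i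
  · subst h; simp
  · rw [Function.update_of_ne h]
theorem nrm_rf (i : Fin 3) (x : Pt) : nrm (rf i x) = nrm x := by simp only [nrm, rf_sq]
theorem rho2_rf (i : Fin 3) (x : Pt) : rho2 (rf i x) = rho2 x := by simp only [rho2, rf_sq]
theorem rf_two {i : Fin 3} (hi : i ≠ 2) (x : Pt) : rf i x 2 = x 2 :=
  Function.update_of_ne hi.symm _ _
theorem rf_rfA (i : Fin 3) (x : Pt) : rf i (rf i x) = x := by simp [rf]
theorem pc_rf0 (x : Pt) : pc (rf 0 x) = -qc x := by simp [pc, qc, rf]; ring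
theorem qc_rf0 (x : Pt) : qc (rf 0 x) = -pc x := by simp [pc, qc, rf]; ring
theorem pc_rf1 (x : Pt) : pc (rf 1 x) = qc x := by simp [pc, qc, rf]; ring
theorem qc_rf1 (x : Pt) : qc (rf 1 x) = pc x := by simp [pc, qc, rf]
theorem bmp_neg (a t : ℝ) : bmp a (-t) = bmp a t := by
  rw [bmp, bmp, mul_comm, sub_neg_eq_add, ← sub_eq_add_neg]
theorem bmp_abs (a t : ℝ) : bmp a |t| = bmp a t := by
  rcases abs_choice t with h | h <;> rw [h]
  exact bmp_neg a t
/-- The plateau function decreases away from the centre. -/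
theorem bmp_anti {a s t : ℝ} (ha : 0 ≤ a) (h : |s| ≤ |t|) : bmp a t ≤ bmp a s := by
  rw [← bmp_abs a t, ← bmp_abs a s, bmp, bmp,
    Real.smoothTransition.one_of_one_le (x := a + 1 + |t|) (by linarith [abs_nonneg t]),
    Real.smoothTransition.one_of_one_le (x := a + 1 + |s|) (by linarith [abs_nonneg s]),
    mul_one, mul_one]
  exact Real.smoothTransition.monotone (by linarith)
theorem ne_two {i : Fin 3} (hi : i ≠ 2) : i = 0 ∨ i = 1 := by
  fin_cases i <;> simp at hi ⊢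
/-- The two offsets from the centre are exchanged, up to sign. -/
theorem off_rf {i : Fin 3} (hi : i ≠ 2) (a : Fin 5) (x : Pt) :
    |pc (rf i x) - (ctr (pr i a)).1| = |qc x - (ctr a).2| ∧
      |qc (rf i x) - (ctr (pr i a)).2| = |pc x - (ctr a).1| := by
  rcases ne_two hi with rfl | rfl
  · rw [pc_rf0, qc_rf0]
    fin_cases a <;> simp [pr, ctr] <;> (rw [← abs_neg]; congr 1; ring)
  · rw [pc_rf1, qc_rf1]
    fin_cases a <;> simp [pr, ctr]
theorem sqb_rf {i : Fin 3} (hi : i ≠ 2) (h : ℝ) (a : Fin 5) (x : Pt) :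
    sqb h (pr i a) (rf i x) = sqb h a x := by
  obtain ⟨h1, h2⟩ := off_rf hi a x
  rw [sqb, sqb, ← bmp_abs h (pc (rf i x) - _), ← bmp_abs h (qc (rf i x) - _), h1, h2, bmp_abs,
    bmp_abs, mul_comm]
theorem pr_zero (i : Fin 3) : pr i 0 = 0 := by unfold pr; split_ifs <;> rfl
theorem pr_pr (i : Fin 3) (a : Fin 5) : pr i (pr i a) = a := by revert i a; decide
/-- The reflection as a permutation of the sites. -/
def prE (i : Fin 3) : Fin 5 ≃ Fin 5 := ⟨pr i, pr i, pr_pr i, pr_pr i⟩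
theorem sum_pr (i : Fin 3) (f : Fin 5 → ℝ) : ∑ a, f (pr i a) = ∑ a, f a :=
  Equiv.sum_comp (prE i) f
theorem sqb0_rf {i : Fin 3} (hi : i ≠ 2) (h : ℝ) (x : Pt) : sqb h 0 (rf i x) = sqb h 0 x := by
  have := sqb_rf hi h 0 x
  rwa [pr_zero] at this
theorem crs_rf {i : Fin 3} (hi : i ≠ 2) (x : Pt) : crs (rf i x) = crs x := by
  rw [crs, crs, sqb0_rf hi]
  rcases ne_two hi with rfl | rfl
  · rw [pc_rf0, qc_rf0, bmp_neg, bmp_neg]; ring
  · rw [pc_rf1, qc_rf1]; ring
theorem dd_rf {i : Fin 3} (hi : i ≠ 2) (x : Pt) : dd (rf i x) = dd x := by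
  rw [dd, dd, crs_rf hi, ← sum_pr i fun a => sqb aw a (rf i x)]
  simp only [sqb_rf hi]
theorem Xi_rf {i : Fin 3} (hi : i ≠ 2) (x : Pt) : Xi (rf i x) = Xi x := by
  rw [Xi, Xi, sqb0_rf hi, rf_two hi]
theorem th1_rf {i : Fin 3} (hi : i ≠ 2) (a : Fin 5) (x : Pt) :
    th1 (pr i a) (rf i x) = th1 a x := by
  rw [th1, th1, Xi_rf hi]
  rcases ne_two hi with rfl | rfl <;> fin_cases a <;>
    simp [pr, lon, tra, pc_rf0, qc_rf0, pc_rf1, qc_rf1, bmp_neg]
theorem th_rf {i : Fin 3} (hi : i ≠ 2) (a : Fin 5) (x : Pt) : th (pr i a) (rf i x) = th a x := by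
  by_cases h : a = 0
  · subst h
    rw [pr_zero, th, th, if_pos rfl, if_pos rfl, Xi_rf hi, ← sum_pr i fun a => th1 a (rf i x)]
    simp only [th1_rf hi]
  · have : pr i a ≠ 0 := fun e => h (by rw [← pr_pr i a, e, pr_zero])
    rw [th, th, if_neg h, if_neg this, th1_rf hi]
theorem hub_rf {i : Fin 3} (hi : i ≠ 2) (x : Pt) : hub (rf i x) = hub x := by
  rw [hub, hub, sqb0_rf hi, rf_two hi]
theorem Aw_rf {i : Fin 3} (hi : i ≠ 2) (a : Fin 5) (x : Pt) : rf i x ∈ Aw (pr i a) ↔ x ∈ Aw a := by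
  obtain ⟨h1, h2⟩ := off_rf hi a x
  simp only [Aw, Set.mem_ofPred_eq, h1, h2, rf_two hi]
  tauto
theorem Des.Dt_rf (D : Des) {i : Fin 3} (hi : i ≠ 2) (x : Pt) : D.Dt (rf i x) = D.Dt x := by
  rw [Des.Dt, Des.Dt, dd_rf hi, rho2_rf, sqb0_rf hi]
theorem Des.Yf_rf (D : Des) {i : Fin 3} (hi : i ≠ 2) (x : Pt) : D.Yf (rf i x) = D.Yf x := by
  rw [Des.Yf, Des.Yf, D.Dt_rf hi, rho2_rf, rf_two hi]
theorem Des.Gam_rf (D : Des) {i : Fin 3} (hi : i ≠ 2) (x : Pt) : D.Gam (rf i x) = D.Gam x := by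
  rw [Des.Gam, Des.Gam, sqb0_rf hi, rf_two hi]
theorem Des.OK.Zf_rf {D : Des} (h : D.OK) (i : Fin 3) (x : Pt) : D.Zf (rf i x) = D.Zf x := by
  rw [Des.Zf, Des.Zf, h.even, rf_sq]
theorem Des.OK.S_rf {D : Des} (h : D.OK) {i : Fin 3} (hi : i ≠ 2) (x : Pt) :
    D.S (rf i x) = D.S x := by rw [Des.S, Des.S, h.Zf_rf, D.Yf_rf hi]
/-- The reflection as a linear equivalence. -/
noncomputable def rfL (i : Fin 3) : Pt ≃L[ℝ] Pt :=
  LinearEquiv.toContinuousLinearEquiv
    { toFun := rf i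
      invFun := rf i
      left_inv := rf_rfA i
      right_inv := rf_rfA i
      map_add' := fun x y => by
        funext k; by_cases h : k = i
        · subst h; simp [rf]; ring
        · simp [rf, Function.update_of_ne h]
      map_smul' := fun c x => by
        funext k; by_cases h : k = i
        · subst h; simp [rf]
        · simp [rf, Function.update_of_ne h] }
theorem rf_ek (i k : Fin 3) : rf i (ek k) = (if k = i then -1 else 1 : ℝ) • ek k := by
  funext j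
  by_cases h : j = i
  · subst h
    by_cases h' : k = j
    · subst h'; simp [rf, ek]
    · simp [rf, ek, h']
  · by_cases h' : k = i
    · subst h'; simp [rf, ek, Function.update_of_ne h, Pi.single_eq_of_ne h]
    · simp [rf, Function.update_of_ne h, h']
/-- Derivative of a reflected function. -/
theorem pd_comp_rf (f : Pt → ℝ) (i k : Fin 3) (x : Pt) :
    pd k (fun y => f (rf i y)) x = (if k = i then -1 else 1) * pd k f (rf i x) := by
  have := (rfL i).comp_right_fderiv (f := f) (x := x)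
  have e : (fun y => f (rf i y)) = f ∘ rfL i := rfl
  rw [pd, e, this, ContinuousLinearMap.comp_apply]
  change fderiv ℝ f (rf i x) (rf i (ek k)) = _
  rw [rf_ek, map_smul, smul_eq_mul, pd]
theorem pd_rf {f : Pt → ℝ} {i : Fin 3} (hf : ∀ x, f (rf i x) = f x) (k : Fin 3) (x : Pt) :
    pd k f (rf i x) = (if k = i then -1 else 1) * pd k f x := by
  have := pd_comp_rf f i k (rf i x)
  rwa [funext hf, rf_rfA] at this
theorem gsq_rf {f : Pt → ℝ} {i : Fin 3} (hf : ∀ x, f (rf i x) = f x) (x : Pt) :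
    gsq f (rf i x) = gsq f x := by
  refine Finset.sum_congr rfl fun k _ => ?_
  rw [pd_rf hf]
  split_ifs <;> ring
theorem lap_rf {f : Pt → ℝ} {i : Fin 3} (hf : ∀ x, f (rf i x) = f x) (x : Pt) :
    lap f (rf i x) = lap f x := by
  refine Finset.sum_congr rfl fun k _ => ?_
  have h1 := pd_comp_rf (pd k f) i k x
  simp only [pd_rf hf] at h1
  by_cases h : k = i
  · simp only [if_pos h, neg_mul, one_mul] at h1
    have : pd k (fun y => -pd k f y) x = -pd k (pd k f) x := by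
      rw [pd, fderiv_fun_neg]; rfl
    linarith
  · simp only [if_neg h, one_mul] at h1
    exact h1.symm
theorem Des.OK.F_rf {D : Des} (h : D.OK) {i : Fin 3} (hi : i ≠ 2) (x : Pt) :
    D.F (rf i x) = D.F x := by
  simp only [Des.F, Des.Vref, gsq_rf (h.S_rf hi), lap_rf (h.S_rf hi), D.Gam_rf hi, rf_sq]
theorem Des.OK.U_rf {D : Des} (h : D.OK) {i : Fin 3} (hi : i ≠ 2) (x : Pt) :
    D.U (rf i x) = D.U x := by
  simp only [Des.U, h.F_rf hi, ub, nrm_rf]

end Vale.Agent.P363
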