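import Vale.Agent.P363.D4aB
import Vale.Agent.P363.DesA

/-! Part D4a: distances between the wells. -/

namespace Vale.Agent.P363

open MeasureTheory Vale.Agent.P370

theorem d4a_nrm (x y : Pt) :
    nrm (x - y) ^ 2 = (pc x - pc y) ^ 2 + (qc x - qc y) ^ 2 + (x 2 - y 2) ^ 2 := by
  have h1 : pc x - pc y = pc (x - y) := by simp only [pc, Pi.sub_apply]; ring
  have h2 : qc x - qc y = qc (x - y) := by simp only [qc, Pi.sub_apply]; ring
  rw [h1, h2, pc_sq_add, nrm_sq_eq, Pi.sub_apply]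

theorem d4a_s2 : √2 * √2 = 2 := Real.mul_self_sqrt (by norm_num)

theorem d4a_s2' : 141421356 / 10 ^ 8 ≤ √2 ∧ √2 ≤ 141421357 / 10 ^ 8 :=
  ⟨Real.le_sqrt_of_sq_le (by norm_num), Real.sqrt_le_iff.2 ⟨by norm_num, by norm_num⟩⟩

/-- The centre of a well. -/
noncomputable def d4aC (a : Fin 5) : Pt :=
  ![((ctr a).1 + (ctr a).2) / √2, ((ctr a).1 - (ctr a).2) / √2, 0]

theorem d4aC_eq (a : Fin 5) : pc (d4aC a) = (ctr a).1 ∧ qc (d4aC a) = (ctr a).2 ∧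
    d4aC a 2 = 0 := by
  have h : √2 ≠ 0 := by positivity
  refine ⟨?_, ?_, rfl⟩
  · simp only [pc, d4aC, Matrix.cons_val_zero, Matrix.cons_val_one]
    field_simp
    rw [sq, d4a_s2]
    ring
  · simp only [qc, d4aC, Matrix.cons_val_zero, Matrix.cons_val_one]
    field_simp
    rw [sq, d4a_s2]
    ring

theorem d4a_rad {a : Fin 5} {x : Pt} (hx : x ∈ Aw a) : nrm (x - d4aC a) ≤ 2 * aw := by
  have h := d4a_nrm x (d4aC a)
  rw [(d4aC_eq a).1, (d4aC_eq a).2.1, (d4aC_eq a).2.2, sub_zero] at h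
  have h1 := sq_le_sq' (abs_le.1 hx.1).1 (abs_le.1 hx.1).2
  have h2 := sq_le_sq' (abs_le.1 hx.2.1).1 (abs_le.1 hx.2.1).2
  have h3 := sq_le_sq' (abs_le.1 hx.2.2).1 (abs_le.1 hx.2.2).2
  refine (abs_le_of_sq_le_sq' ?_ (by norm_num [aw])).2
  rw [h]
  refine (add_le_add (add_le_add h1 h2) h3).trans ?_
  norm_num [aw]

theorem d4a_dist {a b : Fin 5} {x y : Pt} (hx : x ∈ Aw a) (hy : y ∈ Aw b) :
    nrm (x - y) ≤ nrm (d4aC a - d4aC b) + 4 * aw ∧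
      nrm (d4aC a - d4aC b) ≤ nrm (x - y) + 4 * aw := by
  have h1 := d4a_rad hx
  have h2 := d4a_rad hy
  have h3 := nrm_add_le (x - d4aC a) (d4aC a - y)
  have h4 := nrm_add_le (d4aC a - d4aC b) (d4aC b - y)
  have h5 := nrm_add_le (d4aC a - x) (x - d4aC b)
  have h6 := nrm_add_le (x - y) (y - d4aC b)
  rw [sub_add_sub_cancel] at h3 h4 h5 h6
  rw [nrm_sub_comm (d4aC b) y] at h4
  rw [nrm_sub_comm (d4aC a) x] at h5
  constructor <;> linarith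

theorem d4a_pair (u : ℝ) {a b : Fin 5} (h : a ≠ b) :
    (nrm (d4aC a - d4aC b) = Lc ∧ Vm u a b = 1) ∨
      (nrm (d4aC a - d4aC b) = √2 * Lc ∧ Vm u a b = 7071068 / 10 ^ 7) ∨
      (nrm (d4aC a - d4aC b) = 2 * Lc ∧ Vm u a b = 1 / 2) := by
  have hL : (0 : ℝ) ≤ Lc := by norm_num [Lc]
  have h1 := d4a_nrm (d4aC a) (d4aC b)
  rw [(d4aC_eq a).1, (d4aC_eq a).2.1, (d4aC_eq a).2.2, (d4aC_eq b).1, (d4aC_eq b).2.1,
    (d4aC_eq b).2.2] at h1
  have h2 : ∀ r : ℝ, 0 ≤ r → (nrm (d4aC a - d4aC b) = r ↔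
      ((ctr a).1 - (ctr b).1) ^ 2 + ((ctr a).2 - (ctr b).2) ^ 2 = r ^ 2) := fun r hr => by
    rw [← sq_eq_sq₀ (nrm_nonneg _) hr, h1]
    simp
  rw [h2 _ hL, h2 _ (by positivity), h2 _ (by positivity), mul_pow, sq √2, d4a_s2]
  fin_cases a <;> fin_cases b <;> simp [ctr, Vm] at h ⊢ <;> norm_num <;> ring_nf

theorem d4a_far {a b : Fin 5} (h : a ≠ b) {x y : Pt} (hx : x ∈ Aw a) (hy : y ∈ Aw b) (u : ℝ) :
    (Vm u a b - tol) / Lc ≤ min (ker (x - y)) 1 ∧ ker (x - y) ≤ (Vm u a b + tol / 2) / Lc := by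
  obtain ⟨h1, h2⟩ := d4a_dist hx hy
  obtain ⟨s1, s2⟩ := d4a_s2'
  have hL : (0 : ℝ) < Lc := by norm_num [Lc]
  have key : ∀ v : ℝ, 1 / 2 ≤ v → v ≤ 1 → 0 < nrm (x - y) → (v - tol) * nrm (x - y) ≤ Lc →
      Lc ≤ (v + tol / 2) * nrm (x - y) →
      (v - tol) / Lc ≤ min (ker (x - y)) 1 ∧ ker (x - y) ≤ (v + tol / 2) / Lc := by
    intro v v1 v2 k0 k1 k2
    rw [ker, inv_eq_one_div, le_min_iff, div_le_div_iff₀ hL k0, div_le_div_iff₀ k0 hL,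
      div_le_one hL]
    refine ⟨⟨by linarith, ?_⟩, by linarith⟩
    norm_num [tol, Lc]
    linarith
  rcases d4a_pair u h with ⟨e, e'⟩ | ⟨e, e'⟩ | ⟨e, e'⟩ <;> rw [e] at h1 h2 <;> rw [e'] <;>
    refine key _ (by norm_num) (by norm_num) ?_ ?_ ?_ <;> norm_num [tol, Lc, aw] at * <;> linarith

theorem d4a_disj {a b : Fin 5} (h : a ≠ b) {x : Pt} (hx : x ∈ Aw a) : x ∉ Aw b := fun hy => by
  have h1 := (d4a_far h hx hy 0).1
  have h2 : ker (x - x) = 0 := by simp [ker, nrm]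
  rw [h2, min_eq_left zero_le_one] at h1
  rcases d4a_pair 0 h with ⟨_, e⟩ | ⟨_, e⟩ | ⟨_, e⟩ <;> rw [e] at h1 <;> norm_num [tol, Lc] at h1

theorem d4a_near {a : Fin 5} {x y : Pt} (hx : x ∈ Aw a) (hy : y ∈ Aw a) (h : x ≠ y) :
    (Vm (10 ^ 5) a a - tol) / Lc ≤ min (ker (x - y)) 1 := by
  have h1 := (d4a_dist hx hy).1
  have h2 : nrm (d4aC a - d4aC a) = 0 := by simp [nrm]
  have h3 := nrm_pos (sub_ne_zero.2 h)
  rw [h2, zero_add] at h1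
  rw [Vm, if_pos rfl, ker, inv_eq_one_div, le_min_iff,
    div_le_div_iff₀ (by norm_num [Lc]) h3]
  norm_num [tol, Lc, aw] at *
  linarith

theorem d4a_co (x : Pt) : x 0 = (pc x + qc x) / √2 ∧ x 1 = (pc x - qc x) / √2 := by
  have h : √2 ≠ 0 := by positivity
  simp only [pc, qc]
  constructor <;> field_simp <;> rw [sq, d4a_s2] <;> ring

theorem d4a_quad {x : Pt} (hx : x ∈ Aw 1) : x ∈ Qd := by
  have h1 := abs_le.1 hx.1
  have h2 := abs_le.1 hx.2.1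
  have h3 : 2 * aw + 2 < Lc := by norm_num [aw, Lc]
  simp only [ctr, Matrix.cons_val_one, Matrix.cons_val_zero, sub_zero] at h1 h2
  refine ⟨?_, ?_⟩
  · rw [(d4a_co x).1]
    exact div_pos (by linarith [h1.1, h2.1]) (by positivity)
  · rw [(d4a_co x).2]
    exact div_pos (by linarith [h1.1, h2.2]) (by positivity)

theorem d4a_box {x : Pt} (hp : |pc x| ≤ Lc + aw + 4) (hq : |qc x| ≤ Lc + aw + 4)
    (hz : |x 2| ≤ 1) : x ∈ box (2 * Lc) (2 * Lc) (2 * Lc) := by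
  have h1 := abs_le.1 hp
  have h2 := abs_le.1 hq
  have h3 := d4a_s2'.1
  have h4 : ∀ t : ℝ, |t| ≤ 2 * (Lc + aw + 4) → |t / √2| ≤ 2 * Lc := fun t ht => by
    rw [abs_div, abs_of_pos (show 0 < √2 by positivity), div_le_iff₀ (by positivity)]
    norm_num [Lc, aw] at *
    linarith
  refine ⟨?_, ?_, hz.trans (by norm_num [Lc])⟩
  · rw [(d4a_co x).1]
    exact h4 _ (abs_le.2 ⟨by linarith [h1.1, h2.1], by linarith [h1.2, h2.2]⟩)
  · rw [(d4a_co x).2]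
    exact h4 _ (abs_le.2 ⟨by linarith [h1.1, h2.2], by linarith [h1.2, h2.1]⟩)

theorem d4a_Aw_le {a : Fin 5} {x : Pt} (hx : x ∈ Aw a) :
    |pc x| ≤ Lc + aw + 4 ∧ |qc x| ≤ Lc + aw + 4 ∧ |x 2| ≤ 1 :=
  ⟨by linarith [d4a_abs_le hx.1 (d4a_ctr_le a).1],
    by linarith [d4a_abs_le hx.2.1 (d4a_ctr_le a).2.1], by linarith [hx.2.2]⟩

theorem d4a_Aw_box {a : Fin 5} {x : Pt} (hx : x ∈ Aw a) : x ∈ box (2 * Lc) (2 * Lc) (2 * Lc) :=
  d4a_box (d4a_Aw_le hx).1 (d4a_Aw_le hx).2.1 (d4a_Aw_le hx).2.2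

theorem d4a_Aw_closed (a : Fin 5) : IsClosed (Aw a) :=
  (isClosed_le (cd_pc.continuous.sub continuous_const).abs continuous_const).inter
    ((isClosed_le (cd_qc.continuous.sub continuous_const).abs continuous_const).inter
      (isClosed_le (continuous_apply 2).abs continuous_const))

theorem d4a_Aw_compact (a : Fin 5) : IsCompact (Aw a) :=
  (isCompact_box _ _ _).of_isClosed_subset (d4a_Aw_closed a) fun _ => d4a_Aw_box

end Vale.Agent.P363
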