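import Vale.Agent.P363.DesH
import Vale.Agent.P370.GSA

/-! Part D4b: boxes and weights in the rotated coordinates `y = rot x`. -/

namespace Vale.Agent.P363

open MeasureTheory Vale.Agent.P370 Set Function
open scoped ContDiff

/-- Box with lateral centre `c`, lateral half size `h` and vertical half size `k`. -/
def cb (c : ℝ × ℝ) (h k : ℝ) : Set Pt := Icc ![c.1 - h, c.2 - h, -k] ![c.1 + h, c.2 + h, k]

theorem mem_cb {c : ℝ × ℝ} {h k : ℝ} {y : Pt} :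
    y ∈ cb c h k ↔ |y 0 - c.1| ≤ h ∧ |y 1 - c.2| ≤ h ∧ |y 2| ≤ k := by
  simp only [cb, mem_Icc, Pi.le_def, Fin.forall_fin_succ, abs_le, Matrix.cons_val_zero,
    Matrix.cons_val_succ]
  simp only [Fin.succ_zero_eq_one, Fin.succ_one_eq_two, IsEmpty.forall_iff, and_true]
  constructor
  · rintro ⟨⟨h1, h2, h3⟩, h4, h5, h6⟩
    exact ⟨⟨by linarith, by linarith⟩, ⟨by linarith, by linarith⟩, h3, h6⟩
  · rintro ⟨⟨h1, h2⟩, ⟨h3, h4⟩, h5, h6⟩
    exact ⟨⟨by linarith, by linarith, h5⟩, by linarith, by linarith, h6⟩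

theorem isCompact_cb (c : ℝ × ℝ) (h k : ℝ) : IsCompact (cb c h k) := isCompact_Icc

theorem measurableSet_cb (c : ℝ × ℝ) (h k : ℝ) : MeasurableSet (cb c h k) := measurableSet_Icc

theorem pc_rot (y : Pt) : pc (rot y) = y 0 := congrFun (rot_rot y) 0

theorem qc_rot (y : Pt) : qc (rot y) = y 1 := congrFun (rot_rot y) 1

theorem rot_zero' (x : Pt) : rot x 0 = pc x := rfl

theorem rot_one' (x : Pt) : rot x 1 = qc x := rfl

theorem rot_two' (x : Pt) : rot x 2 = x 2 := rfl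

theorem emb_rot : MeasurableEmbedding rot :=
  (MeasurableEquiv.ofInvolutive rot rot_rot cd_rot.continuous.measurable).measurableEmbedding

theorem integral_rot (F : Pt → ℝ) : ∫ y, F (rot y) = ∫ x, F x := mp_rot.integral_comp emb_rot F

theorem setIntegral_rot (F : Pt → ℝ) (B : Set Pt) :
    ∫ x in rot ⁻¹' B, F x = ∫ y in B, F (rot y) := by
  rw [← mp_rot.setIntegral_preimage_emb emb_rot (fun y => F (rot y)) B]
  simp only [rot_rot]

theorem Aw_eq (a : Fin 5) : Aw a = rot ⁻¹' cb (ctr a) (aw + 1) (1 / 2) := by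
  ext x
  rw [mem_preimage, mem_cb]
  rfl

/-- The box on which the action is explicit. -/
def B1 : Set Pt := cb (0, 0) (2 * Lc) 1

/-- A well. -/
def Wl (a : Fin 5) : Set Pt := cb (ctr a) (aw + 1) (1 / 2)

/-- The plateau of a well. -/
def Pl (a : Fin 5) : Set Pt := cb (ctr a) aw (1 / 2)

/-- The Gaussian factor of the weight. -/
noncomputable def Des.rz (D : Des) (z : ℝ) : ℝ := Real.exp (-((1 + D.Om) * z ^ 2))

/-- The weight in rotated coordinates. -/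
noncomputable def Des.Wr (D : Des) (y : Pt) : ℝ := D.φ0 (rot y) ^ 2

theorem Des.Wr_pos (D : Des) (y : Pt) : 0 < D.Wr y := pow_pos (Real.exp_pos _) 2

theorem Des.OK.cont_Wr {D : Des} (h : D.OK) : Continuous D.Wr :=
  (h.cd_φ0.continuous.comp cd_rot.continuous).pow 2

theorem Des.cont_rz (D : Des) : Continuous D.rz := by
  unfold Des.rz
  fun_prop

theorem Des.OK.φ0_sq {D : Des} (h : D.OK) (hn : 4 * Lc ≤ D.Ls) {x : Pt} (hp : |pc x| ≤ 2 * Lc)
    (hq : |qc x| ≤ 2 * Lc) (hz : |x 2| ≤ 1) :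
    D.φ0 x ^ 2 = D.rz (x 2) * Real.exp (-(2 * D.n * (7 - dd x))) := by
  rw [Des.φ0, h.S_box hn hp hq hz, Des.rz, ← Real.exp_add, sq, ← Real.exp_add]
  congr 1
  ring

theorem Des.OK.Wr_eq {D : Des} (h : D.OK) (hn : 4 * Lc ≤ D.Ls) {y : Pt} (hy : y ∈ B1) :
    D.Wr y = D.rz (y 2) * Real.exp (-(2 * D.n * (7 - dd (rot y)))) := by
  obtain ⟨h1, h2, h3⟩ := mem_cb.1 hy
  simp only [sub_zero] at h1 h2
  exact h.φ0_sq hn (by rwa [pc_rot]) (by rwa [qc_rot]) h3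

theorem d4b_ctr_le (a : Fin 5) : |(ctr a).1| ≤ Lc ∧ |(ctr a).2| ≤ Lc := by
  fin_cases a <;> simp [ctr, Lc]

theorem Pl_sub (a : Fin 5) : Pl a ⊆ Wl a := fun y hy => by
  obtain ⟨h1, h2, h3⟩ := mem_cb.1 hy
  exact mem_cb.2 ⟨by linarith, by linarith, h3⟩

theorem Wl_sub (a : Fin 5) : Wl a ⊆ B1 := fun y hy => by
  obtain ⟨h1, h2, h3⟩ := mem_cb.1 hy
  obtain ⟨h4, h5⟩ := d4b_ctr_le a
  have h6 := abs_sub_abs_le_abs_sub (y 0) (ctr a).1
  have h7 := abs_sub_abs_le_abs_sub (y 1) (ctr a).2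
  have h8 : aw + 1 ≤ Lc := by norm_num [aw, Lc]
  exact mem_cb.2 ⟨by simp only [sub_zero]; linarith, by simp only [sub_zero]; linarith,
    by linarith⟩

theorem Des.OK.Wr_Pl {D : Des} (h : D.OK) (hn : 4 * Lc ≤ D.Ls) {a : Fin 5} {y : Pt}
    (hy : y ∈ Pl a) : D.Wr y = D.rz (y 2) := by
  obtain ⟨h1, h2, -⟩ := mem_cb.1 hy
  rw [h.Wr_eq hn (Wl_sub a (Pl_sub a hy)), dd_plateau (a := a) (by rwa [pc_rot]) (by rwa [qc_rot])]
  simp

end Vale.Agent.P363
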