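import Vale.Agent.P363.D4b0

/-!
Part D4b: two inequalities along axis-parallel lines (pure analysis).

Slice the box in direction `k` (`volume_preserving_piFinSuccAbove (fun _ => ℝ) k`, points
`Fin.insertNth k t y'`; or work with indicators and `integral_prod`).
`d4b_step`: on a line, for `u ∈ [a k, b k]`, `t ∈ [c, d]`:
`V u * g u ^ 2 ≤ 2 * α * W t * g t ^ 2 + 2 * L * ∫ W (∂ g) ^ 2` (`gs_seg` of P370/GSA, `L = b k - a k`);
average over `t`, integrate over `u`.  `V ≤ W` on the box (take `s = y k`) gives integrability.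
`d4b_link`: translate (`measurePreserving_add_right`), Cauchy-Schwarz with the weight `ρ`, then the
line inequality `(g (y + s e) - g y) ^ 2 ≤ s * ∫ gsq g` over the whole line segment (model: `ol_line`,
`ol_shift`, `ol_cs` in P370/OneLowA).
-/

namespace Vale.Agent.P363

open MeasureTheory Vale.Agent.P370 Set Function
open scoped ContDiff

/-- Base point of a line in direction `k`. -/
def d4bAp (k : Fin 3) (p : Fin 2 → ℝ) : Pt := Fin.insertNth (α := fun _ => ℝ) k 0 p

theorem d4bA_mem {k : Fin 3} {a b : Pt} {p : Fin 2 → ℝ} {t : ℝ} :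
    update (d4bAp k p) k t ∈ Icc a b ↔
      t ∈ Icc (a k) (b k) ∧ p ∈ Icc (k.removeNth a) (k.removeNth b) := by
  rw [d4bAp, Fin.update_insertNth]
  exact Fin.insertNth_mem_Icc

theorem d4bA_fub (k : Fin 3) (a b : Pt) {F : Pt → ℝ} (hF : IntegrableOn F (Icc a b)) :
    IntegrableOn (fun p => ∫ t in Icc (a k) (b k), F (update (d4bAp k p) k t))
        (Icc (k.removeNth a) (k.removeNth b)) ∧
      ∫ y in Icc a b, F y = ∫ p in Icc (k.removeNth a) (k.removeNth b),
        ∫ t in Icc (a k) (b k), F (update (d4bAp k p) k t) := by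
  obtain ⟨e, he⟩ : ∃ e, e = (MeasurableEquiv.piFinSuccAbove (fun _ : Fin 3 => ℝ) k).symm := ⟨_, rfl⟩
  have mp : MeasurePreserving e volume volume :=
    he ▸ (volume_preserving_piFinSuccAbove (fun _ : Fin 3 => ℝ) k).symm
  have e1 : ∀ q : ℝ × (Fin 2 → ℝ), e q = update (d4bAp k q.2) k q.1 := fun q => by
    rw [d4bAp, Fin.update_insertNth, he]
    rfl
  have e2 : e ⁻¹' Icc a b = Icc (a k) (b k) ×ˢ Icc (k.removeNth a) (k.removeNth b) := by
    ext q
    rw [mem_preimage, e1, d4bA_mem]
    rfl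
  have h1 : IntegrableOn (F ∘ e) (e ⁻¹' Icc a b) :=
    (mp.integrableOn_comp_preimage e.measurableEmbedding).2 hF
  rw [e2, IntegrableOn, Measure.volume_eq_prod, ← Measure.prod_restrict,
    show F ∘ e = fun q => F (update (d4bAp k q.2) k q.1) from funext fun q => by
      rw [comp_apply, e1]] at h1
  refine ⟨h1.integral_prod_right, ?_⟩
  rw [← mp.setIntegral_preimage_emb e.measurableEmbedding, e2, Measure.volume_eq_prod,
    ← Measure.prod_restrict]
  simp only [e1]
  exact integral_prod_symm _ h1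

theorem d4bA_gsq {g : Pt → ℝ} (hg : ContDiff ℝ 1 g) : Continuous (gsq g) :=
  continuous_finsetSum _ fun k _ => (nw_cont_pd hg k).pow 2

theorem d4bA_gsq0 (g : Pt → ℝ) (x : Pt) : 0 ≤ gsq g x := Finset.sum_nonneg fun _ _ => sq_nonneg _

theorem d4bA_cu (y : Pt) (k : Fin 3) : Continuous fun t : ℝ => update y k t :=
  continuous_const.update k continuous_id

theorem d4bA_line {g : Pt → ℝ} (hg : ContDiff ℝ 1 g) (y : Pt) (k : Fin 3) {w : ℝ → ℝ}
    (hw : Continuous w) (h0 : ∀ t, 0 ≤ w t) {A B s t v : ℝ} (hA : A ≤ s) (hst : s ≤ t)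
    (hB : t ≤ B) (hv : 0 ≤ v) (hle : ∀ r ∈ Icc s t, v ≤ w r) :
    v * (g (update y k t) - g (update y k s)) ^ 2 ≤
      (t - s) * ∫ r in Icc A B, w r * gsq g (update y k r) := by
  have c1 : Continuous fun r : ℝ => pd k g (update y k r) := (nw_cont_pd hg k).comp (d4bA_cu y k)
  have c2 : Continuous fun r : ℝ => gsq g (update y k r) := (d4bA_gsq hg).comp (d4bA_cu y k)
  have hd : ∀ r, HasDerivAt (fun r : ℝ => g (update y k r)) (pd k g (update y k r)) r := fun r =>
    (hg.differentiable one_ne_zero _).hasFDerivAt.comp_hasDerivAt r (hasDerivAt_update y k r)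
  have h1 := intervalIntegral.integral_eq_sub_of_hasDerivAt (a := s) (b := t)
    (fun r _ => hd r) (c1.intervalIntegrable _ _)
  have h2 := gs_seg hw h0 c1 le_rfl hst le_rfl hv hle
  rw [h1] at h2
  refine h2.trans (mul_le_mul_of_nonneg_left ?_ (sub_nonneg.2 hst))
  calc _ ≤ ∫ r in Icc s t, w r * gsq g (update y k r) := by
        refine setIntegral_mono_on (hw.mul (c1.pow 2)).integrableOn_Icc
          (hw.mul c2).integrableOn_Icc measurableSet_Icc fun r _ => ?_
        exact mul_le_mul_of_nonneg_left (Finset.single_le_sum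
          (f := fun j => pd j g (update y k r) ^ 2) (fun _ _ => sq_nonneg _) (Finset.mem_univ k))
          (h0 r)
    _ ≤ _ := setIntegral_mono_set (hw.mul c2).integrableOn_Icc
        (ae_of_all _ fun r => mul_nonneg (h0 r) (d4bA_gsq0 _ _))
        (Icc_subset_Icc hA hB).eventuallyLE

/-- The inequality on one line. -/
theorem d4bA_one {g : Pt → ℝ} (hg : ContDiff ℝ 1 g) (y : Pt) (k : Fin 3) {w : ℝ → ℝ}
    (hw : Continuous w) (h0 : ∀ t, 0 ≤ w t) {A B c d α u v : ℝ} (hcd : c < d) (hA : A ≤ c)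
    (hB : d ≤ B) (hu : u ∈ Icc A B) (hv : 0 ≤ v) (h1 : ∀ t ∈ Icc c d, v ≤ α * w t)
    (h2 : ∀ t ∈ Icc c d, ∀ s ∈ uIcc u t, v ≤ w s) :
    v * g (update y k u) ^ 2 ≤ 2 * α / (d - c) * (∫ t in Icc c d, w t * g (update y k t) ^ 2) +
      2 * (B - A) * ∫ r in Icc A B, w r * gsq g (update y k r) := by
  obtain ⟨J, hJ⟩ : ∃ J, J = ∫ r in Icc A B, w r * gsq g (update y k r) := ⟨_, rfl⟩
  have J0 : 0 ≤ J := hJ ▸ integral_nonneg fun r => mul_nonneg (h0 r) (d4bA_gsq0 _ _)
  have cg : Continuous fun t : ℝ => g (update y k t) := hg.continuous.comp (d4bA_cu y k)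
  have key : ∀ t ∈ Icc c d, v * g (update y k u) ^ 2 - 2 * (B - A) * J ≤
      2 * α * (w t * g (update y k t) ^ 2) := fun t ht => by
    have a1 : v * (g (update y k t) - g (update y k u)) ^ 2 ≤ (B - A) * J := by
      rcases le_total u t with h | h
      · have := d4bA_line hg y k hw h0 hu.1 h (ht.2.trans hB) hv fun r hr =>
          h2 t ht r (by rwa [uIcc_of_le h])
        rw [← hJ] at this
        exact this.trans (mul_le_mul_of_nonneg_right (by linarith [hu.1, ht.2]) J0)
      · have := d4bA_line hg y k hw h0 (hA.trans ht.1) h hu.2 hv fun r hr =>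
          h2 t ht r (by rwa [uIcc_of_ge h])
        rw [← hJ, ← neg_sub, neg_sq] at this
        exact this.trans (mul_le_mul_of_nonneg_right (by linarith [hu.2, ht.1]) J0)
    have a2 := mul_le_mul_of_nonneg_right (h1 t ht) (sq_nonneg (g (update y k t)))
    have a3 := mul_nonneg hv (sq_nonneg (2 * g (update y k t) - g (update y k u)))
    nlinarith
  have h3 := setIntegral_mono_on (μ := volume) continuous_const.integrableOn_Icc
    (((hw.mul (cg.pow 2)).const_mul (2 * α)).integrableOn_Icc) measurableSet_Icc key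
  rw [setIntegral_const, Real.volume_real_Icc_of_le hcd.le, smul_eq_mul, integral_const_mul] at h3
  have hp : 0 < d - c := sub_pos.2 hcd
  rw [← hJ, ← sub_le_iff_le_add, div_mul_eq_mul_div, le_div_iff₀' hp]
  exact h3

theorem d4bA_cs {K : Set Pt} (hK : IsCompact K) {w h : Pt → ℝ} (hw : Continuous w)
    (h0 : ∀ y, 0 ≤ w y) (hh : Continuous h) :
    (∫ y in K, w y * h y) ^ 2 ≤ (∫ y in K, w y) * ∫ y in K, w y * h y ^ 2 := by
  have i0 : IntegrableOn w K := hw.continuousOn.integrableOn_compact hK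
  have i1 : IntegrableOn (fun y => w y * h y) K := (hw.mul hh).continuousOn.integrableOn_compact hK
  have i2 : IntegrableOn (fun y => w y * h y ^ 2) K :=
    (hw.mul (hh.pow 2)).continuousOn.integrableOn_compact hK
  have key : ∀ x : ℝ, 0 ≤ (∫ y in K, w y) * (x * x) + (2 * ∫ y in K, w y * h y) * x +
      ∫ y in K, w y * h y ^ 2 := fun x => by
    have a1 : 0 ≤ ∫ y in K, (w y * (x * x) + 2 * x * (w y * h y) + w y * h y ^ 2) :=
      integral_nonneg fun y => by
        have := mul_nonneg (h0 y) (sq_nonneg (x + h y))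
        show (0 : ℝ) ≤ _
        linarith
    have j1 : IntegrableOn (fun y => w y * (x * x) + 2 * x * (w y * h y)) K :=
      (i0.mul_const _).add (i1.const_mul _)
    rw [integral_add j1 i2, integral_add (i0.mul_const _) (i1.const_mul _), integral_mul_const,
      integral_const_mul] at a1
    linarith
  have := discrim_le_zero key
  unfold discrim at this
  linarith

theorem d4b_step {V W g : Pt → ℝ} (k : Fin 3) {a b : Pt} {c d α : ℝ} (hcd : c < d)
    (hac : a k ≤ c) (hdb : d ≤ b k) (hV : Measurable V) (hV0 : ∀ y, 0 ≤ V y) (hW : Continuous W)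
    (hW0 : ∀ y, 0 ≤ W y) (hα : 0 ≤ α) (hg : ContDiff ℝ 1 g)
    (h1 : ∀ y ∈ Icc a b, ∀ t ∈ Icc c d, V y ≤ α * W (update y k t))
    (h2 : ∀ y ∈ Icc a b, ∀ t ∈ Icc c d, ∀ s ∈ uIcc (y k) t, V y ≤ W (update y k s)) :
    ∫ y in Icc a b, V y * g y ^ 2 ≤
      2 * α * ((b k - a k) / (d - c)) *
          (∫ y in Icc (update a k c) (update b k d), W y * g y ^ 2) +
        2 * (b k - a k) ^ 2 * ∫ y in Icc a b, W y * gsq g y := by
  have cg := hg.continuous
  have hab : a k ≤ b k := by linarith
  have c1 : Continuous fun y => W y * g y ^ 2 := hW.mul (cg.pow 2)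
  have iV : IntegrableOn (fun y => V y * g y ^ 2) (Icc a b) := by
    refine Integrable.mono' (c1.continuousOn.integrableOn_compact isCompact_Icc)
      (hV.mul (cg.pow 2).measurable).aestronglyMeasurable
      ((ae_restrict_mem measurableSet_Icc).mono fun y hy => ?_)
    have := h2 y hy c ⟨le_rfl, hcd.le⟩ (y k) left_mem_uIcc
    rw [update_eq_self] at this
    rw [Real.norm_of_nonneg (mul_nonneg (hV0 y) (sq_nonneg _))]
    exact mul_le_mul_of_nonneg_right this (sq_nonneg _)
  obtain ⟨i1, e1⟩ := d4bA_fub k a b iV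
  obtain ⟨i2, e2⟩ := d4bA_fub k (update a k c) (update b k d)
    (c1.continuousOn.integrableOn_compact isCompact_Icc)
  obtain ⟨i3, e3⟩ := d4bA_fub k a b
    ((hW.mul (d4bA_gsq hg)).continuousOn.integrableOn_compact isCompact_Icc)
  simp only [update_self, Fin.removeNth_update, Pi.mul_apply] at i2 e2 i3 e3
  rw [e1, e2, e3, ← integral_const_mul, ← integral_const_mul,
    ← integral_add (i2.const_mul _) (i3.const_mul _)]
  refine setIntegral_mono_on i1 ((i2.const_mul _).add (i3.const_mul _)) measurableSet_Icc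
    fun p hp => ?_
  have hw : Continuous fun t => W (update (d4bAp k p) k t) := hW.comp (d4bA_cu _ k)
  refine (integral_mono_of_nonneg (ae_of_all _ fun u => mul_nonneg (hV0 _) (sq_nonneg _))
    continuous_const.integrableOn_Icc ((ae_restrict_mem measurableSet_Icc).mono fun u hu =>
      d4bA_one (α := α) hg (d4bAp k p) k hw (fun t => hW0 _) hcd hac hdb hu (hV0 _)
        (fun t ht => ?_) fun t ht s hs => ?_)).trans (le_of_eq ?_)
  · have := h1 _ (d4bA_mem.2 ⟨hu, hp⟩) t ht
    rwa [update_idem] at this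
  · have := h2 _ (d4bA_mem.2 ⟨hu, hp⟩) t ht s (by rwa [update_self])
    rwa [update_idem] at this
  · rw [setIntegral_const, Real.volume_real_Icc_of_le hab, smul_eq_mul]
    ring

theorem d4b_link {ρ : ℝ → ℝ} {g : Pt → ℝ} {k : Fin 3} (hk : k ≠ 2) {a b : Pt} {s : ℝ}
    (hs : 0 < s) (hab : a k ≤ b k) (hρ : Continuous ρ) (h0 : ∀ z, 0 ≤ ρ z)
    (hg : ContDiff ℝ 1 g) :
    ((∫ y in Icc (a + s • ek k) (b + s • ek k), ρ (y 2) * g y) -
        ∫ y in Icc a b, ρ (y 2) * g y) ^ 2 ≤
      (∫ y in Icc a b, ρ (y 2)) *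
        (s * (b k - a k) * ∫ y in Icc a (b + s • ek k), ρ (y 2) * gsq g y) := by
  have cg := hg.continuous
  have cρ : Continuous fun y : Pt => ρ (y 2) := hρ.comp (continuous_apply 2)
  have cs : Continuous fun y => g (y + s • ek k) := cg.comp (continuous_add_const _)
  have z2 : (s • ek k) 2 = 0 := by simp [ek, hk.symm]
  have zk : (s • ek k) k = s := by simp [ek]
  have t1 : ∫ y in Icc (a + s • ek k) (b + s • ek k), ρ (y 2) * g y =
      ∫ y in Icc a b, ρ (y 2) * g (y + s • ek k) := by
    rw [← (measurePreserving_add_right volume (s • ek k)).setIntegral_preimage_emb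
      (measurableEmbedding_addRight _), preimage_add_const_Icc, add_sub_cancel_right,
      add_sub_cancel_right]
    simp only [Pi.add_apply, z2, add_zero]
  have t2 : (∫ y in Icc a b, ρ (y 2) * g (y + s • ek k)) - ∫ y in Icc a b, ρ (y 2) * g y =
      ∫ y in Icc a b, ρ (y 2) * (g (y + s • ek k) - g y) := by
    simp only [mul_sub]
    exact (integral_sub ((cρ.mul cs).continuousOn.integrableOn_compact isCompact_Icc)
      ((cρ.mul cg).continuousOn.integrableOn_compact isCompact_Icc)).symm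
  rw [t1, t2]
  refine (d4bA_cs isCompact_Icc cρ (fun y => h0 _) (cs.sub cg)).trans
    (mul_le_mul_of_nonneg_left ?_ (integral_nonneg fun y => h0 _))
  obtain ⟨i1, e1⟩ := d4bA_fub k a b (F := fun y => ρ (y 2) * (g (y + s • ek k) - g y) ^ 2)
    ((cρ.mul ((cs.sub cg).pow 2)).continuousOn.integrableOn_compact isCompact_Icc)
  obtain ⟨i2, e2⟩ := d4bA_fub k a (b + s • ek k) (F := fun y => ρ (y 2) * gsq g y)
    ((cρ.mul (d4bA_gsq hg)).continuousOn.integrableOn_compact isCompact_Icc)
  have r1 : k.removeNth (b + s • ek k) = k.removeNth b := by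
    funext j
    simp [Fin.removeNth, ek]
  rw [r1, Pi.add_apply, zk] at i2 e2
  simp only [Pi.sub_apply]
  rw [e1, e2, ← integral_const_mul]
  refine setIntegral_mono_on i1 (i2.const_mul _) measurableSet_Icc fun p _ => ?_
  have u1 : ∀ t, update (d4bAp k p) k t 2 = d4bAp k p 2 := fun t => update_of_ne hk.symm _ _
  have u2 : ∀ t, update (d4bAp k p) k t + s • ek k = update (d4bAp k p) k (t + s) := fun t => by
    funext j
    rcases eq_or_ne j k with rfl | hj
    · rw [Pi.add_apply, zk, update_self, update_self]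
    · simp [ek, hj]
  simp only [u1, u2]
  have key : ∀ u ∈ Icc (a k) (b k), ρ (d4bAp k p 2) *
      (g (update (d4bAp k p) k (u + s)) - g (update (d4bAp k p) k u)) ^ 2 ≤
      s * ∫ r in Icc (a k) (b k + s), ρ (d4bAp k p 2) * gsq g (update (d4bAp k p) k r) :=
    fun u hu => by
    have := d4bA_line (B := b k + s) hg (d4bAp k p) k (w := fun _ => ρ (d4bAp k p 2))
      continuous_const (fun _ => h0 _) hu.1 (le_add_of_nonneg_right hs.le)
      (by linarith [hu.2]) (h0 _) fun _ _ => le_rfl
    rwa [add_sub_cancel_left] at this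
  refine (integral_mono_of_nonneg (ae_of_all _ fun u => mul_nonneg (h0 _) (sq_nonneg _))
    continuous_const.integrableOn_Icc ((ae_restrict_mem measurableSet_Icc).mono key)).trans
    (le_of_eq ?_)
  rw [setIntegral_const, Real.volume_real_Icc_of_le hab, smul_eq_mul]
  ring

end Vale.Agent.P363
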