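import Vale.Agent.P363.D4b0
import Vale.Agent.P363.D4aC

/-!
Part D4b: the smooth orbitals are close to the sharp ones.

On `Aw b`: `th a = if a = b then 1 else 0` (`rmp_zero`, `rmp_one`, `bmp_one`, `bmp_zero`), so `η a = φ a` there.
Off all wells `φ a = 0`, `|th a| ≤ C` (`db_fix`), `th a = 0` outside the box `rot ⁻¹' B1`, and
`φ0 ^ 2 ≤ exp (-12 n)` (`φ0_sq`: `dd_le_one`, or `1 / 2 < |z|` and `exp (-Om / 4)`).
`mass ≥ 4 aw ^ 2 / n ^ 5`, `exp (-12 n) = aw * lam`, `ev_poly'`.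
-/

namespace Vale.Agent.P363

open MeasureTheory Vale.Agent.P370 Set Function
open scoped ContDiff

theorem d4bC_off {D : Des} (h : D.OK) (hn : 4 * Lc ≤ D.Ls) (h2 : 2 ≤ D.n) {x : Pt}
    (hx : ∀ b, x ∉ Aw b) (hp : |pc x| ≤ 2 * Lc) (hq : |qc x| ≤ 2 * Lc) (hz : |x 2| ≤ 1) :
    D.φ0 x ^ 2 ≤ Real.exp (-(12 * D.n)) := by
  rw [h.φ0_sq hn hp hq hz, Des.rz, ← Real.exp_add, Real.exp_le_exp]
  have hO : 48 * D.n ≤ D.Om := by
    have h7 : 2 ^ 7 ≤ D.n ^ 7 := pow_le_pow_left₀ (by norm_num) h2 7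
    rw [Des.Om, pow_succ]
    nlinarith
  by_cases hz' : |x 2| ≤ 1 / 2
  · have h1 : dd x ≤ 1 := dd_le_one fun b => by
      by_contra hc
      rw [not_or, not_le, not_le] at hc
      exact hx b ⟨hc.1.le, hc.2.le, hz'⟩
    have h3 : 0 ≤ (1 + D.Om) * x 2 ^ 2 := mul_nonneg (by linarith) (sq_nonneg _)
    nlinarith
  · have h1 : (1 / 2) ^ 2 ≤ x 2 ^ 2 := by
      rw [← sq_abs (x 2)]
      exact pow_le_pow_left₀ (by norm_num) (not_le.1 hz').le 2
    have h3 := mul_le_mul_of_nonneg_left h1 (by linarith : 0 ≤ 1 + D.Om)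
    have h4 := mul_nonneg (by linarith : 0 ≤ 2 * D.n) (sub_nonneg.2 (dd_mem x).2)
    linarith

theorem d4bC_pt {D : Des} (h : D.OK) (hn : 4 * Lc ≤ D.Ls) (h2 : 2 ≤ D.n) (a : Fin 5)
    (hm : 0 < D.mass a) (x : Pt) : (D.η a x - D.φ a x) ^ 2 ≤
      (Metric.closedBall (0 : Pt) (2 * Lc)).indicator
        (fun _ => Real.exp (-(12 * D.n)) * 25 / D.mass a) x := by
  have h0 : 0 ≤ (Metric.closedBall (0 : Pt) (2 * Lc)).indicator
      (fun _ => Real.exp (-(12 * D.n)) * 25 / D.mass a) x :=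
    indicator_nonneg (fun _ _ => by positivity) x
  by_cases hx : ∃ b, x ∈ Aw b
  · obtain ⟨b, hb⟩ := hx
    refine le_trans (le_of_eq ?_) h0
    rw [Des.η, Des.φ, d4a_th_Aw a hb]
    by_cases hab : a = b
    · rw [if_pos hab, indicator_of_mem (hab ▸ hb)]
      simp
    · rw [if_neg hab, indicator_of_notMem (d4a_disj (Ne.symm hab) hb)]
      simp
  · rw [not_exists] at hx
    rw [Des.η, Des.φ, indicator_of_notMem (hx a), sub_zero]
    by_cases ht : th a x = 0
    · simpa [ht] using h0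
    · obtain ⟨k1, k2, k3⟩ := d4a_th_ne ht
      have hL := aw_Lc
      have ha := aw_pos
      have hb := d4a_box k1.le k2.le (by linarith)
      have hB : x ∈ Metric.closedBall (0 : Pt) (2 * Lc) := by
        rw [mem_closedBall_zero_iff, pi_norm_le_iff_of_nonneg (by linarith)]
        intro i
        fin_cases i
        · exact hb.1
        · exact hb.2.1
        · exact hb.2.2
      rw [indicator_of_mem hB, div_pow, mul_pow, Real.sq_sqrt hm.le]
      exact div_le_div_of_nonneg_right (mul_le_mul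
        (d4bC_off h hn h2 hx (by linarith) (by linarith) (by linarith)) (d4a_th_sq a x)
        (sq_nonneg _) (Real.exp_pos _).le) hm.le

theorem d4b_close : Ev fun D => ∀ a, ∫ x, (D.η a x - D.φ a x) ^ 2 ≤ D.P * D.lam := by
  refine ((((ev_Ls.and (ev_ge 2)).and ev_Iz).and ev_mass).and
    (ev_poly' (400 * Lc ^ 3 / aw) 5)).mono fun D h ⟨⟨⟨⟨h1, h2⟩, h3⟩, h4⟩, h5⟩ a => ?_
  have ha := aw_pos
  have hL := Lc_pos
  have hn : 0 < D.n := by linarith
  have hm1 : 4 * aw ^ 2 * (1 / D.n ^ 5) ≤ D.mass a :=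
    (mul_le_mul_of_nonneg_left h3.1 (by positivity)).trans (h4 a).2.1
  have hm : 0 < D.mass a := lt_of_lt_of_le (by positivity) hm1
  have hv : volume (Metric.closedBall (0 : Pt) (2 * Lc)) = ENNReal.ofReal ((2 * (2 * Lc)) ^ 3) := by
    rw [Real.volume_pi_closedBall _ (by positivity)]
    simp
  have hi : Integrable ((Metric.closedBall (0 : Pt) (2 * Lc)).indicator
      fun _ => Real.exp (-(12 * D.n)) * 25 / D.mass a) :=
    (integrable_indicator_iff measurableSet_closedBall).2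
      (integrableOn_const (by rw [hv]; exact ENNReal.ofReal_ne_top))
  refine (integral_mono_of_nonneg (Filter.Eventually.of_forall fun x => sq_nonneg _) hi
    (Filter.Eventually.of_forall (d4bC_pt h h1.1 h2 a hm))).trans ?_
  rw [integral_indicator measurableSet_closedBall, setIntegral_const, Measure.real, hv,
    ENNReal.toReal_ofReal (by positivity), smul_eq_mul]
  have he := Real.exp_pos (-(12 * D.n))
  calc _ ≤ (2 * (2 * Lc)) ^ 3 * (Real.exp (-(12 * D.n)) * 25 / (4 * aw ^ 2 * (1 / D.n ^ 5))) :=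
        mul_le_mul_of_nonneg_left (div_le_div_of_nonneg_left (by positivity) (by positivity) hm1)
          (by positivity)
    _ = 400 * Lc ^ 3 / aw * D.n ^ 5 * D.lam := by
        unfold Des.lam
        field_simp
        norm_num
    _ ≤ D.P * D.lam := mul_le_mul_of_nonneg_right h5.2 (by unfold Des.lam; positivity)

end Vale.Agent.P363
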