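import Vale.Agent.P363.D4b0
import Vale.Agent.P370.GS

/-!
Part D4b: ground state representation for the smooth potential.

`d4b_eq`: `gs_rep` with `S = D.S`; where `f x ≠ 0` we have `U = E1 + Vref` (`U_in`, `Gam_zero`,
`nrm x ≤ 3 Lc ≤ R`).
`d4b_gsr`: apply `gs_rep` to `S' x = D.S x - κ (∑ k, x k ^ 2)`, where `κ u = ∫ v in 0..u, (1 - θ v) / 2`,
`θ v = 1 - smoothTransition ((v - R ^ 2 / 4) / (R ^ 2 / 2))`.  For `nrm x < R / 2` the functions `S'` and `S` agree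
near `x`, so `U - E1 - (gsq S' - lap S') / 2 = Gam`.  For `nrm x > Lg` (`Lg = R / 20`) near `x`
`S' = G (∑ x k ^ 2)` with `G' = θ / 2` (`S_far`), so `gsq S' = θ ^ 2 r ^ 2`, `lap S' = 3 θ + 2 θ' r ^ 2`,
`|θ'| r ^ 2 ≤ 2 C` (`θ' = 0` for `r ^ 2 > 3 R ^ 2 / 4`), `U = ub R` (`F_far`), `Gam = √n`:
in the ball `U - E1 = r ^ 2 / 2 - 3 / 2 + √n`, outside `θ = 0` and `U - E1 ≥ √n`.  In all cases
`U - E1 - (gsq S' - lap S') / 2 ≥ Gam / 2` for large `n`.  `U` is bounded on the support of `ψ`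
(`|ub R x| ≤ 2 R ^ 2`, `F` continuous) and measurable.
-/

namespace Vale.Agent.P363

open MeasureTheory Vale.Agent.P370 Set Function
open scoped ContDiff

theorem d4bG_nrm {x : Pt} (hp : |pc x| ≤ 2 * Lc) (hq : |qc x| ≤ 2 * Lc) (hz : |x 2| ≤ 1) :
    nrm x ≤ 3 * Lc := by
  have L1 : (1 : ℝ) ≤ Lc := by norm_num [Lc]
  have h1 := sq_le_sq' (abs_le.1 hp).1 (abs_le.1 hp).2
  have h2 := sq_le_sq' (abs_le.1 hq).1 (abs_le.1 hq).2
  have h3 := sq_le_sq' (abs_le.1 hz).1 (abs_le.1 hz).2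
  refine abs_le_of_sq_le_sq' ?_ (by linarith) |>.2
  rw [nrm_sq_eq, ← pc_sq_add]
  nlinarith

theorem d4bG_int {w ψ : Pt → ℝ} (hw : Continuous w) (hψ : C1c ψ) :
    Integrable fun x => w x * ψ x ^ 2 := by
  refine (hw.mul (hψ.1.continuous.pow 2)).integrable_of_hasCompactSupport
    (HasCompactSupport.mul_left ?_)
  simp only [sq]
  exact hψ.2.mul_right

theorem d4bG_sq {ψ : Pt → ℝ} (hψ : C1c ψ) : Integrable fun x => ψ x ^ 2 := by
  simpa using d4bG_int (w := fun _ => 1) continuous_const hψ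

theorem d4b_eq : Ev fun D => ∀ f, C1c f →
    (∀ x, f x ≠ 0 → |pc x| ≤ 2 * Lc - 1 ∧ |qc x| ≤ 2 * Lc - 1 ∧ |x 2| ≤ 3 / 4) →
    qV D.U (fun x => D.φ0 x * f x) =
      D.E1 * (∫ x, (D.φ0 x * f x) ^ 2) + 1 / 2 * ∫ x, D.φ0 x ^ 2 * gsq f x := by
  refine ev_Ls.mono fun D hD ⟨h1, h2, _⟩ f hf hs => ?_
  have hψ : C1c fun x => D.φ0 x * f x :=
    ⟨(hD.cd_φ0.of_le (by exact_mod_cast le_top)).mul hf.1, hf.2.mul_left⟩
  have h := gs_rep (S := D.S) (hD.cd_S.of_le (rg_le 2)) hψ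
  have e1 : (fun y => Real.exp (D.S y) * (D.φ0 y * f y)) = f := by
    funext y
    rw [Des.φ0, ← mul_assoc, ← Real.exp_add, add_neg_cancel, Real.exp_zero, one_mul]
  have e2 : ∀ x, Real.exp (-(2 * D.S x)) = D.φ0 x ^ 2 := fun x => by
    rw [Des.φ0, sq, ← Real.exp_add]
    congr 1
    ring
  have e3 : ∀ x, D.U x * (D.φ0 x * f x) ^ 2 =
      D.E1 * (D.φ0 x * f x) ^ 2 + D.Vref x * (D.φ0 x * f x) ^ 2 := fun x => by
    by_cases h0 : f x = 0
    · simp [h0]
    obtain ⟨a1, a2, a3⟩ := hs x h0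
    have a4 := d4bG_nrm (x := x) (by linarith) (by linarith) (by linarith)
    have := Lc_pos
    rw [D.U_in (a4.trans (by unfold Des.R; linarith)), D.Gam_zero a1 a2 a3]
    ring
  rw [e1] at h
  simp only [e2] at h
  unfold qV
  simp only [e3]
  rw [integral_add ((d4bG_sq hψ).const_mul _) (d4bG_int hD.cd_Vref.continuous hψ),
    integral_const_mul, ← h]
  unfold Des.Vref
  ring

/-- Squared radius. -/
def d4bGr (x : Pt) : ℝ := ∑ k, x k ^ 2

theorem d4bG_r (x : Pt) : nrm x ^ 2 = d4bGr x :=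
  Real.sq_sqrt (Finset.sum_nonneg fun _ _ => sq_nonneg _)

theorem d4bG_cd : ContDiff ℝ ∞ d4bGr := by
  unfold d4bGr
  fun_prop

theorem d4bG_hp (k : Fin 3) (x : Pt) : HP k d4bGr (2 * x k) x := by
  have h := HasFDerivAt.fun_sum (u := Finset.univ) fun j _ => (hasFDerivAt_apply (𝕜 := ℝ) j x).pow 2
  refine ⟨h.differentiableAt, ?_⟩
  unfold pd d4bGr
  rw [h.fderiv]
  simp [ek, Pi.single_apply]

/-- Radial functions. -/
theorem d4bG_rad {A θ θ' : ℝ → ℝ} (h1 : ∀ u, HasDerivAt A (θ u / 2) u)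
    (h2 : ∀ u, HasDerivAt θ (θ' u) u) (x : Pt) :
    gsq (fun y => A (d4bGr y)) x = θ (d4bGr x) ^ 2 * d4bGr x ∧
      lap (fun y => A (d4bGr y)) x = 3 * θ (d4bGr x) + 2 * θ' (d4bGr x) * d4bGr x := by
  have e1 : ∀ k, pd k (fun y => A (d4bGr y)) = fun y => θ (d4bGr y) * y k := fun k => by
    funext y
    rw [((d4bG_hp k y).comp (h1 _)).2]
    ring
  have e2 : ∀ k, pd k (fun y => θ (d4bGr y) * y k) x =
      θ (d4bGr x) + 2 * θ' (d4bGr x) * x k ^ 2 := fun k => by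
    rw [(((d4bG_hp k x).comp (h2 _)).mul (hp_coord k k x)).2, show ek k k = 1 by simp [ek]]
    ring
  simp only [gsq, lap, e1, e2, Fin.sum_univ_three]
  constructor
  · generalize θ (d4bGr x) = t
    simp only [d4bGr, Fin.sum_univ_three]
    ring
  · generalize θ (d4bGr x) = t
    generalize θ' (d4bGr x) = t'
    simp only [d4bGr, Fin.sum_univ_three]
    ring

theorem d4bG_gsq_congr {f g : Pt → ℝ} {x : Pt} (h : f =ᶠ[nhds x] g) : gsq f x = gsq g x :=
  Finset.sum_congr rfl fun k _ => by rw [(nw_pd_congr h k).self_of_nhds]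

/-- The radial cutoff. -/
theorem d4bG_cut : ∃ C : ℝ, 0 ≤ C ∧ ∀ m : ℝ, 0 < m → ∃ κ θ θ' : ℝ → ℝ, ContDiff ℝ ∞ κ ∧
    (∀ u, u ≤ m → κ u = 0) ∧ (∀ u, HasDerivAt κ ((1 - θ u) / 2) u) ∧
    (∀ u, HasDerivAt θ (θ' u) u) ∧ (∀ u, 0 ≤ θ u ∧ θ u ≤ 1) ∧ (∀ u, |θ' u| * m ≤ C) ∧
    ∀ u, 3 * m < u → θ u = 0 ∧ θ' u = 0 := by
  obtain ⟨B, hB⟩ := ma_st 1
  simp only [iteratedDeriv_one] at hB
  refine ⟨B, (abs_nonneg _).trans (hB 0), fun m hm => ?_⟩
  have cs : ContDiff ℝ ∞ fun v : ℝ => Real.smoothTransition ((v - m) / (2 * m)) / 2 :=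
    (Real.smoothTransition.contDiff.comp ((contDiff_id.sub contDiff_const).div_const _)).div_const _
  have ds : ∀ t, HasDerivAt Real.smoothTransition (deriv Real.smoothTransition t) t := fun t =>
    ((Real.smoothTransition.contDiff (n := 1)).differentiable one_ne_zero t).hasDerivAt
  refine ⟨fun u => ∫ v in m..u, Real.smoothTransition ((v - m) / (2 * m)) / 2,
    fun u => 1 - Real.smoothTransition ((u - m) / (2 * m)),
    fun u => -(deriv Real.smoothTransition ((u - m) / (2 * m)) * (1 / (2 * m))),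
    ma_prim cs m, fun u hu => ?_, fun u => ?_, fun u => ?_, fun u => ?_, fun u => ?_,
    fun u hu => ?_⟩
  · simp only
    rw [intervalIntegral.integral_congr (g := fun _ => (0 : ℝ)) fun v hv => ?_]
    · simp
    · rw [uIcc_of_ge hu] at hv
      simp only
      rw [Real.smoothTransition.zero_of_nonpos
        (div_nonpos_of_nonpos_of_nonneg (by linarith [hv.2]) (by linarith)), zero_div]
  · rw [sub_sub_cancel]
    exact (cs.continuous.integral_hasStrictDerivAt m u).hasDerivAt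
  · exact ((ds _).comp u (((hasDerivAt_id u).sub_const m).div_const (2 * m))).const_sub 1
  · exact ⟨sub_nonneg.2 (Real.smoothTransition.le_one _),
      sub_le_self _ (Real.smoothTransition.nonneg _)⟩
  · rw [abs_neg, abs_mul, abs_of_pos (a := 1 / (2 * m)) (by positivity), mul_assoc,
      show 1 / (2 * m) * m = 1 / 2 by field_simp]
    linarith [hB ((u - m) / (2 * m)), abs_nonneg (deriv Real.smoothTransition ((u - m) / (2 * m)))]
  · have h1 : 1 < (u - m) / (2 * m) := by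
      rw [lt_div_iff₀ (by linarith)]
      linarith
    have h2 : Real.smoothTransition =ᶠ[nhds ((u - m) / (2 * m))] fun _ => 1 :=
      (lt_mem_nhds h1).mono fun s hs => Real.smoothTransition.one_of_one_le hs.le
    simp only
    rw [h2.deriv_eq, Real.smoothTransition.one_of_one_le h1.le]
    simp

theorem d4bG_ub {R : ℝ} (hR : 0 < R) (x : Pt) : |ub R x| ≤ 2 * R ^ 2 := by
  unfold ub
  have h0 := nrm_nonneg x
  split_ifs with h
  · have := pow_le_pow_left₀ h0 h 2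
    rw [abs_le]
    constructor <;> nlinarith [sq_nonneg (nrm x), sq_nonneg R]
  · rw [not_le] at h
    rw [abs_neg, abs_of_nonneg (by positivity), div_le_iff₀ (by linarith)]
    nlinarith [mul_pos (pow_pos hR 2) hR, mul_pos (pow_pos hR 2) (sub_pos.2 h)]

/-- The modified action. -/
theorem d4bG_act : Ev fun D => ∃ T : Pt → ℝ, ContDiff ℝ 2 T ∧
    (∀ x, nrm x ≤ 3 * Lc → T =ᶠ[nhds x] D.S) ∧
    ∀ x, D.E1 + (1 / 2 * gsq T x - 1 / 2 * lap T x) + 1 / 2 * D.Gam x ≤ D.U x := by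
  obtain ⟨C, C0, hC⟩ := d4bG_cut
  refine (ev_Ls.and (ev_ge ((3 + 8 * C) ^ 2))).mono fun D hD ⟨⟨h1, h2, _⟩, h3⟩ => ?_
  have L0 := Lc_pos
  have hR : D.R = 20 * D.Lg := rfl
  have R0 : 0 < D.R := by linarith
  have hs : 3 + 8 * C ≤ √D.n := Real.le_sqrt_of_sq_le h3
  obtain ⟨κ, θ, θ', k1, k2, k3, k4, k5, k6, k7⟩ := hC (D.R ^ 2 / 4) (by positivity)
  have near : ∀ x, nrm x < D.R / 2 → (fun y => D.S y - κ (d4bGr y)) =ᶠ[nhds x] D.S := fun x hx =>
    (continuous_nrm.continuousAt.eventually (gt_mem_nhds hx)).mono fun y hy => by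
      have : nrm y ^ 2 ≤ (D.R / 2) ^ 2 := pow_le_pow_left₀ (nrm_nonneg y) hy.le 2
      simp only
      rw [k2 _ (by rw [← d4bG_r]; linarith), sub_zero]
  refine ⟨fun y => D.S y - κ (d4bGr y),
    (hD.cd_S.sub (k1.comp d4bG_cd)).of_le (rg_le 2),
    fun x hx => near x (by linarith), fun x => ?_⟩
  have g0 := D.Gam_mem x
  rcases lt_or_ge (nrm x) (D.R / 2) with hx | hx
  · rw [d4bG_gsq_congr (near x hx), lap_congr (near x hx), D.U_in (by linarith), Des.Vref]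
    linarith [g0.1]
  have far : (fun y => D.S y - κ (d4bGr y)) =ᶠ[nhds x]
      fun y => (fun u => 1 / 2 * u + 7 * D.n - κ u) (d4bGr y) :=
    (continuous_nrm.continuousAt.eventually (lt_mem_nhds (show D.Lg < nrm x by linarith))).mono
      fun y hy => by
        simp only
        rw [hD.S_far h1 hy.le, d4bG_r]
  have hA : ∀ u, HasDerivAt (fun u => 1 / 2 * u + 7 * D.n - κ u) (θ u / 2) u := fun u =>
    ((((hasDerivAt_id u).const_mul (1 / 2)).add_const (7 * D.n)).fun_sub (k3 u)).congr_deriv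
      (by ring)
  obtain ⟨e1, e2⟩ := d4bG_rad hA k4 x
  rw [d4bG_gsq_congr far, lap_congr far, e1, e2, Des.U, hD.F_far h1 (by linarith), Des.E1, ub,
    ← d4bG_r]
  obtain ⟨t0, t1⟩ := k5 (nrm x ^ 2)
  split_ifs with h
  · have a1 : nrm x ^ 2 ≤ D.R ^ 2 := pow_le_pow_left₀ (nrm_nonneg x) h 2
    have a2 : θ (nrm x ^ 2) ^ 2 * nrm x ^ 2 ≤ nrm x ^ 2 :=
      mul_le_of_le_one_left (sq_nonneg _) (pow_le_one₀ t0 t1)
    have a3 := mul_le_mul (neg_le_abs (θ' (nrm x ^ 2))) a1 (sq_nonneg _) (abs_nonneg _)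
    have a4 := k6 (nrm x ^ 2)
    linarith [g0.2]
  · rw [not_le] at h
    have a1 : D.R ^ 2 ≤ nrm x ^ 2 := pow_le_pow_left₀ R0.le h.le 2
    have a0 := pow_pos R0 2
    obtain ⟨b1, b2⟩ := k7 (nrm x ^ 2) (by linarith)
    have a2 : D.R ^ 3 / nrm x ≤ D.R ^ 2 := by
      rw [div_le_iff₀ (by linarith)]
      nlinarith [mul_pos a0 (sub_pos.2 h)]
    rw [b1, b2]
    linarith [g0.2]

theorem d4b_gsr : Ev fun D => ∀ ψ, C1c ψ →
    D.E1 * (∫ x, ψ x ^ 2) +
      1 / 2 * (∫ x in rot ⁻¹' B1, D.φ0 x ^ 2 * gsq (fun y => Real.exp (D.S y) * ψ y) x) +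
      1 / 2 * ∫ x, D.Gam x * ψ x ^ 2 ≤ qV D.U ψ := by
  refine (d4bG_act.and (ev_Ls.and (ev_ge 1))).mono
    fun D hD ⟨⟨T, hT, t1, t2⟩, ⟨_, _, h3⟩, h4⟩ ψ hψ => ?_
  have h := gs_rep hT hψ
  have hT1 : ContDiff ℝ 1 T := hT.of_le (by norm_num)
  have hw : C1c fun y => Real.exp (T y) * ψ y := ⟨hT1.exp.mul hψ.1, hψ.2.mul_left⟩
  have cT := hT.continuous
  have iw : Integrable fun x => Real.exp (-(2 * T x)) * gsq (fun y => Real.exp (T y) * ψ y) x := by
    have : (fun x => Real.exp (-(2 * T x)) * gsq (fun y => Real.exp (T y) * ψ y) x) = fun x =>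
        ∑ k, Real.exp (-(2 * T x)) * pd k (fun y => Real.exp (T y) * ψ y) x ^ 2 :=
      funext fun x => Finset.mul_sum _ _ _
    rw [this]
    refine integrable_finsetSum _ fun k _ => ?_
    refine Continuous.integrable_of_hasCompactSupport
      (Continuous.mul (by fun_prop) ((nw_cont_pd hw.1 k).pow 2)) (HasCompactSupport.mul_left ?_)
    simp only [sq]
    exact (nw_supp_pd hw.2 k).mul_right
  have a1 : ∫ x in rot ⁻¹' B1, D.φ0 x ^ 2 * gsq (fun y => Real.exp (D.S y) * ψ y) x ≤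
      ∫ x, Real.exp (-(2 * T x)) * gsq (fun y => Real.exp (T y) * ψ y) x := by
    refine le_trans (le_of_eq ?_) (setIntegral_le_integral (s := rot ⁻¹' B1) iw
      (ae_of_all _ fun x => mul_nonneg (Real.exp_pos _).le
        (Finset.sum_nonneg fun _ _ => sq_nonneg _)))
    refine setIntegral_congr_fun (mp_rot.measurable (measurableSet_cb _ _ _)) fun x hx => ?_
    obtain ⟨b1, b2, b3⟩ := mem_cb.1 hx
    simp only [sub_zero] at b1 b2
    have e := t1 x (d4bG_nrm b1 b2 b3)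
    have e' : (fun y => Real.exp (T y) * ψ y) =ᶠ[nhds x] fun y => Real.exp (D.S y) * ψ y :=
      e.mono fun y hy => by simp only [hy]
    rw [d4bG_gsq_congr e', e.self_of_nhds, Des.φ0, sq, ← Real.exp_add]
    congr 2
    ring
  have cV : Continuous fun x => 1 / 2 * gsq T x - 1 / 2 * lap T x :=
    (continuous_const.mul (continuous_finsetSum _ fun k _ => (nw_cont_pd hT1 k).pow 2)).sub
      (continuous_const.mul (continuous_lap hT))
  have i1 := (d4bG_sq hψ).const_mul D.E1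
  have i2 := d4bG_int cV hψ
  have i3 := (d4bG_int D.cd_Gam.continuous hψ).const_mul (1 / 2)
  have i4 : Integrable fun x => D.U x * ψ x ^ 2 := by
    have m1 : Measurable (ub D.R) := by
      have : ub D.R = fun x => D.U x - D.F x := funext fun x => by rw [Des.U]; ring
      rw [this]
      exact hD.measurable_U.sub hD.cd_F.continuous.measurable
    have j1 := (d4bG_sq hψ).bdd_mul (c := 2 * D.R ^ 2) m1.aestronglyMeasurable
      (ae_of_all _ fun x => d4bG_ub (by linarith) x)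
    refine (j1.add (d4bG_int hD.cd_F.continuous hψ)).congr (ae_of_all _ fun x => ?_)
    simp only [Pi.add_apply, Des.U]
    ring
  have i12 : Integrable fun x =>
      D.E1 * ψ x ^ 2 + (1 / 2 * gsq T x - 1 / 2 * lap T x) * ψ x ^ 2 := i1.add i2
  have a2 := integral_mono (f := fun x => D.E1 * ψ x ^ 2 +
      (1 / 2 * gsq T x - 1 / 2 * lap T x) * ψ x ^ 2 + 1 / 2 * (D.Gam x * ψ x ^ 2)) (i12.add i3) i4
    fun x => by
      have := mul_le_mul_of_nonneg_right (t2 x) (sq_nonneg (ψ x))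
      simp only
      linarith
  rw [integral_add i12 i3, integral_add i1 i2, integral_const_mul, integral_const_mul] at a2
  unfold qV
  linarith

end Vale.Agent.P363
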