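import Vale.Agent.P363.D4bA

/-!
Part D4b: the links.

`d4b_link` with `ρ = rz`, `s = Lc`: site 1 is `Pl 0 + Lc e₀`, site 4 is `Pl 0 + Lc e₁`, and
`Pl 0 = Pl 3 + Lc e₀ = Pl 2 + Lc e₁`.  The four strips `St i` (plateau swept along the link) lie in `B1`;
`∑ i, (St i).indicator (exp (-12 n) * rz) ≤ Wr` on `B1`: two different strips meet only inside `Pl 0`
where `Wr = rz` and `4 exp (-12 n) ≤ 1`; on one strip `1 ≤ dd` (`one_le_dd`).
`d4b_Pl`: `integral_pt_prod` (model `integral_olQ` in P370/OneLowA).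
-/

namespace Vale.Agent.P363

open MeasureTheory Vale.Agent.P370 Set Function
open scoped ContDiff

lemma d4bl_cb (ρ : ℝ → ℝ) (c : ℝ × ℝ) {h : ℝ} (hh : 0 ≤ h) (k : ℝ) :
    ∫ y in cb c h k, ρ (y 2) = 4 * h ^ 2 * ∫ z in Icc (-k) k, ρ z := by
  have e := integral_pt_prod ((Icc (c.1 - h) (c.1 + h)).indicator fun _ => 1)
    ((Icc (c.2 - h) (c.2 + h)).indicator fun _ => 1) ((Icc (-k) k).indicator ρ)
  rw [integral_indicator measurableSet_Icc, integral_indicator measurableSet_Icc,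
    integral_indicator measurableSet_Icc, setIntegral_const, setIntegral_const,
    Real.volume_real_Icc_of_le (by linarith), Real.volume_real_Icc_of_le (by linarith),
    smul_eq_mul, smul_eq_mul] at e
  rw [← integral_indicator (measurableSet_cb _ _ _)]
  refine Eq.trans (integral_congr_ae (ae_of_all _ fun y => ?_)) (e.trans (by ring))
  have m : y ∈ cb c h k ↔ y 0 ∈ Icc (c.1 - h) (c.1 + h) ∧ y 1 ∈ Icc (c.2 - h) (c.2 + h) ∧
      y 2 ∈ Icc (-k) k := by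
    simp only [mem_cb, mem_Icc, abs_le]
    constructor
    · rintro ⟨⟨h1, h2⟩, ⟨h3, h4⟩, h5⟩
      exact ⟨⟨by linarith, by linarith⟩, ⟨by linarith, by linarith⟩, h5⟩
    · rintro ⟨⟨h1, h2⟩, ⟨h3, h4⟩, h5⟩
      exact ⟨⟨by linarith, by linarith⟩, ⟨by linarith, by linarith⟩, h5⟩
  by_cases h0 : y 0 ∈ Icc (c.1 - h) (c.1 + h) <;> by_cases h1 : y 1 ∈ Icc (c.2 - h) (c.2 + h) <;>
    by_cases h2 : y 2 ∈ Icc (-k) k <;> simp [indicator, m, h0, h1, h2, -mem_Icc]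

theorem d4b_Pl (D : Des) (a : Fin 5) : ∫ y in Pl a, D.rz (y 2) = 4 * aw ^ 2 * D.Iz :=
  d4bl_cb D.rz (ctr a) aw_pos.le (1 / 2)

/-- A box of height one. -/
def d4blB (p q r s : ℝ) : Set Pt := Icc ![p, r, -(1 / 2)] ![q, s, 1 / 2]

lemma d4bl_mem {p q r s : ℝ} {y : Pt} : y ∈ d4blB p q r s ↔
    (p ≤ y 0 ∧ y 0 ≤ q) ∧ (r ≤ y 1 ∧ y 1 ≤ s) ∧ |y 2| ≤ 1 / 2 := by
  simp only [d4blB, mem_Icc, Pi.le_def, Fin.forall_fin_succ, abs_le, Matrix.cons_val_zero,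
    Matrix.cons_val_succ]
  simp only [Fin.succ_zero_eq_one, Fin.succ_one_eq_two, IsEmpty.forall_iff, and_true]
  tauto

lemma d4bl_0 (D : Des) {g : Pt → ℝ} (hg : ContDiff ℝ 1 g) (p q : ℝ) :
    ((∫ y in cb (p + Lc, q) aw (1 / 2), D.rz (y 2) * g y) -
        ∫ y in cb (p, q) aw (1 / 2), D.rz (y 2) * g y) ^ 2 ≤
      4 * aw ^ 2 * D.Iz * (Lc * (2 * aw) *
        ∫ y in d4blB (p - aw) (p + Lc + aw) (q - aw) (q + aw), D.rz (y 2) * gsq g y) := by
  have h := d4b_link (ρ := D.rz) (k := 0) (by decide) (a := ![p - aw, q - aw, -(1 / 2)])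
    (b := ![p + aw, q + aw, 1 / 2]) Lc_pos (show p - aw ≤ p + aw by linarith [aw_pos]) D.cont_rz
    (fun z => (Real.exp_pos _).le) hg
  have e1 : (![p - aw, q - aw, -(1 / 2)] : Pt) + Lc • ek 0 = ![p + Lc - aw, q - aw, -(1 / 2)] := by
    funext j
    fin_cases j <;> simp [ek]
    ring
  have e2 : (![p + aw, q + aw, 1 / 2] : Pt) + Lc • ek 0 = ![p + Lc + aw, q + aw, 1 / 2] := by
    funext j
    fin_cases j <;> simp [ek]
    ring
  have e3 : (![p + aw, q + aw, 1 / 2] : Pt) 0 - (![p - aw, q - aw, -(1 / 2)] : Pt) 0 = 2 * aw :=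
    show p + aw - (p - aw) = 2 * aw by ring
  have e4 : ∫ y in Icc (![p - aw, q - aw, -(1 / 2)] : Pt) ![p + aw, q + aw, 1 / 2], D.rz (y 2) =
      4 * aw ^ 2 * D.Iz := d4bl_cb D.rz (p, q) aw_pos.le (1 / 2)
  rw [e1, e2, e3, e4] at h
  exact h

lemma d4bl_1 (D : Des) {g : Pt → ℝ} (hg : ContDiff ℝ 1 g) (p q : ℝ) :
    ((∫ y in cb (p, q + Lc) aw (1 / 2), D.rz (y 2) * g y) -
        ∫ y in cb (p, q) aw (1 / 2), D.rz (y 2) * g y) ^ 2 ≤
      4 * aw ^ 2 * D.Iz * (Lc * (2 * aw) *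
        ∫ y in d4blB (p - aw) (p + aw) (q - aw) (q + Lc + aw), D.rz (y 2) * gsq g y) := by
  have h := d4b_link (ρ := D.rz) (k := 1) (by decide) (a := ![p - aw, q - aw, -(1 / 2)])
    (b := ![p + aw, q + aw, 1 / 2]) Lc_pos (show q - aw ≤ q + aw by linarith [aw_pos]) D.cont_rz
    (fun z => (Real.exp_pos _).le) hg
  have e1 : (![p - aw, q - aw, -(1 / 2)] : Pt) + Lc • ek 1 = ![p - aw, q + Lc - aw, -(1 / 2)] := by
    funext j
    fin_cases j <;> simp [ek]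
    ring
  have e2 : (![p + aw, q + aw, 1 / 2] : Pt) + Lc • ek 1 = ![p + aw, q + Lc + aw, 1 / 2] := by
    funext j
    fin_cases j <;> simp [ek]
    ring
  have e3 : (![p + aw, q + aw, 1 / 2] : Pt) 1 - (![p - aw, q - aw, -(1 / 2)] : Pt) 1 = 2 * aw :=
    show q + aw - (q - aw) = 2 * aw by ring
  have e4 : ∫ y in Icc (![p - aw, q - aw, -(1 / 2)] : Pt) ![p + aw, q + aw, 1 / 2], D.rz (y 2) =
      4 * aw ^ 2 * D.Iz := d4bl_cb D.rz (p, q) aw_pos.le (1 / 2)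
  rw [e1, e2, e3, e4] at h
  exact h

/-- The four strips. -/
def d4blS : Fin 4 → Set Pt :=
  ![d4blB (0 - aw) (0 + Lc + aw) (0 - aw) (0 + aw),
    d4blB (0 - aw) (0 + aw) (-Lc - aw) (-Lc + Lc + aw),
    d4blB (-Lc - aw) (-Lc + Lc + aw) (0 - aw) (0 + aw),
    d4blB (0 - aw) (0 + aw) (0 - aw) (0 + Lc + aw)]

lemma d4bl_meas (i : Fin 4) : MeasurableSet (d4blS i) := by
  fin_cases i <;> exact measurableSet_Icc

lemma d4bl_in (i : Fin 4) {y : Pt} (hy : y ∈ d4blS i) : (|y 0| ≤ aw + 1 ∨ |y 1| ≤ aw + 1) ∧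
    |y 0| ≤ Lc + aw + 1 ∧ |y 1| ≤ Lc + aw + 1 ∧ |y 2| ≤ 1 / 2 := by
  have := aw_pos
  have := Lc_pos
  simp only [abs_le (a := y 0), abs_le (a := y 1)]
  fin_cases i <;> obtain ⟨⟨h1, h2⟩, ⟨h3, h4⟩, h5⟩ := d4bl_mem.1 hy <;>
    refine ⟨?_, ⟨by linarith, by linarith⟩, ⟨by linarith, by linarith⟩, h5⟩
  · exact Or.inr ⟨by linarith, by linarith⟩
  · exact Or.inl ⟨by linarith, by linarith⟩
  · exact Or.inr ⟨by linarith, by linarith⟩
  · exact Or.inl ⟨by linarith, by linarith⟩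

lemma d4bl_sub (i : Fin 4) : d4blS i ⊆ B1 := fun y hy => by
  obtain ⟨-, h1, h2, h3⟩ := d4bl_in i hy
  have := aw_Lc
  have := aw_pos
  exact mem_cb.2 ⟨by simp only [sub_zero]; linarith, by simp only [sub_zero]; linarith,
    by linarith⟩

lemma d4bl_two {i j : Fin 4} (hij : i ≠ j) {y : Pt} (hi : y ∈ d4blS i) (hj : y ∈ d4blS j) :
    y ∈ Pl 0 := by
  have e : y ∈ Pl 0 ↔ (-aw ≤ y 0 ∧ y 0 ≤ aw) ∧ (-aw ≤ y 1 ∧ y 1 ≤ aw) ∧ |y 2| ≤ 1 / 2 := by
    simp [Pl, mem_cb, ctr, abs_le (a := y 0), abs_le (a := y 1)]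
  rw [e]
  fin_cases i <;> fin_cases j <;> first
    | exact absurd rfl hij
    | obtain ⟨⟨h1, h2⟩, ⟨h3, h4⟩, h5⟩ := d4bl_mem.1 hi
      obtain ⟨⟨k1, k2⟩, ⟨k3, k4⟩, -⟩ := d4bl_mem.1 hj
      exact ⟨⟨by linarith, by linarith⟩, ⟨by linarith, by linarith⟩, h5⟩

lemma d4bl_pt {D : Des} (h : D.OK) (hL : 4 * Lc ≤ D.Ls) (hn : 1 ≤ D.n) (y : Pt) :
    ∑ i, (d4blS i).indicator (fun y => Real.exp (-(12 * D.n)) * D.rz (y 2)) y ≤ D.Wr y := by
  have r0 : 0 < D.rz (y 2) := Real.exp_pos _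
  have e0 := Real.exp_pos (-(12 * D.n))
  by_cases hP : y ∈ Pl 0
  · have e4 : 4 * Real.exp (-(12 * D.n)) ≤ 1 := by
      have := Real.add_one_le_exp (12 * D.n)
      rw [Real.exp_neg, ← div_eq_mul_inv, div_le_one (Real.exp_pos _)]
      linarith
    refine (Finset.sum_le_card_nsmul _ _ (Real.exp (-(12 * D.n)) * D.rz (y 2)) fun i _ =>
      indicator_le_self' (fun _ _ => mul_nonneg e0.le (Real.exp_pos _).le) y).trans ?_
    rw [h.Wr_Pl hL hP, Finset.card_univ, Fintype.card_fin, nsmul_eq_mul]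
    push_cast
    nlinarith
  · by_cases hi : ∃ i, y ∈ d4blS i
    · obtain ⟨i, hi⟩ := hi
      obtain ⟨a, b, c, -⟩ := d4bl_in i hi
      have d := one_le_dd (x := rot y) (by rwa [pc_rot, qc_rot]) (by rwa [pc_rot]) (by rwa [qc_rot])
      rw [Finset.sum_eq_single i (fun j _ hj => indicator_of_notMem
        (fun hj' => hP (d4bl_two hj hj' hi)) _) (by simp), indicator_of_mem hi,
        h.Wr_eq hL (d4bl_sub i hi), mul_comm]
      refine mul_le_mul_of_nonneg_left (Real.exp_le_exp.2 ?_) r0.le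
      nlinarith
    · push Not at hi
      rw [Finset.sum_eq_zero fun i _ => indicator_of_notMem (hi i) _]
      exact (D.Wr_pos y).le

theorem d4b_links : Ev fun D => ∀ g : Pt → ℝ, ContDiff ℝ 1 g →
    Real.exp (-(12 * D.n)) * ∑ i : Fin 4,
        ((∫ y in Pl i.succ, D.rz (y 2) * g y) - ∫ y in Pl 0, D.rz (y 2) * g y) ^ 2 ≤
      4 * aw ^ 2 * D.Iz * (Lc * (2 * aw)) * ∫ y in B1, D.Wr y * gsq g y := by
  refine (((ev_ge 1).and ev_Ls).and ev_Iz).mono fun D h ⟨⟨hn, hL, _⟩, hI, _⟩ g hg => ?_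
  have cg : Continuous (gsq g) := continuous_finsetSum _ fun k _ => (nw_cont_pd hg k).pow 2
  have g0 : ∀ y, 0 ≤ gsq g y := fun y => Finset.sum_nonneg fun k _ => sq_nonneg _
  have cB : IsCompact B1 := isCompact_cb _ _ _
  have cr : Continuous fun y : Pt => Real.exp (-(12 * D.n)) * (D.rz (y 2) * gsq g y) :=
    continuous_const.mul ((D.cont_rz.comp (continuous_apply 2)).mul cg)
  have ii : ∀ i, IntegrableOn ((d4blS i).indicator
      fun y : Pt => Real.exp (-(12 * D.n)) * (D.rz (y 2) * gsq g y)) B1 := fun i =>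
    (cr.continuousOn.integrableOn_compact cB).indicator (d4bl_meas i)
  have k : Real.exp (-(12 * D.n)) * ∑ i, ∫ y in d4blS i, D.rz (y 2) * gsq g y ≤
      ∫ y in B1, D.Wr y * gsq g y := by
    have e : ∀ i, Real.exp (-(12 * D.n)) * ∫ y in d4blS i, D.rz (y 2) * gsq g y =
        ∫ y in B1, (d4blS i).indicator
          (fun y : Pt => Real.exp (-(12 * D.n)) * (D.rz (y 2) * gsq g y)) y := fun i => by
      rw [setIntegral_indicator (d4bl_meas i), inter_eq_right.2 (d4bl_sub i), integral_const_mul]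
    rw [Finset.mul_sum]
    simp only [e]
    rw [← integral_finsetSum _ fun i _ => ii i]
    refine integral_mono (integrable_finsetSum _ fun i _ => ii i)
      ((h.cont_Wr.mul cg).continuousOn.integrableOn_compact cB) fun y => ?_
    refine le_trans (le_of_eq ?_) (mul_le_mul_of_nonneg_right (d4bl_pt h hL hn y) (g0 y))
    rw [Finset.sum_mul]
    refine Finset.sum_congr rfl fun i _ => ?_
    rw [← indicator_mul_left (i := y) _ _ (gsq g)]
    simp only [mul_assoc]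
  have l : ∀ i : Fin 4,
      ((∫ y in Pl i.succ, D.rz (y 2) * g y) - ∫ y in Pl 0, D.rz (y 2) * g y) ^ 2 ≤
        4 * aw ^ 2 * D.Iz * (Lc * (2 * aw)) * ∫ y in d4blS i, D.rz (y 2) * gsq g y := by
    have a0 := d4bl_0 D hg 0 0
    have a1 := d4bl_1 D hg 0 (-Lc)
    have a2 := d4bl_0 D hg (-Lc) 0
    have a3 := d4bl_1 D hg 0 0
    have p0 : Pl 0 = cb (0, 0) aw (1 / 2) := rfl
    have p1 : Pl 1 = cb (0 + Lc, 0) aw (1 / 2) := by rw [zero_add]; rfl
    have p2 : Pl 2 = cb (0, -Lc) aw (1 / 2) := rfl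
    have p3 : Pl 3 = cb (-Lc, 0) aw (1 / 2) := rfl
    have p4 : Pl 4 = cb (0, 0 + Lc) aw (1 / 2) := by rw [zero_add]; rfl
    have q1 : cb (0, -Lc + Lc) aw (1 / 2) = Pl 0 := by rw [neg_add_cancel]; rfl
    have q2 : cb (-Lc + Lc, 0) aw (1 / 2) = Pl 0 := by rw [neg_add_cancel]; rfl
    rw [← p0, ← p1, ← mul_assoc] at a0
    rw [q1, ← p2, ← mul_assoc, ← neg_sq, neg_sub] at a1
    rw [q2, ← p3, ← mul_assoc, ← neg_sq, neg_sub] at a2
    rw [← p0, ← p4, ← mul_assoc] at a3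
    intro i
    fin_cases i
    exacts [a0, a1, a2, a3]
  have c0 : 0 ≤ 4 * aw ^ 2 * D.Iz * (Lc * (2 * aw)) := by
    have := aw_pos
    have := Lc_pos
    have : 0 ≤ D.Iz := le_trans (by positivity) hI
    positivity
  have s := Finset.sum_le_sum fun i (_ : i ∈ Finset.univ) => l i
  rw [← Finset.mul_sum] at s
  refine (mul_le_mul_of_nonneg_left s (Real.exp_pos _).le).trans ?_
  rw [mul_left_comm]
  exact mul_le_mul_of_nonneg_left k c0

end Vale.Agent.P363
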