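import Vale.Agent.P363.D4bA

/-!
Part D4b: the mass outside the wells.

Put `W' y = rz (y 2) * exp (-2 n (7 - crs (rot y)))`; on `B1`: `W' ≤ Wr` (`crs ≤ dd`), `W' ≤ exp (-12 n) rz`
(`crs ≤ 1`).  A point of `B1` outside all wells has `1 / 2 < |y 2|` or lies laterally outside all squares of
half side `aw + 1`, where `dd = crs` (`bmp_zero`), so `Wr ≤ V + W'` there, `V = {1 / 2 < |y 2|}.indicator Wr`.
For `V`: `d4b_step` in direction `2`, target `[-1/4, 1/4]`, `α = exp (-12 n)` (`dd (rot ·)` does not depend on `y 2`).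
For `W'`: `crs (rot y) = (1 - (1 - b (y 0)) (1 - b (y 1))) B (y 0) B (y 1)` does not decrease when `y k` (`k = 0, 1`) is
replaced by `s` with `|s| ≤ max |y k| aw` (`bmp_anti`, `bmp_one`).  Step in direction `1` (`V = W = W'`, `α = 1`,
target `[-aw, aw]`), then in direction `0` (`V = W'`, `W = Wr`, `α = exp (-12 n)`, target `[-aw, aw]`, where
`dd = 7` by `dd_plateau`).  Constants: `1.6 * 10 ^ 17 + 8` and `1.3 * 10 ^ 42`.
-/

namespace Vale.Agent.P363

open MeasureTheory Vale.Agent.P370 Set Function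
open scoped ContDiff

/-- The weight of the cross. -/
noncomputable def d4boW (D : Des) (y : Pt) : ℝ :=
  D.rz (y 2) * Real.exp (-(2 * D.n * (7 - crs (rot y))))

/-- Lower corner of the box. -/
noncomputable def d4boL : Pt := ![-(2 * Lc), -(2 * Lc), -1]

/-- Upper corner of the box. -/
noncomputable def d4boH : Pt := ![2 * Lc, 2 * Lc, 1]

lemma d4bo_B : B1 = Icc d4boL d4boH := by simp [B1, cb, d4boL, d4boH]

lemma d4bo_mem {y : Pt} : y ∈ B1 ↔ |y 0| ≤ 2 * Lc ∧ |y 1| ≤ 2 * Lc ∧ |y 2| ≤ 1 := by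
  simp only [B1, mem_cb, sub_zero]

lemma d4bo_sub {a b : Pt} {k : Fin 3} {c d : ℝ} (h1 : a k ≤ c) (h2 : d ≤ b k) :
    Icc (update a k c) (update b k d) ⊆ Icc a b :=
  Icc_subset_Icc (le_update_self_iff.2 h1) (update_le_self_iff.2 h2)

lemma d4bo_uIcc {u t s c : ℝ} (ht : t ∈ Icc (-c) c) (hs : s ∈ uIcc u t) : |s| ≤ max |u| c := by
  have h : |t| ≤ c := abs_le.2 ht
  rcases mem_uIcc.1 hs with k | k
  · exact (abs_le_max_abs_abs k.1 k.2).trans (max_le_max le_rfl h)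
  · exact (abs_le_max_abs_abs k.1 k.2).trans (max_le (le_max_of_le_right h) (le_max_left _ _))

lemma d4bo_bmp {h u s : ℝ} (hh : aw ≤ h) (hs : |s| ≤ max |u| aw) : bmp h u ≤ bmp h s := by
  rcases le_max_iff.1 hs with k | k
  · exact bmp_anti (aw_pos.le.trans hh) k
  · rw [bmp_one (k.trans hh)]
    exact bmp_le_one _ _

lemma d4bo_mono {y y' : Pt} (h0 : |y' 0| ≤ max |y 0| aw) (h1 : |y' 1| ≤ max |y 1| aw) :
    crs (rot y) ≤ crs (rot y') := by
  have e : ∀ y : Pt, crs (rot y) = (1 - (1 - bmp (aw + 1) (y 0)) * (1 - bmp (aw + 1) (y 1))) *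
      (bmp (Lc + aw + 1) (y 0) * bmp (Lc + aw + 1) (y 1)) := fun y => by
    simp [crs, sqb, pc_rot, qc_rot, ctr]
  have hL : aw ≤ Lc + aw + 1 := by linarith [Lc_pos]
  have a0 := d4bo_bmp (h := aw + 1) (by linarith) h0
  have a1 := d4bo_bmp (h := aw + 1) (by linarith) h1
  have c0 := bmp_le_one (aw + 1) (y' 0)
  have c1 := bmp_le_one (aw + 1) (y' 1)
  have d0 := bmp_nonneg (aw + 1) (y' 0)
  have d1 := bmp_nonneg (aw + 1) (y' 1)
  have k : (1 - bmp (aw + 1) (y' 0)) * (1 - bmp (aw + 1) (y' 1)) ≤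
      (1 - bmp (aw + 1) (y 0)) * (1 - bmp (aw + 1) (y 1)) :=
    mul_le_mul (by linarith) (by linarith) (by linarith) (by linarith)
  have k' : (1 - bmp (aw + 1) (y' 0)) * (1 - bmp (aw + 1) (y' 1)) ≤ 1 :=
    mul_le_one₀ (by linarith) (by linarith) (by linarith)
  rw [e, e]
  exact mul_le_mul (by linarith) (mul_le_mul (d4bo_bmp hL h0) (d4bo_bmp hL h1) (bmp_nonneg _ _)
    (bmp_nonneg _ _)) (mul_nonneg (bmp_nonneg _ _) (bmp_nonneg _ _)) (by linarith)

lemma d4bo_rz (D : Des) (z : ℝ) : 0 < D.rz z := Real.exp_pos _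

lemma d4bo_pos (D : Des) (y : Pt) : 0 ≤ d4boW D y :=
  (mul_pos (d4bo_rz D _) (Real.exp_pos _)).le

lemma d4bo_cont (D : Des) : Continuous (d4boW D) := by
  have h1 := D.cont_rz
  have h2 : Continuous fun y => crs (rot y) := cd_crs.continuous.comp cd_rot.continuous
  unfold d4boW
  fun_prop

lemma d4bo_W_mono {D : Des} (hn : 0 ≤ D.n) {y y' : Pt} (h0 : |y' 0| ≤ max |y 0| aw)
    (h1 : |y' 1| ≤ max |y 1| aw) (h2 : y' 2 = y 2) : d4boW D y ≤ d4boW D y' := by
  unfold d4boW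
  rw [h2]
  refine mul_le_mul_of_nonneg_left (Real.exp_le_exp.2 ?_) (d4bo_rz D _).le
  nlinarith [mul_le_mul_of_nonneg_left (d4bo_mono h0 h1) hn]

lemma d4bo_W_le {D : Des} (h : D.OK) (hL : 4 * Lc ≤ D.Ls) (hn : 0 ≤ D.n) {y : Pt} (hy : y ∈ B1) :
    d4boW D y ≤ D.Wr y := by
  rw [h.Wr_eq hL hy]
  refine mul_le_mul_of_nonneg_left (Real.exp_le_exp.2 ?_) (d4bo_rz D _).le
  have : crs (rot y) ≤ dd (rot y) := le_add_of_nonneg_right (mul_nonneg (by norm_num)
    (Finset.sum_nonneg fun a _ => sqb_nonneg _ _ _))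
  nlinarith [mul_le_mul_of_nonneg_left this hn]

lemma d4bo_W_le' {D : Des} (hn : 0 ≤ D.n) (y : Pt) :
    d4boW D y ≤ Real.exp (-(12 * D.n)) * D.rz (y 2) := by
  rw [mul_comm]
  refine mul_le_mul_of_nonneg_left (Real.exp_le_exp.2 ?_) (d4bo_rz D _).le
  nlinarith [mul_le_mul_of_nonneg_left (crs_mem (rot y)).2 hn]

lemma d4bo_dd (y : Pt) (t : ℝ) : dd (rot (update y 2 t)) = dd (rot y) := by
  simp only [dd, crs, sqb, pc_rot, qc_rot, update_of_ne (show (0 : Fin 3) ≠ 2 by decide),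
    update_of_ne (show (1 : Fin 3) ≠ 2 by decide)]

lemma d4bo_le {a b : Pt} {F : Pt → ℝ} (hF : Continuous F) (h0 : ∀ y, 0 ≤ F y) {S : Set Pt}
    (hS : S ⊆ Icc a b) : ∫ y in S, F y ≤ ∫ y in Icc a b, F y :=
  setIntegral_mono_set (hF.continuousOn.integrableOn_compact isCompact_Icc) (ae_of_all _ h0)
    hS.eventuallyLE

/-- The vertical part. -/
lemma d4bo_V {D : Des} (h : D.OK) (hL : 4 * Lc ≤ D.Ls) (hn : 2 ≤ D.n) {g : Pt → ℝ}
    (hg : ContDiff ℝ 1 g) : ∫ y in B1, {y : Pt | 1 / 2 < |y 2|}.indicator D.Wr y * g y ^ 2 ≤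
      8 * Real.exp (-(12 * D.n)) * (∫ y in B1, D.Wr y * g y ^ 2) +
        8 * ∫ y in B1, D.Wr y * gsq g y := by
  have mS : MeasurableSet {y : Pt | 1 / 2 < |y 2|} :=
    measurableSet_lt measurable_const (measurable_pi_apply 2).abs
  have hO : 64 * D.n ≤ 1 + D.Om := by
    have h7 : (2 : ℝ) ^ 7 ≤ D.n ^ 7 := pow_le_pow_left₀ (by norm_num) hn 7
    have : D.Om = D.n ^ 7 * D.n := by unfold Des.Om; ring
    nlinarith
  have up : ∀ y ∈ B1, ∀ s, |s| ≤ 1 →
      D.Wr (update y 2 s) = D.rz s * Real.exp (-(2 * D.n * (7 - dd (rot y)))) := fun y hy s hs => by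
    obtain ⟨k0, k1, -⟩ := d4bo_mem.1 hy
    rw [h.Wr_eq hL (d4bo_mem.2 ⟨by simpa using k0, by simpa using k1, by simpa using hs⟩),
      d4bo_dd, update_self]
  have hc : d4boL 2 ≤ -(1 / 4) := show (-1 : ℝ) ≤ -(1 / 4) by norm_num
  have hd : 1 / 4 ≤ d4boH 2 := show (1 / 4 : ℝ) ≤ 1 by norm_num
  have key := d4b_step (V := {y : Pt | 1 / 2 < |y 2|}.indicator D.Wr) (W := D.Wr) (g := g) 2
    (a := d4boL) (b := d4boH) (c := -(1 / 4)) (d := 1 / 4) (α := Real.exp (-(12 * D.n)))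
    (by norm_num) hc hd (h.cont_Wr.measurable.indicator mS)
    (fun y => indicator_nonneg (fun y _ => (D.Wr_pos y).le) y) h.cont_Wr
    (fun y => (D.Wr_pos y).le) (Real.exp_pos _).le hg ?_ ?_
  · have e : d4boH 2 - d4boL 2 = 2 := show (1 : ℝ) - -1 = 2 by norm_num
    have m := d4bo_le (h.cont_Wr.mul (hg.continuous.pow 2))
      (fun y => mul_nonneg (D.Wr_pos y).le (sq_nonneg _)) (d4bo_sub hc hd)
    have m' := mul_le_mul_of_nonneg_left m (Real.exp_pos (-(12 * D.n))).le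
    rw [e] at key
    rw [d4bo_B]
    simp only [Pi.mul_apply, Pi.pow_apply] at m'
    linarith
  · intro y hy t ht
    rw [← d4bo_B] at hy
    by_cases hS : y ∈ {y : Pt | 1 / 2 < |y 2|}
    · have t1 : |t| ≤ 1 / 4 := abs_le.2 ht
      rw [indicator_of_mem hS, up y hy t (by linarith), h.Wr_eq hL hy, ← mul_assoc]
      refine mul_le_mul_of_nonneg_right ?_ (Real.exp_pos _).le
      rw [Des.rz, Des.rz, ← Real.exp_add, Real.exp_le_exp]
      have a1 : (1 / 2) ^ 2 ≤ |y 2| ^ 2 := pow_le_pow_left₀ (by norm_num) (le_of_lt hS) 2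
      have a2 : |t| ^ 2 ≤ (1 / 4) ^ 2 := pow_le_pow_left₀ (abs_nonneg _) t1 2
      rw [sq_abs] at a1 a2
      nlinarith [mul_le_mul_of_nonneg_left (show 3 / 16 ≤ y 2 ^ 2 - t ^ 2 by linarith)
        (show 0 ≤ 1 + D.Om by linarith)]
    · rw [indicator_of_notMem hS]
      exact (mul_pos (Real.exp_pos _) (D.Wr_pos _)).le
  · intro y hy t ht s hs
    rw [← d4bo_B] at hy
    by_cases hS : y ∈ {y : Pt | 1 / 2 < |y 2|}
    · have hS' : 1 / 2 < |y 2| := hS
      have s1 : |s| ≤ |y 2| := (d4bo_uIcc ht hs).trans (max_le le_rfl (by linarith))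
      rw [indicator_of_mem hS, up y hy s (s1.trans (d4bo_mem.1 hy).2.2), h.Wr_eq hL hy]
      refine mul_le_mul_of_nonneg_right ?_ (Real.exp_pos _).le
      rw [Des.rz, Des.rz, Real.exp_le_exp]
      have a1 : s ^ 2 ≤ y 2 ^ 2 := sq_le_sq.2 s1
      nlinarith [mul_le_mul_of_nonneg_left a1 (show 0 ≤ 1 + D.Om by linarith)]
    · rw [indicator_of_notMem hS]
      exact (D.Wr_pos _).le

/-- The lateral part. -/
lemma d4bo_lat {D : Des} (h : D.OK) (hL : 4 * Lc ≤ D.Ls) (hn : 0 ≤ D.n) {g : Pt → ℝ}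
    (hg : ContDiff ℝ 1 g) : ∫ y in B1, d4boW D y * g y ^ 2 ≤
      16 * 10 ^ 16 * Real.exp (-(12 * D.n)) * (∫ y in B1, D.Wr y * g y ^ 2) +
        13 * 10 ^ 41 * ∫ y in B1, D.Wr y * gsq g y := by
  have aL : aw ≤ 2 * Lc := by norm_num [aw, Lc]
  have a0 := aw_pos
  have hc1 : d4boL 1 ≤ -aw := by simpa [d4boL] using aL
  have hd1 : aw ≤ d4boH 1 := by simpa [d4boH] using aL
  have hc0 : update d4boL 1 (-aw) 0 ≤ -aw := by simpa [d4boL] using aL
  have hd0 : aw ≤ update d4boH 1 aw 0 := by simpa [d4boH] using aL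
  have cg : Continuous (gsq g) := continuous_finsetSum _ fun k _ => (nw_cont_pd hg k).pow 2
  have g0 : ∀ y, 0 ≤ gsq g y := fun y => Finset.sum_nonneg fun k _ => sq_nonneg _
  have m1 : ∀ (y : Pt) (s : ℝ), |s| ≤ max |y 1| aw → d4boW D y ≤ d4boW D (update y 1 s) :=
    fun y s hs => d4bo_W_mono hn (by simp) (by simpa using hs) (by simp)
  have k1 := d4b_step (V := d4boW D) (W := d4boW D) (g := g) 1 (a := d4boL) (b := d4boH)
    (c := -aw) (d := aw) (α := 1) (by linarith) hc1 hd1 (d4bo_cont D).measurable (d4bo_pos D)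
    (d4bo_cont D) (d4bo_pos D) zero_le_one hg
    (fun y _ t ht => by rw [one_mul]; exact m1 y t (le_max_of_le_right (abs_le.2 ht)))
    fun y _ t ht s hs => m1 y s (d4bo_uIcc ht hs)
  have sub := d4bo_sub hc1 hd1
  have k0 := d4b_step (V := d4boW D) (W := D.Wr) (g := g) 0 (a := update d4boL 1 (-aw))
    (b := update d4boH 1 aw) (c := -aw) (d := aw) (α := Real.exp (-(12 * D.n))) (by linarith)
    hc0 hd0 (d4bo_cont D).measurable (d4bo_pos D) h.cont_Wr (fun y => (D.Wr_pos y).le)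
    (Real.exp_pos _).le hg ?_ ?_
  · have e1 : d4boH 1 - d4boL 1 = 4 * 10 ^ 16 := by norm_num [d4boH, d4boL, Lc]
    have e0 : update d4boH 1 aw 0 - update d4boL 1 (-aw) 0 = 4 * 10 ^ 16 := by
      norm_num [d4boH, d4boL, Lc]
    have e2 : aw - -aw = 2 * 10 ^ 8 := by norm_num [aw]
    rw [e1, e2] at k1
    rw [e0, e2] at k0
    have n1 := d4bo_le (F := fun y => D.Wr y * g y ^ 2) (h.cont_Wr.mul (hg.continuous.pow 2))
      (fun y => mul_nonneg (D.Wr_pos y).le (sq_nonneg _)) ((d4bo_sub hc0 hd0).trans sub)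
    have n1' := mul_le_mul_of_nonneg_left n1 (Real.exp_pos (-(12 * D.n))).le
    have n2 := d4bo_le (F := fun y => D.Wr y * gsq g y) (h.cont_Wr.mul cg)
      (fun y => mul_nonneg (D.Wr_pos y).le (g0 y)) sub
    have n3 : ∫ y in Icc d4boL d4boH, d4boW D y * gsq g y ≤
        ∫ y in Icc d4boL d4boH, D.Wr y * gsq g y :=
      setIntegral_mono_on
        (((d4bo_cont D).mul cg).continuousOn.integrableOn_compact isCompact_Icc)
        ((h.cont_Wr.mul cg).continuousOn.integrableOn_compact isCompact_Icc) measurableSet_Icc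
        fun y hy => mul_le_mul_of_nonneg_right (d4bo_W_le h hL hn (d4bo_B ▸ hy)) (g0 y)
    have n4 : 0 ≤ ∫ y in Icc d4boL d4boH, D.Wr y * gsq g y :=
      integral_nonneg fun y => mul_nonneg (D.Wr_pos y).le (g0 y)
    rw [d4bo_B]
    linarith
  · intro y hy t ht
    obtain ⟨-, b1, b2⟩ := d4bo_mem.1 (d4bo_B ▸ sub hy)
    have t1 : |t| ≤ aw := abs_le.2 ht
    have y1 : |y 1| ≤ aw := abs_le.2 ⟨by simpa using hy.1 1, by simpa using hy.2 1⟩
    rw [h.Wr_eq hL (d4bo_mem.2 ⟨by simpa using t1.trans aL, by simpa using b1, by simpa using b2⟩),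
      dd_plateau (a := 0) (by simpa [pc_rot, ctr] using t1) (by simpa [qc_rot, ctr] using y1)]
    simpa using d4bo_W_le' hn y
  · intro y hy t ht s hs
    obtain ⟨b0, b1, b2⟩ := d4bo_mem.1 (d4bo_B ▸ sub hy)
    have s1 := d4bo_uIcc ht hs
    refine (d4bo_W_mono hn (y' := update y 0 s) (by simpa using s1) (by simp) (by simp)).trans
      (d4bo_W_le h hL hn (d4bo_mem.2 ⟨?_, by simpa using b1, by simpa using b2⟩))
    simpa using s1.trans (max_le b0 aL)

theorem d4b_out : Ev fun D => ∀ g : Pt → ℝ, ContDiff ℝ 1 g →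
    ∫ y in B1 \ ⋃ a, Wl a, D.Wr y * g y ^ 2 ≤
      10 ^ 20 * Real.exp (-(12 * D.n)) * (∫ y in B1, D.Wr y * g y ^ 2) +
        10 ^ 45 * ∫ y in B1, D.Wr y * gsq g y := by
  refine ((ev_ge 2).and ev_Ls).mono fun D h ⟨hn, hL, _⟩ g hg => ?_
  have hn0 : 0 ≤ D.n := by linarith
  have mS : MeasurableSet {y : Pt | 1 / 2 < |y 2|} :=
    measurableSet_lt measurable_const (measurable_pi_apply 2).abs
  have cB : IsCompact B1 := isCompact_cb _ _ _
  have i0 : IntegrableOn (fun y => D.Wr y * g y ^ 2) B1 :=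
    (h.cont_Wr.mul (hg.continuous.pow 2)).continuousOn.integrableOn_compact cB
  have i1 : IntegrableOn (fun y => {y : Pt | 1 / 2 < |y 2|}.indicator D.Wr y * g y ^ 2) B1 := by
    exact (i0.indicator mS).congr_fun (fun y _ => indicator_mul_left _ D.Wr fun y => g y ^ 2)
      cB.measurableSet
  have i2 : IntegrableOn (fun y => d4boW D y * g y ^ 2) B1 :=
    ((d4bo_cont D).mul (hg.continuous.pow 2)).continuousOn.integrableOn_compact cB
  have i3 : IntegrableOn (fun y => {y : Pt | 1 / 2 < |y 2|}.indicator D.Wr y * g y ^ 2 +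
      d4boW D y * g y ^ 2) B1 := i1.add i2
  have p1 : ∀ y, 0 ≤ {y : Pt | 1 / 2 < |y 2|}.indicator D.Wr y :=
    indicator_nonneg fun y _ => (D.Wr_pos y).le
  have s1 : ∫ y in B1 \ ⋃ a, Wl a, D.Wr y * g y ^ 2 ≤ ∫ y in B1 \ ⋃ a, Wl a,
      ({y : Pt | 1 / 2 < |y 2|}.indicator D.Wr y * g y ^ 2 + d4boW D y * g y ^ 2) := by
    refine setIntegral_mono_on (i0.mono_set sdiff_subset) (i3.mono_set sdiff_subset)
      ((measurableSet_cb _ _ _).diff (MeasurableSet.iUnion fun a => measurableSet_cb _ _ _))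
      fun y hy => ?_
    rw [← add_mul]
    refine mul_le_mul_of_nonneg_right ?_ (sq_nonneg _)
    by_cases hS : y ∈ {y : Pt | 1 / 2 < |y 2|}
    · rw [indicator_of_mem hS]
      exact le_add_of_nonneg_right (d4bo_pos D y)
    · have e : dd (rot y) = crs (rot y) := by
        rw [dd, Finset.sum_eq_zero fun a _ => sqb_zero ?_]
        · ring
        rw [pc_rot, qc_rot]
        by_contra hc
        push Not at hc
        exact hy.2 (mem_iUnion.2 ⟨a, mem_cb.2 ⟨hc.1.le, hc.2.le, not_lt.1 hS⟩⟩)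
      rw [indicator_of_notMem hS, zero_add, h.Wr_eq hL hy.1, e]
      exact le_rfl
  have s2 := setIntegral_mono_set (s := B1 \ ⋃ a, Wl a) i3
    (ae_of_all _ fun y => add_nonneg (mul_nonneg (p1 y) (sq_nonneg _))
      (mul_nonneg (d4bo_pos D y) (sq_nonneg _))) sdiff_subset.eventuallyLE
  rw [integral_add i1 i2] at s2
  have s3 := d4bo_V h hL hn hg
  have s4 := d4bo_lat h hL hn0 hg
  have n1 : 0 ≤ Real.exp (-(12 * D.n)) * ∫ y in B1, D.Wr y * g y ^ 2 :=
    mul_nonneg (Real.exp_pos _).le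
      (integral_nonneg fun y => mul_nonneg (D.Wr_pos y).le (sq_nonneg _))
  have n2 : 0 ≤ ∫ y in B1, D.Wr y * gsq g y := integral_nonneg fun y =>
    mul_nonneg (D.Wr_pos y).le (Finset.sum_nonneg fun k _ => sq_nonneg _)
  linarith

end Vale.Agent.P363
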