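import Vale.Agent.P363.D4bU
import Vale.Agent.P363.D4bG

/-!
Part D4b: the upper bound.

`lc5 D.η c = φ0 * (lc5 th c / √(mass 0))` (`ev_mass`); `d4b_eq` (the support of `Xi` is
`|p|, |q| < Lc + aw + 4`, `|z| < 3 / 4`); integrate `d4b_pt`: `Lk a` is the preimage under `rot` of a box
(`setIntegral_rot`, `integral_pt_prod`), `∫ (Lk a) rz = (Lc - 2 aw - 4) (2 aw + 4) Iz`, `mass ≥ 4 aw ^ 2 Iz`,
`Iz ≥ n ^ (-5)`.  The main term is `lam / Lc * K0 c` times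
`(2 aw + 4) / (2 aw) * Lc (Lc - 2 aw - 4) / (Lc - 2 aw - 6) ^ 2 ≤ 1 + 5 / 10 ^ 8`, and `K0 c ≤ 5 / 4 ∑ c ^ 2`
(`d4b_K0`); the rest is `C' n ^ 5 exp (-14 n) ∑ c ^ 2`.
-/

namespace Vale.Agent.P363

open MeasureTheory Vale.Agent.P370 Set Function
open scoped ContDiff

theorem d4b_K0 (c : Fin 5 → ℝ) : 0 ≤ K0 c ∧ K0 c ≤ 5 / 4 * ∑ a, c a ^ 2 := by
  unfold K0
  simp only [Fin.sum_univ_succ, Finset.univ_eq_empty, Finset.sum_empty]
  constructor
  · positivity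
  · nlinarith [sq_nonneg (c 0 + 4 * c (Fin.succ 0)), sq_nonneg (c 0 + 4 * c (Fin.succ 0).succ),
      sq_nonneg (c 0 + 4 * c (Fin.succ 0).succ.succ),
      sq_nonneg (c 0 + 4 * c (Fin.succ 0).succ.succ.succ)]

theorem d4bv_box (D : Des) {a0 b0 a1 b1 : ℝ} (h0 : a0 ≤ b0) (h1 : a1 ≤ b1) {S : Set Pt}
    (hS : ∀ x, x ∈ S ↔ (a0 ≤ pc x ∧ pc x ≤ b0) ∧ (a1 ≤ qc x ∧ qc x ≤ b1) ∧ |x 2| ≤ 1 / 2) :
    ∫ x, S.indicator (fun x => D.rz (x 2)) x = (b0 - a0) * (b1 - a1) * D.Iz := by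
  have h := integral_pt_prod ((Icc a0 b0).indicator fun _ => 1) ((Icc a1 b1).indicator fun _ => 1)
    ((Icc (-(1 / 2) : ℝ) (1 / 2)).indicator D.rz)
  rw [integral_indicator measurableSet_Icc, integral_indicator measurableSet_Icc,
    integral_indicator measurableSet_Icc, setIntegral_const, setIntegral_const,
    Real.volume_real_Icc_of_le h0, Real.volume_real_Icc_of_le h1, smul_eq_mul, smul_eq_mul,
    mul_one, mul_one] at h
  rw [← integral_rot]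
  refine Eq.trans (integral_congr_ae (ae_of_all _ fun y => ?_)) h
  have e : rot y 2 = y 2 := rfl
  simp only [indicator, hS, pc_rot, qc_rot, mem_Icc, abs_le, e]
  by_cases g0 : a0 ≤ y 0 ∧ y 0 ≤ b0 <;> by_cases g1 : a1 ≤ y 1 ∧ y 1 ≤ b1 <;>
    by_cases g2 : -(1 / 2) ≤ y 2 ∧ y 2 ≤ 1 / 2 <;> simp only [g0, g1, g2] <;> simp

theorem d4bv_lk (D : Des) (i : Fin 4) : ∫ x, (Lk i.succ).indicator (fun x => D.rz (x 2)) x =
    (Lc - 2 * aw - 4) * (2 * aw + 4) * D.Iz := by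
  have h1 := aw_pos
  have h2 := aw_Lc
  fin_cases i
  · refine (d4bv_box D (a0 := aw + 2) (b0 := Lc - aw - 2) (a1 := -(aw + 2)) (b1 := aw + 2)
      (by linarith) (by linarith) fun x => ?_).trans (by ring)
    change aw + 2 ≤ pc x ∧ pc x ≤ Lc - aw - 2 ∧ |qc x| ≤ aw + 2 ∧ |x 2| ≤ 1 / 2 ↔ _
    rw [abs_le]
    tauto
  · refine (d4bv_box D (a0 := -(aw + 2)) (b0 := aw + 2) (a1 := -(Lc - aw - 2)) (b1 := -(aw + 2))
      (by linarith) (by linarith) fun x => ?_).trans (by ring)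
    change aw + 2 ≤ -qc x ∧ -qc x ≤ Lc - aw - 2 ∧ |pc x| ≤ aw + 2 ∧ |x 2| ≤ 1 / 2 ↔ _
    rw [abs_le, le_neg, neg_le]
    tauto
  · refine (d4bv_box D (a0 := -(Lc - aw - 2)) (b0 := -(aw + 2)) (a1 := -(aw + 2)) (b1 := aw + 2)
      (by linarith) (by linarith) fun x => ?_).trans (by ring)
    change aw + 2 ≤ -pc x ∧ -pc x ≤ Lc - aw - 2 ∧ |qc x| ≤ aw + 2 ∧ |x 2| ≤ 1 / 2 ↔ _
    rw [abs_le, le_neg, neg_le]
    tauto
  · refine (d4bv_box D (a0 := -(aw + 2)) (b0 := aw + 2) (a1 := aw + 2) (b1 := Lc - aw - 2)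
      (by linarith) (by linarith) fun x => ?_).trans (by ring)
    change aw + 2 ≤ qc x ∧ qc x ≤ Lc - aw - 2 ∧ |pc x| ≤ aw + 2 ∧ |x 2| ≤ 1 / 2 ↔ _
    rw [abs_le]
    tauto

theorem d4bv_cpt : IsCompact (rot ⁻¹' B1) := by
  have e : rot ⁻¹' B1 = rot '' B1 := (Involutive.image_eq_preimage_symm rot_rot ▸ rfl)
  rw [e]
  exact (isCompact_cb _ _ _).image cd_rot.continuous

theorem d4bv_mem {x : Pt} : x ∈ rot ⁻¹' B1 ↔ |pc x| ≤ 2 * Lc ∧ |qc x| ≤ 2 * Lc ∧ |x 2| ≤ 1 := by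
  rw [mem_preimage, B1, mem_cb, sub_zero, sub_zero]
  rfl

theorem d4bv_closed (a : Fin 5) : IsClosed (Lk a) := by
  have h1 := (cd_lon a).continuous
  have h2 := (cd_tra a).continuous
  exact (isClosed_le continuous_const h1).inter ((isClosed_le h1 continuous_const).inter
    ((isClosed_le h2.abs continuous_const).inter
      (isClosed_le (continuous_apply 2).abs continuous_const)))

theorem d4bv_sub (i : Fin 4) : Lk i.succ ⊆ rot ⁻¹' B1 := fun x hx => by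
  have h1 := aw_pos
  have h2 := aw_Lc
  obtain ⟨g1, g2, g3, g4⟩ := hx
  have g5 : |lon i.succ x| ≤ 2 * Lc := abs_le.2 ⟨by linarith, by linarith⟩
  have g6 : |tra i.succ x| ≤ 2 * Lc := by linarith
  refine d4bv_mem.2 (and_assoc.1 ⟨?_, by linarith⟩)
  fin_cases i
  · exact ⟨g5, g6⟩
  · exact ⟨g6, (abs_neg _).symm.trans_le g5⟩
  · exact ⟨(abs_neg _).symm.trans_le g5, g6⟩
  · exact ⟨g6, g5⟩

theorem d4bv_int (D : Des) (i : Fin 4) :
    Integrable ((Lk i.succ).indicator fun x => D.rz (x 2)) :=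
  (integrable_indicator_iff (d4bv_closed _).measurableSet).2
    (((D.cont_rz.comp (continuous_apply 2)).continuousOn.integrableOn_compact d4bv_cpt).mono_set
      (d4bv_sub i))

theorem d4bv_supp {c : Fin 5 → ℝ} {x : Pt} (h : lc5 th c x ≠ 0) :
    |pc x| ≤ 2 * Lc - 1 ∧ |qc x| ≤ 2 * Lc - 1 ∧ |x 2| ≤ 3 / 4 := by
  have h1 := aw_pos
  have h2 := aw_Lc
  have h3 : Xi x ≠ 0 := fun h0 => h (by simp [lc5, th, th1, h0])
  by_contra hc
  refine h3 ?_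
  simp only [not_and_or, not_le] at hc
  rcases hc with hc | hc | hc
  · rw [Xi, sqb0_zero (Or.inl (by linarith)), zero_mul]
  · rw [Xi, sqb0_zero (Or.inr (by linarith)), zero_mul]
  · rw [Xi, bmp_zero (by rw [abs_mul, abs_of_pos (by norm_num : (0 : ℝ) < 4)]; linarith), mul_zero]

theorem d4bv_cd (c : Fin 5 → ℝ) : ContDiff ℝ ∞ (lc5 th c) :=
  ContDiff.sum fun a _ => contDiff_const.mul (cd_th a)

theorem d4bv_gsq {T : Pt → ℝ} (hT : ContDiff ℝ ∞ T) (s : ℝ) (x : Pt) :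
    gsq (fun y => s * T y) x = s ^ 2 * gsq T x := by
  simp only [gsq, pd, Finset.mul_sum]
  refine Finset.sum_congr rfl fun k _ => ?_
  rw [fderiv_const_mul (hT.differentiable (by simp) x)]
  simp only [_root_.smul_apply, smul_eq_mul]
  ring

theorem d4bv_num {m I N u w S Q B : ℝ} (hI : 0 < I) (hN : 1 ≤ N * I) (hm : 4 * aw ^ 2 * I ≤ m)
    (hu : 0 ≤ u) (hw : 0 ≤ w) (hS : 0 ≤ S) (hQ : 0 ≤ Q) (hQS : Q ≤ 5 / 4 * S) (hB : 0 ≤ B)
    (h : B * N * w ≤ tol * aw / (5 * Lc)) :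
    1 / 2 * (m⁻¹ * (4 * Q / (Lc - 2 * aw - 6) ^ 2 * u * ((Lc - 2 * aw - 4) * (2 * aw + 4) * I) +
      B * S * (u * w))) ≤ u / aw / Lc * Q + tol / 10 * (u / aw / Lc) * S := by
  have h0 : 0 < 4 * aw ^ 2 * I := by have := aw_pos; positivity
  have h1 : m⁻¹ ≤ (4 * aw ^ 2 * I)⁻¹ := inv_anti₀ h0 hm
  have h2 : m⁻¹ * I ≤ (4 * aw ^ 2)⁻¹ := by
    refine (mul_le_mul_of_nonneg_right h1 hI.le).trans_eq ?_
    field_simp
  have h3 : m⁻¹ ≤ (4 * aw ^ 2)⁻¹ * N := by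
    have h4 : 0 ≤ m⁻¹ := (inv_pos.2 (h0.trans_le hm)).le
    have h5 : 0 ≤ N := by
      by_contra hn
      nlinarith
    nlinarith [mul_le_mul_of_nonneg_left hN h4, mul_le_mul_of_nonneg_left h2 h5]
  have h6 : m⁻¹ * (B * w) ≤ (4 * aw ^ 2)⁻¹ * (tol * aw / (5 * Lc)) := by
    refine (mul_le_mul_of_nonneg_right h3 (mul_nonneg hB hw)).trans ?_
    rw [mul_assoc]
    refine mul_le_mul_of_nonneg_left (by linarith) (by positivity)
  have h7 := mul_le_mul_of_nonneg_left h2 (mul_nonneg hu hQ)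
  have h8 := mul_le_mul_of_nonneg_left h6 (mul_nonneg hu hS)
  have h9 := mul_le_mul_of_nonneg_left hQS hu
  have h10 := mul_nonneg hu hS
  simp only [aw, Lc, tol] at h7 h8 ⊢
  linarith

theorem d4b_up : Ev fun D => ∀ c : Fin 5 → ℝ, qV D.U (lc5 D.η c) ≤
    D.E1 * (∫ x, lc5 D.η c x ^ 2) + D.lam / Lc * K0 c +
      tol / 10 * (D.lam / Lc) * ∑ a, c a ^ 2 := by
  obtain ⟨C, hC, hpt⟩ := d4b_pt
  obtain ⟨V, hV⟩ : ∃ V : ℝ, V = ∫ x, (rot ⁻¹' B1).indicator (fun _ => 1) x := ⟨_, rfl⟩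
  have hV0 : 0 ≤ V := hV ▸ integral_nonneg fun x => indicator_nonneg (fun _ _ => zero_le_one) x
  refine (((hpt.and d4b_eq).and (ev_mass.and ev_Iz)).and ((ev_ge 1).and
    ((ev_poly' (C * V * (5 * Lc / (tol * aw))) 5).and (ev_P 1 two_pos)))).mono
    fun D _ ⟨⟨⟨h1, h2⟩, h3, h4, _⟩, h5, ⟨_, h6⟩, h7⟩ c => ?_
  have ha := aw_pos
  have hL := Lc_pos
  have ht : 0 < tol := by norm_num [tol]
  have hn : 0 < D.n ^ 5 := by positivity
  have hI : 0 < D.Iz := lt_of_lt_of_le (by positivity) h4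
  have hm : 0 < D.mass 0 := lt_of_lt_of_le (by positivity) (h3 0).2.1
  have e : lc5 D.η c = fun x => D.φ0 x * ((√(D.mass 0))⁻¹ * lc5 th c x) := by
    funext x
    simp only [lc5, Des.η, Finset.mul_sum]
    refine Finset.sum_congr rfl fun a _ => ?_
    rw [(h3 a).1]
    ring
  have hs : ∀ x, (√(D.mass 0))⁻¹ * lc5 th c x ≠ 0 →
      |pc x| ≤ 2 * Lc - 1 ∧ |qc x| ≤ 2 * Lc - 1 ∧ |x 2| ≤ 3 / 4 :=
    fun x hx => d4bv_supp (right_ne_zero_of_mul hx)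
  have hc : C1c fun x => (√(D.mass 0))⁻¹ * lc5 th c x :=
    ⟨contDiff_const.mul ((d4bv_cd c).of_le (by simp)), .intro d4bv_cpt fun x hx => by
      by_contra h0
      obtain ⟨g1, g2, g3⟩ := hs x h0
      exact hx (d4bv_mem.2 ⟨by linarith, by linarith, by linarith⟩)⟩
  have i1 : ∀ i : Fin 4, Integrable fun x => (c i.succ - c 0) ^ 2 / (Lc - 2 * aw - 6) ^ 2 *
      Real.exp (-(12 * D.n)) * (Lk i.succ).indicator (fun x => D.rz (x 2)) x :=
    fun i => (d4bv_int D i).const_mul _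
  have i2 : Integrable fun x => C * (∑ a, c a ^ 2) * Real.exp (-(14 * D.n)) *
      (rot ⁻¹' B1).indicator (fun _ => (1 : ℝ)) x :=
    ((integrable_indicator_iff d4bv_cpt.measurableSet).2
      (continuousOn_const.integrableOn_compact d4bv_cpt)).const_mul _
  have i3 := integrable_finsetSum Finset.univ fun i _ => i1 i
  have b := integral_mono_of_nonneg (f := fun x => D.φ0 x ^ 2 * gsq (lc5 th c) x)
    (.of_forall fun x => mul_nonneg (sq_nonneg _) (Finset.sum_nonneg fun _ _ => sq_nonneg _))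
    (i3.add i2) (.of_forall (h1 c))
  simp only [Pi.add_apply] at b
  rw [integral_add i3 i2, integral_finsetSum _ fun i _ => i1 i, integral_const_mul, ← hV] at b
  simp only [integral_const_mul, d4bv_lk, ← Finset.sum_mul, ← Finset.sum_div] at b
  have e1 : ∫ x, D.φ0 x ^ 2 * gsq (fun x => (√(D.mass 0))⁻¹ * lc5 th c x) x =
      (D.mass 0)⁻¹ * ∫ x, D.φ0 x ^ 2 * gsq (lc5 th c) x := by
    rw [← integral_const_mul]
    refine integral_congr_ae (.of_forall fun x => ?_)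
    simp only [d4bv_gsq (d4bv_cd c), inv_pow, Real.sq_sqrt hm.le]
    ring
  have e2 : Real.exp (-(14 * D.n)) = Real.exp (-(12 * D.n)) * Real.exp (-(2 * D.n)) := by
    rw [← Real.exp_add]
    congr 1
    ring
  have e3 : ∑ i : Fin 4, (c i.succ - c 0) ^ 2 = 4 * K0 c := by
    rw [K0]
    ring
  have b1 : C * V * D.n ^ 5 * Real.exp (-(2 * D.n)) ≤ tol * aw / (5 * Lc) := by
    have g := h6.trans ((pow_one _).symm.trans_le h7)
    rw [Real.exp_neg, ← div_eq_mul_inv, div_le_iff₀ (Real.exp_pos _)]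
    refine le_trans (le_of_eq ?_) (mul_le_mul_of_nonneg_left g (by positivity))
    field_simp
  have b2 := d4bv_num (N := D.n ^ 5) hI (by rwa [div_le_iff₀' hn] at h4) (h3 0).2.1
    (Real.exp_pos (-(12 * D.n))).le (Real.exp_pos _).le
    (Finset.sum_nonneg fun a _ => sq_nonneg (c a)) (d4b_K0 c).1 (d4b_K0 c).2
    (mul_nonneg hC hV0) b1
  have b3 := mul_le_mul_of_nonneg_left b (inv_pos.2 hm).le
  rw [e2, e3] at b3
  rw [e, h2 _ hc hs, e1, Des.lam]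
  linarith

end Vale.Agent.P363
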