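import Vale.Agent.P363.D4bP
import Vale.Agent.P363.D4bO
import Vale.Agent.P363.D4bL
import Vale.Agent.P363.D4bV

/-! Part D4b: the lower bound. -/

namespace Vale.Agent.P363

open MeasureTheory Vale.Agent.P370 Set Function
open scoped ContDiff

theorem d4bm_exp {W g : Pt → ℝ} (hW : Continuous W) (hg : Continuous g) {K : Set Pt}
    (hK : IsCompact K) (κ : ℝ) : ∫ y in K, W y * (g y - κ) ^ 2 =
      (∫ y in K, W y * g y ^ 2) - 2 * κ * (∫ y in K, W y * g y) + κ ^ 2 * ∫ y in K, W y := by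
  have i1 : IntegrableOn (fun y => W y * g y ^ 2) K :=
    (hW.mul (hg.pow 2)).continuousOn.integrableOn_compact hK
  have i2 : IntegrableOn (fun y => 2 * κ * (W y * g y)) K :=
    (continuous_const.mul (hW.mul hg)).continuousOn.integrableOn_compact hK
  have i3 : IntegrableOn (fun y => κ ^ 2 * W y) K :=
    (continuous_const.mul hW).continuousOn.integrableOn_compact hK
  have i4 : IntegrableOn (fun y => W y * g y ^ 2 - 2 * κ * (W y * g y)) K := i1.sub i2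
  rw [← integral_const_mul, ← integral_const_mul, ← integral_sub i1 i2, ← integral_add i4 i3]
  exact integral_congr_ae (Filter.Eventually.of_forall fun y => by ring)

theorem d4bm_mono {F : Pt → ℝ} (hF : Continuous F) (h0 : ∀ y, 0 ≤ F y) {P A : Set Pt}
    (hA : IsCompact A) (h : P ⊆ A) : ∫ y in P, F y ≤ ∫ y in A, F y :=
  setIntegral_mono_set (hF.continuousOn.integrableOn_compact hA)
    (Filter.Eventually.of_forall h0) h.eventuallyLE

/-- Averages over a set and over a subset. -/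
theorem d4bm_avg {W g : Pt → ℝ} (hW : Continuous W) (h0 : ∀ y, 0 ≤ W y) (hg : Continuous g)
    {P A : Set Pt} (hP : IsCompact P) (hA : IsCompact A) (h : P ⊆ A) {m p J I T : ℝ}
    (hm : ∫ y in A, W y = m) (hp : ∫ y in P, W y = p) (hJ : ∫ y in A, W y * g y = J)
    (hI : ∫ y in P, W y * g y = I) (hT : ∫ y in A, W y * g y ^ 2 = T) (m0 : 0 < m) (p0 : 0 < p) :
    (∀ κ, T - (J / √m) ^ 2 ≤ ∫ y in A, W y * (g y - κ) ^ 2) ∧
      (J / √m - √m * I / p) ^ 2 ≤ m / p * (T - (J / √m) ^ 2) ∧ (√m * I / p) ^ 2 ≤ m / p * T := by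
  have hs : √m ^ 2 = m := Real.sq_sqrt m0.le
  have s0 : 0 < √m := Real.sqrt_pos.2 m0
  have e1 : (J / √m) ^ 2 = J ^ 2 / m := by rw [div_pow, hs]
  have n1 : ∀ κ, 0 ≤ ∫ y in P, W y * (g y - κ) ^ 2 := fun κ =>
    integral_nonneg fun y => mul_nonneg (h0 y) (sq_nonneg _)
  have a1 := n1 (I / p)
  rw [d4bm_exp hW hg hP, hI, hp] at a1
  have a2 := d4bm_mono (F := fun y => W y * (g y - J / m) ^ 2) (by fun_prop)
    (fun y => mul_nonneg (h0 y) (sq_nonneg _)) hA h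
  rw [d4bm_exp hW hg hP, d4bm_exp hW hg hA, hI, hp, hT, hJ, hm] at a2
  have a3 := d4bm_mono (F := fun y => W y * g y ^ 2) (by fun_prop)
    (fun y => mul_nonneg (h0 y) (sq_nonneg _)) hA h
  rw [hT] at a3
  generalize ∫ y in P, W y * g y ^ 2 = T' at a1 a2 a3
  have b1 : T' - 2 * (I / p) * I + (I / p) ^ 2 * p = T' - I ^ 2 / p := by field_simp; ring
  have b2 : T - 2 * (J / m) * J + (J / m) ^ 2 * m = T - J ^ 2 / m := by field_simp; ring
  have b3 : T' - 2 * (J / m) * I + (J / m) ^ 2 * p =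
      T' - I ^ 2 / p + p * (J / m - I / p) ^ 2 := by field_simp; ring
  rw [b1] at a1
  rw [b2, b3] at a2
  have mp : 0 ≤ m / p := by positivity
  refine ⟨fun κ => ?_, ?_, ?_⟩
  · rw [d4bm_exp hW hg hA, hT, hJ, hm, e1]
    have c1 : 0 ≤ (J - κ * m) ^ 2 / m := by positivity
    have c2 : (J - κ * m) ^ 2 / m = J ^ 2 / m - 2 * κ * J + κ ^ 2 * m := by field_simp; ring
    linarith
  · have c1 : J / √m - √m * I / p = √m * (J / m - I / p) := by
      rw [mul_sub, ← mul_div_assoc, ← mul_div_assoc]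
      congr 1
      rw [div_eq_div_iff s0.ne' m0.ne']
      linear_combination (-J) * hs
    have c2 : m * (J / m - I / p) ^ 2 = m / p * (p * (J / m - I / p) ^ 2) := by field_simp
    rw [c1, mul_pow, hs, c2, e1]
    exact mul_le_mul_of_nonneg_left (by linarith) mp
  · have c2 : (√m * I / p) ^ 2 = m / p * (I ^ 2 / p) := by
      rw [div_pow, mul_pow, hs]
      field_simp
    rw [c2]
    exact mul_le_mul_of_nonneg_left (by linarith) mp

theorem d4bm_K0 (c c' : Fin 5 → ℝ) :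
    K0 c ≤ (1 + 1 / 10 ^ 8) * K0 c' + (1 + 10 ^ 8) * K0 (fun a => c a - c' a) := by
  unfold K0
  rw [mul_left_comm, mul_left_comm (1 + 10 ^ 8 : ℝ), ← mul_add]
  refine mul_le_mul_of_nonneg_left ?_ (by norm_num)
  rw [Finset.mul_sum, Finset.mul_sum, ← Finset.sum_add_distrib]
  refine Finset.sum_le_sum fun i _ => ?_
  have h : c i.succ - c 0 = (c' i.succ - c' 0) + (c i.succ - c' i.succ - (c 0 - c' 0)) := by ring
  rw [h]
  generalize c' i.succ - c' 0 = u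
  generalize c i.succ - c' i.succ - (c 0 - c' 0) = v
  nlinarith [sq_nonneg (u - 10 ^ 8 * v)]

theorem d4bm_disj {a b : Fin 5} (hab : a ≠ b) : Disjoint (Wl a) (Wl b) := by
  rw [Set.disjoint_left]
  intro y ha hb
  obtain ⟨h1, h2, -⟩ := mem_cb.1 ha
  obtain ⟨h3, h4, -⟩ := mem_cb.1 hb
  have k1 : |(ctr a).1 - (ctr b).1| ≤ 2 * (aw + 1) := by
    rw [abs_le] at h1 h3 ⊢
    constructor <;> linarith [h1.1, h1.2, h3.1, h3.2]
  have k2 : |(ctr a).2 - (ctr b).2| ≤ 2 * (aw + 1) := by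
    rw [abs_le] at h2 h4 ⊢
    constructor <;> linarith [h2.1, h2.2, h4.1, h4.2]
  clear h1 h2 h3 h4 ha hb
  fin_cases a <;> fin_cases b <;> simp [ctr] at hab k1 k2 <;>
    first
      | (norm_num [aw, Lc] at k1; done)
      | norm_num [aw, Lc] at k2

theorem d4bm_alg {e x Q N Dd K K' K'' δ sv : ℝ} (hx : 0 ≤ x) (hx1 : x ≤ 1 / 10 ^ 100)
    (he : e = x / 10 ^ 24) (hN : 0 ≤ N) (hQ : Dd ≤ 2 * Q)
    (h1 : K ≤ (1 + 1 / 10 ^ 8) * K' + (1 + 10 ^ 8) * K'') (h2 : K'' ≤ 3 * sv) (h3 : 0 ≤ sv)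
    (h4 : sv ≤ δ) (h5 : δ ≤ 10 ^ 46 * Q + 10 ^ 20 * x * N) (h6 : 0 ≤ K') (h7 : K' ≤ 13 / 10 * N)
    (h8 : e * K' ≤ (1 + 21 / 10 ^ 9) * (Dd / 2)) :
    e * K + 2 * gam * δ ≤ Q + tol / 10 * e * N := by
  have e0 : 0 ≤ e := by rw [he]; positivity
  have a1 : e * K ≤ (1 + 1 / 10 ^ 8) * (e * K') + (1 + 10 ^ 8) * (e * K'') := by
    nlinarith [mul_le_mul_of_nonneg_left h1 e0]
  have a2 : e * K'' ≤ 1 / 10 ^ 124 * (3 * δ) := by
    calc e * K'' ≤ e * (3 * δ) := mul_le_mul_of_nonneg_left (by linarith) e0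
      _ ≤ 1 / 10 ^ 124 * (3 * δ) :=
        mul_le_mul_of_nonneg_right (by rw [he]; linarith) (by linarith)
  have a3 : e * K' ≤ 13 / 10 * (e * N) := by nlinarith [mul_le_mul_of_nonneg_left h7 e0]
  have a4 : x * N = 10 ^ 24 * (e * N) := by rw [he]; ring
  have a5 : 0 ≤ e * K' := mul_nonneg e0 h6
  have a6 : tol / 10 * e * N = 1 / 10 ^ 7 * (e * N) := by unfold tol; ring
  have a7 : 10 ^ 20 * x * N = 10 ^ 44 * (e * N) := by rw [mul_assoc, a4]; ring
  have a8 : 0 ≤ e * N := mul_nonneg e0 hN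
  rw [a6]
  rw [a7] at h5
  unfold gam
  generalize e * K' = A at *
  generalize e * K'' = B at *
  generalize e * N = M at *
  generalize e * K = A' at *
  linarith

theorem d4b_low : Ev fun D => ∀ ψ, C1c ψ →
    (D.E1 - tol / 10 * (D.lam / Lc)) * (∫ x, ψ x ^ 2) + D.lam / Lc * K0 (co5 D.φ ψ) +
      2 * gam * ((∫ x, ψ x ^ 2) - ∑ a, co5 D.φ ψ a ^ 2) ≤ qV D.U ψ := by
  refine ((((((d4b_gsr.and d4b_well).and d4b_out).and d4b_links).and ev_mass).and ev_Iz).and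
    (ev_Ls.and (ev_ge (10 ^ 100)))).mono ?_
  rintro D ok ⟨⟨⟨⟨⟨⟨hG, hP⟩, hO⟩, hL⟩, hm⟩, hI⟩, ⟨hLs, -, -⟩, hn⟩ ψ hψ
  have n0 : 0 < D.n := lt_of_lt_of_le (by norm_num) hn
  have cw : ContDiff ℝ 1 fun x => Real.exp (D.S x) * ψ x :=
    (ok.cd_S.of_le (by simp)).exp.mul hψ.1
  obtain ⟨g, hg⟩ : ∃ g : Pt → ℝ, g = fun y => Real.exp (D.S (rot y)) * ψ (rot y) := ⟨_, rfl⟩
  have cg : ContDiff ℝ 1 g := by rw [hg]; exact cw.comp (cd_rot.of_le (by simp))
  have cW := ok.cont_Wr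
  have W0 : ∀ y, 0 ≤ D.Wr y := fun y => (D.Wr_pos y).le
  have cq : Continuous (gsq g) :=
    continuous_finsetSum _ fun k _ =>
      ((cg.continuous_fderiv one_ne_zero).clm_apply continuous_const).pow 2
  have q0 : ∀ y, 0 ≤ gsq g y := fun y => Finset.sum_nonneg fun _ _ => sq_nonneg _
  have e1 : ∀ y, ψ (rot y) = D.φ0 (rot y) * g y := fun y => by
    rw [hg, Des.φ0, ← mul_assoc, ← Real.exp_add, neg_add_cancel, Real.exp_zero, one_mul]
  have e2 : ∀ y, ψ (rot y) ^ 2 = D.Wr y * g y ^ 2 := fun y => by rw [e1, mul_pow, Des.Wr]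
  have hG' := hG ψ hψ
  rw [setIntegral_rot] at hG'
  have e3 : ∀ y, D.φ0 (rot y) ^ 2 * gsq (fun x => Real.exp (D.S x) * ψ x) (rot y) =
      D.Wr y * gsq g y := fun y => by
    rw [← gsq_rot (cw.differentiable one_ne_zero), hg, Des.Wr]
  simp only [e3] at hG'
  have Iz0 : 0 < D.Iz := lt_of_lt_of_le (by positivity) hI.1
  obtain ⟨p, hp⟩ : ∃ p, p = 4 * aw ^ 2 * D.Iz := ⟨_, rfl⟩
  have aw0 : 0 < aw := by norm_num [aw]
  have p0 : 0 < p := by rw [hp]; positivity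
  obtain ⟨m, hm0⟩ : ∃ m, m = D.mass 0 := ⟨_, rfl⟩
  have m0 : 0 < m := by rw [hm0]; exact p0.trans_le (hp ▸ (hm 0).2.1)
  have mp : m / p ≤ 1 + 21 / 10 ^ 9 := by
    rw [div_le_iff₀ p0, hm0, hp]
    refine (hm 0).2.2.trans ?_
    rw [← mul_assoc]
    exact mul_le_mul_of_nonneg_right (by norm_num [aw]) Iz0.le
  have f1 : ∀ a, ∫ y in Wl a, D.Wr y = m := fun a => by
    rw [hm0, ← (hm a).1, Des.mass, Aw_eq, setIntegral_rot]
    rfl
  have f2 : ∀ a, ∫ y in Pl a, D.Wr y = p := fun a => by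
    rw [hp, ← d4b_Pl D a]
    exact setIntegral_congr_fun (measurableSet_cb _ _ _) fun y hy => ok.Wr_Pl hLs hy
  have f3 : ∀ a, ∫ y in Pl a, D.rz (y 2) * g y = ∫ y in Pl a, D.Wr y * g y := fun a =>
    setIntegral_congr_fun (measurableSet_cb _ _ _) fun y hy => by
      simp only [ok.Wr_Pl hLs hy]
  have f4 : ∀ a, co5 D.φ ψ a = (∫ y in Wl a, D.Wr y * g y) / √m := fun a => by
    have : MeasurableSet (Aw a) := by
      rw [Aw_eq]
      exact cd_rot.continuous.measurable (measurableSet_cb _ _ _)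
    unfold co5 Des.φ
    simp only [← indicator_mul_left]
    rw [integral_indicator this, Aw_eq, setIntegral_rot, (hm a).1, ← hm0, ← integral_div]
    refine integral_congr_ae (Filter.Eventually.of_forall fun y => ?_)
    simp only [e1, Des.Wr]
    ring
  have av := fun a => d4bm_avg (P := Pl a) (A := Wl a) cW W0 cg.continuous (isCompact_cb _ _ _)
    (isCompact_cb _ _ _) (Pl_sub a) (f1 a) (f2 a) rfl rfl rfl m0 p0
  simp only [← f4] at av
  have hL' := hL g cg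
  simp only [f3, ← hp] at hL'
  have hO' := hO g cg
  obtain ⟨c', hc'⟩ : ∃ c' : Fin 5 → ℝ, c' = fun a => √m * (∫ y in Pl a, D.Wr y * g y) / p :=
    ⟨_, rfl⟩
  have cT : Continuous fun y => D.Wr y * g y ^ 2 := cW.mul (cg.continuous.pow 2)
  have T0 : ∀ y, 0 ≤ D.Wr y * g y ^ 2 := fun y => mul_nonneg (W0 y) (sq_nonneg _)
  have iN : Integrable fun x => ψ x ^ 2 := by
    simp only [sq]
    exact (hψ.1.continuous.mul hψ.1.continuous).integrable_of_hasCompactSupport hψ.2.mul_right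
  have iN' : Integrable fun y => D.Wr y * g y ^ 2 := by
    simp only [← e2]
    exact (mp_rot.integrable_comp_emb emb_rot (g := fun x => ψ x ^ 2)).2 iN
  have iΓ : Integrable fun x => D.Gam x * ψ x ^ 2 := by
    simp only [sq]
    exact (D.cd_Gam.continuous.mul (hψ.1.continuous.mul
      hψ.1.continuous)).integrable_of_hasCompactSupport hψ.2.mul_right.mul_left
  have mB : MeasurableSet B1 := measurableSet_cb _ _ _
  have g1 : ∫ x, ψ x ^ 2 = (∫ y in B1, D.Wr y * g y ^ 2) + ∫ y in B1ᶜ, D.Wr y * g y ^ 2 := by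
    rw [integral_add_compl mB iN', ← integral_rot]
    simp only [e2]
  have g2 : ∫ y in B1ᶜ, D.Wr y * g y ^ 2 ≤ ∫ x, D.Gam x * ψ x ^ 2 := by
    rw [← integral_rot fun x => D.Gam x * ψ x ^ 2, ← integral_indicator mB.compl]
    refine integral_mono (iN'.indicator mB.compl)
      ((mp_rot.integrable_comp_emb emb_rot (g := fun x => D.Gam x * ψ x ^ 2)).2 iΓ) fun y => ?_
    by_cases hy : y ∈ B1ᶜ
    · have h1 : D.Gam (rot y) = √D.n := by
        refine D.Gam_out ?_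
        rw [pc_rot, qc_rot, rot_two']
        by_contra hc
        push Not at hc
        exact hy (mem_cb.2 ⟨by simpa using hc.1.le, by simpa using hc.2.1.le, hc.2.2.le⟩)
      have h2 : 1 ≤ √D.n := Real.one_le_sqrt.2 (le_trans (by norm_num) hn)
      simp only [indicator_of_mem hy, h1, e2]
      exact le_mul_of_one_le_left (T0 y) h2
    · simp only [indicator_of_notMem hy]
      exact mul_nonneg (D.Gam_mem _).1 (sq_nonneg _)
  have mW : ∀ a, MeasurableSet (Wl a) := fun a => measurableSet_cb _ _ _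
  have g3 : ∫ y in B1, D.Wr y * g y ^ 2 =
      (∑ a, ∫ y in Wl a, D.Wr y * g y ^ 2) + ∫ y in B1 \ ⋃ a, Wl a, D.Wr y * g y ^ 2 := by
    rw [← integral_inter_add_sdiff (MeasurableSet.iUnion mW) iN'.integrableOn,
      inter_eq_self_of_subset_right (iUnion_subset Wl_sub),
      integral_iUnion_fintype mW (fun a b hab => d4bm_disj hab) fun a => iN'.integrableOn]
  have g4 : 0 ≤ ∫ y in B1 \ ⋃ a, Wl a, D.Wr y * g y ^ 2 := integral_nonneg T0
  have g5 : 0 ≤ ∫ y in B1ᶜ, D.Wr y * g y ^ 2 := integral_nonneg T0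
  have g6 : 0 ≤ ∑ a, ∫ y in Wl a, D.Wr y * g y ^ 2 :=
    Finset.sum_nonneg fun a _ => integral_nonneg T0
  have cD : Continuous fun y => D.Wr y * gsq g y := cW.mul cq
  have D0 : ∀ y, 0 ≤ D.Wr y * gsq g y := fun y => mul_nonneg (W0 y) (q0 y)
  have v1 : ∑ a, ((∫ y in Wl a, D.Wr y * g y ^ 2) - co5 D.φ ψ a ^ 2) ≤
      5 * (10 ^ 20 * ∫ y in B1, D.Wr y * gsq g y) := by
    refine (Finset.sum_le_card_nsmul _ _ _ fun a _ => ?_).trans (le_of_eq (by simp; rfl))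
    obtain ⟨κ, hκ⟩ := hP g cg a
    exact (((av a).1 κ).trans hκ).trans (mul_le_mul_of_nonneg_left
      (d4bm_mono cD D0 (isCompact_cb _ _ _) (Wl_sub a)) (by norm_num))
  have mp0 : 0 < m / p := by positivity
  have v0 : ∀ a, 0 ≤ (∫ y in Wl a, D.Wr y * g y ^ 2) - co5 D.φ ψ a ^ 2 := fun a =>
    (mul_nonneg_iff_of_pos_left mp0).1 ((sq_nonneg _).trans (av a).2.1)
  have v2 : ∑ a, (co5 D.φ ψ a - c' a) ^ 2 ≤
      2 * ∑ a, ((∫ y in Wl a, D.Wr y * g y ^ 2) - co5 D.φ ψ a ^ 2) := by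
    rw [Finset.mul_sum]
    refine Finset.sum_le_sum fun a _ => ?_
    rw [hc']
    exact (av a).2.1.trans (mul_le_mul_of_nonneg_right (mp.trans (by norm_num)) (v0 a))
  have v3 : ∑ a, c' a ^ 2 ≤ (1 + 21 / 10 ^ 9) * ∑ a, ∫ y in Wl a, D.Wr y * g y ^ 2 := by
    rw [Finset.mul_sum]
    refine Finset.sum_le_sum fun a _ => ?_
    rw [hc']
    exact (av a).2.2.trans (mul_le_mul_of_nonneg_right mp (integral_nonneg T0))
  have v4 := Finset.sum_nonneg fun a (_ : a ∈ Finset.univ) => v0 a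
  rw [Finset.sum_sub_distrib] at v1 v2 v4
  have Dd0 : 0 ≤ ∫ y in B1, D.Wr y * gsq g y := integral_nonneg D0
  have Γ0 : 0 ≤ ∫ x, D.Gam x * ψ x ^ 2 := g5.trans g2
  obtain ⟨x, hx⟩ : ∃ x, x = Real.exp (-(12 * D.n)) := ⟨_, rfl⟩
  have x0 : 0 < x := by rw [hx]; exact Real.exp_pos _
  have x1 : x ≤ 1 / 10 ^ 100 := by
    rw [hx, Real.exp_neg, ← one_div]
    exact one_div_le_one_div_of_le (by norm_num)
      (by linarith [Real.add_one_le_exp (12 * D.n)])
  have he : D.lam / Lc = x / 10 ^ 24 := by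
    rw [Des.lam, ← hx, div_div]
    norm_num [aw, Lc]
  rw [← hx] at hL' hO'
  have v5 : D.lam / Lc * K0 c' ≤ (1 + 21 / 10 ^ 9) * ((∫ y in B1, D.Wr y * gsq g y) / 2) := by
    have hs : √m ^ 2 = m := Real.sq_sqrt m0.le
    have k1 : K0 c' = m / p * (1 / (4 * p) * ∑ i : Fin 4,
        ((∫ y in Pl i.succ, D.Wr y * g y) - ∫ y in Pl 0, D.Wr y * g y) ^ 2) := by
      unfold K0
      rw [Finset.mul_sum, Finset.mul_sum, Finset.mul_sum]
      refine Finset.sum_congr rfl fun i _ => ?_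
      simp only [hc']
      rw [← sub_div, ← mul_sub, div_pow, mul_pow, hs]
      field_simp
    generalize ∑ i : Fin 4, ((∫ y in Pl i.succ, D.Wr y * g y) -
      ∫ y in Pl 0, D.Wr y * g y) ^ 2 = Z at hL' k1
    generalize ∫ y in B1, D.Wr y * gsq g y = Dd at hL' Dd0
    have k2 : x / 10 ^ 24 * (1 / (4 * p) * Z) ≤ Dd / 2 := by
      have k3 : x / 10 ^ 24 * (1 / (4 * p) * Z) = x * Z / (4 * 10 ^ 24 * p) := by field_simp
      rw [k3, div_le_iff₀ (by positivity)]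
      refine hL'.trans (le_of_eq ?_)
      simp only [aw, Lc]
      ring
    rw [he, k1, mul_left_comm]
    exact (mul_le_mul_of_nonneg_left k2 mp0.le).trans
      (mul_le_mul_of_nonneg_right mp (by linarith))
  have k4 := (d4b_K0 fun a => co5 D.φ ψ a - c' a).2
  have k5 := d4b_K0 c'
  have k6 : x * ∫ y in B1, D.Wr y * g y ^ 2 ≤ x * ∫ x, ψ x ^ 2 :=
    mul_le_mul_of_nonneg_left (by linarith) x0.le
  have fin := d4bm_alg (Q := qV D.U ψ - D.E1 * ∫ x, ψ x ^ 2) (N := ∫ x, ψ x ^ 2)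
    (δ := (∫ x, ψ x ^ 2) - ∑ a, co5 D.φ ψ a ^ 2) x0.le x1 he (by linarith) (by linarith)
    (d4bm_K0 (co5 D.φ ψ) c') (by linarith) v4 (by linarith) (by linarith) k5.1 (by linarith) v5
  linarith

end Vale.Agent.P363
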