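import Vale.Agent.P363.D4bA

/-!
Part D4b: Poincare inequality in a well.

On `Wl a` the weight is `rz (y 2) * exp (-12 n (1 - bmp aw (y 0 - c₁) * bmp aw (y 1 - c₂)))`
(`Wr_eq`; `crs = 1` and the other wells vanish there), which does not decrease when `y k` (`k = 0, 1`) is
replaced by `s` with `|s - c| ≤ max |y k - c| aw` (`bmp_anti`, `bmp_one`).  Apply `d4b_step` (`α = 1`,
`V = W = Wr`) to `g - κ` in direction `0` and then `1` with targets `[c - aw, c + aw]`; on the plateau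
`Wr = rz (y 2)` (`Wr_Pl`) use `poincare3` of P370/GSA (weights `1, 1, rz`, `r = ![aw, aw, 1/2]`, `L = aw`) for the
translated function; it provides `κ`.  Total constant about `10 ^ 18`.
-/

namespace Vale.Agent.P363

open MeasureTheory Vale.Agent.P370 Set Function
open scoped ContDiff

theorem d4bP_W {D : Des} (hD : D.OK) (hL : 4 * Lc ≤ D.Ls) {a : Fin 5} {y : Pt} (hy : y ∈ Wl a) :
    D.Wr y = D.rz (y 2) * Real.exp (-(2 * D.n *
      (6 - 6 * (bmp aw (y 0 - (ctr a).1) * bmp aw (y 1 - (ctr a).2))))) := by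
  obtain ⟨h1, h2, -⟩ := mem_cb.1 hy
  rw [hD.Wr_eq hL (Wl_sub a hy), dd_near (a := a) (by rwa [pc_rot]) (by rwa [qc_rot]), sqb,
    pc_rot, qc_rot]
  congr 2
  ring

theorem d4bP_mono {D : Des} (hD : D.OK) (hL : 4 * Lc ≤ D.Ls) (hn : 0 ≤ D.n) {a : Fin 5}
    {y y' : Pt} (hy : y ∈ Wl a) (hy' : y' ∈ Wl a) (h2 : y' 2 = y 2)
    (h0 : bmp aw (y 0 - (ctr a).1) ≤ bmp aw (y' 0 - (ctr a).1))
    (h1 : bmp aw (y 1 - (ctr a).2) ≤ bmp aw (y' 1 - (ctr a).2)) : D.Wr y ≤ D.Wr y' := by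
  rw [d4bP_W hD hL hy, d4bP_W hD hL hy', h2]
  refine mul_le_mul_of_nonneg_left (Real.exp_le_exp.2 ?_) (Real.exp_pos _).le
  have := mul_le_mul h0 h1 (bmp_nonneg _ _) (bmp_nonneg _ _)
  nlinarith

theorem d4bP_seg {c u t s : ℝ} (hu : |u - c| ≤ aw + 1) (ht : t ∈ Icc (c - aw) (c + aw))
    (hs : s ∈ uIcc u t) : |s - c| ≤ aw + 1 ∧ bmp aw (u - c) ≤ bmp aw (s - c) := by
  have a0 := aw_pos
  have h : |s - c| ≤ |u - c| ∨ |s - c| ≤ aw := by
    have h1 := le_abs_self (u - c)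
    have h2 := neg_abs_le (u - c)
    have h3 := abs_nonneg (u - c)
    simp only [abs_le (a := s - c)]
    rcases mem_uIcc.1 hs with h | h
    · rcases le_total s c with g | g
      · exact Or.inl ⟨by linarith [h.1], by linarith⟩
      · exact Or.inr ⟨by linarith, by linarith [h.2, ht.2]⟩
    · rcases le_total s c with g | g
      · exact Or.inr ⟨by linarith [h.1, ht.1], by linarith⟩
      · exact Or.inl ⟨by linarith, by linarith [h.2]⟩
  rcases h with h | h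
  · exact ⟨h.trans hu, bmp_anti a0.le h⟩
  · exact ⟨by linarith, by rw [bmp_one h]; exact bmp_le_one _ _⟩

theorem d4bP_up0 {D : Des} (hD : D.OK) (hL : 4 * Lc ≤ D.Ls) (hn : 0 ≤ D.n) {a : Fin 5} {y : Pt}
    (hy : y ∈ Wl a) {t s : ℝ} (ht : t ∈ Icc ((ctr a).1 - aw) ((ctr a).1 + aw))
    (hs : s ∈ uIcc (y 0) t) : D.Wr y ≤ D.Wr (update y 0 s) := by
  obtain ⟨h1, h2, h3⟩ := mem_cb.1 hy
  obtain ⟨g1, g2⟩ := d4bP_seg h1 ht hs
  exact d4bP_mono hD hL hn hy (mem_cb.2 ⟨g1, h2, h3⟩) rfl g2 le_rfl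

theorem d4bP_up1 {D : Des} (hD : D.OK) (hL : 4 * Lc ≤ D.Ls) (hn : 0 ≤ D.n) {a : Fin 5} {y : Pt}
    (hy : y ∈ Wl a) {t s : ℝ} (ht : t ∈ Icc ((ctr a).2 - aw) ((ctr a).2 + aw))
    (hs : s ∈ uIcc (y 1) t) : D.Wr y ≤ D.Wr (update y 1 s) := by
  obtain ⟨h1, h2, h3⟩ := mem_cb.1 hy
  obtain ⟨g1, g2⟩ := d4bP_seg h2 ht hs
  exact d4bP_mono hD hL hn hy (mem_cb.2 ⟨h1, g1, h3⟩) rfl le_rfl g2

theorem d4bP_shift (a : Fin 5) (F : Pt → ℝ) :
    ∫ y in Pl a, F y = ∫ x in box aw aw (1 / 2), F (x + ![(ctr a).1, (ctr a).2, 0]) := by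
  rw [← (measurePreserving_add_right volume ![(ctr a).1, (ctr a).2, 0]).setIntegral_preimage_emb
    (measurableEmbedding_addRight _)]
  congr 2
  ext x
  simp only [Pl, mem_preimage, mem_cb, box, mem_ofPred_eq, Pi.add_apply, Matrix.cons_val,
    add_sub_cancel_right, add_zero]

/-- Poincare inequality on the plateau. -/
theorem d4bP_pl {D : Des} (hD : D.OK) (hL : 4 * Lc ≤ D.Ls) {g : Pt → ℝ} (hg : ContDiff ℝ 1 g)
    (a : Fin 5) : ∃ κ : ℝ, ∫ y in Pl a, D.Wr y * (g y - κ) ^ 2 ≤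
      4 * aw ^ 2 * ∫ y in Pl a, D.Wr y * gsq g y := by
  have hO : 0 ≤ 1 + D.Om := by unfold Des.Om; positivity
  obtain ⟨c, hc⟩ : ∃ c : Pt, c = ![(ctr a).1, (ctr a).2, 0] := ⟨_, rfl⟩
  obtain ⟨κ, h⟩ := poincare3 (w := ![fun _ => 1, fun _ => 1, D.rz]) (r := ![aw, aw, 1 / 2])
    (c := 0) (L := aw) (f := fun x => g (x + c))
    (fun k => by fin_cases k <;> simp [aw] <;> norm_num)
    (fun k => by fin_cases k <;> simp [aw])
    (fun k => by fin_cases k; exacts [continuous_const, continuous_const, D.cont_rz])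
    (fun k t => by fin_cases k; exacts [one_pos, one_pos, Real.exp_pos _])
    (fun k => by
      fin_cases k
      · exact monotoneOn_const
      · exact monotoneOn_const
      · intro s hs t ht hst
        have h1 : t ^ 2 ≤ s ^ 2 := by
          have : t ≤ 0 := ht
          nlinarith
        exact Real.exp_le_exp.2 (neg_le_neg (mul_le_mul_of_nonneg_left h1 hO)))
    (fun k => by
      fin_cases k
      · exact antitoneOn_const
      · exact antitoneOn_const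
      · intro s hs t ht hst
        have h1 : s ^ 2 ≤ t ^ 2 := by
          have : 0 ≤ s := hs
          nlinarith
        exact Real.exp_le_exp.2 (neg_le_neg (mul_le_mul_of_nonneg_left h1 hO)))
    (hg.comp (contDiff_id.add contDiff_const))
  have e1 : ∀ F : Pt → ℝ, ∫ y in Pl a, D.Wr y * F y =
      ∫ x in box aw aw (1 / 2), D.rz (x 2) * F (x + c) := fun F => by
    rw [setIntegral_congr_fun (s := Pl a) (g := fun y => D.rz (y 2) * F y) (measurableSet_cb _ _ _)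
      fun y hy => by simp only [hD.Wr_Pl hL hy], d4bP_shift, ← hc]
    have : c 2 = 0 := by rw [hc]; rfl
    simp only [Pi.add_apply, this, add_zero]
  have e2 : ∀ x, gsq (fun x => g (x + c)) x = gsq g (x + c) := fun x => by
    unfold gsq pd
    rw [fderiv_comp_add_right]
  refine ⟨κ, ?_⟩
  rw [e1 fun y => (g y - κ) ^ 2, e1 (gsq g)]
  simpa only [Matrix.cons_val, one_mul, e2] using h

theorem d4b_well : Ev fun D => ∀ g : Pt → ℝ, ContDiff ℝ 1 g → ∀ a, ∃ κ : ℝ,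
    ∫ y in Wl a, D.Wr y * (g y - κ) ^ 2 ≤ 10 ^ 20 * ∫ y in Wl a, D.Wr y * gsq g y := by
  refine (ev_Ls.and (ev_ge 0)).mono fun D hD ⟨⟨hL, _⟩, hn⟩ g hg a => ?_
  obtain ⟨κ, h3⟩ := d4bP_pl hD hL hg a
  refine ⟨κ, ?_⟩
  have a0 := aw_pos
  obtain ⟨lo, hlo⟩ : ∃ lo : Pt, lo = ![(ctr a).1 - (aw + 1), (ctr a).2 - (aw + 1), -(1 / 2)] :=
    ⟨_, rfl⟩
  obtain ⟨hi, hhi⟩ : ∃ hi : Pt, hi = ![(ctr a).1 + (aw + 1), (ctr a).2 + (aw + 1), 1 / 2] :=
    ⟨_, rfl⟩
  have hW : Wl a = Icc lo hi := by rw [hlo, hhi]; rfl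
  have l0 : lo 0 = (ctr a).1 - (aw + 1) := by rw [hlo]; rfl
  have l1 : lo 1 = (ctr a).2 - (aw + 1) := by rw [hlo]; rfl
  have u0 : hi 0 = (ctr a).1 + (aw + 1) := by rw [hhi]; rfl
  have u1 : hi 1 = (ctr a).2 + (aw + 1) := by rw [hhi]; rfl
  have hs : Icc (update lo 0 ((ctr a).1 - aw)) (update hi 0 ((ctr a).1 + aw)) ⊆ Wl a := by
    rw [hW]
    exact Icc_subset_Icc (le_update_self_iff.2 (by linarith)) (update_le_self_iff.2 (by linarith))
  have hP : Icc (update (update lo 0 ((ctr a).1 - aw)) 1 ((ctr a).2 - aw))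
      (update (update hi 0 ((ctr a).1 + aw)) 1 ((ctr a).2 + aw)) = Pl a := by
    rw [hlo, hhi, Pl, cb]
    congr 1 <;> funext j <;> fin_cases j <;> rfl
  have hk : ContDiff ℝ 1 fun y => g y - κ := hg.sub contDiff_const
  have e2 : gsq (fun y => g y - κ) = gsq g := by
    funext x
    unfold gsq pd
    rw [fderiv_sub_const]
  have cW := hD.cont_Wr
  have h1 := d4b_step (V := D.Wr) (W := D.Wr) (α := 1) 0 (a := lo) (b := hi)
    (c := (ctr a).1 - aw) (d := (ctr a).1 + aw) (by linarith) (by linarith) (by linarith)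
    cW.measurable (fun y => (D.Wr_pos y).le) cW (fun y => (D.Wr_pos y).le) zero_le_one hk
    (fun y hy t ht => by rw [one_mul]; exact d4bP_up0 hD hL hn (hW ▸ hy) ht right_mem_uIcc)
    fun y hy t ht s hs => d4bP_up0 hD hL hn (hW ▸ hy) ht hs
  have m1 : update lo 0 ((ctr a).1 - aw) 1 = lo 1 := update_of_ne (by decide) _ _
  have m2 : update hi 0 ((ctr a).1 + aw) 1 = hi 1 := update_of_ne (by decide) _ _
  have h2 := d4b_step (V := D.Wr) (W := D.Wr) (α := 1) 1 (a := update lo 0 ((ctr a).1 - aw))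
    (b := update hi 0 ((ctr a).1 + aw))
    (c := (ctr a).2 - aw) (d := (ctr a).2 + aw) (by linarith) (by linarith) (by linarith)
    cW.measurable (fun y => (D.Wr_pos y).le) cW (fun y => (D.Wr_pos y).le) zero_le_one hk
    (fun y hy t ht => by rw [one_mul]; exact d4bP_up1 hD hL hn (hs hy) ht right_mem_uIcc)
    fun y hy t ht s hs' => d4bP_up1 hD hL hn (hs hy) ht hs'
  rw [e2, ← hW, l0, u0] at h1
  rw [e2, hP, m1, m2, l1, u1] at h2
  have iG : IntegrableOn (fun y => D.Wr y * gsq g y) (Wl a) :=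
    (cW.mul (d4bA_gsq hg)).continuousOn.integrableOn_compact (isCompact_cb _ _ _)
  have pG : ∀ y, 0 ≤ D.Wr y * gsq g y := fun y => mul_nonneg (D.Wr_pos y).le (d4bA_gsq0 _ _)
  have g1 := setIntegral_mono_set iG (ae_of_all _ pG) hs.eventuallyLE
  have g2 := setIntegral_mono_set iG (ae_of_all _ pG) (Pl_sub a).eventuallyLE
  have g0 : 0 ≤ ∫ y in Wl a, D.Wr y * gsq g y := integral_nonneg pG
  have r : ∀ c : ℝ, 2 * 1 * ((c + (aw + 1) - (c - (aw + 1))) / (c + aw - (c - aw))) =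
      2 * (10 ^ 8 + 1) / 10 ^ 8 := fun c => by
    rw [show c + (aw + 1) - (c - (aw + 1)) = 2 * (aw + 1) by ring,
      show c + aw - (c - aw) = 2 * aw by ring, aw]
    norm_num
  have r' : ∀ c : ℝ, 2 * (c + (aw + 1) - (c - (aw + 1))) ^ 2 = 8 * (10 ^ 8 + 1) ^ 2 := fun c => by
    rw [aw]
    ring
  rw [r, r'] at h1 h2
  have r3 : 4 * aw ^ 2 = 4 * 10 ^ 16 := by rw [aw]; norm_num
  rw [r3] at h3
  linarith

end Vale.Agent.P363
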