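import Vale.Agent.P363.D4b0

/-!
Part D4b: common facts for the comparison of smooth and sharp orbitals.
-/

namespace Vale.Agent.P363

open MeasureTheory Vale.Agent.P370 Set Function Filter Topology
open scoped ContDiff

theorem d4bT_mem {x : Pt} :
    x ∈ rot ⁻¹' B1 ↔ |pc x| ≤ 2 * Lc ∧ |qc x| ≤ 2 * Lc ∧ |x 2| ≤ 1 := by
  rw [mem_preimage, B1, mem_cb]
  simp only [sub_zero]
  rfl

theorem d4bT_compact : IsCompact (rot ⁻¹' B1) := by
  rw [← image_eq_preimage_of_inverse rot_rot rot_rot]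
  exact (isCompact_cb _ _ _).image cd_rot.continuous

theorem d4bT_int {F : Pt → ℝ} {M : ℝ} (h0 : ∀ x, 0 ≤ F x)
    (h : ∀ x, F x ≠ 0 → x ∈ rot ⁻¹' B1 ∧ F x ≤ M) (hM : 0 ≤ M) :
    ∫ x, F x ≤ M * volume.real (rot ⁻¹' B1) := by
  have hK := d4bT_compact.measurableSet
  have hi : Integrable ((rot ⁻¹' B1).indicator fun _ : Pt => M) :=
    (integrable_indicator_iff hK).2 (integrableOn_const d4bT_compact.measure_lt_top.ne)
  refine (integral_mono_of_nonneg (ae_of_all _ h0) hi (ae_of_all _ fun x => ?_)).trans_eq ?_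
  · by_cases hx : F x = 0
    · rw [hx]
      exact indicator_nonneg (fun _ _ => hM) x
    · rw [indicator_of_mem (h x hx).1]
      exact (h x hx).2
  · rw [integral_indicator_const _ hK, smul_eq_mul, mul_comm]

theorem d4bT_le_one {D : Des} (h : D.OK) (hn : 4 * Lc ≤ D.Ls) (h2 : 2 ≤ D.n) {x : Pt}
    (hx : x ∈ rot ⁻¹' B1) : D.φ0 x ^ 2 ≤ 1 := by
  obtain ⟨h1, h3, h4⟩ := d4bT_mem.1 hx
  rw [h.φ0_sq hn h1 h3 h4, Des.rz, ← Real.exp_add, Real.exp_le_one_iff]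
  have := (dd_mem x).2
  have : 0 ≤ (1 + D.Om) * x 2 ^ 2 := by unfold Des.Om; positivity
  have : 0 ≤ 2 * D.n * (7 - dd x) := mul_nonneg (by linarith) (by linarith)
  linarith

theorem d4bT_small {D : Des} (h : D.OK) (hn : 4 * Lc ≤ D.Ls) (h2 : 2 ≤ D.n) {x : Pt}
    (hx : x ∈ rot ⁻¹' B1) (hA : ∀ b, x ∉ Aw b) : D.φ0 x ^ 2 ≤ aw * D.lam := by
  obtain ⟨h1, h3, h4⟩ := d4bT_mem.1 hx
  rw [Des.lam, mul_div_cancel₀ _ aw_pos.ne', h.φ0_sq hn h1 h3 h4, Des.rz, ← Real.exp_add,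
    Real.exp_le_exp]
  have d7 := (dd_mem x).2
  have hO : 0 ≤ D.Om := by unfold Des.Om; positivity
  by_cases hz : |x 2| ≤ 1 / 2
  · have hd : dd x ≤ 1 := dd_le_one fun b => by
      by_contra hc
      rw [not_or, not_le, not_le] at hc
      exact hA b ⟨hc.1.le, hc.2.le, hz⟩
    have : 0 ≤ (1 + D.Om) * x 2 ^ 2 := by positivity
    nlinarith
  · have e1 : 1 / 4 ≤ x 2 ^ 2 := by
      rw [← sq_abs]
      nlinarith [not_le.1 hz]
    have e2 : 48 * D.n ≤ D.Om := by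
      have : (2 : ℝ) ^ 7 ≤ D.n ^ 7 := pow_le_pow_left₀ (by norm_num) h2 7
      have e : D.Om = D.n ^ 7 * D.n := by unfold Des.Om; ring
      rw [e]
      nlinarith
    have : 0 ≤ 2 * D.n * (7 - dd x) := mul_nonneg (by linarith) (by linarith)
    nlinarith

/-- The inverse mass is polynomial. -/
theorem d4bT_mass : Ev fun D => ∀ a, 0 < D.mass a ∧ aw / D.mass a ≤ D.n ^ 5 ∧
    1 / D.mass a ≤ D.n ^ 5 := by
  refine ((ev_mass.and ev_Iz).and (ev_ge 1)).mono fun D _ ⟨⟨h1, h2, _⟩, h3⟩ a => ?_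
  have hn : 0 < D.n ^ 5 := by positivity
  have ha : 1 ≤ aw := by norm_num [aw]
  have e1 : 4 * aw ^ 2 * (1 / D.n ^ 5) ≤ D.mass a :=
    (mul_le_mul_of_nonneg_left h2 (by positivity)).trans (h1 a).2.1
  have hm : 0 < D.mass a := lt_of_lt_of_le (by positivity) e1
  rw [mul_one_div, div_le_iff₀ hn] at e1
  refine ⟨hm, ?_, ?_⟩ <;> rw [div_le_iff₀ hm] <;> nlinarith

theorem d4bT_Xi {x : Pt} (h : Xi x ≠ 0) :
    |pc x| < Lc + aw + 4 ∧ |qc x| < Lc + aw + 4 ∧ |x 2| < 3 / 4 := by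
  refine ⟨not_le.1 fun h1 => h ?_, not_le.1 fun h1 => h ?_, not_le.1 fun h1 => h ?_⟩
  · rw [Xi, sqb0_zero (Or.inl (by linarith)), zero_mul]
  · rw [Xi, sqb0_zero (Or.inr (by linarith)), zero_mul]
  · rw [Xi, bmp_zero (a := 2) (by rw [abs_mul, abs_of_pos (by norm_num : (0 : ℝ) < 4)]; linarith),
      mul_zero]

theorem d4bT_th {a : Fin 5} {x : Pt} (h : th a x ≠ 0) : Xi x ≠ 0 := fun h0 => h (by
  unfold th th1
  simp [h0])

end Vale.Agent.P363
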