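import Vale.Agent.P363.D4bG
import Vale.Agent.P363.D4bTX1
import Vale.Agent.P370.GS

/-!
Part D4b: the orbitals with disjoint supports.

`ηt a = φ0 * (χ / √mass)`, `χ = sqb (aw + 1) a * bmp 2 (4 z)`, `0 ≤ χ ≤ 1`, `χ = 1` on `Aw a` (so `gsq χ = 0`
there: global maximum, `IsLocalMax.fderiv_eq_zero`), `χ = 0` unless `|p - c₁|, |q - c₂| < aw + 2`, `|z| < 3 / 4`.
On the support outside `Aw a`: `φ0 ^ 2 ≤ exp (-12 n)` (`φ0_sq`; `dd_le_one` laterally since the centres are `Lc`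
apart, `exp (-Om / 4)` if `1 / 2 ≤ |z|`).  `mass ≥ 4 aw ^ 2 / n ^ 5`, `exp (-12 n) = aw * lam`, `ev_poly'`.
`en`: `d4b_eq`, `gsq χ ≤ C` (`db_fix`, `bmp_deriv`).  `h1`: `φ0 ≤ 1` on the box,
`|pd k S| ≤ C n ^ 9` there (`S_box` holds near every point of the support), volume of the support is a constant.
-/

namespace Vale.Agent.P363

open MeasureTheory Vale.Agent.P370 Set Function Filter Topology
open scoped ContDiff

/-- The cutoff of a well. -/
noncomputable def d4bChi (a : Fin 5) (x : Pt) : ℝ := sqb (aw + 1) a x * bmp 2 (4 * x 2)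

theorem d4bT_cd (a : Fin 5) : ContDiff ℝ ∞ (d4bChi a) :=
  (cd_sqb _ a).mul ((contDiff_bmp 2).comp (contDiff_const.mul (cd_co 2)))

theorem d4bT_chi_mem (a : Fin 5) (x : Pt) : 0 ≤ d4bChi a x ∧ d4bChi a x ≤ 1 :=
  ⟨mul_nonneg (sqb_nonneg _ _ _) (bmp_nonneg _ _),
    mul_le_one₀ (sqb_le_one _ _ _) (bmp_nonneg _ _) (bmp_le_one _ _)⟩

theorem d4bT_four (t : ℝ) : |4 * t| = 4 * |t| := by
  rw [abs_mul, abs_of_pos (by norm_num : (0 : ℝ) < 4)]

theorem d4bT_ne {a : Fin 5} {x : Pt} (h : d4bChi a x ≠ 0) :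
    |pc x - (ctr a).1| < aw + 2 ∧ |qc x - (ctr a).2| < aw + 2 ∧ |x 2| < 3 / 4 := by
  refine ⟨not_le.1 fun h1 => h ?_, not_le.1 fun h1 => h ?_, not_le.1 fun h1 => h ?_⟩
  · rw [d4bChi, sqb_zero (Or.inl (by linarith)), zero_mul]
  · rw [d4bChi, sqb_zero (Or.inr (by linarith)), zero_mul]
  · rw [d4bChi, bmp_zero (a := 2) (by rw [d4bT_four]; linarith), mul_zero]

theorem d4bT_one {a : Fin 5} {x : Pt} (h : x ∈ Aw a) : d4bChi a x = 1 := by
  rw [d4bChi, sqb_one h.1 h.2.1, bmp_one (by rw [d4bT_four]; linarith [h.2.2]), mul_one]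

theorem d4bT_box {a : Fin 5} {x : Pt} (h : d4bChi a x ≠ 0) :
    |pc x| ≤ 2 * Lc - 1 ∧ |qc x| ≤ 2 * Lc - 1 ∧ |x 2| ≤ 3 / 4 := by
  obtain ⟨h1, h2, h3⟩ := d4bT_ne h
  obtain ⟨h4, h5⟩ := d4b_ctr_le a
  have h6 := abs_sub_abs_le_abs_sub (pc x) (ctr a).1
  have h7 := abs_sub_abs_le_abs_sub (qc x) (ctr a).2
  have := aw_Lc
  have := aw_pos
  exact ⟨by linarith, by linarith, h3.le⟩

theorem d4bT_in {a : Fin 5} {x : Pt} (h : d4bChi a x ≠ 0) : x ∈ rot ⁻¹' B1 := by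
  obtain ⟨h1, h2, h3⟩ := d4bT_box h
  exact d4bT_mem.2 ⟨by linarith, by linarith, by linarith⟩

theorem d4bT_other {a b : Fin 5} (hab : a ≠ b) {x : Pt} (h : d4bChi a x ≠ 0) :
    d4bChi b x = 0 := by
  obtain ⟨h1, h2, -⟩ := d4bT_ne h
  rw [d4bChi, sqb_other hab (by linarith [aw_Lc, aw_pos]) h1.le h2.le, zero_mul]

theorem d4bT_off {a : Fin 5} {x : Pt} (h : d4bChi a x ≠ 0) (hx : x ∉ Aw a) (b : Fin 5) :
    x ∉ Aw b := fun hb => by
  by_cases hab : a = b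
  · exact hx (hab ▸ hb)
  · have := d4bT_other hab h
    rw [d4bT_one hb] at this
    exact one_ne_zero this

theorem d4bT_gsq0 {f : Pt → ℝ} {x : Pt} (h : fderiv ℝ f x = 0) : gsq f x = 0 := by
  simp [gsq, pd, h]

theorem d4bT_min {f : Pt → ℝ} {x : Pt} (h0 : ∀ y, 0 ≤ f y) (h : f x = 0) : gsq f x = 0 :=
  d4bT_gsq0 (IsLocalMin.fderiv_eq_zero (Eventually.of_forall fun y => h ▸ h0 y))

theorem d4bT_gsq_le {f : Pt → ℝ} {x : Pt} {B : ℝ} (h : ∀ k, |pd k f x| ≤ B) :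
    gsq f x ≤ 3 * B ^ 2 := by
  have e : ∀ k, pd k f x ^ 2 ≤ B ^ 2 := fun k => by
    rw [← sq_abs]
    exact pow_le_pow_left₀ (abs_nonneg _) (h k) 2
  rw [gsq, Fin.sum_univ_three]
  linarith [e 0, e 1, e 2]

theorem d4bT_gsq_nonneg (f : Pt → ℝ) (x : Pt) : 0 ≤ gsq f x :=
  Finset.sum_nonneg fun _ _ => sq_nonneg _

theorem d4bT_C : ∃ C : ℝ, 0 ≤ C ∧ (∀ a k x, |pd k (d4bChi a) x| ≤ C) ∧ ∀ k x, |pd k dd x| ≤ C := by
  have h : ∀ a, DgB (d4bChi a) := fun a => (dgb_sqb _ a).mul (dgb_bmp 2 dga_4z)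
  choose B hB using h
  obtain ⟨E, hE⟩ := dgb_dd
  have h0 : ∀ a, 0 ≤ B a := fun a => desg_nonneg (hB a)
  have h1 := desg_nonneg hE
  have h2 : 0 ≤ ∑ a, B a := Finset.sum_nonneg fun a _ => h0 a
  refine ⟨E + ∑ a, B a, by linarith, fun a k x => ?_, fun k x => ?_⟩
  · have := (desg_pd0 (hB a).1 k x).trans ((hB a).2 1 (by norm_num) x)
    have := Finset.single_le_sum (fun a _ => h0 a) (Finset.mem_univ a)
    linarith
  · have := (desg_pd0 hE.1 k x).trans (hE.2 1 (by norm_num) x)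
    linarith

theorem d4bT_div {f : Pt → ℝ} (hf : Differentiable ℝ f) (c : ℝ) (k : Fin 3) (x : Pt) :
    pd k (fun y => f y / c) x = pd k f x / c := by
  have := ((hp_of (hf x) k).comp (P := fun t => t / c) ((hasDerivAt_id _).div_const c)).2
  rw [this]
  ring

theorem d4bT_pdS {D : Des} (h : D.OK) (hn : 4 * Lc ≤ D.Ls) (h1 : 1 ≤ D.n) {C : ℝ}
    (hC : ∀ k x, |pd k dd x| ≤ C) {a : Fin 5} {x : Pt} (hx : d4bChi a x ≠ 0) (k : Fin 3) :
    |pd k D.S x| ≤ 1 + D.Om + D.n * C := by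
  obtain ⟨b1, b2, b3⟩ := d4bT_box hx
  have e : D.S =ᶠ[𝓝 x] fun y => 1 / 2 * (1 + D.Om) * y 2 ^ 2 + D.n * (7 - dd y) := by
    have e1 : ∀ᶠ y in 𝓝 x, |pc y| < 2 * Lc :=
      cd_pc.continuous.abs.continuousAt.eventually_lt continuousAt_const (by linarith)
    have e2 : ∀ᶠ y in 𝓝 x, |qc y| < 2 * Lc :=
      cd_qc.continuous.abs.continuousAt.eventually_lt continuousAt_const (by linarith)
    have e3 : ∀ᶠ y : Pt in 𝓝 x, |y 2| < 1 :=
      (cd_co 2).continuous.abs.continuousAt.eventually_lt continuousAt_const (by linarith)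
    filter_upwards [e1, e2, e3] with y a1 a2 a3 using h.S_box hn a1.le a2.le a3.le
  have p1 := (hp_coord k 2 x).comp (P := fun t => 1 / 2 * (1 + D.Om) * t ^ 2 + 7 * D.n)
    (((hasDerivAt_pow 2 _).const_mul _).add_const _)
  have p2 := (hp_of (cd_dd.differentiable (by simp) x) k).comp (P := fun t => D.n * t)
    ((hasDerivAt_id _).const_mul _)
  have p3 := (p1.sub p2).2
  have e' : pd k D.S x = pd k (fun y => 1 / 2 * (1 + D.Om) * y 2 ^ 2 + 7 * D.n - D.n * dd y) x := by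
    unfold pd
    rw [e.fderiv_eq]
    congr 2
    funext y
    ring
  have hO : 0 ≤ D.Om := by unfold Des.Om; positivity
  have he : |ek k 2| ≤ 1 := by
    unfold ek
    rw [Pi.single_apply]
    split_ifs <;> simp
  rw [e', p3]
  refine (abs_sub _ _).trans (add_le_add ?_ ?_)
  · rw [show 1 / 2 * (1 + D.Om) * (((2 : ℕ) : ℝ) * x 2 ^ (2 - 1)) * ek k 2 =
      (1 + D.Om) * (x 2 * ek k 2) by norm_num; ring, abs_mul, abs_of_nonneg (by linarith), abs_mul]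
    exact mul_le_of_le_one_right (by linarith)
      (mul_le_one₀ (by linarith) (abs_nonneg _) he)
  · rw [mul_one, abs_mul, abs_of_nonneg (by linarith : 0 ≤ D.n)]
    exact mul_le_mul_of_nonneg_left (hC k x) (by linarith)

theorem d4bT_eta (D : Des) (a : Fin 5) :
    D.ηt a = fun x => D.φ0 x * (d4bChi a x / √(D.mass a)) := by
  funext x
  rw [Des.ηt, mul_div_assoc]
  rfl

theorem d4bT_eta_ne {D : Des} {a : Fin 5} {x : Pt} (h : D.ηt a x ≠ 0) : d4bChi a x ≠ 0 :=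
  fun h0 => h (by rw [d4bT_eta]; simp [h0])

theorem d4bT_sq {D : Des} {a : Fin 5} (hm : 0 < D.mass a) (x : Pt) :
    D.ηt a x ^ 2 ≤ D.φ0 x ^ 2 / D.mass a := by
  rw [d4bT_eta]
  simp only
  rw [mul_pow, div_pow, Real.sq_sqrt hm.le, ← mul_div_assoc]
  refine div_le_div_of_nonneg_right (mul_le_of_le_one_right (sq_nonneg _) ?_) hm.le
  exact pow_le_one₀ (d4bT_chi_mem a x).1 (d4bT_chi_mem a x).2

theorem d4bT_lam (D : Des) : 0 < D.lam := div_pos (Real.exp_pos _) aw_pos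

theorem d4b_t1 : Ev fun D =>
    (∀ a, ContDiff ℝ ∞ (D.ηt a) ∧ HasCompactSupport (D.ηt a)) ∧
    (∀ a b x, a ≠ b → D.ηt a x * D.ηt b x = 0) ∧
    (∀ i : Fin 3, i ≠ 2 → ∀ a x, D.ηt (pr i a) (rf i x) = D.ηt a x) ∧
    (∀ a x, D.ηt a x ≠ 0 →
      |pc x - (ctr a).1| ≤ aw + 2 ∧ |qc x - (ctr a).2| ≤ aw + 2 ∧ |x 2| ≤ 1) ∧
    (∀ a x, D.η a x ≠ 0 → nrm x ≤ 3 * Lc) ∧
    ∀ a, ∫ x, (D.ηt a x - D.φ a x) ^ 2 ≤ D.P * D.lam := by
  refine ((((ev_mass.and d4bT_mass).and ev_Ls).and (ev_ge 2)).and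
    (ev_poly' (volume.real (rot ⁻¹' B1)) 5)).mono
    fun D h ⟨⟨⟨⟨m0, m1⟩, hn, _⟩, h2⟩, _, hP⟩ => ⟨fun a => ⟨?_, ?_⟩, fun a b x hab => ?_,
      fun i hi a x => ?_, fun a x hx => ?_, fun a x hx => ?_, fun a => ?_⟩
  · rw [d4bT_eta]
    exact h.cd_φ0.mul ((d4bT_cd a).div_const _)
  · exact HasCompactSupport.intro d4bT_compact fun x hx => by
      by_contra h0
      exact hx (d4bT_in (d4bT_eta_ne h0))
  · by_cases h0 : D.ηt a x = 0
    · rw [h0, zero_mul]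
    · have := d4bT_other hab (d4bT_eta_ne h0)
      rw [d4bT_eta D b]
      simp [this]
  · rw [Des.ηt, Des.ηt, Des.φ0, Des.φ0, h.S_rf hi, sqb_rf hi, rf_two hi, (m0 (pr i a)).1, (m0 a).1]
  · obtain ⟨h3, h4, h5⟩ := d4bT_ne (d4bT_eta_ne hx)
    exact ⟨h3.le, h4.le, by linarith⟩
  · have : th a x ≠ 0 := fun h0 => hx (by rw [Des.η, h0]; simp)
    obtain ⟨h3, h4, h5⟩ := d4bT_Xi (d4bT_th this)
    have := aw_Lc
    have := aw_pos
    exact nrm_le_of (by linarith) (by linarith) (by linarith)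
  · obtain ⟨hm, hm1, -⟩ := m1 a
    have hl := d4bT_lam D
    have hV : 0 ≤ volume.real (rot ⁻¹' B1) := measureReal_nonneg
    refine (d4bT_int (M := D.n ^ 5 * D.lam) (fun x => sq_nonneg _) (fun x hx => ?_)
      (by positivity)).trans (by nlinarith)
    have hA : x ∉ Aw a := fun hA => hx (by
      rw [Des.φ, indicator_of_mem hA, d4bT_eta]
      simp only
      rw [d4bT_one hA]
      ring)
    rw [Des.φ, indicator_of_notMem hA, sub_zero] at hx ⊢
    have hc := d4bT_eta_ne fun h0 => hx (by rw [h0]; ring)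
    refine ⟨d4bT_in hc, (d4bT_sq hm x).trans ?_⟩
    calc D.φ0 x ^ 2 / D.mass a ≤ aw * D.lam / D.mass a :=
          div_le_div_of_nonneg_right (d4bT_small h hn h2 (d4bT_in hc) (d4bT_off hc hA)) hm.le
      _ = aw / D.mass a * D.lam := by ring
      _ ≤ D.n ^ 5 * D.lam := mul_le_mul_of_nonneg_right hm1 hl.le

theorem d4b_t2 : Ev fun D =>
    (∀ a, qV D.U (D.ηt a) ≤ D.E1 * (∫ x, D.ηt a x ^ 2) + D.P * D.lam) ∧
    ∀ a, (∫ x, gsq (D.ηt a) x) + ∫ x, D.ηt a x ^ 2 ≤ D.P := by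
  obtain ⟨C, hC, hχ, hd⟩ := d4bT_C
  refine (((((d4b_eq.and d4bT_mass).and ev_Ls).and (ev_ge 2)).and
    (ev_poly' (3 * C ^ 2 * volume.real (rot ⁻¹' B1)) 5)).and
    (ev_poly' ((3 * (2 + 2 * C) ^ 2 + 1) * volume.real (rot ⁻¹' B1)) 21)).mono
    fun D h ⟨⟨⟨⟨⟨hq, m1⟩, hn, _⟩, h2⟩, _, hP⟩, _, hP'⟩ => ⟨fun a => ?_, fun a => ?_⟩
  · obtain ⟨hm, hm1, -⟩ := m1 a
    have hl := d4bT_lam D
    have hV : 0 ≤ volume.real (rot ⁻¹' B1) := measureReal_nonneg
    have hne : ∀ x, d4bChi a x / √(D.mass a) ≠ 0 → d4bChi a x ≠ 0 := fun x hx h0 =>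
      hx (by rw [h0, zero_div])
    have hf : C1c fun x => d4bChi a x / √(D.mass a) :=
      ⟨((d4bT_cd a).div_const _).of_le (by simp), HasCompactSupport.intro d4bT_compact
        fun x hx => by
          by_contra h0
          exact hx (d4bT_in (hne x h0))⟩
    rw [d4bT_eta, hq _ hf fun x hx => d4bT_box (hne x hx)]
    have key := d4bT_int (F := fun x => D.φ0 x ^ 2 * gsq (fun x => d4bChi a x / √(D.mass a)) x)
      (M := 3 * C ^ 2 * D.n ^ 5 * D.lam)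
      (fun x => mul_nonneg (sq_nonneg _) (d4bT_gsq_nonneg _ _)) (fun x hx => ?_) (by positivity)
    · have : 3 * C ^ 2 * D.n ^ 5 * D.lam * volume.real (rot ⁻¹' B1) ≤ D.P * D.lam := by nlinarith
      have : 0 ≤ D.P * D.lam := mul_nonneg (Real.exp_pos _).le hl.le
      have : 0 ≤ ∫ x, D.φ0 x ^ 2 * gsq (fun x => d4bChi a x / √(D.mass a)) x :=
        integral_nonneg fun x => mul_nonneg (sq_nonneg _) (d4bT_gsq_nonneg _ _)
      linarith
    have hg := right_ne_zero_of_mul hx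
    have hs : 0 < √(D.mass a) := Real.sqrt_pos.2 hm
    have hc : d4bChi a x ≠ 0 := fun h0 => hg (d4bT_min
      (fun y => div_nonneg (d4bT_chi_mem a y).1 hs.le) (by simp [h0]))
    have hA : x ∉ Aw a := fun hA => hg (d4bT_gsq0 (IsLocalMax.fderiv_eq_zero
      (Eventually.of_forall fun y => div_le_div_of_nonneg_right
        (d4bT_one hA ▸ (d4bT_chi_mem a y).2) hs.le)))
    refine ⟨d4bT_in hc, ?_⟩
    have g1 : gsq (fun x => d4bChi a x / √(D.mass a)) x ≤ 3 * (C / √(D.mass a)) ^ 2 :=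
      d4bT_gsq_le fun k => by
        rw [d4bT_div ((d4bT_cd a).differentiable (by simp)), abs_div, abs_of_pos hs]
        exact div_le_div_of_nonneg_right (hχ a k x) hs.le
    rw [div_pow, Real.sq_sqrt hm.le] at g1
    calc _ ≤ aw * D.lam * (3 * (C ^ 2 / D.mass a)) :=
          mul_le_mul (d4bT_small h hn h2 (d4bT_in hc) (d4bT_off hc hA)) g1 (d4bT_gsq_nonneg _ _)
            (mul_pos aw_pos hl).le
      _ = 3 * C ^ 2 * (aw / D.mass a) * D.lam := by ring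
      _ ≤ 3 * C ^ 2 * D.n ^ 5 * D.lam := by gcongr
  · obtain ⟨hm, -, hm1⟩ := m1 a
    have hV : 0 ≤ volume.real (rot ⁻¹' B1) := measureReal_nonneg
    have hs : 0 < √(D.mass a) := Real.sqrt_pos.2 hm
    have hn0 : 0 ≤ D.n := by linarith
    have n8 : D.n ≤ D.n ^ 8 := le_self_pow₀ (by linarith) (by norm_num)
    have k1 := d4bT_int (F := gsq (D.ηt a)) (M := 3 * (2 + 2 * C) ^ 2 * D.n ^ 21)
      (d4bT_gsq_nonneg _) (fun x hx => ?_) (by positivity)
    · have k2 := d4bT_int (F := fun x => D.ηt a x ^ 2) (M := D.n ^ 21) (fun x => sq_nonneg _)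
        (fun x hx => ?_) (by positivity)
      · nlinarith
      have hc : d4bChi a x ≠ 0 := d4bT_eta_ne (D := D) fun h0 => hx (by simp [h0])
      refine ⟨d4bT_in hc, (d4bT_sq hm x).trans ?_⟩
      exact ((div_le_div_of_nonneg_right (d4bT_le_one h hn h2 (d4bT_in hc)) hm.le).trans
        hm1).trans (pow_le_pow_right₀ (by linarith) (by norm_num))
    have h0 : ∀ y, 0 ≤ D.ηt a y := fun y => by
      rw [d4bT_eta]
      exact mul_nonneg (Real.exp_pos _).le (div_nonneg (d4bT_chi_mem a y).1 hs.le)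
    have hc := d4bT_eta_ne fun h1 => hx (d4bT_min h0 h1)
    refine ⟨d4bT_in hc, ?_⟩
    have φ1 : D.φ0 x ≤ 1 :=
      (sq_le_one_iff₀ (Real.exp_pos _).le).1 (d4bT_le_one h hn h2 (d4bT_in hc))
    have φ0 : 0 < D.φ0 x := Real.exp_pos _
    have g1 : gsq (D.ηt a) x ≤ 3 * ((2 + 2 * C) * D.n ^ 8 / √(D.mass a)) ^ 2 :=
      d4bT_gsq_le fun k => by
        have p1 := (hp_of (h.cd_S.differentiable (by simp) x) k).comp
          (P := fun t => Real.exp (-t)) (hasDerivAt_neg _).exp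
        have p2 := (p1.mul (hp_of ((d4bT_cd a).differentiable (by simp) x) k)).2
        have e : D.ηt a = fun y => Real.exp (-D.S y) * d4bChi a y / √(D.mass a) := rfl
        rw [e, d4bT_div (f := fun y => Real.exp (-D.S y) * d4bChi a y)
          ((h.cd_φ0.mul (d4bT_cd a)).differentiable (by simp)), abs_div, abs_of_pos hs, p2]
        refine div_le_div_of_nonneg_right ?_ hs.le
        have b1 := d4bT_pdS h hn (by linarith) hd hc k
        have b2 : |D.φ0 x * pd k (d4bChi a) x| ≤ 1 * C := by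
          rw [abs_mul, abs_of_pos φ0]
          exact mul_le_mul φ1 (hχ a k x) (abs_nonneg _) zero_le_one
        have b3 : |d4bChi a x * (D.φ0 x * -1 * pd k D.S x)| ≤ 1 * (1 * (1 + D.Om + D.n * C)) := by
          rw [abs_mul, abs_mul, mul_neg_one, abs_neg, abs_of_pos φ0,
            abs_of_nonneg (d4bT_chi_mem a x).1]
          exact mul_le_mul (d4bT_chi_mem a x).2 (mul_le_mul φ1 b1 (abs_nonneg _) zero_le_one)
            (by positivity) zero_le_one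
        refine (abs_add_le _ _).trans ((add_le_add b2 b3).trans ?_)
        unfold Des.Om
        nlinarith
    rw [div_pow, Real.sq_sqrt hm.le] at g1
    calc _ ≤ _ := g1
      _ = 3 * (2 + 2 * C) ^ 2 * D.n ^ 16 * (1 / D.mass a) := by ring
      _ ≤ 3 * (2 + 2 * C) ^ 2 * D.n ^ 16 * D.n ^ 5 := by gcongr
      _ = _ := by ring

end Vale.Agent.P363
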