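import Vale.Agent.P363.D4b0

/-!
Part D4b: the gradient of a combination of the profiles.

`T = lc5 th c = Xi * (c 0 + ∑ a, (c a - c 0) * (rmp (lon a) * bmp (aw + 3) (tra a)))` (`th1 0 = 0`).
Crude bound `gsq T ≤ C ∑ c ^ 2` from `db_fix` (`|pd k (th a)| ≤ C`, Cauchy-Schwarz).  Cases for `x`:
outside the closed box `T` vanishes near `x`; if `1 / 2 ≤ |x 2|` then `φ0 ^ 2 ≤ exp (-Om / 4) ≤ exp (-14 n)`
(`φ0_sq`, `dd ≤ 7`); if `dd_zero` applies then `φ0 ^ 2 ≤ exp (-14 n)`.  Otherwise `|x 2| < 1 / 2`,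
`|p|, |q| < Lc + aw + 2` and (say) `|q| < aw + 2`; near `x` then
`T = c 0 + (c 1 - c 0) rmp p + (c 3 - c 0) rmp (-p) = τ (pc x)` (`rmp_zero`, `bmp_one`), `gsq T = τ' ^ 2`;
`deriv rmp t = 0` unless `aw + 2 ≤ t ≤ Lc - aw - 2`; there use `rmp_deriv` and `dd_le_one`.
-/

namespace Vale.Agent.P363

open MeasureTheory Vale.Agent.P370 Set Function
open scoped ContDiff

/-- The part of a link on which the ramp grows. -/
def Lk (a : Fin 5) : Set Pt :=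
  {x | aw + 2 ≤ lon a x ∧ lon a x ≤ Lc - aw - 2 ∧ |tra a x| ≤ aw + 2 ∧ |x 2| ≤ 1 / 2}

theorem d4bu_eq (c : Fin 5 → ℝ) (x : Pt) : lc5 th c x = Xi x * (c 0 +
    (c 1 - c 0) * (rmp (pc x) * bmp (aw + 3) (qc x)) +
    (c 2 - c 0) * (rmp (-qc x) * bmp (aw + 3) (pc x)) +
    (c 3 - c 0) * (rmp (-pc x) * bmp (aw + 3) (qc x)) +
    (c 4 - c 0) * (rmp (qc x) * bmp (aw + 3) (pc x))) := by
  have h0 : rmp 0 = 0 := rmp_zero (by linarith [aw_pos])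
  simp [lc5, th, th1, lon, tra, Fin.sum_univ_five, h0]
  ring

theorem d4bu_gsq_congr {f g : Pt → ℝ} {x : Pt} (h : f =ᶠ[nhds x] g) : gsq f x = gsq g x := by
  simp only [gsq, pd, h.fderiv_eq]

theorem d4bu_co (j : Fin 3) (x : Pt) : gsq (fun y : Pt => y j) x = 1 := by
  have h : ∀ k, pd k (fun y : Pt => y j) x = if k = j then 1 else 0 := fun k => by
    rw [pd, (hasFDerivAt_apply (𝕜 := ℝ) j x).fderiv]
    simp [ek, Pi.single_apply, eq_comm]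
  simp [gsq, h]

theorem d4bu_comp {τ : ℝ → ℝ} {τ' : ℝ} (j : Fin 3) {x : Pt} (h : HasDerivAt τ τ' (rot x j)) :
    gsq (fun y => τ (rot y j)) x = τ' ^ 2 := by
  have hd : DifferentiableAt ℝ (fun y => rot y j) x :=
    (((cd_co j).comp cd_rot).differentiable (by simp)) x
  have h1 : ∀ k, pd k (fun y => τ (rot y j)) x = τ' * pd k (fun y => rot y j) x := fun k => by
    have := (h.comp_hasFDerivAt x hd.hasFDerivAt).fderiv
    rw [pd, pd, show (fun y => τ (rot y j)) = τ ∘ fun y => rot y j from rfl, this]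
    simp
  have h2 := (gsq_rot ((cd_co j).differentiable (by simp)) x).trans (d4bu_co j _)
  simp only [gsq] at h2 ⊢
  simp only [h1, mul_pow]
  rw [← Finset.mul_sum, h2, mul_one]

theorem d4bu_two (c₀ α β t : ℝ) : ∃ τ', HasDerivAt (fun s => c₀ + α * rmp s + β * rmp (-s)) τ' t ∧
    ((aw + 2 ≤ t ∧ t ≤ Lc - aw - 2 ∧ τ' ^ 2 ≤ α ^ 2 / (Lc - 2 * aw - 6) ^ 2) ∨
      (aw + 2 ≤ -t ∧ -t ≤ Lc - aw - 2 ∧ τ' ^ 2 ≤ β ^ 2 / (Lc - 2 * aw - 6) ^ 2) ∨ τ' = 0) := by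
  have d1 := (rmp_hasDerivAt t).differentiableAt.hasDerivAt
  have d2 := (rmp_hasDerivAt (-t)).differentiableAt.hasDerivAt.comp t (hasDerivAt_neg t)
  have z : ∀ s, s ≤ aw + 2 ∨ Lc - aw - 2 ≤ s → deriv rmp s = 0 := fun s hs => by
    rw [(rmp_hasDerivAt s).deriv, hs.elim rb_lo rb_hi, zero_div]
  have b : ∀ γ s : ℝ, (γ * deriv rmp s) ^ 2 ≤ γ ^ 2 / (Lc - 2 * aw - 6) ^ 2 := fun γ s => by
    rw [mul_pow, div_eq_mul_one_div, ← one_div_pow]
    exact mul_le_mul_of_nonneg_left (pow_le_pow_left₀ (rmp_deriv s).1 (rmp_deriv s).2 2)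
      (sq_nonneg _)
  have a0 := aw_pos
  refine ⟨_, ((d1.const_mul α).const_add c₀).add (d2.const_mul β), ?_⟩
  by_cases h1 : aw + 2 ≤ t ∧ t ≤ Lc - aw - 2
  · refine Or.inl ⟨h1.1, h1.2, ?_⟩
    rw [z (-t) (Or.inl (by linarith [h1.1]))]
    simpa using b α t
  · have z1 : deriv rmp t = 0 := z t (by
      by_contra hc
      push Not at hc
      exact h1 ⟨hc.1.le, hc.2.le⟩)
    by_cases h2 : aw + 2 ≤ -t ∧ -t ≤ Lc - aw - 2
    · refine Or.inr (Or.inl ⟨h2.1, h2.2, ?_⟩)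
      rw [z1]
      simpa using b β (-t)
    · have z2 : deriv rmp (-t) = 0 := z (-t) (by
        by_contra hc
        push Not at hc
        exact h2 ⟨hc.1.le, hc.2.le⟩)
      refine Or.inr (Or.inr ?_)
      rw [z1, z2]
      simp

theorem d4bu_ev {u : Pt → ℝ} (hu : Continuous u) {x : Pt} {r : ℝ} (h : |u x| < r) :
    ∀ᶠ y in nhds x, |u y| < r := hu.abs.continuousAt.eventually_lt continuousAt_const h

theorem d4bu_core (c : Fin 5 → ℝ) {x : Pt} (hz : |x 2| < 1 / 2) (hp : |pc x| < Lc + aw + 2)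
    (hq : |qc x| < Lc + aw + 2) (h : |pc x| < aw + 2 ∨ |qc x| < aw + 2) :
    gsq (lc5 th c) x = 0 ∨ ∃ i : Fin 4, x ∈ Lk i.succ ∧
      gsq (lc5 th c) x ≤ (c i.succ - c 0) ^ 2 / (Lc - 2 * aw - 6) ^ 2 := by
  have hX : ∀ᶠ y in nhds x, Xi y = 1 := by
    filter_upwards [d4bu_ev (continuous_apply 2) hz, d4bu_ev cd_pc.continuous hp,
      d4bu_ev cd_qc.continuous hq] with y h1 h2 h3
    rw [Xi, sqb0_one (by linarith) (by linarith), bmp_one (by rw [abs_mul]; norm_num; linarith),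
      one_mul]
  rcases h with h | h
  · obtain ⟨τ', d, hc⟩ := d4bu_two (c 0) (c 4 - c 0) (c 2 - c 0) (qc x)
    have e : gsq (lc5 th c) x = τ' ^ 2 := by
      rw [← d4bu_comp 1 d]
      refine d4bu_gsq_congr ?_
      filter_upwards [hX, d4bu_ev cd_pc.continuous h] with y h1 h2
      have h3 := abs_lt.1 h2
      rw [d4bu_eq, h1, rmp_zero h3.2.le, rmp_zero (t := -pc y) (by linarith [h3.1]),
        bmp_one (t := pc y) (by linarith), rot_one']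
      ring
    rw [e]
    rcases hc with ⟨h1, h2, h3⟩ | ⟨h1, h2, h3⟩ | h1
    · exact Or.inr ⟨3, ⟨h1, h2, h.le, hz.le⟩, h3⟩
    · exact Or.inr ⟨1, ⟨h1, h2, h.le, hz.le⟩, h3⟩
    · exact Or.inl (by rw [h1]; norm_num)
  · obtain ⟨τ', d, hc⟩ := d4bu_two (c 0) (c 1 - c 0) (c 3 - c 0) (pc x)
    have e : gsq (lc5 th c) x = τ' ^ 2 := by
      rw [← d4bu_comp 0 d]
      refine d4bu_gsq_congr ?_
      filter_upwards [hX, d4bu_ev cd_qc.continuous h] with y h1 h2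
      have h3 := abs_lt.1 h2
      rw [d4bu_eq, h1, rmp_zero h3.2.le, rmp_zero (t := -qc y) (by linarith [h3.1]),
        bmp_one (t := qc y) (by linarith), rot_zero']
      ring
    rw [e]
    rcases hc with ⟨h1, h2, h3⟩ | ⟨h1, h2, h3⟩ | h1
    · exact Or.inr ⟨0, ⟨h1, h2, h.le, hz.le⟩, h3⟩
    · exact Or.inr ⟨2, ⟨h1, h2, h.le, hz.le⟩, h3⟩
    · exact Or.inl (by rw [h1]; norm_num)

theorem d4bu_far {t : ℝ} (h : (aw + 2 ≤ t ∧ t ≤ Lc - aw - 2) ∨ (aw + 2 ≤ -t ∧ -t ≤ Lc - aw - 2)) :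
    aw + 1 ≤ |t - 0| ∧ aw + 1 ≤ |t - Lc| ∧ aw + 1 ≤ |t - -Lc| := by
  have a0 := aw_pos
  have l0 := Lc_pos
  rcases h with ⟨h1, h2⟩ | ⟨h1, h2⟩
  · exact ⟨le_abs.2 (Or.inl (by linarith)), le_abs.2 (Or.inr (by linarith)),
      le_abs.2 (Or.inl (by linarith))⟩
  · exact ⟨le_abs.2 (Or.inr (by linarith)), le_abs.2 (Or.inr (by linarith)),
      le_abs.2 (Or.inl (by linarith))⟩

theorem d4bu_dd {i : Fin 4} {x : Pt} (h : x ∈ Lk i.succ) : dd x ≤ 1 := by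
  obtain ⟨h1, h2, -⟩ := h
  have hp : (aw + 2 ≤ pc x ∧ pc x ≤ Lc - aw - 2) ∨ (aw + 2 ≤ -pc x ∧ -pc x ≤ Lc - aw - 2) →
      dd x ≤ 1 := fun h => dd_le_one fun a => Or.inl (by
    obtain ⟨a1, a2, a3⟩ := d4bu_far h
    fin_cases a
    exacts [a1, a2, a1, a3, a1])
  have hq : (aw + 2 ≤ qc x ∧ qc x ≤ Lc - aw - 2) ∨ (aw + 2 ≤ -qc x ∧ -qc x ≤ Lc - aw - 2) →
      dd x ≤ 1 := fun h => dd_le_one fun a => Or.inr (by
    obtain ⟨a1, a2, a3⟩ := d4bu_far h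
    fin_cases a
    exacts [a1, a1, a3, a1, a2])
  fin_cases i
  exacts [hp (Or.inl ⟨h1, h2⟩), hq (Or.inr ⟨h1, h2⟩), hp (Or.inr ⟨h1, h2⟩), hq (Or.inl ⟨h1, h2⟩)]

theorem d4bu_out (c : Fin 5 → ℝ) {x : Pt} (h : x ∉ rot ⁻¹' B1) : gsq (lc5 th c) x = 0 := by
  have hO : IsOpen (rot ⁻¹' B1)ᶜ :=
    ((isCompact_cb _ _ _).isClosed.preimage cd_rot.continuous).isOpen_compl
  have e : lc5 th c =ᶠ[nhds x] fun _ => 0 := by
    filter_upwards [hO.mem_nhds h] with y hy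
    have hX : Xi y = 0 := by
      by_contra hc
      refine hy (mem_cb.2 ?_)
      have a0 := aw_pos
      have l0 := aw_Lc
      have h1 := left_ne_zero_of_mul hc
      have h2 := right_ne_zero_of_mul hc
      have h3 : ¬(Lc + aw + 3 + 1 ≤ |pc y| ∨ Lc + aw + 3 + 1 ≤ |qc y|) := fun h => h1 (sqb0_zero h)
      have h4 : ¬(2 + 1 ≤ |4 * y 2|) := fun h => h2 (bmp_zero h)
      rw [abs_mul, abs_of_pos (by norm_num : (0 : ℝ) < 4)] at h4
      push Not at h3 h4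
      simp only [sub_zero, rot_zero', rot_one', rot_two']
      exact ⟨by linarith [h3.1], by linarith [h3.2], by linarith⟩
    rw [d4bu_eq, hX, zero_mul]
  rw [d4bu_gsq_congr e]
  simp [gsq, pd]

theorem d4bu_crude : ∃ C : ℝ, 0 ≤ C ∧ ∀ (c : Fin 5 → ℝ) (x : Pt),
    gsq (lc5 th c) x ≤ C * ∑ a, c a ^ 2 := by
  obtain ⟨C, C1, -, -, -, hC, -⟩ := db_fix
  refine ⟨15 * C ^ 2, by positivity, fun c x => ?_⟩
  have h1 : ∀ k, pd k (lc5 th c) x = ∑ a, c a * pd k (th a) x := fun k => by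
    have := HasFDerivAt.fun_sum (u := Finset.univ) fun a _ =>
      (((cd_th a).differentiable (by simp) x).hasFDerivAt).const_mul (c a)
    rw [pd, show lc5 th c = fun y => ∑ a, c a * th a y from rfl, this.fderiv]
    simp [pd]
  have h2 : ∀ k, pd k (lc5 th c) x ^ 2 ≤ (∑ a, c a ^ 2) * (5 * C ^ 2) := fun k => by
    rw [h1]
    refine (Finset.sum_mul_sq_le_sq_mul_sq _ _ _).trans (mul_le_mul_of_nonneg_left ?_
      (Finset.sum_nonneg fun _ _ => sq_nonneg _))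
    calc _ ≤ ∑ _a : Fin 5, C ^ 2 := Finset.sum_le_sum fun a _ => by
          rw [← sq_abs]
          exact pow_le_pow_left₀ (abs_nonneg _)
            ((desg_pd0 (cd_th a) k x).trans ((hC a).2 1 (by norm_num) x)) 2
      _ = _ := by simp
  rw [gsq, Fin.sum_univ_three]
  linarith [h2 0, h2 1, h2 2]

theorem d4b_pt : ∃ C : ℝ, 0 ≤ C ∧ Ev fun D => ∀ (c : Fin 5 → ℝ) (x : Pt),
    D.φ0 x ^ 2 * gsq (lc5 th c) x ≤
      (∑ i : Fin 4, (c i.succ - c 0) ^ 2 / (Lc - 2 * aw - 6) ^ 2 * Real.exp (-(12 * D.n)) *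
        (Lk i.succ).indicator (fun x => D.rz (x 2)) x) +
      C * (∑ a, c a ^ 2) * Real.exp (-(14 * D.n)) * (rot ⁻¹' B1).indicator (fun _ => 1) x := by
  obtain ⟨C, C0, hC⟩ := d4bu_crude
  refine ⟨C, C0, ((ev_ge 2).and ev_Ls).mono fun D hD ⟨hn, hL, _⟩ c x => ?_⟩
  have rz0 : 0 ≤ D.rz (x 2) := (Real.exp_pos _).le
  have n0 : ∀ i : Fin 4, 0 ≤ (c i.succ - c 0) ^ 2 / (Lc - 2 * aw - 6) ^ 2 *
      Real.exp (-(12 * D.n)) * (Lk i.succ).indicator (fun x => D.rz (x 2)) x := fun i =>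
    mul_nonneg (by positivity) (indicator_nonneg (fun _ _ => (Real.exp_pos _).le) x)
  have s0 := Finset.sum_nonneg fun i (_ : i ∈ Finset.univ) => n0 i
  have c0 : 0 ≤ ∑ a, c a ^ 2 := Finset.sum_nonneg fun _ _ => sq_nonneg _
  have t0 : 0 ≤ C * (∑ a, c a ^ 2) * Real.exp (-(14 * D.n)) *
      (rot ⁻¹' B1).indicator (fun _ => (1 : ℝ)) x :=
    mul_nonneg (by positivity) (indicator_nonneg (fun _ _ => zero_le_one) x)
  by_cases hx : x ∈ rot ⁻¹' B1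
  swap
  · rw [d4bu_out c hx, mul_zero]
    linarith
  obtain ⟨b1, b2, b3⟩ := mem_cb.1 hx
  simp only [sub_zero, rot_zero', rot_one', rot_two'] at b1 b2 b3
  have e := hD.φ0_sq hL b1 b2 b3
  have Om0 : 56 * D.n ≤ D.Om := by
    have : (2 : ℝ) ^ 7 ≤ D.n ^ 7 := pow_le_pow_left₀ (by norm_num) hn 7
    unfold Des.Om
    nlinarith
  have small : D.φ0 x ^ 2 ≤ Real.exp (-(14 * D.n)) → D.φ0 x ^ 2 * gsq (lc5 th c) x ≤
      (∑ i : Fin 4, (c i.succ - c 0) ^ 2 / (Lc - 2 * aw - 6) ^ 2 * Real.exp (-(12 * D.n)) *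
        (Lk i.succ).indicator (fun x => D.rz (x 2)) x) +
      C * (∑ a, c a ^ 2) * Real.exp (-(14 * D.n)) * (rot ⁻¹' B1).indicator (fun _ => 1) x := by
    intro h
    have := mul_le_mul h (hC c x) (Finset.sum_nonneg fun _ _ => sq_nonneg _) (Real.exp_pos _).le
    rw [indicator_of_mem hx]
    linarith
  by_cases hz : 1 / 2 ≤ |x 2|
  · refine small ?_
    rw [e, Des.rz, ← Real.exp_add]
    refine Real.exp_le_exp.2 ?_
    have h1 : (1 / 2) ^ 2 ≤ x 2 ^ 2 := by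
      rw [← sq_abs (x 2)]
      exact pow_le_pow_left₀ (by norm_num) hz 2
    have h2 := (dd_mem x).2
    nlinarith [mul_le_mul_of_nonneg_left h1 (by linarith : 0 ≤ 1 + D.Om),
      mul_nonneg (by linarith : 0 ≤ D.n) (sub_nonneg.2 h2)]
  by_cases hd : (aw + 2 ≤ |pc x| ∧ aw + 2 ≤ |qc x|) ∨ Lc + aw + 2 ≤ |pc x| ∨ Lc + aw + 2 ≤ |qc x|
  · refine small ?_
    rw [e, dd_zero hd, Des.rz, ← Real.exp_add]
    refine Real.exp_le_exp.2 ?_
    nlinarith [mul_nonneg (by linarith : 0 ≤ 1 + D.Om) (sq_nonneg (x 2))]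
  push Not at hz hd
  rcases d4bu_core c hz hd.2.1 hd.2.2 ((lt_or_ge _ _).imp_right hd.1) with h | ⟨i, hi, h⟩
  · rw [h, mul_zero]
    linarith
  · have h1 : D.φ0 x ^ 2 ≤ D.rz (x 2) * Real.exp (-(12 * D.n)) := by
      rw [e]
      refine mul_le_mul_of_nonneg_left (Real.exp_le_exp.2 ?_) rz0
      nlinarith [d4bu_dd hi]
    have h2 := mul_le_mul h1 h (Finset.sum_nonneg fun _ _ => sq_nonneg _) (by positivity)
    have h3 := Finset.single_le_sum (fun i _ => n0 i) (Finset.mem_univ i)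
    rw [indicator_of_mem hi] at h3
    linarith

end Vale.Agent.P363
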