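import Vale.Agent.P363.PartD2

/-! One-variable facts, numerical inequalities and the abstract step for part D6. -/

namespace Vale.Agent.P363.D26

open MeasureTheory Vale.Agent.P370 Filter Topology
open scoped ContDiff

theorem d6_gK {K : ℝ} (hK : 0 < K) (s : ℝ) : HasDerivAt (gK K) (1 - K / max s K) s :=
  ((gK_cont hK).integral_hasStrictDerivAt 0 s).hasDerivAt

theorem d6_gK1 {K : ℝ} (hK : 0 < K) : ContDiff ℝ 1 (gK K) :=
  contDiff_one_iff_deriv.2 ⟨fun s => (d6_gK hK s).differentiableAt, by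
    rw [funext fun s => (d6_gK hK s).deriv]
    exact gK_cont hK⟩

theorem d6_frz1 (s₁ : ℝ) : ContDiff ℝ 1 (frz s₁) :=
  contDiff_one_iff_deriv.2 ⟨fun s => (frz_hasDerivAt s₁ s).differentiableAt, by
    rw [funext fun s => (frz_hasDerivAt s₁ s).deriv]
    exact frz_cont s₁⟩

theorem d6_frz0 {s₁ s : ℝ} (h1 : 0 ≤ s₁) (h : 0 ≤ s) : 0 ≤ frz s₁ s := by
  have := monotone_of_deriv_nonneg (fun s => (frz_hasDerivAt s₁ s).differentiableAt) (fun s => by
    rw [(frz_hasDerivAt s₁ s).deriv]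
    exact sub_nonneg.2 (Real.smoothTransition.le_one _)) h
  rwa [frz_eq h1] at this

theorem d6_gK_ge {K s : ℝ} (hK : 1 ≤ K) (hs : 0 ≤ s) : s - 2 * K * Real.log (1 + s) ≤ gK K s := by
  have hc : ContinuousOn (fun u : ℝ => 1 - 2 * K * (1 + u)⁻¹) (Set.uIcc 0 s) := by
    rw [Set.uIcc_of_le hs]
    exact continuousOn_const.sub (continuousOn_const.mul
      ((continuousOn_const.add continuousOn_id).inv₀ fun u hu =>
        (add_pos_of_pos_of_nonneg one_pos hu.1).ne'))
  have e := intervalIntegral.integral_eq_sub_of_hasDerivAt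
    (f := fun u : ℝ => u - 2 * K * Real.log (1 + u)) (fun u hu => by
      rw [Set.uIcc_of_le hs] at hu
      simpa using (hasDerivAt_id u).fun_sub ((((hasDerivAt_id u).const_add 1).log
        (by linarith [hu.1] : (1 : ℝ) + u ≠ 0)).const_mul (2 * K))) hc.intervalIntegrable
  simp only [add_zero, Real.log_one, mul_zero, sub_zero] at e
  rw [← e]
  refine intervalIntegral.integral_mono_on hs hc.intervalIntegrable
    ((gK_cont (by linarith)).intervalIntegrable _ _) fun u hu => sub_le_sub_left ?_ 1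
  rw [← div_eq_mul_inv, div_le_div_iff₀ (by linarith [le_max_right u K]) (by linarith [hu.1])]
  nlinarith [le_max_right u K, le_max_left u K]

theorem d6_ub {R : ℝ} (hR : 0 < R) : Continuous (ub R) := by
  have : ub R = fun x => if nrm x ≤ R then 1 / 2 * nrm x ^ 2 - 3 / 2 * R ^ 2 else
      -(R ^ 3 / max (nrm x) R) := by
    funext x
    rw [ub]
    split_ifs with h
    · rfl
    · rw [max_eq_left (not_le.1 h).le]
  rw [this]
  refine Continuous.if_le ((continuous_const.mul (continuous_nrm.pow 2)).sub continuous_const)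
    (continuous_const.div (continuous_nrm.max continuous_const)
      fun _ => (hR.trans_le (le_max_right _ _)).ne').neg continuous_nrm continuous_const
    fun x hx => ?_
  rw [hx, max_self]
  field_simp
  ring

theorem d6_ub_ge {R : ℝ} (hR : 0 < R) (x : Pt) :
    (nrm x ≤ R + 1 → 1 / 2 * nrm x ^ 2 - 3 / 2 * R ^ 2 - 3 / 2 ≤ ub R x) ∧
      (R ≤ nrm x → -R ^ 2 ≤ ub R x) := by
  rw [ub]
  split_ifs with h
  · exact ⟨fun _ => by linarith, fun h' => by nlinarith⟩
  have h1 := not_le.1 h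
  have h2 : 0 < nrm x := by linarith
  refine ⟨fun h3 => ?_, fun _ => ?_⟩ <;> rw [le_neg, div_le_iff₀ h2]
  · have h4 : (nrm x - R) ^ 2 ≤ 1 := by nlinarith
    nlinarith [mul_le_mul_of_nonneg_right h4 (show 0 ≤ nrm x + 2 * R by linarith)]
  · nlinarith [mul_le_mul_of_nonneg_left h1.le (sq_nonneg R)]

/-- high levels -/
theorem d6_hi {u Z K θ m A X LZ LY Γ : ℝ} (hu : 1 ≤ u) (hK : 20 ≤ K) (hm : m * Z = K) (m0 : 0 ≤ m)
    (m1 : m ≤ 1) (θ0 : 0 ≤ θ) (hθ : 2 * θ ≤ m) (hA : 2 * u * Z * (1 - del) ≤ A) (A0 : 0 ≤ A)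
    (hX : -((2 * del + u / 100) * Z) ≤ X) (hL : LZ ≤ u * (1 + 12 * del)) (L0 : 0 ≤ LZ)
    (hY : LY ≤ 2 + u / 100) (hΓ : 0 ≤ Γ) :
    6 ≤ (1 - (1 - m) ^ 2 - θ) / 2 * A + m * X - (1 - θ) / 2 * LZ - LY / 2 + Γ := by
  have h1 : m / 4 * A ≤ (1 - (1 - m) ^ 2 - θ) / 2 * A :=
    mul_le_mul_of_nonneg_right (by nlinarith) A0
  have h2 := mul_le_mul_of_nonneg_left hA m0
  have h3 := mul_le_mul_of_nonneg_left hX m0
  rw [show m * (2 * u * Z * (1 - del)) = 2 * (1 - del) * (u * (m * Z)) by ring, hm] at h2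
  rw [show m * -((2 * del + u / 100) * Z) = -(2 * del * (m * Z) + u * (m * Z) / 100) by ring,
    hm] at h3
  have h4 := mul_nonneg θ0 L0
  have h5 := mul_le_mul_of_nonneg_left hK (show 0 ≤ u by linarith)
  have h6 := mul_le_mul_of_nonneg_right hu (show 0 ≤ K by linarith)
  rw [del] at *
  linarith

/-- low levels -/
theorem d6_lo {u Z K θ A X LZ : ℝ} (hu : 1 ≤ u) (hZ : Z ≤ K) (Z0 : 0 ≤ Z) (θ1 : θ ≤ 1)
    (hθ : Z ≤ 1 → (1 - θ) * u ≤ 1) (hA : 2 * u * Z * (1 - del) ≤ A)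
    (hX : -(2 * del * Z) ≤ X) (hL : LZ ≤ u * (1 + 12 * del)) :
    -1 - K / 20 ≤ (1 - θ) / 2 * A + X - (1 - θ) / 2 * LZ := by
  have h0 : 0 ≤ 1 - θ := by linarith
  have h1 := mul_le_mul_of_nonneg_left hA h0
  have h2 := mul_le_mul_of_nonneg_left hL h0
  have h3 : 0 ≤ (1 - θ) * u := by positivity
  rw [del] at *
  rcases le_total Z 1 with h | h
  · have := hθ h
    nlinarith [mul_nonneg h3 Z0]
  · nlinarith [mul_le_mul_of_nonneg_left h h3]

/-- the weight at high levels -/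
theorem d6_th {n Z K : ℝ} (hn : 200 ≤ n) (hK : K = 20 * Real.log n) (K1 : 1 ≤ K) (hZ : K ≤ Z) :
    2 * (1 + (20 * n ^ 8)⁻¹ * Real.exp Z)⁻¹ ≤ K / Z := by
  have h1 : Real.exp K = n ^ 20 := by
    rw [hK, show (20 : ℝ) = (20 : ℕ) by norm_num, ← Real.log_pow, Real.exp_log (by positivity)]
  have h2 : n ^ 20 * (Z - K + 1) ≤ Real.exp Z := by
    rw [← h1, show Real.exp Z = Real.exp K * Real.exp (Z - K) by rw [← Real.exp_add]; ring_nf]
    exact mul_le_mul_of_nonneg_left (Real.add_one_le_exp _) (Real.exp_pos _).le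
  have h3 : 40 * n ^ 8 ≤ n ^ 20 := by
    rw [show n ^ 20 = n ^ 12 * n ^ 8 by ring]
    gcongr
    exact le_trans (by linarith) (le_self_pow₀ (by linarith) (by norm_num))
  have h4 : 2 * (Z - K + 1) ≤ (20 * n ^ 8)⁻¹ * Real.exp Z := by
    rw [le_inv_mul_iff₀ (by positivity)]
    nlinarith [mul_le_mul_of_nonneg_right h3 (show 0 ≤ Z - K + 1 by linarith)]
  rw [← div_eq_mul_inv, div_le_div_iff₀ (by positivity) (by linarith)]
  nlinarith [mul_le_mul_of_nonneg_left h4 (show 0 ≤ K by linarith)]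

/-- the weight at low levels -/
theorem d6_th' {Ω Z u : ℝ} (hΩ : 1 ≤ Ω) (hZ : Z ≤ 1) (u0 : 0 ≤ u) (hu : u ≤ 1 + Ω) :
    (1 - (1 + (20 * Ω)⁻¹ * Real.exp Z)⁻¹) * u ≤ 1 := by
  have h1 : Real.exp Z ≤ 3 :=
    (Real.exp_le_exp.2 hZ).trans (Real.exp_one_lt_d9.le.trans (by norm_num))
  have h2 : 0 ≤ (20 * Ω)⁻¹ * Real.exp Z := by positivity
  have h3 : (20 * Ω)⁻¹ * Real.exp Z * u ≤ 1 := by
    rw [mul_assoc, inv_mul_le_iff₀ (by positivity)]
    nlinarith [mul_le_mul h1 hu u0 zero_le_three]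
  refine le_trans (mul_le_mul_of_nonneg_right ?_ u0) h3
  rw [sub_le_comm, ← one_div (1 + _), le_div_iff₀ (by positivity)]
  nlinarith [sq_nonneg ((20 * Ω)⁻¹ * Real.exp Z)]

/-- the abstract step -/
theorem d6_ag {Z U G : Pt → ℝ} {N : Set Pt} {η E P : ℝ} (hZ : Sm Z) (hη : 0 ≤ η) (hU : Continuous U)
    (hG : ContDiff ℝ 1 G) (hN : MeasurableSet N)
    (h : ∀ x, 4 ≤ (1 + η * Real.exp (Z x))⁻¹ * (lap Z x - gsq Z x) / 2 + (U x - E) -
      1 / 2 * gsq G x + N.indicator (fun _ => P) x) {v : Pt → ℝ} (hv : C1c v) :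
    4 * (∫ x, v x ^ 2) ≤ qV U v - E * (∫ x, v x ^ 2) - 1 / 2 * (∫ x, gsq G x * v x ^ 2) +
      P * ∫ x in N, v x ^ 2 := by
  have p : ∀ x, 1 + η * Real.exp (Z x) ≠ 0 := fun x => by positivity
  have hθ : Sm fun x => (1 + η * Real.exp (Z x))⁻¹ :=
    (contDiff_const.add (contDiff_const.mul hZ.exp)).inv p
  have j := jacobi (fun k => hθ.mul (hZ.pd k)) hv
  have e : ∀ x, ∑ k, (pd k (fun x => (1 + η * Real.exp (Z x))⁻¹ * pd k Z x) x -
      ((1 + η * Real.exp (Z x))⁻¹ * pd k Z x) ^ 2) =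
      (1 + η * Real.exp (Z x))⁻¹ * (lap Z x - gsq Z x) := fun x => by
    have d := fun k => d2_comp ((((Real.hasDerivAt_exp (Z x)).const_mul η).const_add 1).fun_inv
      (p x)) (hZ.da x) k
    have := p x
    simp only [d2_mul (hθ.da x) ((hZ.pd _).da x), d, lap, gsq, Fin.sum_univ_three]
    field_simp
    ring
  simp only [e] at j
  have i : ∀ {f : Pt → ℝ}, Continuous f → Integrable fun x => f x * v x ^ 2 := fun hf =>
    (hf.mul (hv.1.continuous.pow 2)).integrable_of_hasCompactSupport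
      (HasCompactSupport.mul_left (by simpa only [sq] using hv.2.mul_right))
  have i0 : Integrable fun x => v x ^ 2 := by simpa using i (f := fun _ => 1) continuous_const
  have i1 := i (hθ.mul (hZ.lap.sub hZ.gsq)).continuous
  have i2 : Integrable fun x => gsq G x * v x ^ 2 :=
    i (continuous_finsetSum Finset.univ fun k _ => (nw_cont_pd hG k).pow 2)
  have i3 := (i0.indicator hN).const_mul P
  have := integral_mono (i0.const_mul 4)
    (((((i1.const_mul (1 / 2)).add (i hU)).sub (i0.const_mul E)).sub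
      (i2.const_mul (1 / 2))).add i3) fun x => by
    have := mul_le_mul_of_nonneg_right (h x) (sq_nonneg (v x))
    simp only [Pi.add_apply, Pi.sub_apply]
    by_cases hx : x ∈ N
    · rw [Set.indicator_of_mem hx] at this ⊢
      linarith
    · rw [Set.indicator_of_notMem hx] at this ⊢
      linarith
  rw [integral_add' _ i3, integral_sub' _ (i2.const_mul _), integral_sub' _ (i0.const_mul _),
    integral_add' (i1.const_mul _) (i hU)] at this
  · simp only [integral_const_mul, integral_indicator hN] at this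
    rw [qV]
    linarith
  · exact (i1.const_mul _).add (i hU)
  · exact ((i1.const_mul _).add (i hU)).sub (i0.const_mul E)
  · exact (((i1.const_mul _).add (i hU)).sub (i0.const_mul E)).sub (i2.const_mul _)

end Vale.Agent.P363.D26
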