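import Vale.Agent.P363.D6a

/-! Pointwise facts on the action and the weight for part D6. -/

namespace Vale.Agent.P363.D26

open MeasureTheory Vale.Agent.P370 Filter Topology
open scoped ContDiff

variable {D : Des}

theorem d6_pdZ (h : D.OK) (x : Pt) (k : Fin 3) :
    pd k D.Zf x = (1 + D.c x) * x 2 * ek k 2 + 1 / 2 * (pd k D.c x * x 2 ^ 2) := by
  have hc : Sm D.c := h.smooth
  have e : D.Zf = fun y => 1 / 2 * ((1 + D.c y) * (y 2 * y 2)) := by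
    funext y
    rw [Des.Zf]
    ring
  rw [e, Sm.pd_cmul ((contDiff_const.add hc).mul ((sm_coord 2).mul (sm_coord 2))),
    Sm.pd_mul (contDiff_const.add hc) ((sm_coord 2).mul (sm_coord 2)),
    (sm_coord 2).pd_mul (sm_coord 2), Sm.pd_add contDiff_const hc, d2_pd_const, d2_pd_coord]
  ring

theorem d6_pdY (D : Des) (x : Pt) (k : Fin 3) :
    pd k D.Yf x = ![1, 1, 0] k * x k - pd k D.Wd2 x := by
  rw [D.Yf_eq2, (sm_qd _).pd_sub D.sm_Wd2, pd_qd]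

theorem d6_lapY (D : Des) (x : Pt) : lap D.Yf x = 2 - lap D.Wd2 x := by
  rw [D.Yf_eq2, (sm_qd _).lap_sub D.sm_Wd2, lap_qd]
  simp only [Matrix.cons_val_zero, Matrix.cons_val_one, Matrix.cons_val]
  ring

theorem d6_lapZ (h : D.OK) (hL : 0 < D.Ls) (x : Pt) :
    0 ≤ lap D.Zf x ∧ lap D.Zf x ≤ (1 + D.c x) * (1 + 12 * del) := by
  have h1 := (h.sm_Ed2 x).abs_lap x
  have h2 := h.Ed2_le hL x (j := 2) (by norm_num)
  have h3 := nrm_nonneg x
  have h4 := h.nonneg x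
  rw [show (2 * (D.Ls + nrm x)⁻¹) ^ 2 * (del * (1 + D.c x) * (D.Ls + nrm x) ^ 2) =
    4 * (del * (1 + D.c x)) by field_simp; ring] at h2
  rw [D.Zf_eq2 x, (sm_qd _).lap_add (h.sm_Ed2 x), lap_qd]
  rw [abs_le] at h1
  rw [del] at *
  simp only [Matrix.cons_val_zero, Matrix.cons_val_one, Matrix.cons_val]
  constructor <;> linarith [h1.1, h1.2]

theorem d6_e (h : D.OK) (hL : 0 < D.Ls) (x : Pt) (k : Fin 3) {t : ℝ} (ht : |t| ≤ nrm x) :
    |pd k D.c x * t| ≤ del * (1 + D.c x) := by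
  have h1 := h.pd_c2 x k
  have h3 := nrm_nonneg x
  rw [le_div_iff₀ (by linarith)] at h1
  rw [abs_mul]
  exact le_trans (mul_le_mul_of_nonneg_left (by linarith) (abs_nonneg _)) h1

theorem d6_gsqZ (h : D.OK) (hL : 0 < D.Ls) (x : Pt) :
    2 * (1 + D.c x) * D.Zf x * (1 - del) ≤ gsq D.Zf x ∧ gsq D.Zf x ≤ 4 * (1 + D.c x) * D.Zf x := by
  have h1 := fun k => abs_le.1 (d6_e h hL x k (abs_le_nrm x 2))
  have h4 := h.nonneg x
  simp only [gsq, d6_pdZ h, Fin.sum_univ_three, Des.Zf]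
  simp only [ek, Pi.single_eq_same, ne_eq, Fin.reduceEq, not_false_eq_true, Pi.single_eq_of_ne]
  have a0 := h1 0
  have a1 := h1 1
  have a2 := h1 2
  generalize pd 0 D.c x = p at *
  generalize pd 1 D.c x = q at *
  generalize pd 2 D.c x = s at *
  generalize 1 + D.c x = u at *
  generalize x 2 = z at *
  have hu : 0 ≤ del * u := by linarith [a0.1, a0.2]
  have e : (u * z * 0 + 1 / 2 * (p * z ^ 2)) ^ 2 + (u * z * 0 + 1 / 2 * (q * z ^ 2)) ^ 2 +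
      (u * z * 1 + 1 / 2 * (s * z ^ 2)) ^ 2 =
      z ^ 2 * ((p * z) ^ 2 / 4 + (q * z) ^ 2 / 4 + (u + s * z / 2) ^ 2) := by ring
  rw [e, show 2 * u * (1 / 2 * u * z ^ 2) * (1 - del) = z ^ 2 * (u ^ 2 * (1 - del)) by ring,
    show 4 * u * (1 / 2 * u * z ^ 2) = z ^ 2 * (2 * u ^ 2) by ring]
  have b0 := sq_le_sq' a0.1 a0.2
  have b1 := sq_le_sq' a1.1 a1.2
  have b2 := sq_le_sq' a2.1 a2.2
  rw [del] at *
  constructor <;> refine mul_le_mul_of_nonneg_left ?_ (sq_nonneg z) <;>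
    nlinarith [sq_nonneg (p * z), sq_nonneg (q * z), sq_nonneg (s * z), a2.1, a2.2]

theorem d6_X (h : D.OK) (hL : 0 < D.Ls) (x : Pt) :
    -(2 * del * D.Zf x) - ∑ k, pd k D.Zf x * pd k D.Wd2 x ≤ ∑ k, pd k D.Zf x * pd k D.Yf x := by
  have h0 := mul_le_mul_of_nonneg_right (abs_le.1 (d6_e h hL x 0 (abs_le_nrm x 0))).1
    (sq_nonneg (x 2))
  have h1 := mul_le_mul_of_nonneg_right (abs_le.1 (d6_e h hL x 1 (abs_le_nrm x 1))).1
    (sq_nonneg (x 2))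
  simp only [d6_pdY, Fin.sum_univ_three, mul_sub]
  rw [d6_pdZ h x 0, d6_pdZ h x 1, Des.Zf]
  simp [ek]
  linarith

/-- numbers -/
theorem d6_num (h1 : 4 * Lc ≤ D.n) (h2 : Num D (100 * CW)) : 2 * CW ≤ D.n ∧ 20 ≤ D.Kp ∧
    D.Kp ≤ 20 * D.n ∧ 8 + D.Kp / 20 + 2 * CW ≤ √D.n ∧ 3 * Lc < D.Ls ∧
    300 * (CW * (D.n + 1)) ≤ D.Om ∧ 2 * D.Kp ≤ D.Om ∧ CW * (D.n + 1) ≤ D.n ^ 2 := by
  obtain ⟨s1, s2, s3, -⟩ := d2_size h1
  have a1 := h2.lg
  have a2 := Real.log_le_sub_one_of_pos (show 0 < D.n by linarith)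
  have a3 := CW_ge
  have a4 : CW * (D.n + 1) ≤ D.n ^ 2 := by nlinarith
  have a5 : 300 * D.n ^ 2 ≤ D.n ^ 8 := by
    rw [show D.n ^ 8 = D.n ^ 6 * D.n ^ 2 by ring]
    gcongr
    exact le_trans (by nlinarith) (pow_le_pow_right₀ (by linarith) (show 2 ≤ 6 by norm_num))
  have a6 := Lc_pos
  have a7 : Real.log D.n ≤ 2 * Real.log √D.n := by
    rw [Real.log_sqrt (by linarith)]
    linarith
  have a8 : Real.log √D.n ≤ 2 * Real.log √√D.n := by
    rw [Real.log_sqrt (Real.sqrt_nonneg _)]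
    linarith
  have a9 : 0 < √√D.n := by positivity
  have a10 := Real.log_le_sub_one_of_pos a9
  have a11 := Real.mul_self_sqrt (Real.sqrt_nonneg D.n)
  rw [Des.Kp, Des.Ls, Des.Om]
  refine ⟨by linarith, by linarith, by linarith, ?_, by linarith, by linarith, by nlinarith, a4⟩
  nlinarith

theorem d6_reg (h : D.OK) (h1 : 4 * Lc ≤ D.n) (h2 : Num D (100 * CW)) (x : Pt) :
    ∑ k, pd k D.Zf x * pd k D.Wd2 x ≤ (1 + D.c x) / 100 * D.Zf x ∧
      -lap D.Wd2 x ≤ (1 + D.c x) / 100 ∧ -lap D.Wd2 x ≤ 3 * D.n ^ 2 ∧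
      (D.Zf x ≤ D.Kp → ∑ k, pd k D.Zf x * pd k D.Wd2 x = 0 ∧
        (x ∉ D.N → -lap D.Wd2 x ≤ 3 * CW ∧ D.Gam x = √D.n)) := by
  obtain ⟨s1, s2, s3, s4, s5, s6, s7, s8⟩ := d6_num h1 h2
  have hZ := h.Zf_nonneg x
  have hc := h.nonneg x
  have hW := CW_ge
  have l1 := (abs_le.1 (D.sm_Wd2.abs_lap x)).1
  rcases lt_or_ge (3 * Lc) (nrm x) with hx | hx
  · have e : ∑ k, pd k D.Zf x * pd k D.Wd2 x = 0 := Finset.sum_eq_zero fun k _ => by
      rw [abs_nonpos_iff.1 ((D.sm_Wd2.abs_pd k x).trans (D.Wd2_far hx 1).le), mul_zero]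
    rw [D.Wd2_far hx] at l1
    refine ⟨by rw [e]; positivity, by linarith, by nlinarith, fun _ => ⟨e, fun _ => ⟨by linarith,
      D.Gam_out ?_⟩⟩⟩
    rcases out_of_nrm hx with h | h | h
    exacts [.inl (by linarith), .inr (.inl (by linarith)), .inr (.inr (by linarith))]
  have hn : 0 ≤ D.n := by linarith
  have l2 := D.Wd2_le hn (j := 2) (by norm_num) x
  have c1 := h.core x (by linarith)
  have e : ∑ k, pd k D.Zf x * pd k D.Wd2 x = (1 + D.c x) * x 2 * pd 2 D.Wd2 x := by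
    simp [d6_pdZ h, h.pd_c2_core (hx.trans_lt s5), Fin.sum_univ_three, ek]
  refine ⟨?_, by linarith, by linarith, fun hK => ⟨?_, fun hN => ?_⟩⟩
  · rw [e]
    rcases lt_or_ge |x 2| 1 with hz | hz
    · rw [D.Wd2_z hz, mul_zero]
      positivity
    have l3 := (D.sm_Wd2.abs_pd 2 x).trans (D.Wd2_le hn (by norm_num) x)
    have l4 : |x 2| ≤ x 2 ^ 2 := by rw [← sq_abs]; nlinarith
    rw [Des.Zf, mul_assoc, show (1 + D.c x) / 100 * (1 / 2 * (1 + D.c x) * x 2 ^ 2) =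
      (1 + D.c x) * (x 2 ^ 2 * ((1 + D.c x) / 200)) by ring]
    refine mul_le_mul_of_nonneg_left ((le_abs_self _).trans ?_) (by linarith)
    rw [abs_mul]
    exact mul_le_mul l4 (by linarith) (abs_nonneg _) (sq_nonneg _)
  · rw [e, D.Wd2_z, mul_zero]
    rw [Des.Zf, c1] at hK
    rw [← sq_lt_one_iff_abs_lt_one]
    nlinarith [sq_nonneg (x 2)]
  · have hs : 2 * Lc < |pc x| ∨ 2 * Lc < |qc x| := by
      by_contra! h'
      rw [Des.Zf, c1] at hK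
      exact hN ⟨h'.1, h'.2, by linarith⟩
    exact ⟨by linarith [D.Wd2_side hs (j := 2) (by norm_num)],
      D.Gam_out (hs.elim (fun h => .inl h.le) fun h => .inr (.inl h.le))⟩

theorem d6_m {K Z : ℝ} (hK : 0 < K) : 0 ≤ K / max Z K ∧ K / max Z K ≤ 1 := by
  constructor <;> linarith [(gK_int_mem hK Z).1, (gK_int_mem hK Z).2]

/-- the main pointwise inequality -/
theorem d6_W (h : D.OK) (h1 : 4 * Lc ≤ D.n) (h2 : Num D (100 * CW)) (hP : 5 * D.n ^ 2 ≤ D.P)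
    (x : Pt) : 6 ≤ (1 + (20 * D.Om)⁻¹ * Real.exp (D.Zf x))⁻¹ * (lap D.Zf x - gsq D.Zf x) / 2 +
      D.Vref x + D.Gam x -
      1 / 2 * ∑ k, ((1 - D.Kp / max (D.Zf x) D.Kp) * pd k D.Zf x + pd k D.Yf x) ^ 2 +
      D.N.indicator (fun _ => D.P) x := by
  obtain ⟨s1, s2, s3, s4, s5, s6, s7, s8⟩ := d6_num h1 h2
  obtain ⟨t1, t2, -⟩ := d2_size h1
  obtain ⟨r1, r2, r3, r4⟩ := d6_reg h h1 h2 x
  have hL : 0 < D.Ls := by linarith [Lc_pos]
  have hZ := h.Zf_nonneg x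
  have hc := h.nonneg x
  have hΩ : 1 ≤ D.Om := by linarith
  have hX := d6_X h hL x
  have hS : D.S = fun y => D.Zf y + D.Yf y + 7 * D.n := rfl
  have e1 : ∀ k, pd k D.S x = pd k D.Zf x + pd k D.Yf x := fun k => by
    rw [hS, Sm.pd_add (h.sm_Zf.add D.sm_Yf) contDiff_const, h.sm_Zf.pd_add D.sm_Yf, d2_pd_const]
    simp
  have e2 : lap D.S x = lap D.Zf x + lap D.Yf x := by
    rw [hS, Sm.lap_add (h.sm_Zf.add D.sm_Yf) contDiff_const, h.sm_Zf.lap_add D.sm_Yf, d2_lap_const]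
    simp
  have θ0 : 0 ≤ (1 + (20 * D.Om)⁻¹ * Real.exp (D.Zf x))⁻¹ := by positivity
  have θ1 : (1 + (20 * D.Om)⁻¹ * Real.exp (D.Zf x))⁻¹ ≤ 1 :=
    inv_le_one_of_one_le₀ (le_add_of_nonneg_right (by positivity))
  have hΓ := (D.Gam_mem2 x).1
  have hI : 0 ≤ D.N.indicator (fun _ => D.P) x :=
    Set.indicator_nonneg (fun _ _ => by nlinarith) x
  rw [Des.Vref, e2, show gsq D.S x = ∑ k, (pd k D.Zf x + pd k D.Yf x) ^ 2 by simp only [gsq, e1]]
  rcases le_total D.Kp (D.Zf x) with hK | hK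
  · have := d6_hi (by linarith : 1 ≤ 1 + D.c x) s2 (div_mul_cancel₀ D.Kp (by linarith))
      (by positivity) ((div_le_one (by linarith)).2 hK) θ0 (d6_th t1 rfl (by linarith) hK)
      (d6_gsqZ h hL x).1 (by rw [gsq]; positivity) (le_trans (by linarith) hX) (d6_lapZ h hL x).2
      (d6_lapZ h hL x).1 (LY := lap D.Yf x) (by rw [d6_lapY]; linarith) hΓ
    rw [max_eq_left hK]
    simp only [gsq, Fin.sum_univ_three] at this ⊢
    linarith
  · obtain ⟨r5, r6⟩ := r4 hK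
    rw [r5, sub_zero] at hX
    have := d6_lo (by linarith : 1 ≤ 1 + D.c x) hK hZ θ1
      (fun hz => d6_th' hΩ hz (by linarith) (by linarith [h.le x])) (d6_gsqZ h hL x).1 hX
      (d6_lapZ h hL x).2
    rw [max_eq_right hK, div_self (by linarith), d6_lapY]
    simp only [gsq, Fin.sum_univ_three] at this ⊢
    by_cases hN : x ∈ D.N
    · rw [Set.indicator_of_mem hN]
      nlinarith
    · obtain ⟨r7, r8⟩ := r6 hN
      linarith [CW_ge]

end Vale.Agent.P363.D26
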