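import Vale.Agent.P363.D7C

/-!
Part D7: bounds for the profile.  `exp (A0 s) ≤ 3 n ^ 13` (`s ≥ t0`, `s ≥ 1 / n`), `|A1 s| ≤ n ^ 4`,
`(|x| + ell) / s ≤ n ^ 2` in the box, `0 ≤ t1 ≤ 1`, `hk_bd`; apply a common lemma with
`e_0 = e_1 = 1` (`Em_le_one`) and with `e_i = Em (x i) s` (`Em_neg_le`, `Real.exp_add`).
-/

namespace Vale.Agent.P363.D7

open Vale.Agent.P370
open scoped Topology ContDiff

variable {D : Des} {t t1 t2 : ℝ → ℝ} {χ : Pt → ℝ}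

theorem d7b_A0 (hb : Big D) {s : ℝ} (hs : t0 D ≤ s) : Real.exp (A0 D s) ≤ 3 * D.n ^ 13 := by
  have hn := hb.pos
  have h1 : 1 / D.n ≤ s := hb.t0_ge.trans hs
  have h2 : 0 < s := (one_div_pos.2 hn).trans_le h1
  have h3 : -Real.log D.n ≤ Real.log s := by
    rw [← Real.log_inv, ← one_div]
    exact Real.log_le_log (one_div_pos.2 hn) h1
  have h4 : Real.exp (-(D.n ^ 4 / 2 * (s - t0 D))) ≤ 1 :=
    Real.exp_le_one_iff.2 (neg_nonpos.2 (mul_nonneg (by positivity) (sub_nonneg.2 hs)))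
  have h5 : 0 ≤ 8 * √D.n * s := by positivity
  have h6 : A0 D s ≤ 1 + (13 : ℕ) * Real.log D.n := by
    unfold A0
    push_cast
    linarith
  refine (Real.exp_le_exp.2 h6).trans ?_
  rw [Real.exp_add, Real.exp_nat_mul, Real.exp_log hn]
  exact mul_le_mul_of_nonneg_right (Real.exp_one_lt_d9.le.trans (by norm_num)) (by positivity)

theorem d7b_A1 (hb : Big D) {s : ℝ} (hs : t0 D ≤ s) : |A1 D s| ≤ D.n ^ 4 := by
  have hn := hb.pos
  have hn' : 100 ≤ D.n := le_trans (by norm_num) hb.n_ge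
  have h1 : 1 / D.n ≤ s := hb.t0_ge.trans hs
  have h2 : 0 < s := (one_div_pos.2 hn).trans_le h1
  have h3 : 13 / s ≤ 13 * D.n := by
    rw [div_le_iff₀ h2]
    rw [div_le_iff₀ hn] at h1
    linarith
  have h4 : Real.exp (-(D.n ^ 4 / 2 * (s - t0 D))) ≤ 1 :=
    Real.exp_le_one_iff.2 (neg_nonpos.2 (mul_nonneg (by positivity) (sub_nonneg.2 hs)))
  have h5 : √D.n ≤ D.n := Real.sqrt_le_iff.2 ⟨hn.le, by nlinarith⟩
  have h6 : D.n ^ 4 / 2 * Real.exp (-(D.n ^ 4 / 2 * (s - t0 D))) ≤ D.n ^ 4 / 2 :=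
    mul_le_of_le_one_right (by positivity) h4
  have h7 : 0 ≤ D.n ^ 4 / 2 * Real.exp (-(D.n ^ 4 / 2 * (s - t0 D))) := by positivity
  have h8 : 0 ≤ 13 / s := by positivity
  have h9 : 0 ≤ √D.n := Real.sqrt_nonneg _
  have h10 : 100 * D.n ≤ D.n ^ 4 :=
    calc 100 * D.n ≤ D.n ^ 2 := by nlinarith
      _ ≤ D.n ^ 4 := pow_le_pow_right₀ hb.one_le (by norm_num)
  unfold A1
  rw [abs_le]
  constructor <;> linarith

theorem d7b_hk (hb : Big D) {s y e : ℝ} (hs : t0 D ≤ s) (hy : |y| ≤ D.n / 4 + 1)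
    (h1 : Em y s ≤ e) (h2 : Em (-y) s ≤ e) :
    |hk y s| ≤ e ∧ |hkx y s| ≤ 2 * D.n ^ 2 * e ∧ |hkt y s| ≤ D.n ^ 4 * e := by
  have hn := hb.pos
  have hn' : 10 ^ 17 ≤ D.n := le_trans (by norm_num) hb.n_ge
  have h3 : 1 / D.n ≤ s := hb.t0_ge.trans hs
  have h4 : 0 < s := (one_div_pos.2 hn).trans_le h3
  have h5 : ell ≤ 10 ^ 16 := ell_le
  have h6 : (|y| + ell) / s ≤ D.n ^ 2 := by
    rw [div_le_iff₀ h4]
    rw [div_le_iff₀ hn] at h3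
    have h7 : |y| + ell ≤ D.n := by linarith
    nlinarith
  have h7 : 0 ≤ (|y| + ell) / s := div_nonneg (add_nonneg (abs_nonneg _) ell_pos.le) h4.le
  have h8 : 0 ≤ e := (Em_pos _ _).le.trans h1
  obtain ⟨a, b, c⟩ := hk_bd h4 h1 h2
  refine ⟨a, b.trans (mul_le_mul_of_nonneg_right (by linarith) h8),
    c.trans (mul_le_mul_of_nonneg_right ?_ h8)⟩
  calc ((|y| + ell) / s) ^ 2 ≤ (D.n ^ 2) ^ 2 := pow_le_pow_left₀ h7 h6 2
    _ = D.n ^ 4 := by ring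

theorem d7b_mul {a b c d : ℝ} (h1 : |a| ≤ c) (h2 : |b| ≤ d) : |a * b| ≤ c * d := by
  rw [abs_mul]
  exact mul_le_mul h1 h2 (abs_nonneg _) ((abs_nonneg _).trans h1)

theorem d7b_main (h : TOK D t t1 t2) (hb : Big D) {x : Pt} (hx : x ∈ Bx D) {e0 e1 : ℝ}
    (h1 : Em (x 0) (t (x 2)) ≤ e0) (h2 : Em (-x 0) (t (x 2)) ≤ e0)
    (h3 : Em (x 1) (t (x 2)) ≤ e1) (h4 : Em (-x 1) (t (x 2)) ≤ e1) :
    |ww D t x| ≤ D.n ^ 20 * (e0 * e1) ∧ ∀ k, |pd k (ww D t) x| ≤ D.n ^ 20 * (e0 * e1) := by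
  have hn := hb.pos
  have hn1 := hb.one_le
  have hn' : 100 ≤ D.n := le_trans (by norm_num) hb.n_ge
  have hs := h.lo (x 2)
  obtain ⟨a0, b0, c0⟩ := d7b_hk hb hs hx.1 h1 h2
  obtain ⟨a1, b1, c1⟩ := d7b_hk hb hs hx.2.1 h3 h4
  have hA : |Real.exp (A0 D (t (x 2)))| ≤ 3 * D.n ^ 13 := by
    rw [abs_of_pos (Real.exp_pos _)]
    exact d7b_A0 hb hs
  have he : 0 ≤ e0 * e1 := mul_nonneg ((Em_pos _ _).le.trans h1) ((Em_pos _ _).le.trans h3)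
  have key : ∀ m : ℕ, m ≤ 19 → 9 * D.n ^ m * (e0 * e1) ≤ D.n ^ 20 * (e0 * e1) := fun m hm => by
    refine mul_le_mul_of_nonneg_right ?_ he
    calc 9 * D.n ^ m ≤ D.n * D.n ^ 19 :=
          mul_le_mul (by linarith) (pow_le_pow_right₀ hn1 hm) (by positivity) hn.le
      _ = D.n ^ 20 := by ring
  have hp : ∀ m : ℕ, 0 ≤ D.n ^ m * (e0 * e1) := fun m => mul_nonneg (by positivity) he
  obtain ⟨p0, p1, p2⟩ := pd_ww h hb x
  have q0 : |pd 0 (ww D t) x| ≤ D.n ^ 20 * (e0 * e1) := by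
    rw [p0]
    refine (d7b_mul hA (d7b_mul b0 a1)).trans ?_
    linarith [key 15 (by norm_num), hp 15]
  have q1 : |pd 1 (ww D t) x| ≤ D.n ^ 20 * (e0 * e1) := by
    rw [p1]
    refine (d7b_mul hA (d7b_mul a0 b1)).trans ?_
    linarith [key 15 (by norm_num), hp 15]
  have q2 : |pd 2 (ww D t) x| ≤ D.n ^ 20 * (e0 * e1) := by
    rw [p2, W1]
    have ht := h.t1b (x 2) hx.2.2.1
    have ht1 : |t1 (x 2)| ≤ 1 := by
      rw [abs_of_nonneg ht.1]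
      exact ht.2.trans ((div_le_one (by positivity)).2 (one_le_pow₀ hn1))
    refine (d7b_mul ht1 (d7b_mul hA ((abs_add_le _ _).trans (add_le_add
      (d7b_mul (d7b_A1 hb hs) (d7b_mul a0 a1))
      ((abs_add_le _ _).trans (add_le_add (d7b_mul c0 a1) (d7b_mul a0 c1))))))).trans ?_
    linarith [key 17 (by norm_num)]
  refine ⟨?_, fun k => ?_⟩
  · unfold ww W0
    refine (d7b_mul hA (d7b_mul a0 a1)).trans ?_
    linarith [key 13 (by norm_num), hp 13]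
  · fin_cases k
    · exact q0
    · exact q1
    · exact q2

theorem ww_zero (D : Des) (t : ℝ → ℝ) {x : Pt} (hx : x 0 = 0 ∨ x 1 = 0) : ww D t x = 0 := by
  unfold ww W0
  rcases hx with hx | hx <;> rw [hx, hk_zero] <;> simp

theorem ww_pos (h : TOK D t t1 t2) (hb : Big D) {x : Pt} (hQ : x ∈ Qd) : 0 < ww D t x := by
  unfold ww W0
  exact mul_pos (Real.exp_pos _) (mul_pos (hk_pos (h.pos hb _) hQ.1) (hk_pos (h.pos hb _) hQ.2))

theorem ww_bd (h : TOK D t t1 t2) (hb : Big D) {x : Pt} (hx : x ∈ Bx D) :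
    |ww D t x| ≤ D.n ^ 20 ∧ ∀ k, |pd k (ww D t) x| ≤ D.n ^ 20 := by
  have hs := h.pos hb (x 2)
  simpa using d7b_main h hb hx (Em_le_one hs _) (Em_le_one hs _) (Em_le_one hs _) (Em_le_one hs _)

theorem ww_bdQ (h : TOK D t t1 t2) (hb : Big D) {x : Pt} (hx : x ∈ Bx D) (hQ : x ∈ Qd) :
    |ww D t x| ≤ D.n ^ 20 * Real.exp (-(Dq x / (2 * t (x 2)))) ∧
      ∀ k, |pd k (ww D t) x| ≤ D.n ^ 20 * Real.exp (-(Dq x / (2 * t (x 2)))) := by
  have hs := h.pos hb (x 2)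
  have h1 : Real.exp (-(Dq x / (2 * t (x 2)))) = Em (x 0) (t (x 2)) * Em (x 1) (t (x 2)) := by
    rw [Em, Em, ← Real.exp_add, Dq, add_div, neg_add]
  rw [h1]
  exact d7b_main h hb hx le_rfl (Em_neg_le hs hQ.1.le) le_rfl (Em_neg_le hs hQ.2.le)

end Vale.Agent.P363.D7
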