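import Vale.Agent.P363.D7K

/-!
Part D7: calculus.  `hp_line` reduces directional derivatives to one variable
(`hasDerivAt_update`, `HasFDerivAt.comp_hasDerivAt`, `HasDerivAt.unique`).  The formulas for `pd k ww` hold
everywhere, so `pd k (ww D t)` can be rewritten by `funext` before the second derivative is taken;
differentiability of `pd k ww` comes from `nw_contDiff_pd` and `cd_ww` (`unfold`, `fun_prop (disch := ..)`
or `ContDiff.div`, `ContDiff.log`).  `HP.mul`, `HP.comp`, `hp_of` are in `P370/GS.lean`.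
-/

namespace Vale.Agent.P363.D7

open Vale.Agent.P370
open scoped Topology ContDiff

variable {D : Des} {t t1 t2 : ℝ → ℝ} {χ : Pt → ℝ}

theorem hp_line {f : Pt → ℝ} {x : Pt} {k : Fin 3} {a : ℝ} (hf : DifferentiableAt ℝ f x)
    (h : HasDerivAt (fun s => f (Function.update x k s)) a (x k)) : pd k f x = a := by
  have h1 : HasDerivAt (Function.update x k) (Pi.single k (1 : ℝ)) (x k) :=
    hasDerivAt_update x k (x k)
  have h2 : HasFDerivAt f (fderiv ℝ f x) (Function.update x k (x k)) := by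
    rw [Function.update_eq_self]
    exact hf.hasFDerivAt
  exact (h2.comp_hasDerivAt (x k) h1).unique h

theorem d7c_diff {u : Pt → ℝ} (hu : ContDiff ℝ 2 u) (x : Pt) : DifferentiableAt ℝ u x :=
  hu.differentiable two_ne_zero x

theorem d7c_diff_pd {u : Pt → ℝ} (hu : ContDiff ℝ 2 u) (k : Fin 3) (x : Pt) :
    DifferentiableAt ℝ (pd k u) x := by
  have h : ContDiff ℝ 1 (pd k u) :=
    (hu.fderiv_right (m := 1) (le_of_eq one_add_one_eq_two)).clm_apply contDiff_const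
  exact h.differentiable one_ne_zero x

theorem d7c_add {k : Fin 3} {f g : Pt → ℝ} {a b : ℝ} {x : Pt} (hf : HP k f a x)
    (hg : HP k g b x) : HP k (fun y => f y + g y) (a + b) x := by
  refine ⟨hf.1.add hg.1, ?_⟩
  rw [← hf.2, ← hg.2]
  unfold pd
  rw [fderiv_fun_add hf.1 hg.1]
  simp

theorem pd_mul {u v : Pt → ℝ} (hu : ContDiff ℝ 2 u) (hv : ContDiff ℝ 2 v) (k : Fin 3) (x : Pt) :
    pd k (fun y => u y * v y) x = u x * pd k v x + v x * pd k u x :=
  ((hp_of (d7c_diff hu x) k).mul (hp_of (d7c_diff hv x) k)).2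

theorem lap_mul {u v : Pt → ℝ} (hu : ContDiff ℝ 2 u) (hv : ContDiff ℝ 2 v) (x : Pt) :
    lap (fun y => u y * v y) x =
      u x * lap v x + 2 * (∑ k, pd k u x * pd k v x) + v x * lap u x := by
  unfold lap
  rw [Finset.mul_sum, Finset.mul_sum, Finset.mul_sum, ← Finset.sum_add_distrib,
    ← Finset.sum_add_distrib]
  refine Finset.sum_congr rfl fun k _ => ?_
  rw [show pd k (fun y => u y * v y) = fun y => u y * pd k v y + v y * pd k u y from
    funext (pd_mul hu hv k),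
    (d7c_add ((hp_of (d7c_diff hu x) k).mul (hp_of (d7c_diff_pd hv k x) k))
      ((hp_of (d7c_diff hv x) k).mul (hp_of (d7c_diff_pd hu k x) k))).2]
  ring

theorem d7c_exp {S : Pt → ℝ} (hS : ContDiff ℝ 2 S) (k : Fin 3) (x : Pt) :
    HP k (fun y => Real.exp (-S y)) (-(Real.exp (-S x) * pd k S x)) x := by
  have h := (hp_of (d7c_diff hS x) k).comp (P := fun s => Real.exp (-s))
    (hasDerivAt_neg (S x)).exp
  refine ⟨h.1, h.2.trans ?_⟩
  ring

theorem pd_exp {S : Pt → ℝ} (hS : ContDiff ℝ 2 S) (k : Fin 3) (x : Pt) :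
    pd k (fun y => Real.exp (-S y)) x = -(Real.exp (-S x) * pd k S x) := (d7c_exp hS k x).2

theorem lap_exp {S : Pt → ℝ} (hS : ContDiff ℝ 2 S) (x : Pt) :
    lap (fun y => Real.exp (-S y)) x = Real.exp (-S x) * (gsq S x - lap S x) := by
  unfold lap gsq
  rw [← Finset.sum_sub_distrib, Finset.mul_sum]
  refine Finset.sum_congr rfl fun k _ => ?_
  rw [show pd k (fun y => Real.exp (-S y)) = fun y => -(Real.exp (-S y) * pd k S y) from
    funext (pd_exp hS k),
    (((d7c_exp hS k x).mul (hp_of (d7c_diff_pd hS k x) k)).comp (P := fun s => -s)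
      (hasDerivAt_neg _)).2]
  ring

theorem d7c_Em {f g : Pt → ℝ} (hf : ContDiff ℝ 2 f) (hg : ContDiff ℝ 2 g) (h0 : ∀ x, g x ≠ 0) :
    ContDiff ℝ 2 fun x => Em (f x) (g x) :=
  (((hf.sub contDiff_const).pow 2).div (contDiff_const.mul hg)
    fun x => mul_ne_zero two_ne_zero (h0 x)).neg.exp

theorem d7c_hk {f g : Pt → ℝ} (hf : ContDiff ℝ 2 f) (hg : ContDiff ℝ 2 g) (h0 : ∀ x, g x ≠ 0) :
    ContDiff ℝ 2 fun x => hk (f x) (g x) :=
  (d7c_Em hf hg h0).sub (d7c_Em hf.neg hg h0)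

theorem cd_ww (h : TOK D t t1 t2) (hb : Big D) : ContDiff ℝ 2 (ww D t) := by
  have hg : ContDiff ℝ 2 fun x : Pt => t (x 2) := h.ct.comp (contDiff_apply ℝ ℝ 2)
  have h0 : ∀ x : Pt, t (x 2) ≠ 0 := fun x => (h.pos hb _).ne'
  have hA : ContDiff ℝ 2 fun x : Pt => A0 D (t (x 2)) :=
    ((contDiff_const.mul (hg.sub contDiff_const)).neg.exp.sub
      (contDiff_const.mul (hg.log h0))).sub (contDiff_const.mul hg)
  exact hA.exp.mul ((d7c_hk (contDiff_apply ℝ ℝ 0) hg h0).mul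
    (d7c_hk (contDiff_apply ℝ ℝ 1) hg h0))

theorem d7c_u01 (x : Pt) (s : ℝ) : Function.update x 0 s 1 = x 1 :=
  Function.update_of_ne (by decide) _ _
theorem d7c_u02 (x : Pt) (s : ℝ) : Function.update x 0 s 2 = x 2 :=
  Function.update_of_ne (by decide) _ _
theorem d7c_u10 (x : Pt) (s : ℝ) : Function.update x 1 s 0 = x 0 :=
  Function.update_of_ne (by decide) _ _
theorem d7c_u12 (x : Pt) (s : ℝ) : Function.update x 1 s 2 = x 2 :=
  Function.update_of_ne (by decide) _ _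
theorem d7c_u20 (x : Pt) (s : ℝ) : Function.update x 2 s 0 = x 0 :=
  Function.update_of_ne (by decide) _ _
theorem d7c_u21 (x : Pt) (s : ℝ) : Function.update x 2 s 1 = x 1 :=
  Function.update_of_ne (by decide) _ _

theorem pd_ww (h : TOK D t t1 t2) (hb : Big D) (x : Pt) :
    pd 0 (ww D t) x = Real.exp (A0 D (t (x 2))) * (hkx (x 0) (t (x 2)) * hk (x 1) (t (x 2))) ∧
    pd 1 (ww D t) x = Real.exp (A0 D (t (x 2))) * (hk (x 0) (t (x 2)) * hkx (x 1) (t (x 2))) ∧
    pd 2 (ww D t) x = t1 (x 2) * W1 D (x 0) (x 1) (t (x 2)) := by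
  have hd := d7c_diff (cd_ww h hb) x
  have h0 : t (x 2) ≠ 0 := (h.pos hb _).ne'
  refine ⟨hp_line hd ?_, hp_line hd ?_, hp_line hd ?_⟩
  · simp only [ww, W0, Function.update_self, d7c_u01, d7c_u02]
    exact ((hk_dx h0 (x 0)).mul_const _).const_mul _
  · simp only [ww, W0, Function.update_self, d7c_u10, d7c_u12]
    exact ((hk_dx h0 (x 1)).const_mul _).const_mul _
  · simp only [ww, Function.update_self, d7c_u20, d7c_u21]
    rw [mul_comm]
    exact (W0_ds D h0 (x 0) (x 1)).comp (x 2) (h.dt (x 2))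

theorem lap_ww (h : TOK D t t1 t2) (hb : Big D) (x : Pt) :
    lap (ww D t) x = Real.exp (A0 D (t (x 2))) *
      ((2 * hkt (x 0) (t (x 2)) - hk (x 0) (t (x 2)) / t (x 2)) * hk (x 1) (t (x 2)) +
        hk (x 0) (t (x 2)) * (2 * hkt (x 1) (t (x 2)) - hk (x 1) (t (x 2)) / t (x 2))) +
      (t2 (x 2) * W1 D (x 0) (x 1) (t (x 2)) + t1 (x 2) ^ 2 * W2 D (x 0) (x 1) (t (x 2))) := by
  have hd := fun k => d7c_diff_pd (cd_ww h hb) k x
  have h0 : t (x 2) ≠ 0 := (h.pos hb _).ne'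
  have e0 : pd 0 (pd 0 (ww D t)) x = Real.exp (A0 D (t (x 2))) *
      ((2 * hkt (x 0) (t (x 2)) - hk (x 0) (t (x 2)) / t (x 2)) * hk (x 1) (t (x 2))) := by
    refine hp_line (hd 0) ?_
    simp only [(pd_ww h hb _).1, Function.update_self, d7c_u01, d7c_u02]
    exact ((hkx_dx h0 (x 0)).mul_const _).const_mul _
  have e1 : pd 1 (pd 1 (ww D t)) x = Real.exp (A0 D (t (x 2))) *
      (hk (x 0) (t (x 2)) * (2 * hkt (x 1) (t (x 2)) - hk (x 1) (t (x 2)) / t (x 2))) := by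
    refine hp_line (hd 1) ?_
    simp only [(pd_ww h hb _).2.1, Function.update_self, d7c_u10, d7c_u12]
    exact ((hkx_dx h0 (x 1)).const_mul _).const_mul _
  have e2 : pd 2 (pd 2 (ww D t)) x = t2 (x 2) * W1 D (x 0) (x 1) (t (x 2)) +
      t1 (x 2) * (W2 D (x 0) (x 1) (t (x 2)) * t1 (x 2)) := by
    refine hp_line (hd 2) ?_
    simp only [(pd_ww h hb _).2.2, Function.update_self, d7c_u20, d7c_u21]
    exact (h.dt1 (x 2)).mul ((W1_ds D h0 (x 0) (x 1)).comp (x 2) (h.dt (x 2)))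
  unfold lap
  rw [Fin.sum_univ_three, e0, e1, e2]
  ring

end Vale.Agent.P363.D7
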