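import Vale.Agent.P363.D7Def

/-!
Part D7: size conditions and the vertical drift.
-/

namespace Vale.Agent.P363.D7

open Vale.Agent.P370
open scoped Topology ContDiff

variable {D : Des} {t t1 t2 : ℝ → ℝ} {χ : Pt → ℝ}

theorem big_ev : Ev Big := by
  have hl : Ev fun D => Real.log D.n ≤ 1 / 40 * D.n ^ (1 : ℝ) := fun _ => by
    obtain ⟨n₀, h⟩ := desg_log (by norm_num : (0 : ℝ) < 1 / 40) one_pos
    exact ⟨n₀, fun D h1 _ _ => h _ h1⟩
  refine (((ev_ge (10 ^ 80)).and ev_Ls).and ((ev_poly' 1 50).and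
    ((ev_P 1 (by norm_num : (0 : ℝ) < 1 / 2)).and
    ((ev_log (by norm_num : (0 : ℝ) < 1 / 200) (by norm_num : (0 : ℝ) < 1 / 4)).and hl)))).mono
    fun D _ ⟨⟨h1, _, h2, _⟩, ⟨h3, _⟩, h4, h5, h6⟩ => ?_
  have h7 : D.n ^ 3 ≤ D.Lg := h2
  have h8 : (1 : ℝ) ≤ D.n := le_trans (by norm_num) h1
  rw [Real.rpow_one] at h6
  refine ⟨h1, ?_, rfl, h7, by rwa [one_mul] at h3, ?_, by linarith only [h6], h5, ?_⟩
  · unfold Des.R
    linarith
  · rw [pow_one] at h4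
    rwa [show D.n / 2 = 1 / 2 * D.n by ring]
  · have e1 : D.n ^ (1 / 2 : ℝ) ≤ D.n ^ (3 / 4 : ℝ) :=
      Real.rpow_le_rpow_of_exponent_le h8 (by norm_num)
    refine le_trans ?_ e1
    rw [← Real.sqrt_eq_rpow]
    exact Real.le_sqrt_of_sq_le (by rw [← pow_mul]; exact h1)

theorem ch_ax (h : D.OK) (z : ℝ) : D.c ![0, 0, z] = D.ch z ∧ nrm ![0, 0, z] = |z| := by
  constructor
  · exact h.tube ![0, 0, z] (by simpa using sq_nonneg (D.Ls / 2))
  · rw [nrm, Fin.sum_univ_three, ← Real.sqrt_sq_eq_abs]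
    simp

theorem ch_core (h : D.OK) {z : ℝ} (hz : |z| ≤ D.n ^ 3) : D.ch z = D.n ^ 8 := by
  obtain ⟨h1, h2⟩ := ch_ax h z
  rw [← h1]
  exact h.core _ (h2.trans_le hz)

theorem ch_far (h : D.OK) {z : ℝ} (hz : D.Lg ≤ |z|) : D.ch z = 0 := by
  obtain ⟨h1, h2⟩ := ch_ax h z
  rw [← h1]
  exact h.out _ (hz.trans_eq h2.symm)

theorem ch_mem (h : D.OK) (hb : Big D) (z : ℝ) : 0 ≤ D.ch z ∧ D.ch z ≤ D.n ^ 8 :=
  let ⟨h1, h2, _⟩ := Slow.ch1 h (pow_pos hb.pos 3) z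
  ⟨h1, h2⟩

theorem cd_ch (h : D.OK) : ContDiff ℝ ∞ D.ch := h.smooth'

theorem cd_ch1 (h : D.OK) : ContDiff ℝ ∞ (deriv D.ch) := (contDiff_infty_iff_deriv.1 (cd_ch h)).2

theorem cd_Ph (h : D.OK) : ContDiff ℝ ∞ (Ph D) :=
  ((contDiff_const.add (cd_ch h)).mul contDiff_id).add
    (((cd_ch1 h).mul (contDiff_id.pow 2)).div_const 2)

theorem Ph_prim (h : D.OK) (z : ℝ) :
    HasDerivAt (fun z => 1 / 2 * (1 + D.ch z) * z ^ 2) (Ph D z) z := by
  have h1 := ((cd_ch h).differentiable (by simp) z).hasDerivAt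
  refine (((h1.const_add 1).const_mul (1 / 2)).mul (hasDerivAt_pow 2 z)).congr_deriv ?_
  simp only [Ph]
  push_cast
  ring

theorem Ph_deriv (h : D.OK) (z : ℝ) : HasDerivAt (Ph D) (Ph1 D z) z := by
  have h1 := ((cd_ch h).differentiable (by simp) z).hasDerivAt
  have h2 := ((cd_ch1 h).differentiable (by simp) z).hasDerivAt
  refine (((h1.const_add 1).mul (hasDerivAt_id z)).add
    ((h2.mul (hasDerivAt_pow 2 z)).div_const 2)).congr_deriv ?_
  simp only [Ph1, id]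
  push_cast
  ring

theorem ch_der (h : D.OK) (hb : Big D) (z : ℝ) :
    |deriv D.ch z * z| ≤ (1 + D.ch z) / 1000 ∧
      |deriv (deriv D.ch) z * z ^ 2| ≤ (1 + D.ch z) / 1000 := by
  have hL : 0 < D.Ls := pow_pos hb.pos 3
  obtain ⟨h1, -, h2, h3⟩ := Slow.ch1 h hL z
  have hz := abs_nonneg z
  have h4 : 0 < D.Ls + |z| := by linarith
  have h5 : 0 ≤ del * (1 + D.ch z) := by unfold del; positivity
  have h6 : del * (1 + D.ch z) ≤ (1 + D.ch z) / 1000 := by unfold del; linarith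
  rw [le_div_iff₀ h4] at h2
  rw [le_div_iff₀ (pow_pos h4 2)] at h3
  constructor
  · rw [abs_mul]
    exact (mul_le_mul_of_nonneg_left (by linarith) (abs_nonneg _)).trans (h2.trans h6)
  · rw [abs_mul, abs_pow]
    exact (mul_le_mul_of_nonneg_left (pow_le_pow_left₀ hz (by linarith) 2)
      (abs_nonneg _)).trans (h3.trans h6)

theorem Ph_mem (h : D.OK) (hb : Big D) {z : ℝ} (hz : 0 ≤ z) :
    99 / 100 * ((1 + D.ch z) * z) ≤ Ph D z ∧ Ph D z ≤ 101 / 100 * ((1 + D.ch z) * z) := by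
  obtain ⟨h1, h2⟩ := abs_le.1 (ch_der h hb z).1
  have h3 := mul_le_mul_of_nonneg_right h1 hz
  have h4 := mul_le_mul_of_nonneg_right h2 hz
  have h5 := mul_nonneg (add_nonneg zero_le_one (ch_mem h hb z).1) hz
  unfold Ph
  constructor <;> nlinarith

theorem Ph1_mem (h : D.OK) (hb : Big D) (z : ℝ) :
    0 ≤ Ph1 D z ∧ Ph1 D z ≤ 101 / 100 * (1 + D.ch z) := by
  obtain ⟨h1, h2⟩ := abs_le.1 (ch_der h hb z).1
  obtain ⟨h3, h4⟩ := abs_le.1 (ch_der h hb z).2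
  have h5 := (ch_mem h hb z).1
  unfold Ph1
  constructor <;> nlinarith

end Vale.Agent.P363.D7
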