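import Vale.Agent.P363.D7C
import Vale.Agent.P363.D7P

/-!
Part D7: the cutoff `χ x = bmp (n / 4) (x 0) * bmp (n / 4) (x 1) * c (x 2)`,
`c z = st (z / za - 1) * st (2 (R + 1 - z))`, `st = Real.smoothTransition`.  Bounds for the derivatives:
`bmp_deriv`, `ma_st` (P370/MassA), `1 / za = n ^ 4 / 2`; either `hp_line` with one variable formulas or
`LG` (`rg_bmp`, `LG.coord0`, `LG.mul`, `LG.pd`, `LG.lap`, `lg_one` with `M = n ^ 4`).
-/

namespace Vale.Agent.P363.D7

open Vale.Agent.P370
open scoped Topology ContDiff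

variable {D : Des} {t t1 t2 : ℝ → ℝ} {χ : Pt → ℝ}

theorem d7cut_st : ∃ B : ℝ, 1 ≤ B ∧ ∀ a b : ℝ,
    LG 2 |a| (fun s => Real.smoothTransition (a * s + b)) fun _ => B := by
  choose B hB using ma_st
  have h0 : ∀ j, 0 ≤ B j := fun j => (abs_nonneg _).trans (hB j 0)
  refine ⟨1 + B 0 + B 1 + B 2, by linarith [h0 0, h0 1, h0 2], fun a b => ?_⟩
  have hc : ∀ n : ℕ∞, ContDiff ℝ n fun s => Real.smoothTransition (s + b) := fun n =>
    Real.smoothTransition.contDiff.comp (contDiff_id.add contDiff_const)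
  refine lg_one ((hc ⊤).comp (contDiff_const.mul contDiff_id)) fun j hj s => ?_
  rw [iteratedDeriv_comp_const_mul (f := fun s => Real.smoothTransition (s + b)) (hc j),
    iteratedDeriv_comp_add_const, abs_mul, abs_pow]
  refine mul_le_mul_of_nonneg_left ((hB j _).trans ?_) (by positivity)
  interval_cases j <;> linarith [h0 0, h0 1, h0 2]

theorem cut_ev : Ev fun D => ∃ χ, Cut D χ := by
  obtain ⟨B, hB1, hB⟩ := d7cut_st
  obtain ⟨C, hC1, hC⟩ := rg_bmp
  refine (big_ev.and (ev_ge (3 * (C * C * (B * B))))).mono fun D _ ⟨hb, hK⟩ => ?_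
  have hn := hb.pos
  have hn1 := hb.one_le
  have hK1 : 0 ≤ C * C * (B * B) := by positivity
  have hn4 : 8 ≤ D.n ^ 4 :=
    le_trans (le_trans (by norm_num) hb.n_ge) (le_self_pow₀ hn1 (by norm_num))
  have hza : D.n ^ 4 / 2 * za D = 1 := by rw [za]; field_simp
  have h1 := ((((hC (D.n / 4)).mono (r' := 2) (by norm_num) zero_le_one le_rfl
    fun _ => le_rfl).coord0 0).mul (((hC (D.n / 4)).mono (r' := 2) (by norm_num) zero_le_one le_rfl
    fun _ => le_rfl).coord0 1)).mul
    (((hB (D.n ^ 4 / 2) (-1)).coord0 2).mul ((hB (-2) (2 * (D.R + 1))).coord0 2))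
  have h2 := h1.mono (M' := D.n ^ 4) le_rfl (by positivity) (by
    rw [abs_of_pos (by positivity), abs_neg, abs_two]; linarith) fun _ => le_rfl
  have c0 : ∀ (k : Fin 3) (x : Pt), ContinuousAt (fun y : Pt => y k) x := fun k x =>
    (continuous_apply k).continuousAt
  refine ⟨_, h2.1.of_le (rg_le 2), fun x => ⟨?_, ?_⟩, fun x hx => ?_, fun x hx => ?_,
    fun k x => ?_, fun x => ?_⟩
  · exact mul_nonneg (mul_nonneg (bmp_nonneg _ _) (bmp_nonneg _ _))
      (mul_nonneg (Real.smoothTransition.nonneg _) (Real.smoothTransition.nonneg _))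
  · exact mul_le_one₀ (mul_le_one₀ (bmp_le_one _ _) (bmp_nonneg _ _) (bmp_le_one _ _))
      (mul_nonneg (Real.smoothTransition.nonneg _) (Real.smoothTransition.nonneg _))
      (mul_le_one₀ (Real.smoothTransition.le_one _) (Real.smoothTransition.nonneg _)
        (Real.smoothTransition.le_one _))
  · simp only [Bx, Set.mem_setOf_eq, not_and_or, not_le] at hx
    rcases hx with h | h | h | h
    · filter_upwards [continuousAt_const.eventually_lt (c0 0 x).abs h] with y hy
      rw [bmp_zero hy.le, zero_mul, zero_mul]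
    · filter_upwards [continuousAt_const.eventually_lt (c0 1 x).abs h] with y hy
      rw [bmp_zero hy.le, mul_zero, zero_mul]
    · filter_upwards [(c0 2 x).eventually_lt continuousAt_const h] with y hy
      have h3 : D.n ^ 4 / 2 * y 2 ≤ D.n ^ 4 / 2 * za D :=
        mul_le_mul_of_nonneg_left hy.le (by positivity)
      rw [Real.smoothTransition.zero_of_nonpos (by linarith), zero_mul, mul_zero]
    · filter_upwards [continuousAt_const.eventually_lt (c0 2 x) h] with y hy
      rw [Real.smoothTransition.zero_of_nonpos (x := -2 * y 2 + 2 * (D.R + 1)) (by linarith),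
        mul_zero, mul_zero]
  · obtain ⟨k0, k1, k2, k3⟩ := hx
    filter_upwards [(c0 0 x).abs.eventually_lt continuousAt_const k0,
      (c0 1 x).abs.eventually_lt continuousAt_const k1,
      continuousAt_const.eventually_lt (c0 2 x) k2,
      (c0 2 x).eventually_lt continuousAt_const k3] with y y0 y1 y2 y3
    have h3 : D.n ^ 4 / 2 * (2 * za D) ≤ D.n ^ 4 / 2 * y 2 :=
      mul_le_mul_of_nonneg_left y2.le (by positivity)
    rw [bmp_one y0.le, bmp_one y1.le, Real.smoothTransition.one_of_one_le (by linarith),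
      Real.smoothTransition.one_of_one_le (by linarith)]
    norm_num
  · refine ((LG.pd (r := 1) h2 k).norm_le x).trans ?_
    rw [pow_succ D.n 4]
    exact mul_le_mul_of_nonneg_left (by linarith) (by positivity)
  · refine ((LG.lap (r := 0) h2).norm_le x).trans ?_
    have h3 : D.n ≤ D.n ^ 2 := le_self_pow₀ hn1 (by norm_num)
    have h4 : 0 ≤ (D.n ^ 4) ^ 2 := by positivity
    calc 3 * ((D.n ^ 4) ^ 2 * (C * C * (B * B))) = (D.n ^ 4) ^ 2 * (3 * (C * C * (B * B))) := by
          ring
      _ ≤ (D.n ^ 4) ^ 2 * D.n ^ 2 := mul_le_mul_of_nonneg_left (hK.trans h3) h4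
      _ = D.n ^ 10 := by ring

end Vale.Agent.P363.D7
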