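import Vale.Agent.P363.DesH
import Vale.Agent.P370.GS

/-! Part D7: definitions for the subsolution `Θ = φ0 * (ww * χ)`. -/

namespace Vale.Agent.P363.D7

open Vale.Agent.P370
open scoped Topology

noncomputable section

/-- Abscissa of the first corner well. -/
def ell : ℝ := Lc / √2
/-- Gaussian centred at `ell`; `Em (-x) s` is the Gaussian centred at `-ell`. -/
def Em (x s : ℝ) : ℝ := Real.exp (-((x - ell) ^ 2 / (2 * s)))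
/-- Odd heat kernel, without the factor `s ^ (-1 / 2)`. -/
def hk (x s : ℝ) : ℝ := Em x s - Em (-x) s
/-- Its derivative in `x`. -/
def hkx (x s : ℝ) : ℝ := (ell - x) / s * Em x s + (x + ell) / s * Em (-x) s
/-- Its derivative in `s`. -/
def hkt (x s : ℝ) : ℝ :=
  (x - ell) ^ 2 / (2 * s ^ 2) * Em x s - (x + ell) ^ 2 / (2 * s ^ 2) * Em (-x) s
/-- Its second derivative in `s`. -/
def hktt (x s : ℝ) : ℝ :=
  ((x - ell) ^ 4 / (4 * s ^ 4) - (x - ell) ^ 2 / s ^ 3) * Em x s -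
    ((x + ell) ^ 4 / (4 * s ^ 4) - (x + ell) ^ 2 / s ^ 3) * Em (-x) s
/-- Squared lateral distance from the well. -/
def Dq (x : Pt) : ℝ := (x 0 - ell) ^ 2 + (x 1 - ell) ^ 2

variable (D : Des)

/-- Starting height. -/
def za : ℝ := 2 / D.n ^ 4
/-- Starting time. -/
def t0 : ℝ := aw ^ 2 / (4 * D.n)
/-- Vertical drift. -/
def Ph (z : ℝ) : ℝ := (1 + D.ch z) * z + deriv D.ch z * z ^ 2 / 2
/-- Its derivative. -/
def Ph1 (z : ℝ) : ℝ := (1 + D.ch z) + 2 * deriv D.ch z * z + deriv (deriv D.ch) z * z ^ 2 / 2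
/-- Logarithm of the amplitude as a function of the time. -/
def A0 (s : ℝ) : ℝ := Real.exp (-(D.n ^ 4 / 2 * (s - t0 D))) - 13 * Real.log s - 8 * √D.n * s
/-- Its derivative. -/
def A1 (s : ℝ) : ℝ := -(D.n ^ 4 / 2 * Real.exp (-(D.n ^ 4 / 2 * (s - t0 D)))) - 13 / s - 8 * √D.n
/-- Its second derivative. -/
def A2 (s : ℝ) : ℝ := (D.n ^ 4 / 2) ^ 2 * Real.exp (-(D.n ^ 4 / 2 * (s - t0 D))) + 13 / s ^ 2
/-- The profile as a function of the lateral coordinates and the time. -/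
def W0 (x y s : ℝ) : ℝ := Real.exp (A0 D s) * (hk x s * hk y s)
/-- Its derivative in the time. -/
def W1 (x y s : ℝ) : ℝ :=
  Real.exp (A0 D s) * (A1 D s * (hk x s * hk y s) + (hkt x s * hk y s + hk x s * hkt y s))
/-- Its second derivative in the time. -/
def W2 (x y s : ℝ) : ℝ :=
  Real.exp (A0 D s) * ((A2 D s + A1 D s ^ 2) * (hk x s * hk y s) +
    2 * A1 D s * (hkt x s * hk y s + hk x s * hkt y s) +
    (hktt x s * hk y s + 2 * (hkt x s * hkt y s) + hk x s * hktt y s))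
/-- The profile. -/
def ww (t : ℝ → ℝ) (x : Pt) : ℝ := W0 D (x 0) (x 1) (t (x 2))
/-- The closed box that carries the subsolution. -/
def Bx : Set Pt := {x | |x 0| ≤ D.n / 4 + 1 ∧ |x 1| ≤ D.n / 4 + 1 ∧ za D ≤ x 2 ∧ x 2 ≤ D.R + 1}
/-- The open box where the cutoff is one. -/
def Pl : Set Pt := {x | |x 0| < D.n / 4 ∧ |x 1| < D.n / 4 ∧ 2 * za D < x 2 ∧ x 2 < D.R + 1 / 2}

/-- The time as a function of the height. -/
structure TOK (t t1 t2 : ℝ → ℝ) : Prop where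
  dt : ∀ z, HasDerivAt t (t1 z) z
  dt1 : ∀ z, HasDerivAt t1 (t2 z) z
  ct : ContDiff ℝ 2 t
  lo : ∀ z, t0 D ≤ t z
  bot : ∀ z, z ≤ 2 → t z ≤ t0 D + 2 / D.n ^ 4
  hi : ∀ z, z ≤ D.R + 1 → t z ≤ 4 * Real.log D.R
  top : ∀ z, D.R - 1 ≤ z → 1 ≤ t z
  ode : ∀ z, za D ≤ z → Ph D z * t1 z = 1 / 2
  t1b : ∀ z, za D ≤ z → 0 ≤ t1 z ∧ t1 z ≤ 1 / D.n ^ 3
  t2b : ∀ z, za D ≤ z → -(7 / 50) ≤ t2 z ∧ t2 z ≤ 0

/-- The cutoff. -/
structure Cut (χ : Pt → ℝ) : Prop where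
  C2 : ContDiff ℝ 2 χ
  mem : ∀ x, 0 ≤ χ x ∧ χ x ≤ 1
  out : ∀ x, x ∉ Bx D → χ =ᶠ[𝓝 x] fun _ => 0
  one : ∀ x ∈ Pl D, χ =ᶠ[𝓝 x] fun _ => 1
  d1 : ∀ k x, |pd k χ x| ≤ D.n ^ 5
  d2 : ∀ x, |lap χ x| ≤ D.n ^ 10

/-- The gradient of the action in the box. -/
structure SF : Prop where
  sz : ∀ x ∈ Bx D, |pd 2 D.S x - Ph D (x 2)| ≤ Ph D (x 2) / 100
  sx : ∀ x ∈ Bx D, ∀ i : Fin 3, i ≠ 2 → pd i D.S x ^ 2 ≤ D.n ^ 3 ∧ |pd i D.S x| ≤ D.n ^ 2 * |x i|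
  sf : ∀ x ∈ Bx D, 2 ≤ x 2 → ∀ i : Fin 3, i ≠ 2 → pd i D.S x = x i
  sb : ∀ x ∈ Bx D, ∀ k, |pd k D.S x| ≤ D.R ^ 4

/-- Elementary size conditions. -/
structure Big : Prop where
  n_ge : 10 ^ 80 ≤ D.n
  R_ge : 20 * D.n ^ 3 ≤ D.R
  Lg_eq : D.R = 20 * D.Lg
  Ls_le : D.n ^ 3 ≤ D.Lg
  poly : D.R ^ 50 ≤ D.P
  P_le : D.P ≤ Real.exp (D.n / 2)
  logn : 40 * Real.log D.n ≤ D.n
  logR : 1 ≤ Real.log D.R ∧ Real.log D.R ≤ 1 / 200 * D.n ^ (1 / 4 : ℝ)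
  P_ge : 10 ^ 40 ≤ D.n ^ (3 / 4 : ℝ)

end

theorem ell_pos : 0 < ell := div_pos (by norm_num [Lc]) (by positivity)

theorem ell_sq : ell ^ 2 = Lc ^ 2 / 2 := by rw [ell, div_pow, Real.sq_sqrt zero_le_two]

theorem ell_le : ell ≤ Lc :=
  div_le_self (by norm_num [Lc]) (Real.one_le_sqrt.2 one_le_two)

theorem Em_pos (x s : ℝ) : 0 < Em x s := Real.exp_pos _

variable {D : Des}

theorem Big.one_le (h : Big D) : 1 ≤ D.n := le_trans (by norm_num) h.n_ge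

theorem Big.pos (h : Big D) : 0 < D.n := lt_of_lt_of_le one_pos h.one_le

theorem Big.n_le (h : Big D) : D.n ≤ D.R := by
  have h1 := h.R_ge
  have h2 : D.n ≤ D.n ^ 3 := le_self_pow₀ h.one_le (by norm_num)
  have h3 := h.pos
  linarith

theorem Big.za_pos (h : Big D) : 0 < za D := div_pos two_pos (pow_pos h.pos 4)

theorem Big.t0_ge (h : Big D) : 1 / D.n ≤ t0 D := by
  rw [t0, ← div_div]
  exact div_le_div_of_nonneg_right (by norm_num [aw]) h.pos.le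

theorem TOK.ge {t t1 t2 : ℝ → ℝ} (h : TOK D t t1 t2) (hb : Big D) (z : ℝ) : 1 / D.n ≤ t z :=
  hb.t0_ge.trans (h.lo z)

theorem TOK.pos {t t1 t2 : ℝ → ℝ} (h : TOK D t t1 t2) (hb : Big D) (z : ℝ) : 0 < t z :=
  (one_div_pos.2 hb.pos).trans_le (h.ge hb z)

end Vale.Agent.P363.D7
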