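import Vale.Agent.P363.D7Def

/-!
Part D7: the odd heat kernel.  With `u = x * ell / s` and `q = exp (-2 u)` one has
`Em (-x) s = Em x s * q`, so `hk = Em * (1 - q)`; use `2 u q ≤ 1 - q` (`Real.add_one_le_exp`) and
`4 u ^ 2 q ≤ (1 - q) ^ 2` (`u ≤ sinh u`, `Real.self_le_sinh_iff`).
-/

namespace Vale.Agent.P363.D7

open Vale.Agent.P370
open scoped Topology ContDiff

variable {D : Des} {t t1 t2 : ℝ → ℝ} {χ : Pt → ℝ}

variable {x s e : ℝ}

theorem d7k_ex (hs : s ≠ 0) (x : ℝ) :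
    HasDerivAt (fun y => Em y s) ((ell - x) / s * Em x s) x := by
  have h := ((((hasDerivAt_id' x).sub_const ell).fun_pow 2).div_const (2 * s)).fun_neg.exp
  refine h.congr_deriv ?_
  unfold Em
  field_simp
  ring

theorem d7k_ex' (hs : s ≠ 0) (x : ℝ) :
    HasDerivAt (fun y => Em (-y) s) (-((x + ell) / s) * Em (-x) s) x := by
  have h := (d7k_ex hs (-x)).comp x (hasDerivAt_neg' x)
  refine h.congr_deriv ?_
  ring

theorem d7k_es (hs : s ≠ 0) (x : ℝ) :
    HasDerivAt (Em x) ((x - ell) ^ 2 / (2 * s ^ 2) * Em x s) s := by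
  have h := ((hasDerivAt_const s ((x - ell) ^ 2)).fun_div ((hasDerivAt_id' s).const_mul 2)
    (mul_ne_zero two_ne_zero hs)).fun_neg.exp
  refine h.congr_deriv ?_
  unfold Em
  field_simp
  ring

theorem d7k_c (hs : s ≠ 0) (c : ℝ) :
    HasDerivAt (fun s : ℝ => c / (2 * s ^ 2)) (-(c / s ^ 3)) s := by
  have h := (hasDerivAt_const s c).fun_div (((hasDerivAt_id' s).fun_pow 2).const_mul 2)
    (mul_ne_zero two_ne_zero (pow_ne_zero 2 hs))
  refine h.congr_deriv ?_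
  field_simp
  ring

theorem d7k_neg (hs : s ≠ 0) (x : ℝ) : Em (-x) s = Em x s * Real.exp (-(2 * (x * ell / s))) := by
  unfold Em
  rw [← Real.exp_add]
  congr 1
  field_simp
  ring

theorem d7k_q1 (u : ℝ) : 2 * u * Real.exp (-(2 * u)) ≤ 1 - Real.exp (-(2 * u)) := by
  have h1 := Real.add_one_le_exp (2 * u)
  have h2 : Real.exp (2 * u) * Real.exp (-(2 * u)) = 1 := by rw [← Real.exp_add]; simp
  nlinarith [Real.exp_pos (-(2 * u))]

theorem d7k_sh {u : ℝ} (hu : 0 ≤ u) : 2 * u ≤ Real.exp u - Real.exp (-u) := by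
  have h := Real.self_le_sinh_iff.2 hu
  rw [Real.sinh_eq] at h
  linarith

theorem d7k_q2 {u : ℝ} (hu : 0 ≤ u) :
    4 * u ^ 2 * Real.exp (-(2 * u)) ≤ (1 - Real.exp (-(2 * u))) ^ 2 := by
  have h1 := d7k_sh hu
  have h2 : Real.exp u * Real.exp (-u) = 1 := by rw [← Real.exp_add]; simp
  have h3 : Real.exp (-(2 * u)) = Real.exp (-u) ^ 2 := by
    rw [sq, ← Real.exp_add]
    congr 1
    ring
  have h4 := Real.exp_pos (-u)
  have h5 : 2 * u * Real.exp (-u) ≤ 1 - Real.exp (-u) ^ 2 := by nlinarith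
  have h6 := pow_le_pow_left₀ (by positivity) h5 2
  rw [h3]
  linarith

theorem hk_dx (hs : s ≠ 0) (x : ℝ) : HasDerivAt (fun y => hk y s) (hkx x s) x := by
  refine ((d7k_ex hs x).fun_sub (d7k_ex' hs x)).congr_deriv ?_
  unfold hkx
  ring

theorem hkx_dx (hs : s ≠ 0) (x : ℝ) :
    HasDerivAt (fun y => hkx y s) (2 * hkt x s - hk x s / s) x := by
  have h1 := (((hasDerivAt_id' x).const_sub ell).div_const s).fun_mul (d7k_ex hs x)
  have h2 := (((hasDerivAt_id' x).add_const ell).div_const s).fun_mul (d7k_ex' hs x)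
  refine (h1.fun_add h2).congr_deriv ?_
  unfold hkt hk
  field_simp
  ring

theorem hk_ds (hs : s ≠ 0) (x : ℝ) : HasDerivAt (hk x) (hkt x s) s := by
  refine ((d7k_es hs x).fun_sub (d7k_es hs (-x))).congr_deriv ?_
  unfold hkt
  ring

theorem hkt_ds (hs : s ≠ 0) (x : ℝ) : HasDerivAt (hkt x) (hktt x s) s := by
  have h1 := (d7k_c hs ((x - ell) ^ 2)).fun_mul (d7k_es hs x)
  have h2 := (d7k_c hs ((x + ell) ^ 2)).fun_mul (d7k_es hs (-x))
  refine (h1.fun_sub h2).congr_deriv ?_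
  unfold hktt
  field_simp
  ring

theorem hk_zero (s : ℝ) : hk 0 s = 0 := by simp [hk]

theorem hk_pos (hs : 0 < s) (hx : 0 < x) : 0 < hk x s := by
  have hu : 0 < x * ell / s := div_pos (mul_pos hx ell_pos) hs
  have h1 : Real.exp (-(2 * (x * ell / s))) < 1 := Real.exp_lt_one_iff.2 (by linarith)
  rw [hk, d7k_neg hs.ne']
  nlinarith [Em_pos x s]

theorem hkt_ge (hs : 0 < s) (hx : 0 < x) :
    ((x - ell) ^ 2 / (2 * s ^ 2) - 1 / s) * hk x s ≤ hkt x s := by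
  have h1 := mul_le_mul_of_nonneg_left (d7k_q1 (x * ell / s))
    (div_pos (Em_pos x s) hs).le
  rw [hk, hkt, d7k_neg hs.ne']
  generalize Real.exp (-(2 * (x * ell / s))) = q at h1 ⊢
  have e : (x + ell) ^ 2 / (2 * s ^ 2) = (x - ell) ^ 2 / (2 * s ^ 2) + 2 * (x * ell / s) / s := by
    field_simp
    ring
  rw [e]
  simp only [div_eq_mul_inv] at h1 ⊢
  linarith

theorem hktt_ge (hs : 0 < s) (hx : 0 < x) :
    hkt x s ^ 2 - ((x - ell) ^ 2 / s ^ 3 + 1 / s ^ 2) * hk x s ^ 2 ≤ hktt x s * hk x s := by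
  have hu : 0 < x * ell / s := div_pos (mul_pos hx ell_pos) hs
  have h1 := d7k_q2 hu.le
  have h2 : Real.exp (-(2 * (x * ell / s))) < 1 := Real.exp_lt_one_iff.2 (by linarith)
  have h3 := Real.exp_pos (-(2 * (x * ell / s)))
  rw [hk, hkt, hktt, d7k_neg hs.ne']
  generalize Real.exp (-(2 * (x * ell / s))) = q at h1 h2 h3 ⊢
  have e1 : (x + ell) ^ 2 / (2 * s ^ 2) = (x - ell) ^ 2 / (2 * s ^ 2) + 2 * (x * ell / s) / s := by
    field_simp
    ring
  have e2 : ∀ a : ℝ, a ^ 4 / (4 * s ^ 4) - a ^ 2 / s ^ 3 =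
      (a ^ 2 / (2 * s ^ 2)) ^ 2 - 2 * (a ^ 2 / (2 * s ^ 2)) / s := fun a => by
    field_simp
    ring
  have e3 : (x - ell) ^ 2 / s ^ 3 = 2 * ((x - ell) ^ 2 / (2 * s ^ 2)) / s := by field_simp
  rw [e2, e2, e1, e3]
  generalize (x - ell) ^ 2 / (2 * s ^ 2) = A
  generalize x * ell / s = u at hu h1 ⊢
  have h4 := mul_nonneg (sq_nonneg (Em x s / s)) (add_nonneg (sub_nonneg.2 h1)
    (mul_pos (mul_pos (mul_pos four_pos hu) h3) (sub_pos.2 h2)).le)
  generalize Em x s = E at h4 ⊢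
  simp only [div_eq_mul_inv, ← inv_pow] at h4 ⊢
  linarith

theorem hkx_mem (hs : 0 < s) (hx : 0 < x) :
    (ell - x) / s * hk x s ≤ hkx x s ∧ hkx x s ≤ ((ell - x) / s + 1 / x) * hk x s := by
  have h1 := mul_le_mul_of_nonneg_left (d7k_q1 (x * ell / s))
    (div_pos (Em_pos x s) hx).le
  have h3 := Real.exp_pos (-(2 * (x * ell / s)))
  rw [hk, hkx, d7k_neg hs.ne']
  generalize Real.exp (-(2 * (x * ell / s))) = q at h1 h3 ⊢
  have h4 := mul_pos (mul_pos (div_pos ell_pos hs) (Em_pos x s)) h3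
  have e : Em x s / x * (2 * (x * ell / s) * q) = 2 * (ell / s * Em x s * q) := by field_simp
  rw [e] at h1
  simp only [div_eq_mul_inv] at h1 h4 ⊢
  constructor <;> linarith

theorem Em_le_one (hs : 0 < s) (x : ℝ) : Em x s ≤ 1 :=
  Real.exp_le_one_iff.2 (neg_nonpos.2 (by positivity))

theorem Em_neg_le (hs : 0 < s) (hx : 0 ≤ x) : Em (-x) s ≤ Em x s := by
  have hu : 0 ≤ x * ell / s := div_nonneg (mul_nonneg hx ell_pos.le) hs.le
  rw [d7k_neg hs.ne']
  exact mul_le_of_le_one_right (Em_pos x s).le (Real.exp_le_one_iff.2 (by linarith))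

theorem hk_bd (hs : 0 < s) (h1 : Em x s ≤ e) (h2 : Em (-x) s ≤ e) :
    |hk x s| ≤ e ∧ |hkx x s| ≤ 2 * ((|x| + ell) / s) * e ∧
      |hkt x s| ≤ ((|x| + ell) / s) ^ 2 * e := by
  have p1 := Em_pos x s
  have p2 := Em_pos (-x) s
  have hl := ell_pos
  have a1 : |(ell - x) / s| ≤ (|x| + ell) / s := by
    rw [abs_div, abs_of_pos hs]
    refine div_le_div_of_nonneg_right (abs_le.2 ⟨?_, ?_⟩) hs.le
    · linarith [le_abs_self x]
    · linarith [neg_le_abs x]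
  have a2 : |(x + ell) / s| ≤ (|x| + ell) / s := by
    rw [abs_div, abs_of_pos hs]
    refine div_le_div_of_nonneg_right (abs_le.2 ⟨?_, ?_⟩) hs.le
    · linarith [neg_le_abs x]
    · linarith [le_abs_self x]
  have a0 := (abs_nonneg _).trans a1
  refine ⟨abs_le.2 ⟨by unfold hk; linarith, by unfold hk; linarith⟩, ?_, ?_⟩
  · refine (abs_add_le _ _).trans ?_
    rw [abs_mul, abs_mul, abs_of_pos p1, abs_of_pos p2]
    linarith [mul_le_mul a1 h1 p1.le a0, mul_le_mul a2 h2 p2.le a0]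
  · have b1 := mul_le_mul (pow_le_pow_left₀ (abs_nonneg _) a1 2) h1 p1.le (sq_nonneg _)
    have b2 := mul_le_mul (pow_le_pow_left₀ (abs_nonneg _) a2 2) h2 p2.le (sq_nonneg _)
    rw [sq_abs] at b1 b2
    have c1 := mul_nonneg (sq_nonneg ((ell - x) / s)) p1.le
    have c2 := mul_nonneg (sq_nonneg ((x + ell) / s)) p2.le
    have e : hkt x s = 1 / 2 * (((ell - x) / s) ^ 2 * Em x s) -
        1 / 2 * (((x + ell) / s) ^ 2 * Em (-x) s) := by
      unfold hkt
      field_simp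
      ring
    rw [e]
    exact abs_le.2 ⟨by linarith, by linarith⟩

theorem hk_ge (hs : 0 < s) (hx : 0 ≤ x) :
    2 * (x * ell / s) * Real.exp (-((x ^ 2 + ell ^ 2) / (2 * s))) ≤ hk x s := by
  have hu : 0 ≤ x * ell / s := div_nonneg (mul_nonneg hx ell_pos.le) hs.le
  refine (mul_le_mul_of_nonneg_right (d7k_sh hu) (Real.exp_pos _).le).trans (le_of_eq ?_)
  rw [sub_mul, ← Real.exp_add, ← Real.exp_add, hk, Em, Em]
  congr 2 <;> field_simp <;> ring

theorem A0_ds (D : Des) (hs : s ≠ 0) : HasDerivAt (A0 D) (A1 D s) s := by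
  have h1 := (((hasDerivAt_id' s).sub_const (t0 D)).const_mul (D.n ^ 4 / 2)).fun_neg.exp
  refine ((h1.fun_sub ((Real.hasDerivAt_log hs).const_mul 13)).fun_sub
    ((hasDerivAt_id' s).const_mul (8 * √D.n))).congr_deriv ?_
  unfold A1
  ring

theorem A1_ds (D : Des) (hs : s ≠ 0) : HasDerivAt (A1 D) (A2 D s) s := by
  have h1 := (((hasDerivAt_id' s).sub_const (t0 D)).const_mul (D.n ^ 4 / 2)).fun_neg.exp
  refine (((h1.const_mul (D.n ^ 4 / 2)).fun_neg.fun_sub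
    ((hasDerivAt_const s (13 : ℝ)).fun_div (hasDerivAt_id' s) hs)).sub_const
      (8 * √D.n)).congr_deriv ?_
  unfold A2
  ring

theorem W0_ds (D : Des) (hs : s ≠ 0) (x y : ℝ) : HasDerivAt (W0 D x y) (W1 D x y s) s := by
  refine ((A0_ds D hs).exp.fun_mul ((hk_ds hs x).fun_mul (hk_ds hs y))).congr_deriv ?_
  unfold W1
  ring

theorem W1_ds (D : Des) (hs : s ≠ 0) (x y : ℝ) : HasDerivAt (W1 D x y) (W2 D x y s) s := by
  refine ((A0_ds D hs).exp.fun_mul
    (((A1_ds D hs).fun_mul ((hk_ds hs x).fun_mul (hk_ds hs y))).fun_add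
      (((hkt_ds hs x).fun_mul (hk_ds hs y)).fun_add
        ((hk_ds hs x).fun_mul (hkt_ds hs y))))).congr_deriv ?_
  unfold W2
  ring

end Vale.Agent.P363.D7
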