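import Vale.Agent.P363.D7C

/-!
Part D7: the profile is a subsolution.  Put `s = t z`, `k_i = hk (x i) s > 0`, `f_i = hkt / k_i`,
`g_i = hktt / k_i - f_i ^ 2`, `e_i = hkx / k_i`, `F = f_0 + f_1 ≥ Dq / (2 s ^ 2) - 2 / s`,
`b = S_z t1 - t2 / 2 ∈ [0.495, 0.575]` (`sz`, `ode`, `t2b`).  Divided by `ww > 0` the left side is
`-F + 1 / s + b (A1 + F) - t1 ^ 2 / 2 (A2 + g_0 + g_1 + (A1 + F) ^ 2) + S_0 e_0 + S_1 e_1 + Gam + 3`.
Now `A2 + g_0 + g_1 ≥ -Dq / s ^ 3`, `t1 ^ 2 / (2 s) ≤ 1 / 100`, `-(1 - b) F ≤ -0.21 Dq / s ^ 2 + 1.01 / s`,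
`b A1 ≤ 0.495 A1`.  Drift: for `z ≥ 2`, `x e ≤ x (ell - x) / s + 1 ≤ (ell - x) ^ 2 / (16 s ^ 2) + 4 ell ^ 2 + 1`
(cases `x ≤ ell`, `x ≥ ell`; `8 ell ^ 2 + 5 ≤ √n`); for `z ≤ 2`,
`S_i e_i ≤ |S_i| |ell - x| / s + |S_i| / x ≤ (ell - x) ^ 2 / (16 s ^ 2) + 4 n ^ 3 + n ^ 2`, and
`exp (-(n ^ 4 / 2 (s - t0))) ≥ exp (-1) ≥ 1 / 3` by `bot`.  Isolate the inequality between real numbers as a lemma.
-/

namespace Vale.Agent.P363.D7

open Vale.Agent.P370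
open scoped Topology ContDiff

variable {D : Des} {t t1 t2 : ℝ → ℝ} {χ : Pt → ℝ}

theorem hk_rep {x s : ℝ} (hs : 0 < s) (hx : 0 < x) : ∃ f g e : ℝ, hkt x s = f * hk x s ∧
    hktt x s = (g + f ^ 2) * hk x s ∧ hkx x s = e * hk x s ∧
    ((ell - x) / s) ^ 2 / 2 - 1 / s ≤ f ∧ -(1 / s * ((ell - x) / s) ^ 2 + (1 / s) ^ 2) ≤ g ∧
    (ell - x) / s ≤ e ∧ e ≤ (ell - x) / s + 1 / x := by
  have k := hk_pos hs hx
  have h1 := hkt_ge hs hx
  have h2 := hktt_ge hs hx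
  obtain ⟨h3, h4⟩ := hkx_mem hs hx
  refine ⟨hkt x s / hk x s, hktt x s / hk x s - (hkt x s / hk x s) ^ 2, hkx x s / hk x s,
    by field_simp, by field_simp; ring, by field_simp, ?_, ?_, (le_div_iff₀ k).2 h3,
    (div_le_iff₀ k).2 h4⟩
  · refine (le_div_iff₀ k).2 (le_of_eq_of_le ?_ h1)
    field_simp
    ring
  · rw [show hktt x s / hk x s - (hkt x s / hk x s) ^ 2 =
      (hktt x s * hk x s - hkt x s ^ 2) / hk x s ^ 2 by field_simp, le_div_iff₀ (pow_pos k 2),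
      show 1 / s * ((ell - x) / s) ^ 2 + (1 / s) ^ 2 = (x - ell) ^ 2 / s ^ 3 + 1 / s ^ 2 by
        field_simp; ring]
    linarith

theorem core_le {σ q F b Y m H τ d G a : ℝ} (hσ : 0 ≤ σ) (hq : 0 ≤ q) (hY : 0 ≤ Y) (hm : 0 ≤ m)
    (hF : q / 2 - 2 * σ ≤ F) (b1 : 99 / 200 ≤ b) (b2 : b ≤ 23 / 40) (hH : -(σ * q) ≤ H)
    (τ0 : 0 ≤ τ) (τ1 : τ * σ ≤ 1 / 50) (ha : a = -Y - 13 * σ - 8 * m) (hG : G ≤ m)
    (hd : d + 3 ≤ q / 16 + 2 / 5 * Y + 2 * m) :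
    -F + σ + b * (a + F) - τ / 2 * (H + (a + F) ^ 2) + d + G + 3 ≤ 0 := by
  have h1 := mul_le_mul_of_nonneg_left hF (by linarith : 0 ≤ 1 - b)
  have h2 := mul_le_mul_of_nonneg_right b2 hq
  have h3 := mul_le_mul_of_nonneg_right b1 hσ
  have h4 := mul_le_mul_of_nonneg_right b1 (by linarith : 0 ≤ -a)
  have h5 := mul_le_mul_of_nonneg_left hH τ0
  have h6 := mul_le_mul_of_nonneg_right τ1 hq
  have h7 := mul_nonneg τ0 (sq_nonneg (a + F))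
  nlinarith

theorem drift_far {x s e : ℝ} (hs : 0 < s) (hx : 0 < x) (he : e ≤ (ell - x) / s + 1 / x) :
    x * e ≤ ((ell - x) / s) ^ 2 / 16 + 4 * ell ^ 2 + 1 := by
  have h1 := mul_le_mul_of_nonneg_left he hx.le
  rw [mul_add, mul_one_div_cancel hx.ne'] at h1
  rcases le_total x ell with h | h
  · have h2 := pow_le_pow_left₀ hx.le h 2
    nlinarith [sq_nonneg ((ell - x) / s - 8 * x)]
  · have h2 : x * ((ell - x) / s) ≤ 0 :=
      mul_nonpos_of_nonneg_of_nonpos hx.le (div_nonpos_of_nonpos_of_nonneg (by linarith) hs.le)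
    nlinarith [sq_nonneg ((ell - x) / s), sq_nonneg ell]

theorem drift_near {x u e S A B : ℝ} (hx : 0 < x) (h1 : u ≤ e) (h2 : e ≤ u + 1 / x)
    (h3 : S ^ 2 ≤ A) (h4 : |S| ≤ B * |x|) : S * e ≤ u ^ 2 / 16 + 4 * A + B := by
  rw [abs_of_pos hx, ← div_le_iff₀ hx] at h4
  have h5 : S * e ≤ S * u + |S| / x := by
    rcases le_total 0 S with h | h
    · rw [abs_of_nonneg h, div_eq_mul_one_div, ← mul_add]
      exact mul_le_mul_of_nonneg_left h2 h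
    · exact (mul_le_mul_of_nonpos_left h1 h).trans (le_add_of_nonneg_right (by positivity))
  nlinarith [sq_nonneg (u - 8 * S)]

theorem sqrt_big (hb : Big D) : 8 * ell ^ 2 + 5 ≤ 2 * √D.n := by
  have h : (10 : ℝ) ^ 40 ≤ √D.n := Real.le_sqrt_of_sq_le (by rw [← pow_mul]; exact hb.n_ge)
  rw [ell_sq, Lc]
  refine le_trans ?_ (mul_le_mul_of_nonneg_left h zero_le_two)
  norm_num

theorem exp_bot (h : TOK D t t1 t2) (hb : Big D) {z : ℝ} (hz : z ≤ 2) :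
    8 * D.n ^ 3 + 2 * D.n ^ 2 + 3 ≤
      2 / 5 * (D.n ^ 4 / 2 * Real.exp (-(D.n ^ 4 / 2 * (t z - t0 D)))) := by
  have n0 := hb.pos
  have n4 := pow_pos n0 4
  have h1 : D.n ^ 4 / 2 * (t z - t0 D) ≤ 1 := by
    have h2 := mul_le_mul_of_nonneg_left (sub_le_iff_le_add'.2 (h.bot z hz)) (half_pos n4).le
    refine h2.trans_eq ?_
    field_simp
  have h3 : 1 / 3 ≤ Real.exp (-(D.n ^ 4 / 2 * (t z - t0 D))) := by
    refine le_trans ?_ (Real.exp_le_exp.2 (neg_le_neg h1))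
    linarith [Real.exp_neg_one_gt_d9]
  have h4 := mul_le_mul_of_nonneg_left h3 n4.le
  have h5 : 200 ≤ D.n := le_trans (by norm_num) hb.n_ge
  have h6 : 1 ≤ D.n ^ 2 := one_le_pow₀ hb.one_le
  have h7 : D.n ^ 2 ≤ D.n ^ 3 := pow_le_pow_right₀ hb.one_le (by norm_num)
  have h8 : 200 * D.n ^ 3 ≤ D.n ^ 4 := by
    rw [pow_succ' D.n 3]
    exact mul_le_mul_of_nonneg_right h5 (pow_pos n0 3).le
  linarith only [h4, h6, h7, h8]

theorem main_le (h : TOK D t t1 t2) (hb : Big D) (hS : SF D) {x : Pt} (hx : x ∈ Bx D)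
    (hQ : x ∈ Qd) : -(1 / 2) * lap (ww D t) x + (∑ k, pd k D.S x * pd k (ww D t) x) +
      (D.Gam x + 3) * ww D t x ≤ 0 := by
  have hs := h.pos hb (x 2)
  have n0 := hb.pos
  obtain ⟨f0, g0, e0, p1, p2, p3, p4, p5, p6, p7⟩ := hk_rep hs hQ.1
  obtain ⟨f1, g1, e1, q1, q2, q3, q4, q5, q6, q7⟩ := hk_rep hs hQ.2
  obtain ⟨d0, d1, d2⟩ := pd_ww h hb x
  have hz : za D ≤ x 2 := hx.2.2.1
  have o := h.ode _ hz
  obtain ⟨a1, a2⟩ := h.t1b _ hz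
  obtain ⟨a3, a4⟩ := h.t2b _ hz
  obtain ⟨a5, a6⟩ := abs_le.1 (hS.sz x hx)
  have a7 := mul_le_mul_of_nonneg_right a5 a1
  have a8 := mul_le_mul_of_nonneg_right a6 a1
  have σ0 : 0 ≤ 1 / t (x 2) := (one_div_pos.2 hs).le
  have τ1 : t1 (x 2) ^ 2 * (1 / t (x 2)) ≤ 1 / 50 := by
    have c1 : 1 / t (x 2) ≤ D.n := (one_div_le hs n0).2 (h.ge hb _)
    have c2 : 50 ≤ D.n := le_trans (by norm_num) hb.n_ge
    refine (mul_le_mul (pow_le_pow_left₀ a1 a2 2) c1 σ0 (by positivity)).trans ?_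
    rw [show (1 / D.n ^ 3) ^ 2 * D.n = 1 / D.n ^ 5 by field_simp]
    exact one_div_le_one_div_of_le (by norm_num)
      (c2.trans (le_self_pow₀ hb.one_le (by norm_num)))
  have Y0 : 0 ≤ D.n ^ 4 / 2 * Real.exp (-(D.n ^ 4 / 2 * (t (x 2) - t0 D))) := by positivity
  have A2g : 13 * (1 / t (x 2)) ^ 2 ≤ A2 D (t (x 2)) := by
    rw [A2, one_div_pow, mul_one_div]
    exact le_add_of_nonneg_left (by positivity)
  have key := core_le (a := A1 D (t (x 2))) (F := f0 + f1)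
    (b := pd 2 D.S x * t1 (x 2) - t2 (x 2) / 2) (H := A2 D (t (x 2)) + g0 + g1)
    (d := pd 0 D.S x * e0 + pd 1 D.S x * e1) σ0
    (add_nonneg (sq_nonneg ((ell - x 0) / t (x 2))) (sq_nonneg ((ell - x 1) / t (x 2)))) Y0
    (Real.sqrt_nonneg D.n) (by linarith only [p4, q4]) (by linarith only [a7, o, a4])
    (by linarith only [a8, o, a3]) (by linarith only [p5, q5, A2g, sq_nonneg (1 / t (x 2))])
    (sq_nonneg (t1 (x 2))) τ1 (by rw [A1, mul_one_div]) (D.Gam_mem x).2 ?_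
  · have k0 := hk_pos hs hQ.1
    have k1 := hk_pos hs hQ.2
    refine le_of_eq_of_le ?_ (mul_nonpos_of_nonneg_of_nonpos
      (mul_pos (Real.exp_pos (A0 D (t (x 2)))) (mul_pos k0 k1)).le key)
    rw [lap_ww h hb, Fin.sum_univ_three, d0, d1, d2]
    simp only [ww, W0, W1, W2, p1, p2, p3, q1, q2, q3]
    ring
  · rcases le_total 2 (x 2) with c | c
    · rw [hS.sf x hx c 0 (by decide), hS.sf x hx c 1 (by decide)]
      linarith only [drift_far hs hQ.1 p7, drift_far hs hQ.2 q7, sqrt_big hb, Y0]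
    · obtain ⟨c1, c2⟩ := hS.sx x hx 0 (by decide)
      obtain ⟨c3, c4⟩ := hS.sx x hx 1 (by decide)
      linarith only [drift_near hQ.1 p6 p7 c1 c2, drift_near hQ.2 q6 q7 c3 c4, exp_bot h hb c,
        Real.sqrt_nonneg D.n]

end Vale.Agent.P363.D7
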