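import Vale.Agent.P363.D7P

/-!
Part D7: smallness in the transition layers.  `Dq x = (pc x - Lc) ^ 2 + qc x ^ 2 > aw ^ 2` off `Apl`;
for `z ≤ 2`, `t z ≤ aw ^ 2 / (3 n)`, so the exponential is at most `exp (-3 n / 2)` and `P ≤ exp (n / 2)`.
`layer`: `G ≤ S` and `G ≤ s1 + 1` (`Des.OK.G_le`).  Lateral layer `x i ≥ n / 4`: `Dq ≥ n ^ 2 / 25`,
`t ≤ 4 log R ≤ n / 100`.  Top `z ≥ R + 1 / 2`: `Des.OK.S_far`, `nrm_sq_eq` give `G - S ≤ 3 - R / 2`.
Bottom `z ≤ 2 za`: `(1 + n ^ 8) z ^ 2 ≤ 17 ≤ 2 Kp`, so a point of `Apl` is in `N`; else `off_A`.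
`well`: `ev_mass`, `ev_Iz`, and `N ∩ Apl ⊆ Aw 1` by `N_le`.
-/

namespace Vale.Agent.P363.D7

open Vale.Agent.P370
open scoped Topology ContDiff

variable {D : Des} {t t1 t2 : ℝ → ℝ} {χ : Pt → ℝ}

theorem N_le (hb : Big D) {x : Pt} (hx : x ∈ D.N) : |x 2| ≤ 1 / 2 := by
  have h1 : (1 + D.n ^ 8) * x 2 ^ 2 ≤ 2 * (20 * Real.log D.n) := hx.2.2
  have h2 := hb.logn
  have hn := hb.pos
  have h3 : D.n ^ 2 ≤ D.n ^ 8 := pow_le_pow_right₀ hb.one_le (by norm_num)
  have h4 : 4 ≤ D.n := le_trans (by norm_num) hb.n_ge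
  have h5 : 4 * D.n * x 2 ^ 2 ≤ (1 + D.n ^ 8) * x 2 ^ 2 :=
    mul_le_mul_of_nonneg_right (by nlinarith) (sq_nonneg _)
  have h6 : x 2 ^ 2 ≤ (1 / 2) ^ 2 := by
    refine le_of_mul_le_mul_left ?_ (show 0 < 4 * D.n by positivity)
    linarith
  exact abs_le_of_sq_le_sq' h6 (by norm_num) |> abs_le.2

theorem Bx_sub (hb : Big D) {x : Pt} (hx : x ∈ Bx D) : nrm x ≤ D.R + 2 := by
  obtain ⟨h0, h1, h2, h3⟩ := hx
  have hn := hb.pos
  have h4 : 4 ≤ D.n := le_trans (by norm_num) hb.n_ge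
  have h5 : D.n ^ 2 ≤ D.n ^ 3 := pow_le_pow_right₀ hb.one_le (by norm_num)
  have h6 := hb.R_ge
  have h7 := hb.za_pos
  have k0 : x 0 ^ 2 ≤ D.n ^ 2 := by
    rw [← sq_abs]; exact pow_le_pow_left₀ (abs_nonneg _) (by linarith) 2
  have k1 : x 1 ^ 2 ≤ D.n ^ 2 := by
    rw [← sq_abs]; exact pow_le_pow_left₀ (abs_nonneg _) (by linarith) 2
  have k2 : x 2 ^ 2 ≤ (D.R + 1) ^ 2 := pow_le_pow_left₀ (by linarith) h3 2
  have k3 : 0 ≤ D.n ^ 2 := sq_nonneg _
  refine (abs_le_of_sq_le_sq' ?_ (by linarith)).2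
  rw [nrm_sq_eq, rho2]
  nlinarith

theorem isClosed_Bx (D : Des) : IsClosed (Bx D) := by
  exact (isClosed_le (continuous_apply 0).abs continuous_const).inter
    ((isClosed_le (continuous_apply 1).abs continuous_const).inter
      ((isClosed_le continuous_const (continuous_apply 2)).inter
        (isClosed_le (continuous_apply 2) continuous_const)))

theorem d7n_Dq (x : Pt) : Dq x = (pc x - Lc) ^ 2 + qc x ^ 2 := by
  have h1 := pc_sq_add x
  have h2 := ell_sq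
  have h3 : Lc * pc x = ell * (x 0 + x 1) := by rw [pc, ell]; ring
  rw [rho2] at h1
  rw [Dq]
  linear_combination -h1 + 2 * h3 + 2 * h2

theorem d7n_exp (hb : Big D) {s q : ℝ} (hs : 0 < s) (h : 3 * D.n * s ≤ q) :
    D.P * Real.exp (-(q / (2 * s))) ≤ D.sm := by
  have h1 : 3 / 2 * D.n ≤ q / (2 * s) := by
    rw [le_div_iff₀ (by positivity)]; linarith
  refine (mul_le_mul_of_nonneg_right hb.P_le (Real.exp_pos _).le).trans ?_
  rw [← Real.exp_add, Des.sm]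
  exact Real.exp_le_exp.2 (by linarith)

theorem off_A (h : TOK D t t1 t2) (hb : Big D) {x : Pt} (hz : x 2 ≤ 2) (hA : x ∉ Apl) :
    D.P * Real.exp (-(Dq x / (2 * t (x 2)))) ≤ D.sm := by
  refine d7n_exp hb (h.pos hb _) ?_
  have hn := hb.pos
  have h1 := h.bot _ hz
  have h2 : 2 / D.n ^ 4 ≤ 2 / D.n :=
    div_le_div_of_nonneg_left zero_le_two hn (le_self_pow₀ hb.one_le (by norm_num))
  have h3 : 3 * D.n * (t0 D + 2 / D.n) = 3 / 4 * aw ^ 2 + 6 := by
    rw [t0]; field_simp; ring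
  have h4 : 3 * D.n * t (x 2) ≤ 3 * D.n * (t0 D + 2 / D.n) :=
    mul_le_mul_of_nonneg_left (by linarith) (by positivity)
  have h5 : 24 ≤ aw ^ 2 := by norm_num [aw]
  have h6 : aw ^ 2 ≤ Dq x := by
    rw [d7n_Dq]
    simp only [Apl, Set.mem_setOf_eq, not_and_or, not_le] at hA
    rcases hA with k | k
    · have := pow_le_pow_left₀ aw_pos.le k.le 2
      rw [sq_abs] at this
      linarith [sq_nonneg (qc x)]
    · have := pow_le_pow_left₀ aw_pos.le k.le 2
      rw [sq_abs] at this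
      linarith [sq_nonneg (pc x - Lc)]
  linarith

theorem d7n_lat (h : TOK D t t1 t2) (hb : Big D) {y z : ℝ} (hy : D.n / 4 ≤ y)
    (hz : z ≤ D.R + 1) : 3 * D.n * t z ≤ (y - ell) ^ 2 := by
  have hn := hb.pos
  have h1 := h.hi _ hz
  have h2 := hb.logR.2
  have h3 : D.n ^ (1 / 4 : ℝ) ≤ D.n := Real.rpow_le_self_of_one_le hb.one_le (by norm_num)
  have h4 : 1000 * Lc ≤ D.n := le_trans (by norm_num [Lc]) hb.n_ge
  have h5 := ell_le
  have h6 : (249 / 1000 * D.n) ^ 2 ≤ (y - ell) ^ 2 :=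
    pow_le_pow_left₀ (by positivity) (by linarith) 2
  have h7 : 3 * D.n * t z ≤ 3 * D.n * (D.n / 50) :=
    mul_le_mul_of_nonneg_left (by linarith) (by positivity)
  nlinarith [sq_nonneg D.n]

theorem layer (hD : D.OK) (h : TOK D t t1 t2) (hb : Big D) {x : Pt} (hx : x ∈ Bx D) (hQ : x ∈ Qd)
    (hP : x ∉ Pl D) :
    Real.exp (D.G x) * D.φ0 x * (D.P * Real.exp (-(Dq x / (2 * t (x 2))))) ≤
      D.sm + (D.N ∩ Apl).indicator (fun _ => D.P) x := by
  have hn := hb.pos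
  have hn2 : 16 ≤ D.n := le_trans (by norm_num) hb.n_ge
  obtain ⟨g1, g2⟩ := hD.G_le (by linarith) x
  have hP0 : 0 < D.P := Real.exp_pos _
  have hsm : 0 < D.sm := Real.exp_pos _
  have e1 : Real.exp (D.G x) * D.φ0 x = Real.exp (D.G x - D.S x) := by
    rw [Des.φ0, ← Real.exp_add, sub_eq_add_neg]
  have e2 : Real.exp (D.G x - D.S x) ≤ 1 := Real.exp_le_one_iff.2 (by linarith)
  have hq : 0 ≤ Dq x := add_nonneg (sq_nonneg _) (sq_nonneg _)
  have ht := h.pos hb (x 2)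
  have e3 : Real.exp (-(Dq x / (2 * t (x 2)))) ≤ 1 :=
    Real.exp_le_one_iff.2 (neg_nonpos.2 (by positivity))
  have hi : 0 ≤ (D.N ∩ Apl).indicator (fun _ => D.P) x :=
    Set.indicator_nonneg (fun _ _ => hP0.le) x
  have fin : D.P * Real.exp (-(Dq x / (2 * t (x 2)))) ≤
      D.sm + (D.N ∩ Apl).indicator (fun _ => D.P) x → Real.exp (D.G x - D.S x) *
      (D.P * Real.exp (-(Dq x / (2 * t (x 2))))) ≤
      D.sm + (D.N ∩ Apl).indicator (fun _ => D.P) x := fun k =>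
    (mul_le_of_le_one_left (by positivity) e2).trans k
  rw [e1]
  simp only [Pl, Set.mem_setOf_eq, not_and_or, not_lt] at hP
  rcases hP with k | k | k | k
  · rw [abs_of_pos hQ.1] at k
    refine fin ((d7n_exp hb ht ((d7n_lat h hb k hx.2.2.2).trans ?_)).trans (by linarith))
    exact le_add_of_nonneg_right (sq_nonneg _)
  · rw [abs_of_pos hQ.2] at k
    refine fin ((d7n_exp hb ht ((d7n_lat h hb k hx.2.2.2).trans ?_)).trans (by linarith))
    exact le_add_of_nonneg_left (sq_nonneg _)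
  · have h4 : D.n ≤ D.n ^ 4 := le_self_pow₀ hb.one_le (by norm_num)
    have h8 : D.n ≤ D.n ^ 8 := le_self_pow₀ hb.one_le (by norm_num)
    have hza : za D ≤ 1 := by rw [za, div_le_one (by positivity)]; linarith
    by_cases hA : x ∈ Apl
    · have hz0 : 0 ≤ x 2 := hb.za_pos.le.trans hx.2.2.1
      have k1 : x 2 ^ 2 ≤ (2 * za D) ^ 2 := pow_le_pow_left₀ hz0 k 2
      have k2 : D.n ^ 8 * (2 * za D) ^ 2 = 16 := by rw [za]; field_simp; norm_num
      have k3 : (2 * za D) ^ 2 ≤ 1 := by nlinarith [sq_nonneg (2 * za D)]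
      have k4 : D.n ^ 8 * x 2 ^ 2 ≤ D.n ^ 8 * (2 * za D) ^ 2 :=
        mul_le_mul_of_nonneg_left k1 (by positivity)
      have k5 : 1 ≤ Real.log D.n := by
        rw [Real.le_log_iff_exp_le hn]
        linarith [Real.exp_one_lt_d9]
      have k6 := aw_Lc
      have k7 := aw_pos
      have hN : x ∈ D.N := by
        refine ⟨?_, hA.2.trans (by linarith), ?_⟩
        · have := abs_le.1 hA.1
          exact abs_le.2 ⟨by linarith, by linarith⟩
        · show (1 + D.n ^ 8) * x 2 ^ 2 ≤ 2 * (20 * Real.log D.n)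
          linarith
      refine fin ?_
      rw [Set.indicator_of_mem (Set.mem_inter hN hA)]
      exact (mul_le_of_le_one_right hP0.le e3).trans (by linarith)
    · exact fin ((off_A h hb (by linarith) hA).trans (by linarith))
  · have h3 : D.n ≤ D.n ^ 3 := le_self_pow₀ hb.one_le (by norm_num)
    have hR := hb.R_ge
    have hL := hb.Lg_eq
    have hR1 : 1 ≤ D.R := by linarith
    have k1 : (D.R + 1 / 2) ^ 2 ≤ nrm x ^ 2 := by
      rw [nrm_sq_eq]
      linarith [rho2_nonneg x, pow_le_pow_left₀ (by linarith) k 2]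
    have k2 : D.R + 1 / 2 ≤ nrm x :=
      (abs_le_of_sq_le_sq' k1 (Real.sqrt_nonneg _)).2
    have k3 := hD.S_far (x := x) (le_trans (le_trans (by norm_num [Lc]) hb.n_ge) h3)
      (by linarith)
    have k4 : (D.R + 1 / D.R) ^ 2 ≤ D.R ^ 2 + 3 := by
      have a1 : 1 / D.R ≤ 1 := (div_le_one (by linarith)).2 hR1
      have a2 : 0 ≤ 1 / D.R := by positivity
      have a3 : D.R * (1 / D.R) = 1 := by field_simp
      nlinarith
    rw [Des.s1] at g2
    have k5 : D.G x - D.S x + D.n / 2 ≤ -D.n := by nlinarith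
    refine le_trans ?_ (le_add_of_nonneg_right hi)
    refine (mul_le_mul_of_nonneg_left ((mul_le_of_le_one_right hP0.le e3).trans hb.P_le)
      (Real.exp_pos _).le).trans ?_
    rw [← Real.exp_add, Des.sm]
    exact Real.exp_le_exp.2 k5

theorem well : Ev fun D => ∀ x ∈ D.N ∩ Apl, D.φ0 x * D.n ^ 20 ≤ D.P * D.φ 1 x := by
  refine (big_ev.and (ev_mass.and (ev_Iz.and (ev_poly' (2 * aw + 2) 20)))).mono
    fun D _ ⟨hb, h1, h2, h3⟩ x hx => ?_
  have hn := hb.pos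
  have ha := aw_pos
  obtain ⟨-, m1, m2⟩ := h1 1
  have i0 : 0 < D.Iz := lt_of_lt_of_le (by positivity) h2.1
  have m0 : 0 < D.mass 1 := lt_of_lt_of_le (by positivity) m1
  have m3 : √(D.mass 1) ≤ 2 * aw + 2 :=
    Real.sqrt_le_iff.2 ⟨by positivity, m2.trans (mul_le_of_le_one_right (sq_nonneg _) h2.2.1)⟩
  have hA : x ∈ Aw 1 := by
    refine ⟨hx.2.1.trans (by linarith), ?_, N_le hb hx.1⟩
    have : qc x - (ctr 1).2 = qc x := sub_zero _
    rw [this]
    exact hx.2.2.trans (by linarith)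
  have p0 : 0 < D.φ0 x := Real.exp_pos _
  rw [Des.φ, Set.indicator_of_mem hA, mul_div_assoc', le_div_iff₀ (Real.sqrt_pos.2 m0), mul_assoc,
    mul_comm D.P]
  refine mul_le_mul_of_nonneg_left (le_trans ?_ h3.2) p0.le
  rw [mul_comm]
  exact mul_le_mul_of_nonneg_right m3 (by positivity)

end Vale.Agent.P363.D7
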