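import Vale.Agent.P363.D7C
import Vale.Agent.P363.D7P

/-!
Part D7: the gradient of the action in the box.  Near a point of the box `c y = ch (y 2)` (`Slow.tube`,
`2 (n / 4 + 2) ^ 2 < (n ^ 3 / 2) ^ 2`), so along coordinate lines (`hp_line`) `Zf` has derivative `Ph`
(`Ph_prim`) or zero.  With `B y = bmp 1 (y 2) * Dt y` (`db_fix`: `DB 6 B (C n)`, `DB.pd`):
`pd i S = x i - pd i B`, `pd 2 S = Ph - pd 2 B`.  `pd 2 B = deriv (bmp 1) z * Dt + bmp 1 z * pd 2 Dt`,
`pd 2 Dt = 0` (`Dt` does not depend on the height), `deriv (bmp 1) z = 0` unless `1 ≤ |z| ≤ 2`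
(`deriv_bmp_eq_zero`), where `Ph ≥ 0.99 n ^ 8` (`ch_core`, `Ph_mem`).  `pd i S` vanishes on `x i = 0`
(`pd_rf`, `Des.OK.S_rf`; the same for `B` by `Des.Yf_rf`), so the mean value inequality for
`s ↦ pd i B (update x i s)` gives `|pd i B x| ≤ C n |x i|`.  For `z ≥ 2`: `pd i B = bmp 1 z * pd i Dt = 0`.
-/

namespace Vale.Agent.P363.D7

open Vale.Agent.P370
open scoped Topology ContDiff

variable {D : Des} {t t1 t2 : ℝ → ℝ} {χ : Pt → ℝ}

lemma d7s_add {k : Fin 3} {f g : Pt → ℝ} {a b : ℝ} {x : Pt} (hf : HP k f a x) (hg : HP k g b x) :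
    HP k (fun y => f y + g y) (a + b) x := by
  refine ⟨hf.1.add hg.1, ?_⟩
  rw [← hf.2, ← hg.2]
  unfold pd
  rw [fderiv_fun_add hf.1 hg.1]
  rfl

lemma d7s_const (k : Fin 3) (c : ℝ) (x : Pt) : HP k (fun _ => c) 0 x :=
  ⟨differentiableAt_const c, by simp [pd]⟩

lemma d7s_sq (s : ℝ) : HasDerivAt (fun s : ℝ => 1 / 2 * s ^ 2) s s := by
  have h := (hasDerivAt_pow 2 s).const_mul (1 / 2 : ℝ)
  exact h.congr_deriv (by norm_num; ring)

/-- The correction. -/
noncomputable def d7sB (D : Des) (y : Pt) : ℝ := bmp 1 (y 2) * D.Dt y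

lemma d7s_cd (D : Des) : ContDiff ℝ ∞ (d7sB D) := ((contDiff_bmp 1).comp (cd_co 2)).mul D.cd_Dt

lemma d7s_pdS (h : D.OK) (hb : Big D) {x : Pt} (hx : x ∈ Bx D) (k : Fin 3) :
    pd k D.S x = Ph D (x 2) * ek k 2 + (x 0 * ek k 0 + x 1 * ek k 1 - pd k (d7sB D) x) := by
  have hn := hb.n_ge
  have hlt : x 0 ^ 2 + x 1 ^ 2 < (D.Ls / 2) ^ 2 := by
    obtain ⟨h0, h1, -⟩ := hx
    have a0 : x 0 ^ 2 ≤ (D.n / 2) ^ 2 := sq_le_sq' (by linarith [(abs_le.1 h0).1])
      (by linarith [(abs_le.1 h0).2])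
    have a1 : x 1 ^ 2 ≤ (D.n / 2) ^ 2 := sq_le_sq' (by linarith [(abs_le.1 h1).1])
      (by linarith [(abs_le.1 h1).2])
    have a2 : 2 * D.n ≤ D.Ls := by
      have : 2 ≤ D.n ^ 2 := by nlinarith
      unfold Des.Ls
      nlinarith
    nlinarith
  have hev : D.S =ᶠ[𝓝 x] fun y => 1 / 2 * (1 + D.ch (y 2)) * y 2 ^ 2 +
      (1 / 2 * y 0 ^ 2 + 1 / 2 * y 1 ^ 2 - d7sB D y) + 7 * D.n := by
    have hc : Continuous fun y : Pt => y 0 ^ 2 + y 1 ^ 2 := by fun_prop
    filter_upwards [hc.continuousAt.eventually_lt continuousAt_const hlt] with y hy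
    rw [Des.S, Des.Zf, h.tube y hy.le, Des.Yf, rho2, d7sB]
    ring
  have e := d7s_add (d7s_add ((hp_coord k 2 x).comp (Ph_prim h (x 2)))
    ((d7s_add ((hp_coord k 0 x).comp (d7s_sq (x 0))) ((hp_coord k 1 x).comp (d7s_sq (x 1)))).sub
      (hp_of ((d7s_cd D).differentiable (by simp) x) k))) (d7s_const k (7 * D.n) x)
  rw [pd, hev.fderiv_eq, ← add_zero (_ + _ : ℝ)]
  exact e.2

lemma d7s_pdB (D : Des) (x : Pt) (k : Fin 3) :
    pd k (d7sB D) x = bmp 1 (x 2) * pd k D.Dt x + D.Dt x * (deriv (bmp 1) (x 2) * ek k 2) :=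
  (((hp_coord k 2 x).comp ((contDiff_bmp 1).differentiable (by simp) (x 2)).hasDerivAt).mul
    (hp_of (D.cd_Dt.differentiable (by simp) x) k)).2

lemma d7s_Dt2 (D : Des) (x : Pt) : pd 2 D.Dt x = 0 := by
  refine hp_line (D.cd_Dt.differentiable (by simp) x) ?_
  have e : (fun s => D.Dt (Function.update x 2 s)) = fun _ => D.Dt x := by
    funext s
    have h0 : Function.update x 2 s 0 = x 0 := Function.update_of_ne (by decide) _ _
    have h1 : Function.update x 2 s 1 = x 1 := Function.update_of_ne (by decide) _ _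
    simp only [Des.Dt, dd, crs, sqb, rho2, pc, qc, h0, h1]
  rw [e]
  exact hasDerivAt_const _ _

lemma d7s_abs {r : ℕ} {f : Pt → ℝ} {A : ℝ} (h : DB r f A) (x : Pt) : |f x| ≤ A := by
  have := h.2 0 (Nat.zero_le _) x
  rwa [norm_iteratedFDeriv_zero] at this

lemma d7s_mvt {A : ℝ} (hB : DB 6 (d7sB D) A) {i : Fin 3} (hi : i ≠ 2) (x : Pt) :
    |pd i (d7sB D) x| ≤ A * |x i| := by
  have hg : DB 5 (pd i (d7sB D)) A := hB.pd i
  have hA : 0 ≤ A := desg_nonneg hg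
  have hs : ∀ y, d7sB D (rf i y) = d7sB D y := fun y => by rw [d7sB, d7sB, D.Dt_rf hi, rf_two hi]
  have h0 : pd i (d7sB D) (Function.update x i 0) = 0 := by
    have := pd_rf hs i (Function.update x i 0)
    have e : rf i (Function.update x i 0) = Function.update x i 0 := by simp [rf]
    rw [e, if_pos rfl] at this
    linarith
  have hm := convex_univ.norm_image_sub_le_of_norm_fderiv_le (𝕜 := ℝ) (f := pd i (d7sB D)) (C := A)
    (fun y _ => hg.1.differentiable (by simp) y) (fun y _ => by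
      have := hg.2 1 (by norm_num) y
      rwa [← norm_iteratedFDeriv_fderiv, norm_iteratedFDeriv_zero] at this)
    (Set.mem_univ (Function.update x i 0)) (Set.mem_univ x)
  rw [h0, sub_zero, Real.norm_eq_abs] at hm
  refine hm.trans (mul_le_mul_of_nonneg_left ?_ hA)
  refine (pi_norm_le_iff_of_nonneg (abs_nonneg _)).2 fun j => ?_
  by_cases hj : j = i
  · subst hj
    simp
  · simp [Function.update_of_ne hj]

lemma d7s_lat (h : D.OK) (hb : Big D) {x : Pt} (hx : x ∈ Bx D) {i : Fin 3} (hi : i ≠ 2) :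
    pd i D.S x = x i - pd i (d7sB D) x ∧ |x i| ≤ D.n / 4 + 1 ∧ ek i 2 = 0 := by
  rw [d7s_pdS h hb hx]
  rcases ne_two hi with rfl | rfl
  · exact ⟨by simp [ek], hx.1, by simp [ek]⟩
  · exact ⟨by simp [ek], hx.2.1, by simp [ek]⟩

theorem sf_ev : Ev SF := by
  obtain ⟨C, hC, -, -, -, -, -, H⟩ := db_fix
  refine (big_ev.and (ev_ge ((C + 1) ^ 2))).mono fun D h ⟨hb, hn⟩ => ?_
  have hB : DB 6 (d7sB D) (C * D.n) := (H D hb.one_le).1
  have n1 := hb.one_le
  have n2 := hb.n_ge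
  have hCn : C + 1 ≤ D.n := by nlinarith
  have hz : ∀ x ∈ Bx D, |pd 2 D.S x - Ph D (x 2)| ≤ Ph D (x 2) / 100 := fun x hx => by
    have z0 : 0 ≤ x 2 := hb.za_pos.le.trans hx.2.2.1
    have e : pd 2 D.S x - Ph D (x 2) = -pd 2 (d7sB D) x := by
      rw [d7s_pdS h hb hx]
      simp [ek]
    have hP := (Ph_mem h hb z0).1
    have hc := (ch_mem h hb (x 2)).1
    rw [e, abs_neg]
    by_cases hq : |x 2| < 1 ∨ 1 + 1 < |x 2|
    · rw [d7s_pdB, d7s_Dt2, deriv_bmp_eq_zero hq]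
      have : 0 ≤ (1 + D.ch (x 2)) * x 2 := by positivity
      simp only [mul_zero, zero_mul, add_zero, abs_zero]
      linarith
    · push Not at hq
      have n3 : D.n ≤ D.n ^ 3 := le_self_pow₀ n1 (by norm_num)
      rw [ch_core h (by linarith [hq.2])] at hP
      rw [abs_of_nonneg z0] at hq
      have a := d7s_abs (hB.pd 2) x
      have n8 : D.n ^ 3 ≤ D.n ^ 8 := pow_le_pow_right₀ n1 (by norm_num)
      have b1 : D.n ^ 8 ≤ (1 + D.n ^ 8) * x 2 := by
        have : 0 ≤ D.n ^ 8 := by positivity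
        nlinarith [hq.1]
      have b2 : C * D.n ≤ D.n ^ 2 := by nlinarith
      have b3 : 1000 * D.n ^ 2 ≤ D.n ^ 3 := by
        have : 0 ≤ D.n ^ 2 := by positivity
        nlinarith
      nlinarith
  have hx2 : ∀ x ∈ Bx D, ∀ i : Fin 3, i ≠ 2 →
      pd i D.S x ^ 2 ≤ D.n ^ 3 ∧ |pd i D.S x| ≤ D.n ^ 2 * |x i| := fun x hx i hi => by
    obtain ⟨e, b, -⟩ := d7s_lat h hb hx hi
    have a := d7s_abs (hB.pd i) x
    have a' := d7s_mvt hB hi x
    have t1 : |pd i D.S x| ≤ |x i| + |pd i (d7sB D) x| := by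
      rw [e]
      exact abs_sub _ _
    refine ⟨?_, ?_⟩
    · have t2 : |pd i D.S x| ≤ (C + 1) * D.n := by linarith
      have t3 : pd i D.S x ^ 2 ≤ ((C + 1) * D.n) ^ 2 := by
        rw [← sq_abs]
        exact pow_le_pow_left₀ (abs_nonneg _) t2 2
      have t4 : (C + 1) ^ 2 * D.n ^ 2 ≤ D.n * D.n ^ 2 :=
        mul_le_mul_of_nonneg_right hn (by positivity)
      nlinarith
    · have t2 : 1 + C * D.n ≤ D.n ^ 2 := by nlinarith
      have t3 := mul_le_mul_of_nonneg_right t2 (abs_nonneg (x i))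
      nlinarith
  refine ⟨hz, hx2, fun x hx h2 i hi => ?_, fun x hx k => ?_⟩
  · obtain ⟨e, -, e'⟩ := d7s_lat h hb hx hi
    rw [e, d7s_pdB, e', bmp_zero (by rw [abs_of_nonneg (by linarith)]; linarith)]
    ring
  · have hR := hb.R_ge
    have n3 : 1 ≤ D.n ^ 3 := one_le_pow₀ n1
    have R1 : 1 ≤ D.R := by linarith
    by_cases hk : k = 2
    · subst hk
      have z0 : 0 ≤ x 2 := hb.za_pos.le.trans hx.2.2.1
      have a := abs_le.1 (hz x hx)
      have hP := Ph_mem h hb z0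
      have hc := ch_mem h hb (x 2)
      have b0 : 0 ≤ (1 + D.ch (x 2)) * x 2 := mul_nonneg (by linarith [hc.1]) z0
      have b1 : D.n ^ 8 ≤ (D.n ^ 3) ^ 3 := by
        rw [← pow_mul]
        exact pow_le_pow_right₀ n1 (by norm_num)
      have b2 : (D.n ^ 3) ^ 3 ≤ (D.R / 20) ^ 3 := pow_le_pow_left₀ (by linarith) (by linarith) 3
      have b3 : 1 ≤ D.n ^ 8 := one_le_pow₀ n1
      have b4 : 1 + D.ch (x 2) ≤ D.R ^ 3 / 4000 := by nlinarith [hc.2]
      have b5 : (1 + D.ch (x 2)) * x 2 ≤ D.R ^ 3 / 4000 * (2 * D.R) :=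
        mul_le_mul b4 (by linarith [hx.2.2.2]) z0 (by positivity)
      have b6 : 0 ≤ D.R ^ 4 := by positivity
      rw [abs_le]
      constructor <;> nlinarith [hP.1, hP.2]
    · have a := (hx2 x hx k hk).2
      have b := (d7s_lat h hb hx hk).2.1
      have c1 : D.n ^ 2 * |x k| ≤ D.n ^ 2 * D.n :=
        mul_le_mul_of_nonneg_left (by linarith) (by positivity)
      have c2 : D.R ≤ D.R ^ 4 := le_self_pow₀ R1 (by norm_num)
      nlinarith

end Vale.Agent.P363.D7
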