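import Vale.Agent.P363.D7B
import Vale.Agent.P363.D7P

/-!
Part D7: the lower bound on the shell.  With `r = nrm x`, `ρ ^ 2 = rho2 x = (r - z) (r + z)`:
`2 R ^ 2 (z / r - 1) ≤ -ρ ^ 2 / 2` (`2 r (r - z) ≥ ρ ^ 2`, `r ^ 2 ≤ 2 R ^ 2`).  `sh_neg`: if `z ≤ 0` the exponent is at
most `-2 R ^ 2` and `x y ≤ r ^ 2 ≤ P`; if `ρ ≥ n / 4` it is at most `-n ^ 2 / 32`.  Otherwise `z > 0`, `ρ < n / 4`, so
`R - 1 ≤ z ≤ r < R + 1 / 2` and the point is in `Pl`.  `sh_main`: `S = r ^ 2 / 2 + 7 n ≤ R ^ 2 / 2 + 1 + 7 n`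
(`Des.OK.S_far`), `1 ≤ s ≤ 4 log R ≤ n ^ (1 / 4) / 50`, `hk_ge` twice, `A0 s ≥ -13 log s - 8 √n s`, `log s ≤ s`,
`1 + ell ^ 2 + 23 √n s ≤ n ^ (3 / 4)` (`Real.sqrt_eq_rpow`, `Real.rpow_add`).
-/

namespace Vale.Agent.P363.D7

open Vale.Agent.P370
open scoped Topology ContDiff

variable {D : Des} {t t1 t2 : ℝ → ℝ} {χ : Pt → ℝ}

theorem d7sh_geo (hb : Big D) {x : Pt} (hx : x ∈ Sh D.R (1 / 4) (3 / 4)) :
    20 ≤ D.R ∧ D.R ≤ nrm x ∧ nrm x < D.R + 1 / 2 ∧ nrm x ^ 2 ≤ D.R ^ 2 + 2 ∧ x 2 ≤ nrm x ∧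
      2 * D.R ^ 2 * (x 2 / nrm x - 1) ≤ -(rho2 x / 2) := by
  have hR : 20 ≤ D.R := le_trans (le_trans (by norm_num) hb.n_ge) hb.n_le
  have hR0 : 0 < D.R := by linarith
  have h1 : D.R + 1 / 4 / D.R ≤ nrm x := hx.1
  have h2 : nrm x ≤ D.R + 3 / 4 / D.R := hx.2
  have h3 : 0 < 1 / 4 / D.R := by positivity
  have h4 : 0 < 3 / 4 / D.R := by positivity
  have h5 : 3 / 4 / D.R * D.R = 3 / 4 := div_mul_cancel₀ _ hR0.ne'
  have h6 : 3 / 4 / D.R < 1 / 2 := by nlinarith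
  have hr : 0 < nrm x := by linarith
  have h7 : nrm x ^ 2 ≤ D.R ^ 2 + 2 := by
    have := pow_le_pow_left₀ hr.le h2 2
    nlinarith
  have h8 := nrm_sq_eq x
  have h9 : x 2 ≤ nrm x :=
    (abs_le_of_sq_le_sq' (by linarith [rho2_nonneg x] : x 2 ^ 2 ≤ nrm x ^ 2) hr.le).2
  refine ⟨hR, by linarith, by linarith, h7, h9, ?_⟩
  have h10 : nrm x ≤ 2 * D.R ^ 2 / nrm x := (le_div_iff₀ hr).2 (by nlinarith)
  have e : 2 * D.R ^ 2 * (x 2 / nrm x - 1) = -(2 * D.R ^ 2 / nrm x * (nrm x - x 2)) := by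
    field_simp
    ring
  rw [e]
  nlinarith [mul_nonneg (sub_nonneg.2 h10) (sub_nonneg.2 h9), sq_nonneg (nrm x - x 2)]

theorem sh_cases (hb : Big D) {x : Pt} (hx : x ∈ Sh D.R (1 / 4) (3 / 4)) (hQ : x ∈ Qd) :
    x 0 * x 1 * Real.exp (2 * D.R ^ 2 * (x 2 / nrm x - 1)) / D.P ≤ D.sm ∨
      (x ∈ Pl D ∧ D.R - 1 ≤ x 2) := by
  obtain ⟨hR, h1, h2, h3, h4, h5⟩ := d7sh_geo hb hx
  have hn : 32 ≤ D.n := le_trans (by norm_num) hb.n_ge
  have hnR := hb.n_le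
  have h8 := nrm_sq_eq x
  have ha : 0 < x 0 := hQ.1
  have hc : 0 < x 1 := hQ.2
  have key : 2 * D.R ^ 2 * (x 2 / nrm x - 1) ≤ -D.n →
      x 0 * x 1 * Real.exp (2 * D.R ^ 2 * (x 2 / nrm x - 1)) / D.P ≤ D.sm := fun h => by
    have hP : 0 < D.P := Real.exp_pos _
    have a1 : x 0 * x 1 ≤ D.R ^ 2 := by
      unfold rho2 at h8
      nlinarith [sq_nonneg (x 0 - x 1), sq_nonneg (x 2)]
    have a2 : D.R ^ 2 ≤ D.P := (pow_le_pow_right₀ (by linarith) (by norm_num)).trans hb.poly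
    rw [div_le_iff₀ hP, mul_comm D.sm]
    exact mul_le_mul (a1.trans a2) (Real.exp_le_exp.2 h) (Real.exp_pos _).le hP.le
  by_cases c1 : (D.n / 4) ^ 2 ≤ rho2 x
  · exact Or.inl (key (by nlinarith))
  by_cases c2 : x 2 ≤ 0
  · refine Or.inl (key ?_)
    have : x 2 / nrm x ≤ 0 := div_nonpos_of_nonpos_of_nonneg c2 (by linarith)
    nlinarith
  push Not at c1 c2
  have a3 : D.n ^ 2 ≤ D.n ^ 3 := pow_le_pow_right₀ hb.one_le (by norm_num)
  have a4 := hb.R_ge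
  have a5 : D.R - 1 ≤ x 2 := by
    refine (abs_le_of_sq_le_sq' ?_ c2.le).2
    have := pow_le_pow_left₀ (by linarith) h1 2
    nlinarith
  have a6 : za D ≤ 2 := div_le_self zero_le_two (one_le_pow₀ hb.one_le)
  unfold rho2 at c1
  exact Or.inr ⟨⟨abs_lt_of_sq_lt_sq (by nlinarith) (by linarith),
    abs_lt_of_sq_lt_sq (by nlinarith) (by linarith), by linarith, by linarith⟩, a5⟩

theorem sh_main (hD : D.OK) (h : TOK D t t1 t2) (hb : Big D) {x : Pt}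
    (hx : x ∈ Sh D.R (1 / 4) (3 / 4)) (hQ : x ∈ Qd) (hz : D.R - 1 ≤ x 2) :
    D.nu * (x 0 * x 1 * Real.exp (2 * D.R ^ 2 * (x 2 / nrm x - 1)) / D.P) ≤
      D.φ0 x * ww D t x := by
  obtain ⟨hR, h1, h2, h3, h4, h5⟩ := d7sh_geo hb hx
  have ha : 0 < x 0 := hQ.1
  have hc : 0 < x 1 := hQ.2
  have hn := hb.one_le
  have hS : D.S x = 1 / 2 * nrm x ^ 2 + 7 * D.n := by
    refine hD.S_far ?_ (by linarith [hb.Lg_eq])
    exact le_trans (le_trans (by norm_num [Lc]) hb.n_ge) (le_self_pow₀ hn (by norm_num))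
  have s1 := h.top _ hz
  have s2 : t (x 2) ≤ 1 / 50 * D.n ^ (1 / 4 : ℝ) := by
    linarith [h.hi (x 2) (by linarith), hb.logR.2]
  unfold ww W0 Des.φ0 Des.nu Des.P
  generalize t (x 2) = s at s1 s2
  have s0 : 0 < s := by linarith
  have q1 : 1 ≤ √D.n := Real.one_le_sqrt.2 hn
  have q2 : √D.n * D.n ^ (1 / 4 : ℝ) = D.n ^ (3 / 4 : ℝ) := by
    rw [Real.sqrt_eq_rpow, ← Real.rpow_add hb.pos]
    norm_num
  have q3 : √D.n * s ≤ 1 / 50 * D.n ^ (3 / 4 : ℝ) := by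
    rw [← q2]
    nlinarith
  have q4 : s ≤ √D.n * s := by nlinarith
  have q5 : Real.log s ≤ s := (Real.log_le_sub_one_of_pos s0).trans (by linarith)
  have q6 : ell ^ 2 = 10 ^ 32 / 2 := by
    rw [ell_sq]
    norm_num [Lc]
  have q7 := hb.P_ge
  have hA : -(13 * Real.log s) - 8 * (√D.n * s) ≤ A0 D s := by
    unfold A0
    linarith [Real.exp_pos (-(D.n ^ 4 / 2 * (s - t0 D)))]
  have hk1 : ∀ y : ℝ, 0 < y →
      y * Real.exp (-Real.log s - (y ^ 2 + ell ^ 2) / 2) ≤ hk y s := fun y hy => by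
    refine le_trans ?_ (hk_ge s0 hy.le)
    have b1 : 1 ≤ 2 * ell := by nlinarith [ell_pos]
    have b2 : (y ^ 2 + ell ^ 2) / (2 * s) ≤ (y ^ 2 + ell ^ 2) / 2 :=
      div_le_div_of_nonneg_left (by positivity) two_pos (by linarith)
    rw [sub_eq_add_neg, Real.exp_add, Real.exp_neg (Real.log s), Real.exp_log s0, ← mul_assoc]
    refine mul_le_mul ?_ (Real.exp_le_exp.2 (neg_le_neg b2)) (Real.exp_pos _).le
      (by have := ell_pos; positivity)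
    have b3 : 0 < y * s⁻¹ := by positivity
    have b4 : 2 * (y * ell / s) = y * s⁻¹ * (2 * ell) := by ring
    rw [b4]
    nlinarith
  have hk2 := mul_le_mul (hk1 _ ha) (hk1 _ hc) (by positivity) (hk_pos s0 ha).le
  refine le_trans ?_ (mul_le_mul_of_nonneg_left
    (mul_le_mul_of_nonneg_left hk2 (Real.exp_pos _).le) (Real.exp_pos _).le)
  have e1 : ∀ a b c d : ℝ, Real.exp a * (Real.exp b * (x 0 * Real.exp c * (x 1 * Real.exp d))) =
      x 0 * x 1 * Real.exp (a + b + c + d) := fun a b c d => by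
    simp only [Real.exp_add]
    ring
  have e2 : ∀ a b c : ℝ, Real.exp a * (x 0 * x 1 * Real.exp b / Real.exp c) =
      x 0 * x 1 * Real.exp (a + b - c) := fun a b c => by
    simp only [Real.exp_add, Real.exp_sub]
    ring
  rw [e1, e2]
  refine mul_le_mul_of_nonneg_left (Real.exp_le_exp.2 ?_) (by positivity)
  unfold rho2 at h5
  linarith

end Vale.Agent.P363.D7
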