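import Vale.Agent.P363.D7P

/-!
Part D7: the time function.  Put `t1 s = smoothTransition (2 s / za - 1) / (2 Ph s)` (smooth: quotient
for `s > 0`, zero near `s < za / 2`; `contDiff_iff_contDiffAt`), `t z = t0 + ∫ s in za / 2..z, t1 s`,
`t2 = deriv t1`.  For `z ≥ za` the value of `t2` is `-Ph1 / (2 Ph ^ 2)` (uniqueness of the derivative
within `Ici za`, or `HasDerivAt.unique` after `HasDerivWithinAt.congr`), and `(1 + ch z) z ^ 2 ≥ 4`
(`ch_core` for `z ≤ n ^ 3`).  `lo`: `t` is monotone and constant left of `za / 2`.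
`bot`: `t1 ≤ 1 / n ^ 4` everywhere left of `2` (`Ph s ≥ 0.99 n ^ 8 s`, `s ≥ za / 2 = 1 / n ^ 4`).
`hi`: `t z - log z` decreases on `[za / 2, ∞)` (`antitoneOn_of_deriv_nonpos`),
`t0 ≤ 1 ≤ log R` and `(R + 1) n ^ 4 ≤ R ^ 3`.  `top`: `t z - 2 / 5 log z` increases on `[Lg, ∞)`
(`ch_far`), `log 19 ≥ 5 / 2`.
-/

namespace Vale.Agent.P363.D7

open Vale.Agent.P370
open scoped Topology ContDiff

variable {D : Des} {t t1 t2 : ℝ → ℝ} {χ : Pt → ℝ}

/-- The derivative of the time. -/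
noncomputable def d7tA (D : Des) (s : ℝ) : ℝ :=
  Real.smoothTransition (2 * s / za D - 1) / (2 * Ph D s)

/-- The time. -/
noncomputable def d7tT (D : Des) (z : ℝ) : ℝ := t0 D + ∫ s in (za D / 2)..z, d7tA D s

theorem d7t_za (D : Des) : za D / 2 = 1 / D.n ^ 4 := by rw [za]; ring

theorem d7t_Ph_ge (h : D.OK) (hb : Big D) {z : ℝ} (hz : 0 ≤ z) : 99 / 100 * z ≤ Ph D z := by
  have h1 := (Ph_mem h hb hz).1
  have h2 := mul_nonneg (ch_mem h hb z).1 hz
  linarith

theorem d7t_Ph_pos (h : D.OK) (hb : Big D) {z : ℝ} (hz : 0 < z) : 0 < Ph D z :=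
  lt_of_lt_of_le (by positivity) (d7t_Ph_ge h hb hz.le)

theorem d7t_zero (hb : Big D) {s : ℝ} (hs : s ≤ za D / 2) : d7tA D s = 0 := by
  rw [d7tA, Real.smoothTransition.zero_of_nonpos, zero_div]
  rw [sub_nonpos, div_le_one hb.za_pos]
  linarith

theorem d7t_one (hb : Big D) {s : ℝ} (hs : za D ≤ s) : d7tA D s = (2 * Ph D s)⁻¹ := by
  rw [d7tA, Real.smoothTransition.one_of_one_le, one_div]
  rw [le_sub_iff_add_le, le_div_iff₀ hb.za_pos]
  linarith

theorem d7t_cd (h : D.OK) (hb : Big D) : ContDiff ℝ ∞ (d7tA D) := by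
  refine contDiff_iff_contDiffAt.2 fun s => ?_
  by_cases hs : 0 < s
  · refine ContDiffAt.div ?_ (contDiff_const.mul (cd_Ph h)).contDiffAt
      (mul_pos two_pos (d7t_Ph_pos h hb hs)).ne'
    exact (Real.smoothTransition.contDiff.comp
      (((contDiff_const.mul contDiff_id).div_const _).sub contDiff_const)).contDiffAt
  · have h1 : s < za D / 2 := lt_of_le_of_lt (not_lt.1 hs) (half_pos hb.za_pos)
    refine (contDiffAt_const (c := 0)).congr_of_eventuallyEq ?_
    filter_upwards [Iio_mem_nhds h1] with u hu using d7t_zero hb (le_of_lt hu)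

theorem d7t_le (h : D.OK) (hb : Big D) {s : ℝ} (hs : 0 < s) :
    0 ≤ d7tA D s ∧ d7tA D s ≤ 1 / (2 * Ph D s) := by
  have h1 := d7t_Ph_pos h hb hs
  exact ⟨div_nonneg (Real.smoothTransition.nonneg _) (by positivity),
    div_le_div_of_nonneg_right (Real.smoothTransition.le_one _) (by positivity)⟩

theorem d7t_nonneg (h : D.OK) (hb : Big D) (s : ℝ) : 0 ≤ d7tA D s := by
  by_cases hs : 0 < s
  · exact (d7t_le h hb hs).1
  · rw [d7t_zero hb ((not_lt.1 hs).trans (half_pos hb.za_pos).le)]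

theorem d7t_ii (h : D.OK) (hb : Big D) (a b : ℝ) :
    IntervalIntegrable (d7tA D) MeasureTheory.volume a b :=
  (d7t_cd h hb).continuous.intervalIntegrable a b

theorem d7t_left (hb : Big D) {z : ℝ} (hz : z ≤ za D / 2) : d7tT D z = t0 D := by
  rw [d7tT, intervalIntegral.integral_congr (g := fun _ => 0)
    fun u hu => d7t_zero hb (hu.2.trans (max_le le_rfl hz)), intervalIntegral.integral_zero,
    add_zero]

theorem d7t_add (h : D.OK) (hb : Big D) (a b : ℝ) :
    d7tT D b = d7tT D a + ∫ s in a..b, d7tA D s := by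
  rw [d7tT, d7tT, add_assoc,
    intervalIntegral.integral_add_adjacent_intervals (d7t_ii h hb _ _) (d7t_ii h hb _ _)]

theorem d7t_mono (h : D.OK) (hb : Big D) {a b : ℝ} (hab : a ≤ b) : d7tT D a ≤ d7tT D b := by
  rw [d7t_add h hb a b]
  exact le_add_of_nonneg_right
    (intervalIntegral.integral_nonneg hab fun u _ => d7t_nonneg h hb u)

theorem d7t_lo (h : D.OK) (hb : Big D) (z : ℝ) : t0 D ≤ d7tT D z := by
  rw [← d7t_left hb (min_le_right z _)]
  exact d7t_mono h hb (min_le_left _ _)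

theorem d7t_two (hb : Big D) : 2 ≤ D.n ^ 3 :=
  le_trans (le_trans (by norm_num) hb.n_ge) (le_self_pow₀ hb.one_le (by norm_num))

theorem d7t_core (h : D.OK) (hb : Big D) {s : ℝ} (hs : za D / 2 ≤ s) (hs' : s ≤ D.n ^ 3) :
    D.n ^ 4 ≤ 2 * Ph D s := by
  have h0 := hb.pos
  have h1 : 0 < s := (half_pos hb.za_pos).trans_le hs
  have h2 := (Ph_mem h hb h1.le).1
  rw [ch_core h (by rwa [abs_of_pos h1])] at h2
  rw [d7t_za, div_le_iff₀ (by positivity)] at hs
  have h3 : D.n ^ 4 * 1 ≤ D.n ^ 4 * (s * D.n ^ 4) := mul_le_mul_of_nonneg_left hs (by positivity)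
  have h4 : D.n ^ 4 * (s * D.n ^ 4) = D.n ^ 8 * s := by ring
  have h5 : 0 < D.n ^ 4 := by positivity
  nlinarith

theorem d7t_bot (h : D.OK) (hb : Big D) {z : ℝ} (hz : z ≤ 2) : d7tT D z ≤ t0 D + 2 / D.n ^ 4 := by
  have h0 := hb.pos
  have h1 : za D / 2 ≤ 2 := by
    rw [d7t_za, div_le_iff₀ (by positivity)]
    have := one_le_pow₀ (n := 4) hb.one_le
    linarith
  refine (d7t_mono h hb hz).trans (add_le_add le_rfl ?_)
  refine (intervalIntegral.integral_mono_on h1 (d7t_ii h hb _ _)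
    (intervalIntegrable_const (c := 1 / D.n ^ 4)) fun s hs => ?_).trans ?_
  · exact (d7t_le h hb ((half_pos hb.za_pos).trans_le hs.1)).2.trans
      (one_div_le_one_div_of_le (by positivity) (d7t_core h hb hs.1 (hs.2.trans (d7t_two hb))))
  · rw [intervalIntegral.integral_const, smul_eq_mul, mul_one_div]
    exact div_le_div_of_nonneg_right (by linarith [half_pos hb.za_pos]) (by positivity)

theorem d7t_inv {a b : ℝ} (ha : 0 < a) (hab : a ≤ b) (c : ℝ) :
    IntervalIntegrable (fun s : ℝ => c * s⁻¹) MeasureTheory.volume a b ∧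
      ∫ s in a..b, c * s⁻¹ = c * Real.log (b / a) := by
  refine ⟨(ContinuousOn.intervalIntegrable ?_), ?_⟩
  · rw [Set.uIcc_of_le hab]
    exact continuousOn_const.mul (continuousOn_id.inv₀ fun s hs => (ha.trans_le hs.1).ne')
  · rw [intervalIntegral.integral_const_mul, integral_inv_of_pos ha (ha.trans_le hab)]

theorem d7t_hi (h : D.OK) (hb : Big D) {z : ℝ} (hz : z ≤ D.R + 1) :
    d7tT D z ≤ 4 * Real.log D.R := by
  have h0 := hb.pos
  have h1 := hb.one_le
  have hR := hb.n_le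
  have ha := half_pos hb.za_pos
  have h2 : za D / 2 ≤ D.R + 1 := by
    rw [d7t_za]
    have := div_le_one_of_le₀ (one_le_pow₀ (n := 4) hb.one_le) (by positivity)
    linarith
  have h3 : t0 D ≤ 1 := by
    rw [t0, div_le_one (by positivity)]
    have := hb.n_ge
    norm_num [aw] at this ⊢
    linarith
  obtain ⟨i1, e1⟩ := d7t_inv ha h2 1
  have h4 : ∫ s in (za D / 2)..(D.R + 1), d7tA D s ≤ 1 * Real.log ((D.R + 1) / (za D / 2)) := by
    rw [← e1]
    refine intervalIntegral.integral_mono_on h2 (d7t_ii h hb _ _) i1 fun s hs => ?_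
    have k1 : 0 < s := ha.trans_le hs.1
    refine (d7t_le h hb k1).2.trans ?_
    rw [one_mul, ← one_div]
    exact one_div_le_one_div_of_le k1 (by linarith [d7t_Ph_ge h hb k1.le])
  have h5 : (D.R + 1) / (za D / 2) ≤ D.R ^ 3 := by
    rw [d7t_za, div_div_eq_mul_div, div_one]
    have k1 : D.n ^ 2 ≤ D.n ^ 3 := pow_le_pow_right₀ h1 (by norm_num)
    have k2 : 2 * D.n ^ 2 ≤ D.R := by nlinarith [hb.R_ge, sq_nonneg D.n]
    have k3 : (2 * D.n ^ 2) ^ 2 ≤ D.R ^ 2 := pow_le_pow_left₀ (by positivity) k2 2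
    calc (D.R + 1) * D.n ^ 4 ≤ (4 * D.R) * D.n ^ 4 :=
          mul_le_mul_of_nonneg_right (by linarith) (by positivity)
      _ = D.R * (2 * D.n ^ 2) ^ 2 := by ring
      _ ≤ D.R * D.R ^ 2 := mul_le_mul_of_nonneg_left k3 (by linarith)
      _ = D.R ^ 3 := by ring
  have h6 := Real.log_le_log (div_pos (by linarith) ha) h5
  rw [Real.log_pow] at h6
  have h7 := hb.logR.1
  refine (d7t_mono h hb hz).trans ?_
  push_cast at h6
  unfold d7tT
  linarith

theorem d7t_log : 5 / 2 ≤ Real.log 19 := by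
  rw [Real.le_log_iff_exp_le (by norm_num)]
  have h1 := Real.exp_one_lt_d9
  have h2 : Real.exp (5 / 2) ^ 2 = Real.exp 1 ^ 5 := by
    rw [← Real.exp_nat_mul, ← Real.exp_nat_mul]
    norm_num
  have h3 : Real.exp 1 ^ 5 ≤ 3 ^ 5 := pow_le_pow_left₀ (Real.exp_pos 1).le (by linarith) 5
  exact (abs_le_of_sq_le_sq' (by rw [h2]; linarith) (by norm_num)).2

theorem d7t_za_le (hb : Big D) : za D ≤ D.n ^ 3 :=
  (div_le_self zero_le_two (one_le_pow₀ hb.one_le)).trans (d7t_two hb)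

theorem d7t_top (h : D.OK) (hb : Big D) {z : ℝ} (hz : D.R - 1 ≤ z) : 1 ≤ d7tT D z := by
  have h1 : 2 ≤ D.Lg := (d7t_two hb).trans hb.Ls_le
  have h2 := hb.Lg_eq
  have h3 : D.Lg ≤ 19 * D.Lg := by linarith
  obtain ⟨i1, e1⟩ := d7t_inv (by linarith) h3 (2 / 5)
  have h4 : ∫ s in D.Lg..(19 * D.Lg), 2 / 5 * s⁻¹ ≤ ∫ s in D.Lg..(19 * D.Lg), d7tA D s := by
    refine intervalIntegral.integral_mono_on h3 i1 (d7t_ii h hb _ _) fun s hs => ?_
    have k1 : 0 < s := by linarith [hs.1]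
    have k2 := (Ph_mem h hb k1.le).2
    rw [ch_far h (by rw [abs_of_pos k1]; exact hs.1)] at k2
    rw [d7t_one hb ((d7t_za_le hb).trans (hb.Ls_le.trans hs.1)), ← one_div (2 * _),
      ← div_eq_mul_inv, div_le_div_iff₀ k1 (mul_pos two_pos (d7t_Ph_pos h hb k1))]
    linarith
  rw [e1, mul_div_cancel_right₀ _ (by linarith)] at h4
  have h5 := d7t_add h hb D.Lg (19 * D.Lg)
  have h6 := d7t_mono h hb (show 19 * D.Lg ≤ z by linarith)
  have h7 := d7t_lo h hb D.Lg
  have h8 : 0 ≤ t0 D := le_trans (by have := hb.pos; positivity) hb.t0_ge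
  linarith [d7t_log]

theorem d7t_four (h : D.OK) (hb : Big D) {z : ℝ} (hz : za D ≤ z) : 4 ≤ (1 + D.ch z) * z ^ 2 := by
  have h0 := hb.pos
  have h1 : 0 < z := hb.za_pos.trans_le hz
  rcases le_total z (D.n ^ 3) with h2 | h2
  · rw [ch_core h (by rwa [abs_of_pos h1])]
    rw [za, div_le_iff₀ (by positivity)] at hz
    have h3 : 2 ^ 2 ≤ (z * D.n ^ 4) ^ 2 := pow_le_pow_left₀ zero_le_two hz 2
    have h4 : (z * D.n ^ 4) ^ 2 = D.n ^ 8 * z ^ 2 := by ring
    nlinarith [sq_nonneg z]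
  · have h3 : 2 ^ 2 ≤ z ^ 2 := pow_le_pow_left₀ zero_le_two ((d7t_two hb).trans h2) 2
    nlinarith [mul_nonneg (ch_mem h hb z).1 (sq_nonneg z)]

theorem d7t_d2 (h : D.OK) (hb : Big D) {z : ℝ} (hz : za D ≤ z) :
    deriv (d7tA D) z = -(2 * Ph1 D z) / (2 * Ph D z) ^ 2 := by
  have h1 := d7t_Ph_pos h hb (hb.za_pos.trans_le hz)
  have h2 : HasDerivAt (fun s => (2 * Ph D s)⁻¹) (-(2 * Ph1 D z) / (2 * Ph D z) ^ 2) z :=
    ((Ph_deriv h z).const_mul 2).inv (by positivity)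
  have h3 : HasDerivWithinAt (d7tA D) (-(2 * Ph1 D z) / (2 * Ph D z) ^ 2) (Set.Ici z) z :=
    h2.hasDerivWithinAt.congr (fun s hs => d7t_one hb (hz.trans hs)) (d7t_one hb hz)
  exact (uniqueDiffWithinAt_Ici z).eq_deriv _
    (((d7t_cd h hb).differentiable (by simp) z).hasDerivAt.hasDerivWithinAt) h3

theorem exists_t (h : D.OK) (hb : Big D) : ∃ t t1 t2, TOK D t t1 t2 := by
  have h0 := hb.pos
  have hc := d7t_cd h hb
  refine ⟨d7tT D, d7tA D, deriv (d7tA D), fun z => ?_,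
    fun z => (hc.differentiable (by simp) z).hasDerivAt, ?_, d7t_lo h hb,
    fun z => d7t_bot h hb, fun z => d7t_hi h hb, fun z => d7t_top h hb, fun z hz => ?_,
    fun z hz => ⟨d7t_nonneg h hb z, ?_⟩, fun z hz => ?_⟩
  · exact (hc.continuous.integral_hasStrictDerivAt _ z).hasDerivAt.const_add _
  · exact (contDiff_const.add (ma_prim hc _)).of_le (WithTop.coe_le_coe.2 (le_top (a := (2 : ℕ∞))))
  · have h1 := d7t_Ph_pos h hb (hb.za_pos.trans_le hz)
    rw [d7t_one hb hz]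
    field_simp
  · have h1 : 0 < z := hb.za_pos.trans_le hz
    refine (d7t_le h hb h1).2.trans (one_div_le_one_div_of_le (by positivity) ?_)
    rcases le_total z (D.n ^ 3) with h2 | h2
    · exact (pow_le_pow_right₀ hb.one_le (by norm_num)).trans
        (d7t_core h hb ((half_le_self hb.za_pos.le).trans hz) h2)
    · linarith [d7t_Ph_ge h hb h1.le]
  · have h1 : 0 < z := hb.za_pos.trans_le hz
    have h2 := d7t_Ph_pos h hb h1
    have h3 := Ph1_mem h hb z
    have h4 := (Ph_mem h hb h1.le).1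
    have h5 := d7t_four h hb hz
    have h6 : 0 ≤ 1 + D.ch z := by linarith [(ch_mem h hb z).1]
    have h7 : (99 / 100 * ((1 + D.ch z) * z)) ^ 2 ≤ Ph D z ^ 2 :=
      pow_le_pow_left₀ (by positivity) h4 2
    have h8 := mul_le_mul_of_nonneg_left h5 h6
    rw [d7t_d2 h hb hz]
    refine ⟨?_, div_nonpos_of_nonpos_of_nonneg (by linarith [h3.1]) (sq_nonneg _)⟩
    rw [le_div_iff₀ (by positivity)]
    nlinarith [h3.2]

end Vale.Agent.P363.D7
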