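import Vale.Agent.P370.DefsH

/-!
Statement-level definitions for P363: ground states of a quadratic form, the noninteracting form,
the class of potentials, one-body densities and ensemble representability.
-/

namespace Vale.Agent.P363

open MeasureTheory Vale.Agent.P370

/-- The quadratic form of the noninteracting Hamiltonian `H_s(v)`. -/
noncomputable def formS {N : ℕ} (v : Pt → ℝ) (Ψ : Wave N) (G : Grad N) : ℝ :=
  ∑ s, ((1 / 2) * (∑ i, ∑ k, ∫ x, ‖G s i k x‖ ^ 2) + ∑ i, ∫ x, v (x i) * ‖Ψ s x‖ ^ 2)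

/-- Normalised ground states: normalised minimisers of the form `Q` on the form domain. -/
def IsGround {N : ℕ} (Q : Wave N → Grad N → ℝ) (Ψ : Wave N) : Prop :=
  ∃ G, Dom Ψ G ∧ normSq Ψ = 1 ∧ ∀ Φ H, Dom Φ H → normSq Φ = 1 → Q Ψ G ≤ Q Φ H

/-- The class `L^{3/2} + L^∞` of real potentials. -/
def InV (v : Pt → ℝ) : Prop :=
  ∃ v₁ v₂ : Pt → ℝ, MemLp v₁ (3 / 2) ∧ MemLp v₂ ⊤ ∧ ∀ x, v x = v₁ x + v₂ x

/-- The spin-summed one-body density of a state of `n + 1` electrons. -/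
noncomputable def dens {n : ℕ} (Ψ : Wave (n + 1)) (x : Pt) : ℝ :=
  ∑ s, ∑ i : Fin (n + 1), ∫ y : Fin n → Pt, ‖Ψ s (i.insertNth x y)‖ ^ 2

/-- `ρ` is the density of a mixture of normalised `(n + 1)`-electron ground states of `H_s(v)` for
some `v` in `L^{3/2} + L^∞`. -/
def Repr (n : ℕ) (ρ : Pt → ℝ) : Prop :=
  ∃ v, InV v ∧ ∃ (p : ℕ → ℝ) (Φ : ℕ → Wave (n + 1)), (∀ k, 0 ≤ p k) ∧ HasSum p 1 ∧
    (∀ k, IsGround (formS v) (Φ k)) ∧ ∀ᵐ x, ρ x = ∑' k, p k * dens (Φ k) x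

end Vale.Agent.P363
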