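import Vale.Agent.P363.Basic

/-!
The explicit design: reference state `φ0 = exp (-S)`, smooth potential `U`, orbitals, weight.
-/

namespace Vale.Agent.P363

open MeasureTheory Vale.Agent.P370
open scoped ContDiff

noncomputable section

/-- Slowness parameter. -/
def del : ℝ := 1 / 10 ^ 6

/-- A slowly varying anisotropy: `Ω` near the origin, zero far out, a function of the height in a
tube around the axis. -/
structure Slow (Ω L Lg : ℝ) (c : Pt → ℝ) (ch : ℝ → ℝ) : Prop where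
  smooth : ContDiff ℝ ∞ c
  smooth' : ContDiff ℝ ∞ ch
  nonneg : ∀ x, 0 ≤ c x
  le : ∀ x, c x ≤ Ω
  core : ∀ x, nrm x ≤ L → c x = Ω
  out : ∀ x, Lg ≤ nrm x → c x = 0
  even : ∀ i x, c (rf i x) = c x
  der : ∀ j : ℕ, 1 ≤ j → j ≤ 4 → ∀ x,
    ‖iteratedFDeriv ℝ j c x‖ ≤ del * (1 + c x) / (L + nrm x) ^ j
  tube : ∀ x : Pt, x 0 ^ 2 + x 1 ^ 2 ≤ (L / 2) ^ 2 → c x = ch (x 2)
  L_le : L ≤ Lg

/-- Rotated coordinate. -/
def pc (x : Pt) : ℝ := (x 0 + x 1) / √2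
/-- Rotated coordinate. -/
def qc (x : Pt) : ℝ := (x 0 - x 1) / √2
/-- Centres of the wells in rotated coordinates. -/
def ctr : Fin 5 → ℝ × ℝ := ![(0, 0), (Lc, 0), (0, -Lc), (-Lc, 0), (0, Lc)]
/-- Coordinate along a link. -/
def lon (a : Fin 5) (x : Pt) : ℝ := ![0, pc x, -qc x, -pc x, qc x] a
/-- Coordinate across a link. -/
def tra (a : Fin 5) (x : Pt) : ℝ := ![0, qc x, pc x, qc x, pc x] a
/-- Square plateau function around a centre. -/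
def sqb (h : ℝ) (a : Fin 5) (x : Pt) : ℝ := bmp h (pc x - (ctr a).1) * bmp h (qc x - (ctr a).2)
/-- The cross formed by the links. -/
def crs (x : Pt) : ℝ :=
  (1 - (1 - bmp (aw + 1) (pc x)) * (1 - bmp (aw + 1) (qc x))) * sqb (Lc + aw + 1) 0 x
/-- Logarithmic weight: seven on the wells, one on the links, zero outside. -/
def dd (x : Pt) : ℝ := crs x + 6 * ∑ a, sqb aw a x
/-- Squared distance from the axis. -/
def rho2 (x : Pt) : ℝ := x 0 ^ 2 + x 1 ^ 2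
/-- The region of a well. -/
def Aw (a : Fin 5) : Set Pt :=
  {x | |pc x - (ctr a).1| ≤ aw + 1 ∧ |qc x - (ctr a).2| ≤ aw + 1 ∧ |x 2| ≤ 1 / 2}
/-- Ramp along a link. -/
def rmp (t : ℝ) : ℝ :=
  (∫ u in (0 : ℝ)..t, bmp (Lc / 2 - aw - 3) (u - Lc / 2)) /
    ∫ u in (0 : ℝ)..Lc, bmp (Lc / 2 - aw - 3) (u - Lc / 2)
/-- Outer cutoff of the smooth orbitals. -/
def Xi (x : Pt) : ℝ := sqb (Lc + aw + 3) 0 x * bmp 2 (4 * x 2)
/-- Profile of a corner orbital (zero for the hub). -/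
def th1 (a : Fin 5) (x : Pt) : ℝ := rmp (lon a x) * bmp (aw + 3) (tra a x) * Xi x
/-- Profiles of the smooth orbitals. -/
def th (a : Fin 5) (x : Pt) : ℝ := if a = 0 then Xi x - ∑ b, th1 b x else th1 a x
/-- Bump on the hub. -/
def hub (x : Pt) : ℝ := sqb (aw + 2) 0 x * bmp 1 (x 2)
/-- The one-body form of the links. -/
def K0 (c : Fin 5 → ℝ) : ℝ := 1 / 4 * ∑ i : Fin 4, (c i.succ - c 0) ^ 2
/-- Potential of the uniform ball of density `3 / (4 π)`. -/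
def ub (R : ℝ) (x : Pt) : ℝ :=
  if nrm x ≤ R then 1 / 2 * nrm x ^ 2 - 3 / 2 * R ^ 2 else -(R ^ 3 / nrm x)
/-- Zero up to `K`, then of slope `1 - K / s`. -/
def gK (K s : ℝ) : ℝ := ∫ u in (0 : ℝ)..s, (1 - K / max u K)
/-- The identity up to `s₁`, then frozen. -/
def frz (s₁ s : ℝ) : ℝ := s₁ + ∫ u in s₁..s, (1 - Real.smoothTransition (u - s₁))

/-- Design data. -/
structure Des where
  /-- the large parameter -/
  n : ℝ
  /-- radius beyond which everything is radial -/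
  Lg : ℝ
  /-- anisotropy -/
  c : Pt → ℝ
  /-- anisotropy in the tube -/
  ch : ℝ → ℝ

namespace Des

variable (D : Des)

/-- Confinement. -/
def Om : ℝ := D.n ^ 8
/-- Scale of the anisotropy. -/
def Ls : ℝ := D.n ^ 3
/-- Radius of the ball. -/
def R : ℝ := 20 * D.Lg
/-- Small unit. -/
def sm : ℝ := Real.exp (-D.n)
/-- Coupling. -/
def lam : ℝ := Real.exp (-(12 * D.n)) / aw
/-- Subexponential bound. -/
def P : ℝ := Real.exp (D.n ^ (3 / 4 : ℝ))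
/-- Threshold of the weight. -/
def Kp : ℝ := 20 * Real.log D.n
/-- Standing hypothesis. -/
def OK : Prop := Slow D.Om D.Ls D.Lg D.c D.ch
/-- Lateral correction of the action. -/
def Dt (x : Pt) : ℝ := D.n * dd x + 1 / 2 * rho2 x * sqb (2 * Lc) 0 x
/-- Vertical action. -/
def Zf (x : Pt) : ℝ := 1 / 2 * (1 + D.c x) * x 2 ^ 2
/-- Lateral action. -/
def Yf (x : Pt) : ℝ := 1 / 2 * rho2 x - bmp 1 (x 2) * D.Dt x
/-- The action. -/
def S (x : Pt) : ℝ := D.Zf x + D.Yf x + 7 * D.n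
/-- The reference state. -/
def φ0 (x : Pt) : ℝ := Real.exp (-D.S x)
/-- Extra potential outside the core. -/
def Gam (x : Pt) : ℝ := √D.n * (1 - sqb (2 * Lc - 1) 0 x * bmp 3 (4 * x 2))
/-- Level of the reference state. -/
def E1 : ℝ := -(3 / 2 * D.R ^ 2) + 3 / 2 - √D.n
/-- `Δ φ0 / (2 φ0)`. -/
def Vref (x : Pt) : ℝ := 1 / 2 * gsq D.S x - 1 / 2 * lap D.S x
/-- Compactly supported correction of the potential of the ball. -/
def F (x : Pt) : ℝ := D.Vref x + D.Gam x - √D.n + 3 / 2 - 1 / 2 * ∑ k, x k ^ 2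
/-- The smooth potential; it equals `E1 + Vref + Gam` in the ball. -/
def U (x : Pt) : ℝ := ub D.R x + D.F x
/-- Mass of a well. -/
def mass (a : Fin 5) : ℝ := ∫ x in Aw a, D.φ0 x ^ 2
/-- Sharp orbitals. -/
def φ (a : Fin 5) : Pt → ℝ := (Aw a).indicator fun x => D.φ0 x / √(D.mass a)
/-- Smooth orbitals. -/
def η (a : Fin 5) (x : Pt) : ℝ := D.φ0 x * th a x / √(D.mass a)
/-- Smooth orbitals with disjoint supports. -/
def ηt (a : Fin 5) (x : Pt) : ℝ := D.φ0 x * (sqb (aw + 1) a x * bmp 2 (4 * x 2)) / √(D.mass a)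
/-- Freezing level of the weight. -/
def s1 : ℝ := 7 * D.n + 1 / 2 * (D.R + 1 / D.R) ^ 2
/-- Agmon weight. -/
def G (x : Pt) : ℝ := frz D.s1 (gK D.Kp (D.Zf x) + D.Yf x + 7 * D.n)
/-- Size of the reference state at the boundary of the ball. -/
def nu : ℝ := Real.exp (-(7 * D.n) - D.R ^ 2 / 2)
/-- Allowed region. -/
def N : Set Pt := {x | |pc x| ≤ 2 * Lc ∧ |qc x| ≤ 2 * Lc ∧ (1 + D.Om) * x 2 ^ 2 ≤ 2 * D.Kp}

end Des

/-- Plateau of the first corner well. -/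
def Apl : Set Pt := {x | |pc x - Lc| ≤ aw ∧ |qc x| ≤ aw}

/-- Holds for all designs with large parameter and polynomial size. -/
def Ev (p : Des → Prop) : Prop :=
  ∀ C₀ : ℕ, ∃ n₀ : ℝ, ∀ D : Des, n₀ ≤ D.n → D.OK → D.Lg ≤ D.n ^ C₀ → p D

theorem Ev.and {p q : Des → Prop} (hp : Ev p) (hq : Ev q) : Ev fun D => p D ∧ q D := fun C => by
  obtain ⟨a, ha⟩ := hp C
  obtain ⟨b, hb⟩ := hq C
  exact ⟨max a b, fun D h h1 h2 =>
    ⟨ha D ((le_max_left _ _).trans h) h1 h2, hb D ((le_max_right _ _).trans h) h1 h2⟩⟩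

theorem Ev.mono {p q : Des → Prop} (hp : Ev p) (h : ∀ D, D.OK → p D → q D) : Ev q := fun C =>
  (hp C).imp fun _ ha D h0 h1 h2 => h D h1 (ha D h0 h1 h2)

/-- One-body facts for the smooth potential `U` at level `E`; `B` is a subexponential bound. -/
structure OBU (U : Pt → ℝ) (lam E B : ℝ) (φ η ηt : Fin 5 → Pt → ℝ) : Prop where
  pos : ∀ ψ, C1c ψ → E * (∫ x, ψ x ^ 2) ≤ qV U ψ
  low : ∀ ψ, C1c ψ → (E - tol / 10 * (lam / Lc)) * (∫ x, ψ x ^ 2) + lam / Lc * K0 (co5 φ ψ) +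
    2 * gam * ((∫ x, ψ x ^ 2) - ∑ a, co5 φ ψ a ^ 2) ≤ qV U ψ
  up : ∀ c : Fin 5 → ℝ, qV U (lc5 η c) ≤
    E * (∫ x, lc5 η c x ^ 2) + lam / Lc * K0 c + tol / 10 * (lam / Lc) * ∑ a, c a ^ 2
  closeη : ∀ a, ∫ x, (η a x - φ a x) ^ 2 ≤ B * lam
  smooth : ∀ a, ContDiff ℝ ∞ (ηt a) ∧ HasCompactSupport (ηt a)
  disj : ∀ a b x, a ≠ b → ηt a x * ηt b x = 0
  sym : ∀ i : Fin 3, i ≠ 2 → ∀ a x, ηt (pr i a) (rf i x) = ηt a x
  close : ∀ a, ∫ x, (ηt a x - φ a x) ^ 2 ≤ B * lam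
  en : ∀ a, qV U (ηt a) ≤ E * (∫ x, ηt a x ^ 2) + B * lam
  h1 : ∀ a, (∫ x, gsq (ηt a) x) + ∫ x, ηt a x ^ 2 ≤ B
  supp : ∀ a x, ηt a x ≠ 0 →
    |pc x - (ctr a).1| ≤ aw + 2 ∧ |qc x - (ctr a).2| ≤ aw + 2 ∧ |x 2| ≤ 1
  suppη : ∀ a x, η a x ≠ 0 → nrm x ≤ 3 * Lc

/-- Output of the discretisation of the potential `ub R + F`. -/
structure Disc (R L lam ε : ℝ) (F : Pt → ℝ) (pts : List Pt) (Z : ℝ) (W₁ W₂ : Pt → ℝ) : Prop where
  ne : pts ≠ []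
  sym : ∀ i : Fin 3, i ≠ 2 → ∀ x, vp pts lam (rf i x) = vp pts lam x
  split : ∀ x, vp pts lam x = ub R x + F x + W₁ x + W₂ x
  small : Small W₁ ε
  meas : Measurable W₂
  W2 : ∀ x, 0 ≤ W₂ x ∧ W₂ x ≤ 1
  core : ∀ x, nrm x ≤ L → W₂ x = 0
  Z_eq : |Z - R ^ 3| ≤ 1 / 2
  vac : ∀ x, R + 1 / 8 / R ≤ nrm x →
    |vp pts lam x + Z / nrm x| ≤ 1 / 2 / nrm x ^ 2 ∧ vp pts lam x ≤ ub R x + 1

end

end Vale.Agent.P363
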