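import Vale.Agent.P363.DesA

/-! Shared facts about the design: values. -/

namespace Vale.Agent.P363

open MeasureTheory Vale.Agent.P370
open scoped ContDiff

/-! ### Values -/

theorem aw_pos : 0 < aw := by unfold aw; norm_num
theorem Lc_pos : 0 < Lc := by unfold Lc; norm_num
theorem aw_Lc : 100 * aw + 100 ≤ Lc := by unfold aw Lc; norm_num
theorem sqb_nonneg (h : ℝ) (a : Fin 5) (x : Pt) : 0 ≤ sqb h a x :=
  mul_nonneg (bmp_nonneg _ _) (bmp_nonneg _ _)
theorem sqb_le_one (h : ℝ) (a : Fin 5) (x : Pt) : sqb h a x ≤ 1 :=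
  mul_le_one₀ (bmp_le_one _ _) (bmp_nonneg _ _) (bmp_le_one _ _)
theorem sqb_one {h : ℝ} {a : Fin 5} {x : Pt} (hp : |pc x - (ctr a).1| ≤ h)
    (hq : |qc x - (ctr a).2| ≤ h) : sqb h a x = 1 := by rw [sqb, bmp_one hp, bmp_one hq, one_mul]
theorem sqb_zero {h : ℝ} {a : Fin 5} {x : Pt}
    (hp : h + 1 ≤ |pc x - (ctr a).1| ∨ h + 1 ≤ |qc x - (ctr a).2|) : sqb h a x = 0 := by
  rcases hp with hp | hp <;> rw [sqb, bmp_zero hp] <;> simp
theorem sqb0_one {h : ℝ} {x : Pt} (hp : |pc x| ≤ h) (hq : |qc x| ≤ h) : sqb h 0 x = 1 :=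
  sqb_one (by simpa [ctr] using hp) (by simpa [ctr] using hq)
theorem sqb0_zero {h : ℝ} {x : Pt} (hp : h + 1 ≤ |pc x| ∨ h + 1 ≤ |qc x|) : sqb h 0 x = 0 :=
  sqb_zero (by simpa [ctr] using hp)
theorem crs_mem (x : Pt) : 0 ≤ crs x ∧ crs x ≤ 1 := by
  have a1 := bmp_nonneg (aw + 1) (pc x)
  have a2 := bmp_le_one (aw + 1) (pc x)
  have b1 := bmp_nonneg (aw + 1) (qc x)
  have b2 := bmp_le_one (aw + 1) (qc x)
  have c1 : 0 ≤ (1 - bmp (aw + 1) (pc x)) * (1 - bmp (aw + 1) (qc x)) :=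
    mul_nonneg (by linarith) (by linarith)
  have c2 : (1 - bmp (aw + 1) (pc x)) * (1 - bmp (aw + 1) (qc x)) ≤ 1 :=
    mul_le_one₀ (by linarith) (by linarith) (by linarith)
  exact ⟨mul_nonneg (by linarith) (sqb_nonneg _ _ _),
    mul_le_one₀ (by linarith) (sqb_nonneg _ _ _) (sqb_le_one _ _ _)⟩
theorem crs_one {x : Pt} (h : |pc x| ≤ aw + 1 ∨ |qc x| ≤ aw + 1) (hp : |pc x| ≤ Lc + aw + 1)
    (hq : |qc x| ≤ Lc + aw + 1) : crs x = 1 := by
  rw [crs, sqb0_one hp hq]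
  rcases h with h | h <;> rw [bmp_one h] <;> ring
/-- Different centres are far apart in one of the coordinates. -/
theorem ctr_far {a b : Fin 5} (h : a ≠ b) :
    Lc ≤ |(ctr a).1 - (ctr b).1| ∨ Lc ≤ |(ctr a).2 - (ctr b).2| := by
  have := Lc_pos
  have e : |Lc| = Lc := abs_of_pos this
  have e2 : Lc ≤ |Lc + Lc| := by rw [abs_of_pos (by linarith)]; linarith
  have e3 : Lc ≤ |-Lc - Lc| := by rw [abs_of_neg (by linarith)]; linarith
  fin_cases a <;> fin_cases b <;> simp [ctr, e, e2, e3] at h ⊢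
/-- Near one centre the plateau functions of the other centres vanish. -/
theorem sqb_other {a b : Fin 5} (hab : a ≠ b) {h t : ℝ} (ht : t + h + 1 ≤ Lc) {x : Pt}
    (hp : |pc x - (ctr a).1| ≤ t) (hq : |qc x - (ctr a).2| ≤ t) : sqb h b x = 0 := by
  refine sqb_zero ((ctr_far hab).imp (fun k => ?_) fun k => ?_)
  · have := abs_sub_le (ctr a).1 (pc x) (ctr b).1
    rw [abs_sub_comm (ctr a).1 (pc x)] at this
    linarith
  · have := abs_sub_le (ctr a).2 (qc x) (ctr b).2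
    rw [abs_sub_comm (ctr a).2 (qc x)] at this
    linarith
theorem ctr_bd (a : Fin 5) :
    ((ctr a).1 = 0 ∨ (ctr a).2 = 0) ∧ |(ctr a).1| ≤ Lc ∧ |(ctr a).2| ≤ Lc := by
  have := Lc_pos
  have e : |Lc| = Lc := abs_of_pos this
  fin_cases a <;> simp [ctr, e, this.le]
/-- Near a centre only one plateau function contributes. -/
theorem dd_near {a : Fin 5} {x : Pt} (hp : |pc x - (ctr a).1| ≤ aw + 1)
    (hq : |qc x - (ctr a).2| ≤ aw + 1) : dd x = 1 + 6 * sqb aw a x := by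
  obtain ⟨h1, h2, h3⟩ := ctr_bd a
  have p1 := abs_sub_abs_le_abs_sub (pc x) (ctr a).1
  have q1 := abs_sub_abs_le_abs_sub (qc x) (ctr a).2
  rw [dd, crs_one (h1.imp (fun e => by simpa [e] using hp) fun e => by simpa [e] using hq)
    (by linarith) (by linarith), Finset.sum_eq_single a
    (fun b _ hb => sqb_other hb.symm (by linarith [aw_Lc, aw_pos]) hp hq) (by simp)]
theorem dd_le_one {x : Pt}
    (h : ∀ a, aw + 1 ≤ |pc x - (ctr a).1| ∨ aw + 1 ≤ |qc x - (ctr a).2|) : dd x ≤ 1 := by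
  rw [dd, Finset.sum_eq_zero fun a _ => sqb_zero (h a)]
  linarith [(crs_mem x).2]
theorem dd_mem (x : Pt) : 0 ≤ dd x ∧ dd x ≤ 7 := by
  refine ⟨add_nonneg (crs_mem x).1 (mul_nonneg (by norm_num)
    (Finset.sum_nonneg fun a _ => sqb_nonneg _ _ _)), ?_⟩
  by_cases h : ∀ a, aw + 1 ≤ |pc x - (ctr a).1| ∨ aw + 1 ≤ |qc x - (ctr a).2|
  · linarith [dd_le_one h]
  · push Not at h
    obtain ⟨a, h1, h2⟩ := h
    rw [dd_near h1.le h2.le]
    linarith [sqb_le_one aw a x]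
theorem dd_plateau {a : Fin 5} {x : Pt} (hp : |pc x - (ctr a).1| ≤ aw)
    (hq : |qc x - (ctr a).2| ≤ aw) : dd x = 7 := by
  rw [dd_near (a := a) (by linarith) (by linarith), sqb_one hp hq]; norm_num
theorem one_le_dd {x : Pt} (h : |pc x| ≤ aw + 1 ∨ |qc x| ≤ aw + 1) (hp : |pc x| ≤ Lc + aw + 1)
    (hq : |qc x| ≤ Lc + aw + 1) : 1 ≤ dd x := by
  rw [dd, crs_one h hp hq]
  exact le_add_of_nonneg_right (mul_nonneg (by norm_num)
    (Finset.sum_nonneg fun a _ => sqb_nonneg _ _ _))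
theorem dd_zero {x : Pt} (h : (aw + 2 ≤ |pc x| ∧ aw + 2 ≤ |qc x|) ∨ Lc + aw + 2 ≤ |pc x| ∨
    Lc + aw + 2 ≤ |qc x|) : dd x = 0 := by
  have c : crs x = 0 := by
    rcases h with h | h
    · rw [crs, bmp_zero (a := aw + 1) (by linarith [h.1]),
        bmp_zero (a := aw + 1) (by linarith [h.2])]
      ring
    · rw [crs, sqb0_zero (h.imp (fun _ => by linarith) fun _ => by linarith), mul_zero]
  rw [dd, c, Finset.sum_eq_zero fun a _ => sqb_zero ?_]
  · ring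
  obtain ⟨h1, h2, h3⟩ := ctr_bd a
  have p1 := abs_sub_abs_le_abs_sub (pc x) (ctr a).1
  have q1 := abs_sub_abs_le_abs_sub (qc x) (ctr a).2
  rcases h with h | h | h
  · exact h1.imp (fun e => by rw [e, sub_zero]; linarith [h.1])
      fun e => by rw [e, sub_zero]; linarith [h.2]
  · exact Or.inl (by linarith)
  · exact Or.inr (by linarith)

/-- The integrand of the ramp. -/
noncomputable def rb (u : ℝ) : ℝ := bmp (Lc / 2 - aw - 3) (u - Lc / 2)
theorem rb_cont : Continuous rb :=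
  (contDiff_bmp _).continuous.comp (continuous_id.sub continuous_const)
theorem rb_lo {u : ℝ} (h : u ≤ aw + 2) : rb u = 0 :=
  bmp_zero (le_abs.2 (Or.inr (by linarith)))
theorem rb_hi {u : ℝ} (h : Lc - aw - 2 ≤ u) : rb u = 0 :=
  bmp_zero (le_abs.2 (Or.inl (by linarith)))
theorem rb_mono : Monotone fun t => ∫ u in (0 : ℝ)..t, rb u :=
  monotone_of_deriv_nonneg
    (fun t => (rb_cont.integral_hasStrictDerivAt 0 t).hasDerivAt.differentiableAt) fun t => by
    rw [(rb_cont.integral_hasStrictDerivAt 0 t).hasDerivAt.deriv]; exact bmp_nonneg _ _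
theorem rb_tot : Lc - 2 * aw - 6 ≤ ∫ u in (0 : ℝ)..Lc, rb u := by
  have h := aw_Lc
  have h0 := aw_pos
  have i := fun a b => rb_cont.intervalIntegrable (μ := volume) a b
  have e : ∫ u in (aw + 3)..(Lc - aw - 3), rb u = Lc - 2 * aw - 6 := by
    rw [intervalIntegral.integral_congr (g := fun _ => 1) fun u hu => ?_]
    · simp; ring
    · rw [Set.uIcc_of_le (by linarith)] at hu
      exact bmp_one (abs_le.2 ⟨by linarith [hu.1], by linarith [hu.2]⟩)
  rw [← e]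
  exact intervalIntegral.integral_mono_interval (by linarith) (by linarith) (by linarith)
    (Filter.Eventually.of_forall fun _ => bmp_nonneg _ _) (i _ _)
theorem rb_tot_pos : 0 < ∫ u in (0 : ℝ)..Lc, rb u := by linarith [rb_tot, aw_Lc, aw_pos]
theorem rmp_eq (t : ℝ) : rmp t = (∫ u in (0 : ℝ)..t, rb u) / ∫ u in (0 : ℝ)..Lc, rb u := rfl
theorem rmp_zero {t : ℝ} (h : t ≤ aw + 2) : rmp t = 0 := by
  rw [rmp_eq, intervalIntegral.integral_congr (g := fun _ => 0) fun u hu => rb_lo ?_]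
  · simp
  · exact hu.2.trans (max_le (by linarith [aw_pos]) h)
theorem rmp_one {t : ℝ} (h : Lc - aw - 2 ≤ t) : rmp t = 1 := by
  have i := fun a b => rb_cont.intervalIntegrable (μ := volume) a b
  rw [rmp_eq, ← intervalIntegral.integral_add_adjacent_intervals (i 0 Lc) (i Lc t),
    intervalIntegral.integral_congr (a := Lc) (b := t) (g := fun _ => 0) fun u hu => rb_hi ?_]
  · simp [rb_tot_pos.ne']
  · exact le_trans (le_min (by linarith [aw_pos]) h) hu.1
theorem rmp_mono : Monotone rmp := fun _ _ h =>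
  div_le_div_of_nonneg_right (rb_mono h) rb_tot_pos.le
theorem rmp_mem (t : ℝ) : 0 ≤ rmp t ∧ rmp t ≤ 1 := by
  constructor
  · rw [← rmp_zero (min_le_right t _)]; exact rmp_mono (min_le_left _ _)
  · rw [← rmp_one (le_max_right t _)]; exact rmp_mono (le_max_left _ _)
theorem rmp_hasDerivAt (t : ℝ) : HasDerivAt rmp (rb t / ∫ u in (0 : ℝ)..Lc, rb u) t :=
  (rb_cont.integral_hasStrictDerivAt 0 t).hasDerivAt.div_const _
theorem rmp_deriv (t : ℝ) : 0 ≤ deriv rmp t ∧ deriv rmp t ≤ 1 / (Lc - 2 * aw - 6) := by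
  rw [(rmp_hasDerivAt t).deriv]
  exact ⟨div_nonneg (bmp_nonneg _ _) rb_tot_pos.le, div_le_div₀ zero_le_one (bmp_le_one _ _)
    (by linarith [aw_Lc, aw_pos]) rb_tot⟩
theorem rho2_nonneg (x : Pt) : 0 ≤ rho2 x := by unfold rho2; positivity
theorem Des.Dt_nonneg (D : Des) (hn : 0 ≤ D.n) (x : Pt) : 0 ≤ D.Dt x :=
  add_nonneg (mul_nonneg hn (dd_mem x).1)
    (mul_nonneg (mul_nonneg (by norm_num) (rho2_nonneg x)) (sqb_nonneg _ _ _))
theorem Des.Yf_ge (D : Des) (hn : 0 ≤ D.n) (x : Pt) : 0 ≤ D.Yf x + 7 * D.n := by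
  have h1 := mul_le_of_le_one_left (D.Dt_nonneg hn x) (bmp_le_one 1 (x 2))
  have h2 := mul_le_mul_of_nonneg_left (dd_mem x).2 hn
  have h3 := mul_le_of_le_one_right (mul_nonneg (by norm_num : (0 : ℝ) ≤ 1 / 2) (rho2_nonneg x))
    (sqb_le_one (2 * Lc) 0 x)
  have h4 : D.Dt x = D.n * dd x + 1 / 2 * rho2 x * sqb (2 * Lc) 0 x := rfl
  rw [Des.Yf]
  linarith
theorem Des.Yf_le (D : Des) (hn : 0 ≤ D.n) (x : Pt) : D.Yf x ≤ 1 / 2 * rho2 x :=
  sub_le_self _ (mul_nonneg (bmp_nonneg _ _) (D.Dt_nonneg hn x))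
theorem Des.Yf_box (D : Des) {x : Pt} (hp : |pc x| ≤ 2 * Lc) (hq : |qc x| ≤ 2 * Lc)
    (hz : |x 2| ≤ 1) : D.Yf x = -(D.n * dd x) := by
  rw [Des.Yf, Des.Dt, bmp_one hz, sqb0_one hp hq]; ring
theorem Des.Dt_out (D : Des) {x : Pt} (h : 2 * Lc + 1 ≤ |pc x| ∨ 2 * Lc + 1 ≤ |qc x|) :
    D.Dt x = 0 := by
  have := aw_Lc
  have := aw_pos
  rw [Des.Dt, sqb0_zero h,
    dd_zero (Or.inr (h.imp (fun _ => by linarith) fun _ => by linarith))]
  ring
theorem Des.Yf_out (D : Des) {x : Pt}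
    (h : 2 * Lc + 1 ≤ |pc x| ∨ 2 * Lc + 1 ≤ |qc x| ∨ 2 ≤ |x 2|) : D.Yf x = 1 / 2 * rho2 x := by
  rcases or_assoc.2 h with h | h
  · rw [Des.Yf, D.Dt_out h]; ring
  · rw [Des.Yf, bmp_zero (a := 1) (by linarith)]; ring
theorem nrm_le_of {x : Pt} (hp : |pc x| ≤ 2 * Lc + 1) (hq : |qc x| ≤ 2 * Lc + 1) (hz : |x 2| ≤ 2) :
    nrm x ≤ 3 * Lc := by
  have h := nrm_sq_eq x
  rw [← pc_sq_add, ← sq_abs (pc x), ← sq_abs (qc x), ← sq_abs (x 2)] at h
  have := aw_Lc
  have := aw_pos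
  have a := pow_le_pow_left₀ (abs_nonneg _) hp 2
  have b := pow_le_pow_left₀ (abs_nonneg _) hq 2
  have c := pow_le_pow_left₀ (abs_nonneg _) hz 2
  exact abs_le_of_sq_le_sq' (by nlinarith) (by linarith) |>.2
theorem out_of_nrm {x : Pt} (h : 3 * Lc < nrm x) :
    2 * Lc + 1 ≤ |pc x| ∨ 2 * Lc + 1 ≤ |qc x| ∨ 2 ≤ |x 2| := by
  by_contra k
  push Not at k
  linarith [nrm_le_of k.1.le k.2.1.le k.2.2.le]
theorem Des.OK.S_box {D : Des} (h : D.OK) (hn : 4 * Lc ≤ D.Ls) {x : Pt} (hp : |pc x| ≤ 2 * Lc)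
    (hq : |qc x| ≤ 2 * Lc) (hz : |x 2| ≤ 1) :
    D.S x = 1 / 2 * (1 + D.Om) * x 2 ^ 2 + D.n * (7 - dd x) := by
  have := nrm_le_of (x := x) (by linarith) (by linarith) (by linarith)
  rw [Des.S, D.Yf_box hp hq hz, Des.Zf, h.core x (by linarith [Lc_pos])]; ring
theorem Des.OK.S_far {D : Des} (h : D.OK) (hn : 4 * Lc ≤ D.Ls) {x : Pt} (hx : D.Lg ≤ nrm x) :
    D.S x = 1 / 2 * nrm x ^ 2 + 7 * D.n := by
  rw [Des.S, D.Yf_out (out_of_nrm (by linarith [h.L_le, Lc_pos])), Des.Zf, h.out x hx, nrm_sq_eq]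
  ring
theorem Des.Gam_mem (D : Des) (x : Pt) : 0 ≤ D.Gam x ∧ D.Gam x ≤ √D.n := by
  have a := mul_nonneg (sqb_nonneg (2 * Lc - 1) 0 x) (bmp_nonneg 3 (4 * x 2))
  have b := mul_le_one₀ (sqb_le_one (2 * Lc - 1) 0 x) (bmp_nonneg 3 (4 * x 2)) (bmp_le_one _ _)
  exact ⟨mul_nonneg (Real.sqrt_nonneg _) (by linarith),
    mul_le_of_le_one_right (Real.sqrt_nonneg _) (by linarith)⟩
theorem Des.Gam_zero (D : Des) {x : Pt} (hp : |pc x| ≤ 2 * Lc - 1) (hq : |qc x| ≤ 2 * Lc - 1)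
    (hz : |x 2| ≤ 3 / 4) : D.Gam x = 0 := by
  rw [Des.Gam, sqb0_one hp hq, bmp_one (by rw [abs_mul]; norm_num; linarith)]; ring
theorem Des.Gam_out (D : Des) {x : Pt} (h : 2 * Lc ≤ |pc x| ∨ 2 * Lc ≤ |qc x| ∨ 1 ≤ |x 2|) :
    D.Gam x = √D.n := by
  rcases or_assoc.2 h with h | h
  · rw [Des.Gam, sqb0_zero (h.imp (fun _ => by linarith) fun _ => by linarith)]; ring
  · rw [Des.Gam, bmp_zero (a := 3) (by rw [abs_mul]; norm_num; linarith)]; ring
theorem nrm_sq' (x : Pt) : nrm x ^ 2 = ∑ k, x k ^ 2 := Real.sq_sqrt (by positivity)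
theorem Des.U_in (D : Des) {x : Pt} (hx : nrm x ≤ D.R) :
    D.U x = D.E1 + D.Vref x + D.Gam x := by
  rw [Des.U, ub, if_pos hx, Des.F, Des.E1, nrm_sq']; ring
theorem ub_le {R : ℝ} (hR : 0 < R) (x : Pt) : ub R x ≤ 1 / 2 * nrm x ^ 2 - 3 / 2 * R ^ 2 := by
  unfold ub
  split_ifs with h
  · exact le_rfl
  · push Not at h
    have h0 : 0 < nrm x := hR.trans h
    rw [neg_le, le_div_iff₀ h0]
    nlinarith [mul_nonneg (sq_nonneg (nrm x - R)) (by linarith : 0 ≤ nrm x + 2 * R)]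
theorem Des.U_le (D : Des) (hR : 0 < D.R) (x : Pt) : D.U x ≤ D.E1 + D.Vref x + D.Gam x := by
  have := ub_le hR x
  rw [Des.U, Des.F, Des.E1, ← nrm_sq']; linarith
theorem pd_half_sq (c : ℝ) (k : Fin 3) :
    pd k (fun x : Pt => 1 / 2 * (∑ j, x j ^ 2) + c) = fun x => x k := by
  funext x
  have h := ((HasFDerivAt.fun_sum fun j (_ : j ∈ Finset.univ) =>
    (hasFDerivAt_apply (𝕜 := ℝ) j x).pow 2).const_mul (1 / 2 : ℝ)).add_const c
  rw [pd, HasFDerivAt.fderiv h]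
  fin_cases k <;> simp [ek, Fin.sum_univ_three]
theorem pd_co (k : Fin 3) (x : Pt) : pd k (fun y : Pt => y k) x = 1 := by
  rw [pd, (hasFDerivAt_apply (𝕜 := ℝ) k x).fderiv]; simp [ek]
/-- Beyond `Lg` the correction vanishes. -/
theorem Des.OK.F_far {D : Des} (h : D.OK) (hn : 4 * Lc ≤ D.Ls) {x : Pt} (hx : D.Lg ≤ nrm x) :
    D.F x = 0 := by
  have L0 := Lc_pos
  have L1 := h.L_le
  have k : ∀ y, D.Lg < nrm y → D.F y = 0 := fun y hy => by
    have e : D.S =ᶠ[nhds y] fun x : Pt => 1 / 2 * (∑ j, x j ^ 2) + 7 * D.n :=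
      (continuousAt_const.eventually_lt cont_nrm.continuousAt hy).mono fun z hz => by
        rw [h.S_far hn hz.le, nrm_sq']
    have g : gsq D.S y = ∑ j, y j ^ 2 := Finset.sum_congr rfl fun j _ => by
      rw [(nw_pd_congr e j).eq_of_nhds, pd_half_sq]
    have l : lap D.S y = 3 := by
      rw [lap_congr e, lap]
      simp only [pd_half_sq, pd_co]
      simp
    rw [Des.F, Des.Vref, g, l, D.Gam_out ((out_of_nrm (x := y) (by linarith)).imp
      (fun _ => by linarith) fun a => a.imp (fun _ => by linarith) fun _ => by linarith)]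
    ring
  have c : ContinuousWithinAt (fun t : ℝ => D.F (t • x)) (Set.Ioi 1) 1 :=
    (h.cd_F.continuous.comp (continuous_id.smul continuous_const)).continuousWithinAt
  have z : (fun t : ℝ => D.F (t • x)) =ᶠ[nhdsWithin 1 (Set.Ioi 1)] fun _ => 0 :=
    eventually_nhdsWithin_of_forall fun t ht => k _ (by
      have ht : 1 < t := ht
      rw [nrm_smul, abs_of_pos (by linarith)]
      nlinarith)
  have := tendsto_nhds_unique (c.tendsto.congr' z) tendsto_const_nhds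
  simpa using this
theorem gK_cont {K : ℝ} (hK : 0 < K) : Continuous fun u : ℝ => 1 - K / max u K :=
  continuous_const.sub (continuous_const.div (continuous_id.max continuous_const)
    fun _ => (hK.trans_le (le_max_right _ _)).ne')
theorem gK_int_mem {K : ℝ} (hK : 0 < K) (u : ℝ) : 0 ≤ 1 - K / max u K ∧ 1 - K / max u K ≤ 1 := by
  have h : 0 < max u K := hK.trans_le (le_max_right _ _)
  exact ⟨sub_nonneg.2 ((div_le_one h).2 (le_max_right _ _)), sub_le_self _ (by positivity)⟩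
theorem gK_mem {K s : ℝ} (hK : 0 < K) (hs : 0 ≤ s) : 0 ≤ gK K s ∧ gK K s ≤ s := by
  refine ⟨intervalIntegral.integral_nonneg hs fun u _ => (gK_int_mem hK u).1, ?_⟩
  have := intervalIntegral.integral_mono_on hs ((gK_cont hK).intervalIntegrable (μ := volume) _ _)
    (continuous_const.intervalIntegrable (μ := volume) _ _) fun u _ => (gK_int_mem hK u).2
  simpa [gK] using this
theorem gK_zero {K s : ℝ} (hK : 0 < K) (hs : s ≤ K) : gK K s = 0 := by
  rw [gK, intervalIntegral.integral_congr (g := fun _ => 0) fun u hu => ?_]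
  · simp
  · beta_reduce
    rw [max_eq_right (hu.2.trans (max_le hK.le hs)), div_self hK.ne', sub_self]
theorem frz_cont (s₁ : ℝ) : Continuous fun u => 1 - Real.smoothTransition (u - s₁) :=
  continuous_const.sub (Real.smoothTransition.continuous.comp (continuous_id.sub continuous_const))
theorem frz_hasDerivAt (s₁ s : ℝ) :
    HasDerivAt (frz s₁) (1 - Real.smoothTransition (s - s₁)) s :=
  ((frz_cont s₁).integral_hasStrictDerivAt s₁ s).hasDerivAt.const_add s₁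
theorem frz_eq {s₁ s : ℝ} (h : s ≤ s₁) : frz s₁ s = s := by
  rw [frz, intervalIntegral.integral_congr (g := fun _ => 1) fun u hu => ?_]
  · simp
  · beta_reduce
    rw [Real.smoothTransition.zero_of_nonpos (by linarith [hu.2.trans (max_le le_rfl h)]), sub_zero]
theorem frz_le (s₁ s : ℝ) : frz s₁ s ≤ s ∧ frz s₁ s ≤ s₁ + 1 := by
  have i := fun a b => (frz_cont s₁).intervalIntegrable (μ := volume) a b
  have k : ∀ t, s₁ ≤ t → frz s₁ t ≤ t := fun t ht => by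
    have := intervalIntegral.integral_mono_on ht (i _ _)
      (continuous_const.intervalIntegrable (μ := volume) _ _)
      fun u _ => sub_le_self 1 (Real.smoothTransition.nonneg (u - s₁))
    simp only [intervalIntegral.integral_const, smul_eq_mul, mul_one] at this
    rw [frz]; linarith
  have k1 : frz s₁ s ≤ s := (le_total s s₁).elim (fun h => (frz_eq h).le) (k s)
  refine ⟨k1, (le_total s (s₁ + 1)).elim (fun h => k1.trans h) fun h => ?_⟩
  have := k (s₁ + 1) (by linarith)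
  rw [frz] at this ⊢
  rw [← intervalIntegral.integral_add_adjacent_intervals (i s₁ (s₁ + 1)) (i (s₁ + 1) s),
    intervalIntegral.integral_congr (a := s₁ + 1) (b := s) (g := fun _ => 0) fun u hu => ?_]
  · simpa using this
  · beta_reduce
    rw [Real.smoothTransition.one_of_one_le (by linarith [(le_min le_rfl h).trans hu.1]), sub_self]
theorem Des.OK.Zf_nonneg {D : Des} (h : D.OK) (x : Pt) : 0 ≤ D.Zf x := by
  have := h.nonneg x
  unfold Des.Zf; positivity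
theorem Des.Kp_pos (D : Des) (hn : 2 ≤ D.n) : 0 < D.Kp :=
  mul_pos (by norm_num) (Real.log_pos (by linarith))
theorem Des.OK.G_le {D : Des} (h : D.OK) (hn : 2 ≤ D.n) (x : Pt) :
    D.G x ≤ D.S x ∧ D.G x ≤ D.s1 + 1 := by
  refine ⟨(frz_le _ _).1.trans ?_, (frz_le _ _).2⟩
  rw [Des.S]
  linarith [(gK_mem (D.Kp_pos hn) (h.Zf_nonneg x)).2]

end Vale.Agent.P363
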