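import Vale.Agent.P363.DesF

/-! Shared facts about the design: sizes and derivative bounds. -/

namespace Vale.Agent.P363

open MeasureTheory Vale.Agent.P370
open scoped ContDiff

theorem ev_ge (c : ℝ) : Ev fun D => c ≤ D.n := fun _ => ⟨c, fun _ h _ _ => h⟩

theorem ev_Ls : Ev fun D => 4 * Lc ≤ D.Ls ∧ D.Ls ≤ D.Lg ∧ D.n ≤ D.R := by
  refine ((ev_ge (4 * Lc)).and (ev_ge 1)).mono fun D h ⟨h1, h2⟩ => ?_
  have h3 : D.n ≤ D.Ls := le_self_pow₀ h2 (by norm_num)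
  have h4 : D.Ls ≤ D.Lg := h.L_le
  refine ⟨h1.trans h3, h4, ?_⟩
  unfold Des.R
  linarith

theorem desg_log {t a : ℝ} (ht : 0 < t) (ha : 0 < a) :
    ∃ n₀ : ℝ, ∀ n, n₀ ≤ n → Real.log n ≤ t * n ^ a := by
  obtain ⟨n₀, h⟩ := Filter.eventually_atTop.1 ((isLittleO_log_rpow_atTop ha).bound ht)
  refine ⟨max n₀ 0, fun n hn => ?_⟩
  have := h n ((le_max_left _ _).trans hn)
  rw [Real.norm_of_nonneg (Real.rpow_nonneg ((le_max_right _ _).trans hn) a)] at this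
  exact (le_abs_self _).trans this

theorem desg_ev_log {t a : ℝ} (ht : 0 < t) (ha : 0 < a) :
    Ev fun D => 1 ≤ Real.log D.R ∧ Real.log D.R ≤ t * D.n ^ a := by
  intro C
  have hC : (0 : ℝ) < C + 1 := by positivity
  obtain ⟨n₀, h₀⟩ := desg_log (div_pos ht hC) ha
  obtain ⟨n₁, h₁⟩ := ev_Ls C
  refine ⟨max (max n₀ n₁) 20, fun D h hD hL => ?_⟩
  have a0 : n₀ ≤ D.n := ((le_max_left _ _).trans (le_max_left _ _)).trans h
  have a1 : n₁ ≤ D.n := ((le_max_right _ _).trans (le_max_left _ _)).trans h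
  have a2 : 20 ≤ D.n := (le_max_right _ _).trans h
  obtain ⟨-, -, b⟩ := h₁ D a1 hD hL
  have hn : 0 < D.n := by linarith
  constructor
  · rw [Real.le_log_iff_exp_le (by linarith)]
    linarith [Real.exp_one_lt_d9]
  · have e1 : D.R ≤ D.n ^ (C + 1) := by
      unfold Des.R
      have := pow_pos hn C
      rw [pow_succ]
      nlinarith
    have e2 := Real.log_le_log (by linarith) e1
    rw [Real.log_pow] at e2
    have e3 := mul_le_mul_of_nonneg_left (h₀ D.n a0) hC.le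
    rw [← mul_assoc, mul_div_cancel₀ _ hC.ne'] at e3
    push_cast at e2
    exact e2.trans e3

/-- Polynomials in `n` and `R` are below every positive power of `P`. -/
theorem ev_poly (c : ℝ) (k : ℕ) {t : ℝ} (ht : 0 < t) :
    Ev fun D => c * D.R ^ k ≤ Real.exp (t * D.n ^ (3 / 4 : ℝ)) := by
  have hk : (0 : ℝ) < k + 1 := by positivity
  refine (((desg_ev_log (div_pos ht hk) (by norm_num : (0 : ℝ) < 3 / 4)).and ev_Ls).and
    ((ev_ge c).and (ev_ge 1))).mono fun D _ ⟨⟨⟨_, h1⟩, _, _, h2⟩, h3, h4⟩ => ?_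
  have hR : 0 < D.R := by linarith
  have e1 : c * D.R ^ k ≤ D.R ^ (k + 1) := by
    rw [pow_succ']
    exact mul_le_mul_of_nonneg_right (h3.trans h2) (pow_pos hR k).le
  refine e1.trans ?_
  rw [← Real.exp_log (pow_pos hR (k + 1)), Real.log_pow]
  refine Real.exp_le_exp.2 ?_
  have e3 := mul_le_mul_of_nonneg_left h1 hk.le
  rw [← mul_assoc, mul_div_cancel₀ _ hk.ne'] at e3
  push_cast
  exact e3

theorem ev_poly' (c : ℝ) (k : ℕ) : Ev fun D => c * D.R ^ k ≤ D.P ∧ c * D.n ^ k ≤ D.P := by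
  refine (((ev_poly |c| k one_pos).and ev_Ls).and (ev_ge 0)).mono
    fun D _ ⟨⟨h1, _, _, h2⟩, h3⟩ => ?_
  rw [one_mul] at h1
  have hR : 0 ≤ D.R := h3.trans h2
  exact ⟨(mul_le_mul_of_nonneg_right (le_abs_self c) (pow_nonneg hR k)).trans h1,
    (mul_le_mul (le_abs_self c) (pow_le_pow_left₀ h3 h2 k) (pow_nonneg h3 k)
      (abs_nonneg c)).trans h1⟩

/-- `R` is polynomial in `n`. -/
theorem ev_log {t a : ℝ} (ht : 0 < t) (ha : 0 < a) :
    Ev fun D => 1 ≤ Real.log D.R ∧ Real.log D.R ≤ t * D.n ^ a := desg_ev_log ht ha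

theorem ev_P (k : ℕ) {t : ℝ} (ht : 0 < t) : Ev fun D => D.P ^ k ≤ Real.exp (t * D.n) := by
  have hk : (0 : ℝ) < k + 1 := by positivity
  refine ((ev_log (div_pos ht hk) (by norm_num : (0 : ℝ) < 1 / 4)).and (ev_ge 1)).mono
    fun D _ ⟨⟨h1, h2⟩, h3⟩ => ?_
  have hn : 0 < D.n := by linarith
  unfold Des.P
  rw [← Real.exp_nat_mul]
  refine Real.exp_le_exp.2 ?_
  have e3 := mul_le_mul_of_nonneg_left (h1.trans h2) hk.le
  rw [← mul_assoc, mul_div_cancel₀ _ hk.ne'] at e3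
  have e4 : D.n ^ (1 / 4 : ℝ) * D.n ^ (3 / 4 : ℝ) = D.n := by
    rw [← Real.rpow_add hn]
    norm_num
  have e5 := Real.rpow_pos_of_pos hn (3 / 4 : ℝ)
  calc (k : ℝ) * D.n ^ (3 / 4 : ℝ) ≤ t * D.n ^ (1 / 4 : ℝ) * D.n ^ (3 / 4 : ℝ) :=
        mul_le_mul_of_nonneg_right (by linarith) e5.le
    _ = t * D.n := by rw [mul_assoc, e4]

section
variable {r : ℕ} {f g : Pt → ℝ} {A B : ℝ}

theorem desg_lg (h : DB r f B) : LG r 1 f fun _ => B :=
  ⟨h.1, fun j hj x => by simpa using h.2 j hj x⟩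

theorem desg_db (h : LG r 1 f fun _ => B) : DB r f B := h.db le_rfl fun _ => by simp

theorem desg_nonneg (h : DB r f B) : 0 ≤ B := (desg_lg h).nonneg 0

theorem desg_mono (h : DB r f A) (hA : A ≤ B) : DB r f B :=
  ⟨h.1, fun j hj x => (h.2 j hj x).trans hA⟩

theorem desg_add (h : DB r f A) (h' : DB r g B) : DB r (fun x => f x + g x) (A + B) :=
  desg_db ((desg_lg h).add (desg_lg h'))

theorem desg_sub (h : DB r f A) (h' : DB r g B) : DB r (fun x => f x - g x) (A + B) :=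
  desg_db ((desg_lg h).sub (desg_lg h'))

theorem desg_cmul (h : DB r f A) (c : ℝ) : DB r (fun x => c * f x) (|c| * A) :=
  desg_db ((desg_lg h).const_mul c)

theorem desg_const (c : ℝ) : DB r (fun _ => c) |c| := desg_db (lg_const r zero_le_one c)

end

/-- Bounded derivatives. -/
def DgB (f : Pt → ℝ) : Prop := ∃ C, DB 6 f C

theorem DgB.add {f g : Pt → ℝ} (h : DgB f) (h' : DgB g) : DgB fun x => f x + g x :=
  let ⟨_, a⟩ := h; let ⟨_, b⟩ := h'; ⟨_, desg_add a b⟩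

theorem DgB.sub {f g : Pt → ℝ} (h : DgB f) (h' : DgB g) : DgB fun x => f x - g x :=
  let ⟨_, a⟩ := h; let ⟨_, b⟩ := h'; ⟨_, desg_sub a b⟩

theorem DgB.mul {f g : Pt → ℝ} (h : DgB f) (h' : DgB g) : DgB fun x => f x * g x :=
  let ⟨_, a⟩ := h; let ⟨_, b⟩ := h'; ⟨_, a.mul b⟩

theorem dgb_const (c : ℝ) : DgB fun _ => c := ⟨_, desg_const c⟩

theorem dgb_sum {f : Fin 5 → Pt → ℝ} (h : ∀ a, DgB (f a)) : DgB fun x => ∑ a, f a x := by
  simp only [Fin.sum_univ_five]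
  exact ((((h 0).add (h 1)).add (h 2)).add (h 3)).add (h 4)

/-- Affine functions of bounded slope. -/
def DgA (u : Pt → ℝ) : Prop := ∃ (L : Pt →L[ℝ] ℝ) (c : ℝ), ‖L‖ ≤ 4 ∧ ∀ x, u x = L x - c

theorem DgA.sub {u : Pt → ℝ} (h : DgA u) (c : ℝ) : DgA fun x => u x - c := by
  obtain ⟨L, d, h1, h2⟩ := h
  exact ⟨L, d + c, h1, fun x => by simp only [h2]; ring⟩

theorem DgA.neg {u : Pt → ℝ} (h : DgA u) : DgA fun x => -u x := by
  obtain ⟨L, d, h1, h2⟩ := h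
  exact ⟨-L, -d, by rwa [norm_neg], fun x => by simp only [h2, neg_apply]; ring⟩

theorem dga_lin (α β γ : ℝ) (h : |α| + |β| + |γ| ≤ 4) {u : Pt → ℝ}
    (hu : ∀ x, u x = α * x 0 + β * x 1 + γ * x 2) : DgA u := by
  refine ⟨α • ContinuousLinearMap.proj 0 + β • ContinuousLinearMap.proj 1 +
    γ • ContinuousLinearMap.proj 2, 0, ?_, fun x => by simp [hu]⟩
  refine ContinuousLinearMap.opNorm_le_bound _ (by norm_num) fun x => ?_
  have e : ∀ (a : ℝ) (k : Fin 3), |a * x k| ≤ |a| * ‖x‖ := fun a k => by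
    rw [abs_mul]
    exact mul_le_mul_of_nonneg_left (norm_le_pi_norm x k) (abs_nonneg a)
  have e0 := e α 0
  have e1 := e β 1
  have e2 := e γ 2
  have e3 := mul_le_mul_of_nonneg_right h (norm_nonneg x)
  have e4 := abs_add_three (α * x 0) (β * x 1) (γ * x 2)
  show |α * x 0 + β * x 1 + γ * x 2| ≤ 4 * ‖x‖
  linarith

theorem desg_s : |(√2 : ℝ)⁻¹| ≤ 1 := by
  rw [abs_of_nonneg (by positivity)]
  exact inv_le_one_of_one_le₀ Real.one_lt_sqrt_two.le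

theorem dga_pc : DgA pc :=
  dga_lin (√2)⁻¹ (√2)⁻¹ 0 (by rw [abs_zero]; linarith [desg_s]) fun x => by unfold pc; ring

theorem dga_qc : DgA qc :=
  dga_lin (√2)⁻¹ (-(√2)⁻¹) 0 (by rw [abs_zero, abs_neg]; linarith [desg_s]) fun x => by
    unfold qc; ring

theorem dga_zero : DgA fun _ => 0 := dga_lin 0 0 0 (by norm_num) fun x => by ring

theorem dga_z : DgA fun x => x 2 := dga_lin 0 0 1 (by norm_num) fun x => by ring

theorem dga_4z : DgA fun x => 4 * x 2 := dga_lin 0 0 4 (by norm_num) fun x => by ring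

theorem dga_lon (a : Fin 5) : DgA (lon a) := by
  fin_cases a
  exacts [dga_zero, dga_pc, dga_qc.neg, dga_pc.neg, dga_qc]

theorem dga_tra (a : Fin 5) : DgA (tra a) := by
  fin_cases a
  exacts [dga_zero, dga_qc, dga_pc, dga_qc, dga_pc]

theorem desg_comp {f : ℝ → ℝ} {C : ℝ} (hf : LG 6 1 f fun _ => C) {u : Pt → ℝ} (hu : DgA u) :
    DB 6 (fun x => f (u x)) (4 ^ 6 * C) := by
  obtain ⟨L, c, hL, hu⟩ := hu
  rw [show u = fun x => L x - c from funext hu]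
  have h1 : ContDiff ℝ ∞ fun y => f (y - c) := hf.1.comp (contDiff_id.sub contDiff_const)
  refine ⟨h1.comp L.contDiff, fun j hj x => ?_⟩
  have := L.iteratedFDeriv_comp_right h1 x (rg_le j)
  rw [show (fun x => f (L x - c)) = (fun y => f (y - c)) ∘ L from rfl, this]
  refine (ContinuousMultilinearMap.norm_compContinuousLinearMap_le _ _).trans ?_
  rw [iteratedFDeriv_comp_sub, Finset.prod_const, Finset.card_univ, Fintype.card_fin, mul_comm]
  have a1 := hf.2 j hj (L x - c)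
  rw [one_pow, one_mul] at a1
  exact mul_le_mul ((pow_le_pow_left₀ (norm_nonneg _) hL j).trans
    (pow_le_pow_right₀ (by norm_num) hj)) a1 (norm_nonneg _) (by norm_num)

theorem desg_bmp : ∃ C : ℝ, ∀ a, LG 6 1 (bmp a) fun _ => C :=
  let ⟨C, _, h⟩ := rg_bmp
  ⟨C, fun a => (h a).mono (by norm_num) zero_le_one le_rfl fun _ => le_rfl⟩

theorem dgb_bmp (a : ℝ) {u : Pt → ℝ} (hu : DgA u) : DgB fun x => bmp a (u x) :=
  let ⟨_, h⟩ := desg_bmp
  ⟨_, desg_comp (h a) hu⟩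

theorem desg_sqb : ∃ C : ℝ, ∀ h a, DB 6 (sqb h a) C :=
  let ⟨_, hC⟩ := desg_bmp
  ⟨_, fun h _ => (desg_comp (hC h) (dga_pc.sub _)).mul (desg_comp (hC h) (dga_qc.sub _))⟩

theorem dgb_sqb (h : ℝ) (a : Fin 5) : DgB (sqb h a) := let ⟨C, hC⟩ := desg_sqb; ⟨C, hC h a⟩

theorem desg_cc {f : ℝ → ℝ} (hf : ContDiff ℝ ∞ f) (hc : HasCompactSupport f) :
    ∃ C, LG 6 1 f fun _ => C := by
  have h : ∀ j : ℕ, ∃ C, ∀ x, ‖iteratedFDeriv ℝ j f x‖ ≤ C := fun j =>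
    (hf.continuous_iteratedFDeriv (rg_le j)).bounded_above_of_compact_support
      (hc.iteratedFDeriv j)
  choose C hC using h
  refine ⟨∑ j ∈ Finset.range 7, |C j|, hf, fun j hj x => ?_⟩
  rw [one_pow, one_mul]
  exact (hC j x).trans ((le_abs_self _).trans (Finset.single_le_sum
    (f := fun j => |C j|) (fun _ _ => abs_nonneg _) (Finset.mem_range.2 (by omega))))

theorem desg_rmp : ∃ C, LG 6 1 rmp fun _ => C := by
  obtain ⟨C, hC⟩ := desg_bmp
  obtain ⟨I, hI⟩ : ∃ I, I = ∫ u in (0 : ℝ)..Lc, bmp (Lc / 2 - aw - 3) (u - Lc / 2) := ⟨_, rfl⟩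
  have h1 := ((hC (Lc / 2 - aw - 3)).comp_aff (ContinuousLinearMap.id ℝ ℝ)
    ContinuousLinearMap.norm_id_le (Lc / 2)).const_mul I⁻¹
  have hc : Continuous fun u => bmp (Lc / 2 - aw - 3) (u - Lc / 2) :=
    (contDiff_bmp _).continuous.comp (continuous_id.sub continuous_const)
  refine ⟨max 1 (|I⁻¹| * C), lg_succ1 (f' := fun t => I⁻¹ * bmp (Lc / 2 - aw - 3) (t - Lc / 2))
    cd_rmp (fun t => ?_) (fun t => ?_)
    (h1.mono (by norm_num) zero_le_one le_rfl fun _ => by rw [one_mul]; exact le_max_right _ _)⟩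
  · have := ((hc.integral_hasStrictDerivAt 0 t).hasDerivAt).div_const I
    rw [div_eq_inv_mul (bmp _ _)] at this
    rw [hI] at this ⊢
    exact this
  · rw [abs_of_nonneg (rmp_mem t).1]
    exact (rmp_mem t).2.trans (le_max_left _ _)

theorem dgb_dd : DgB dd :=
  ((((dgb_const 1).sub (((dgb_const 1).sub (dgb_bmp _ dga_pc)).mul
    ((dgb_const 1).sub (dgb_bmp _ dga_qc)))).mul (dgb_sqb _ _))).add
    ((dgb_const 6).mul (dgb_sum fun a => dgb_sqb _ a))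

theorem dgb_Xi : DgB Xi := (dgb_sqb _ _).mul (dgb_bmp _ dga_4z)

theorem dgb_hub : DgB hub := (dgb_sqb _ _).mul (dgb_bmp _ dga_z)

theorem dgb_th1 (a : Fin 5) : DgB (th1 a) :=
  let ⟨_, h⟩ := desg_rmp
  (DgB.mul ⟨_, desg_comp h (dga_lon a)⟩ (dgb_bmp _ (dga_tra a))).mul dgb_Xi

theorem dgb_th (a : Fin 5) : DgB (th a) := by
  unfold th
  by_cases h : a = 0
  · simp only [if_pos h]
    exact dgb_Xi.sub (dgb_sum dgb_th1)
  · simp only [if_neg h]
    exact dgb_th1 a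

theorem dgb_rho : DgB fun x => 1 / 2 * rho2 x * sqb (2 * Lc) 0 x := by
  have hs : ContDiff ℝ ∞ fun t : ℝ => t ^ 2 * bmp (2 * Lc) t :=
    (contDiff_id.pow 2).mul (contDiff_bmp _)
  have hc : HasCompactSupport fun t : ℝ => t ^ 2 * bmp (2 * Lc) t := by
    refine HasCompactSupport.intro (isCompact_closedBall (0 : ℝ) (2 * Lc + 1)) fun t ht => ?_
    rw [mem_closedBall_zero_iff, not_le] at ht
    rw [bmp_zero ht.le, mul_zero]
  obtain ⟨C, hC⟩ := desg_cc hs hc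
  have h := (dgb_const (1 / 2)).mul ((DgB.mul ⟨_, desg_comp hC dga_pc⟩
    (dgb_bmp (2 * Lc) dga_qc)).add ((dgb_bmp (2 * Lc) dga_pc).mul ⟨_, desg_comp hC dga_qc⟩))
  have e : (fun x => 1 / 2 * rho2 x * sqb (2 * Lc) 0 x) = fun x =>
      1 / 2 * (pc x ^ 2 * bmp (2 * Lc) (pc x) * bmp (2 * Lc) (qc x) +
        bmp (2 * Lc) (pc x) * (qc x ^ 2 * bmp (2 * Lc) (qc x))) := by
    funext x
    rw [← pc_sq_add]
    simp only [sqb, ctr, Matrix.cons_val_zero, sub_zero]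
    ring
  rw [e]
  exact h

/-- Derivative bounds for the fixed profiles. -/
theorem db_fix : ∃ C : ℝ, 1 ≤ C ∧ DB 6 dd C ∧ DB 6 Xi C ∧ DB 6 hub C ∧ (∀ a, DB 6 (th a) C) ∧
    (∀ h a, DB 6 (sqb h a) C) ∧
    ∀ D : Des, 1 ≤ D.n → DB 6 (fun x => bmp 1 (x 2) * D.Dt x) (C * D.n) ∧ DB 6 D.Dt (C * D.n) ∧
      DB 6 D.Gam (C * √D.n) := by
  obtain ⟨C1, h1⟩ := dgb_dd
  obtain ⟨C2, h2⟩ := dgb_Xi
  obtain ⟨C3, h3⟩ := dgb_hub
  choose C4 h4 using dgb_th
  obtain ⟨C5, h5⟩ := desg_sqb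
  obtain ⟨C6, h6⟩ := dgb_rho
  obtain ⟨C7, h7⟩ := dgb_bmp 1 dga_z
  obtain ⟨C8, h8⟩ := (dgb_const 1).sub ((dgb_sqb (2 * Lc - 1) 0).mul (dgb_bmp 3 dga_4z))
  have p1 := desg_nonneg h1
  have p2 := desg_nonneg h2
  have p3 := desg_nonneg h3
  have p4 := fun a => desg_nonneg (h4 a)
  have p5 := desg_nonneg (h5 0 0)
  have p6 := desg_nonneg h6
  have p7 := desg_nonneg h7
  have p8 := desg_nonneg h8
  have p9 : 0 ≤ ∑ a, C4 a := Finset.sum_nonneg fun a _ => p4 a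
  have p10 : 0 ≤ 2 ^ 6 * C7 * (C1 + C6) := by positivity
  refine ⟨1 + C1 + C2 + C3 + ∑ a, C4 a + C5 + C6 + 2 ^ 6 * C7 * (C1 + C6) + C8, by linarith,
    desg_mono h1 (by linarith), desg_mono h2 (by linarith), desg_mono h3 (by linarith),
    fun a => desg_mono (h4 a) ?_, fun h a => desg_mono (h5 h a) (by linarith), fun D hn => ?_⟩
  · have := Finset.single_le_sum (fun a _ => p4 a) (Finset.mem_univ a)
    linarith
  · have n0 : 0 ≤ D.n := by linarith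
    have hD : DB 6 D.Dt ((C1 + C6) * D.n) := by
      refine desg_mono (desg_add (desg_cmul h1 D.n) h6) ?_
      rw [abs_of_nonneg n0]
      nlinarith
    refine ⟨desg_mono (h7.mul hD) ?_, desg_mono hD ?_, desg_mono (desg_cmul h8 √D.n) ?_⟩
    · rw [← mul_assoc]
      exact mul_le_mul_of_nonneg_right (by linarith) n0
    · exact mul_le_mul_of_nonneg_right (by linarith) n0
    · rw [abs_of_nonneg (Real.sqrt_nonneg _), mul_comm]
      exact mul_le_mul_of_nonneg_right (by linarith) (Real.sqrt_nonneg _)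

theorem desg_cd_pd {f : Pt → ℝ} (hf : ContDiff ℝ ∞ f) (k : Fin 3) : ContDiff ℝ ∞ (pd k f) :=
  (hf.fderiv_right le_rfl).clm_apply contDiff_const

theorem desg_pd {f : Pt → ℝ} (hf : ContDiff ℝ ∞ f) (k : Fin 3) (j : ℕ) (x : Pt) :
    ‖iteratedFDeriv ℝ j (pd k f) x‖ ≤ ‖iteratedFDeriv ℝ (j + 1) f x‖ := by
  have h1 : ContDiff ℝ ∞ (fderiv ℝ f) := hf.fderiv_right le_rfl
  refine (norm_iteratedFDeriv_clm_apply_const h1.contDiffAt (rg_le j)).trans ?_
  rw [nw_norm_ek, one_mul, norm_iteratedFDeriv_fderiv]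

theorem desg_pd0 {f : Pt → ℝ} (hf : ContDiff ℝ ∞ f) (k : Fin 3) (x : Pt) :
    |pd k f x| ≤ ‖iteratedFDeriv ℝ 1 f x‖ := by
  have := desg_pd hf k 0 x
  rwa [norm_iteratedFDeriv_zero] at this

section
variable {Ω L Lg : ℝ} {c : Pt → ℝ} {ch : ℝ → ℝ}

theorem Slow.pd1 (h : Slow Ω L Lg c ch) (k : Fin 3) (x : Pt) :
    |pd k c x| ≤ del * (1 + c x) / (L + nrm x) := by
  have := h.der 1 le_rfl (by norm_num) x
  rw [pow_one] at this
  exact (desg_pd0 h.smooth k x).trans this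
theorem Slow.pd2 (h : Slow Ω L Lg c ch) (k l : Fin 3) (x : Pt) :
    |pd k (pd l c) x| ≤ del * (1 + c x) / (L + nrm x) ^ 2 :=
  (desg_pd0 (desg_cd_pd h.smooth l) k x).trans ((desg_pd h.smooth l 1 x).trans
    (h.der 2 (by norm_num) (by norm_num) x))
theorem Slow.pd3 (h : Slow Ω L Lg c ch) (k l m : Fin 3) (x : Pt) :
    |pd k (pd l (pd m c)) x| ≤ del * (1 + c x) / (L + nrm x) ^ 3 :=
  (desg_pd0 (desg_cd_pd (desg_cd_pd h.smooth m) l) k x).trans
    ((desg_pd (desg_cd_pd h.smooth m) l 1 x).trans ((desg_pd h.smooth m 2 x).trans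
      (h.der 3 (by norm_num) (by norm_num) x)))
theorem Slow.pd4 (h : Slow Ω L Lg c ch) (k l m j : Fin 3) (x : Pt) :
    |pd k (pd l (pd m (pd j c))) x| ≤ del * (1 + c x) / (L + nrm x) ^ 4 :=
  (desg_pd0 (desg_cd_pd (desg_cd_pd (desg_cd_pd h.smooth j) m) l) k x).trans
    ((desg_pd (desg_cd_pd (desg_cd_pd h.smooth j) m) l 1 x).trans
      ((desg_pd (desg_cd_pd h.smooth j) m 2 x).trans ((desg_pd h.smooth j 3 x).trans
        (h.der 4 (by norm_num) le_rfl x))))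
theorem Slow.ch1 (h : Slow Ω L Lg c ch) (hL : 0 < L) (z : ℝ) : 0 ≤ ch z ∧ ch z ≤ Ω ∧
    |deriv ch z| ≤ del * (1 + ch z) / (L + |z|) ∧
      |deriv (deriv ch) z| ≤ del * (1 + ch z) / (L + |z|) ^ 2 := by
  obtain ⟨T, hT⟩ : ∃ T : ℝ →L[ℝ] Pt, T = ContinuousLinearMap.toSpanSingleton ℝ (ek 2) := ⟨_, rfl⟩
  have hn : ‖T‖ = 1 := by rw [hT, ContinuousLinearMap.norm_toSpanSingleton, nw_norm_ek]
  have e0 : ∀ t, T t 0 = 0 := fun t => by simp [hT, ek]
  have e1 : ∀ t, T t 1 = 0 := fun t => by simp [hT, ek]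
  have e2 : ∀ t, T t 2 = t := fun t => by simp [hT, ek]
  have hc : ∀ t, c (T t) = ch t := fun t => by
    rw [h.tube (T t) (by rw [e0, e1]; nlinarith [sq_nonneg (L / 2)]), e2]
  have hr : nrm (T z) = |z| := by
    rw [nrm, Fin.sum_univ_three, e0, e1, e2, ← Real.sqrt_sq_eq_abs]
    simp
  have hd : ∀ j : ℕ, 1 ≤ j → j ≤ 4 →
      |iteratedDeriv j ch z| ≤ del * (1 + ch z) / (L + |z|) ^ j := fun j j1 j4 => by
    have a1 := h.der j j1 j4 (T z)
    rw [hc, hr] at a1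
    refine le_trans ?_ a1
    rw [← Real.norm_eq_abs, ← norm_iteratedFDeriv_eq_norm_iteratedDeriv,
      show ch = c ∘ T from funext fun t => (hc t).symm,
      T.iteratedFDeriv_comp_right h.smooth z (rg_le j)]
    refine (ContinuousMultilinearMap.norm_compContinuousLinearMap_le _ _).trans ?_
    simp [hn]
  refine ⟨hc z ▸ h.nonneg _, hc z ▸ h.le _, ?_, ?_⟩
  · have := hd 1 le_rfl (by norm_num)
    rwa [iteratedDeriv_one, pow_one] at this
  · have := hd 2 (by norm_num) (by norm_num)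
    rwa [iteratedDeriv_succ, iteratedDeriv_one] at this

end

end Vale.Agent.P363
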