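import Vale.Agent.P363.DesG

/-! Shared facts about the design: ground state representation, rotation, masses. -/

namespace Vale.Agent.P363

open MeasureTheory Vale.Agent.P370
open scoped ContDiff

/-- Ground state representation. -/
theorem gs_rep {S ψ : Pt → ℝ} (hS : ContDiff ℝ 2 S) (hψ : C1c ψ) :
    1 / 2 * (∫ x, gsq ψ x) + ∫ x, (1 / 2 * gsq S x - 1 / 2 * lap S x) * ψ x ^ 2 =
      1 / 2 * ∫ x, Real.exp (-(2 * S x)) * gsq (fun y => Real.exp (S y) * ψ y) x := by
  have dS : ∀ x, DifferentiableAt ℝ S x := fun x => hS.differentiable (by norm_num) x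
  have dψ : ∀ x, DifferentiableAt ℝ ψ x := fun x => hψ.1.differentiable one_ne_zero x
  have hp : ∀ k x, pd k (fun y => Real.exp (S y) * ψ y) x =
      Real.exp (S x) * (pd k ψ x + ψ x * pd k S x) := fun k x => by
    unfold pd
    rw [((dS x).hasFDerivAt.exp.fun_mul (dψ x).hasFDerivAt).fderiv]
    simp only [add_apply, smul_apply, smul_eq_mul]
    ring
  have hq : ∀ k x, pd k (fun y => ψ y ^ 2) x = 2 * (ψ x * pd k ψ x) := fun k x => by
    unfold pd
    rw [((dψ x).hasFDerivAt.pow 2).fderiv]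
    simp only [smul_apply, smul_eq_mul, nsmul_eq_mul]
    push_cast
    ring
  have h1 : ∀ k, ContDiff ℝ 1 (pd k S) := fun k => nw_contDiff_pd hS (by norm_num) k
  have h2 : C1c fun y => ψ y ^ 2 := by
    refine ⟨hψ.1.pow 2, ?_⟩
    simp only [sq]
    exact hψ.2.mul_right
  have c0 := hψ.1.continuous
  have c1 := fun k => nw_cont_pd hψ.1 k
  have c2 := fun k => (h1 k).continuous
  have c3 := fun k => nw_cont_pd (h1 k) k
  have iT : ∀ k, Integrable fun x => ψ x * pd k ψ x * pd k S x := fun k =>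
    ((c0.mul (c1 k)).mul (c2 k)).integrable_of_hasCompactSupport hψ.2.mul_right.mul_right
  have iL : ∀ k, Integrable fun x => ψ x ^ 2 * pd k (pd k S) x := fun k =>
    ((c0.pow 2).mul (c3 k)).integrable_of_hasCompactSupport h2.2.mul_right
  have iG : Integrable fun x => ψ x ^ 2 * gsq S x :=
    ((c0.pow 2).mul (continuous_finsetSum _ fun k _ => (c2 k).pow 2)).integrable_of_hasCompactSupport
      h2.2.mul_right
  have ibp : ∀ k, ∫ x, ψ x ^ 2 * pd k (pd k S) x = -(2 * ∫ x, ψ x * pd k ψ x * pd k S x) :=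
    fun k => by
    rw [integral_mul_pd h2 (h1 k) k, ← integral_const_mul]
    simp only [hq, mul_assoc]
  have e1 : ∀ x, (1 / 2 * gsq S x - 1 / 2 * lap S x) * ψ x ^ 2 =
      1 / 2 * (ψ x ^ 2 * gsq S x) - 1 / 2 * ∑ k, ψ x ^ 2 * pd k (pd k S) x := fun x => by
    rw [← Finset.mul_sum, lap]
    ring
  have e2 : ∀ x, Real.exp (-(2 * S x)) * gsq (fun y => Real.exp (S y) * ψ y) x =
      gsq ψ x + (ψ x ^ 2 * gsq S x + 2 * ∑ k, ψ x * pd k ψ x * pd k S x) := fun x => by
    have e : Real.exp (-(2 * S x)) * Real.exp (S x) ^ 2 = 1 := by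
      rw [← Real.exp_nat_mul, ← Real.exp_add]
      simp
    simp only [gsq, hp, Fin.sum_univ_three]
    linear_combination ((pd 0 ψ x + ψ x * pd 0 S x) ^ 2 + (pd 1 ψ x + ψ x * pd 1 S x) ^ 2 +
      (pd 2 ψ x + ψ x * pd 2 S x) ^ 2) * e
  have jT := integrable_finsetSum Finset.univ fun k _ => iT k
  have jL := integrable_finsetSum Finset.univ fun k _ => iL k
  have jS : Integrable fun x => ψ x ^ 2 * gsq S x + 2 * ∑ k, ψ x * pd k ψ x * pd k S x :=
    iG.add (jT.const_mul 2)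
  simp only [e1, e2]
  rw [integral_sub (iG.const_mul _) (jL.const_mul _), integral_add hψ.integrable_gsq jS,
    integral_add iG (jT.const_mul 2), integral_const_mul, integral_const_mul, integral_const_mul,
    integral_finsetSum _ fun k _ => iT k, integral_finsetSum _ fun k _ => iL k]
  simp only [ibp, Fin.sum_univ_three]
  ring

/-- The Gaussian factor of the mass. -/
noncomputable def Des.Iz (D : Des) : ℝ :=
  ∫ z in Set.Icc (-(1 / 2) : ℝ) (1 / 2), Real.exp (-((1 + D.Om) * z ^ 2))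

theorem desh_low {n : ℝ} (hn : 2 ≤ n) :
    1 / n ^ 5 ≤ ∫ z in Set.Icc (-(1 / 2) : ℝ) (1 / 2), Real.exp (-((1 + n ^ 8) * z ^ 2)) := by
  have n0 : 0 < n := by linarith
  have h4 : (1 : ℝ) ≤ n ^ 4 := one_le_pow₀ (by linarith)
  obtain ⟨w, hw⟩ : ∃ w : ℝ, w = 1 / (2 * n ^ 4) := ⟨_, rfl⟩
  have w0 : 0 < w := by rw [hw]; positivity
  have w1 : w * n ^ 4 = 1 / 2 := by rw [hw]; field_simp
  have w2 : w ≤ 1 / 2 := by nlinarith
  have hc : Continuous fun z : ℝ => Real.exp (-((1 + n ^ 8) * z ^ 2)) := by fun_prop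
  have a1 : ∫ z in Set.Icc (-w) w, Real.exp (-((1 + n ^ 8) * z ^ 2)) ≤
      ∫ z in Set.Icc (-(1 / 2) : ℝ) (1 / 2), Real.exp (-((1 + n ^ 8) * z ^ 2)) :=
    setIntegral_mono_set hc.integrableOn_Icc (ae_of_all _ fun z => (Real.exp_pos _).le)
      (Set.Icc_subset_Icc (by linarith) w2).eventuallyLE
  have a2 : ∫ _ in Set.Icc (-w) w, (1 / 2 : ℝ) ≤
      ∫ z in Set.Icc (-w) w, Real.exp (-((1 + n ^ 8) * z ^ 2)) := by
    refine setIntegral_mono_on continuous_const.integrableOn_Icc hc.integrableOn_Icc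
      measurableSet_Icc fun z hz => ?_
    have z2 : z ^ 2 ≤ w ^ 2 := sq_le_sq' hz.1 hz.2
    have b1 : (1 + n ^ 8) * z ^ 2 ≤ (1 + n ^ 8) * w ^ 2 :=
      mul_le_mul_of_nonneg_left z2 (by positivity)
    have b2 : n ^ 8 * w ^ 2 = (w * n ^ 4) ^ 2 := by ring
    have b3 : w ^ 2 ≤ (1 / 2) ^ 2 := pow_le_pow_left₀ w0.le w2 2
    rw [w1] at b2
    have := Real.add_one_le_exp (-((1 + n ^ 8) * z ^ 2))
    linarith
  rw [setIntegral_const, Real.volume_real_Icc_of_le (by linarith), smul_eq_mul] at a2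
  refine le_trans ?_ (a2.trans a1)
  rw [div_le_iff₀ (by positivity)]
  have : (w - -w) * (1 / 2) * n ^ 5 = w * n ^ 4 * n := by ring
  rw [this, w1]
  linarith

theorem desh_tail {b : ℝ} (hb : 0 ≤ b) :
    ∫ z in (Set.Icc (-(1 / 2) : ℝ) (1 / 2))ᶜ, Real.exp (-((1 + b) * z ^ 2)) ≤
      2 * Real.exp (-(b / 4)) := by
  have i1 : Integrable fun z : ℝ => Real.exp (-(b / 4)) * Real.exp (-1 * z ^ 2) :=
    (integrable_exp_neg_mul_sq one_pos).const_mul _
  have i2 : Integrable fun z : ℝ => Real.exp (-((1 + b) * z ^ 2)) := by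
    simpa only [neg_mul] using integrable_exp_neg_mul_sq (b := 1 + b) (by linarith)
  have a1 : ∫ z in (Set.Icc (-(1 / 2) : ℝ) (1 / 2))ᶜ, Real.exp (-((1 + b) * z ^ 2)) ≤
      ∫ z in (Set.Icc (-(1 / 2) : ℝ) (1 / 2))ᶜ, Real.exp (-(b / 4)) * Real.exp (-1 * z ^ 2) := by
    refine setIntegral_mono_on i2.integrableOn i1.integrableOn measurableSet_Icc.compl
      fun z hz => ?_
    rw [← Real.exp_add]
    refine Real.exp_le_exp.2 ?_
    have z2 : 1 / 4 ≤ z ^ 2 := by
      rw [Set.mem_compl_iff, Set.mem_Icc, not_and_or, not_le, not_le] at hz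
      rcases hz with hz | hz <;> nlinarith
    nlinarith [mul_le_mul_of_nonneg_left z2 hb]
  have a2 := setIntegral_le_integral (s := (Set.Icc (-(1 / 2) : ℝ) (1 / 2))ᶜ) i1
    (ae_of_all _ fun z => by positivity)
  rw [integral_const_mul (μ := volume), integral_gaussian, div_one] at a2
  have a3 : √Real.pi ≤ 2 := Real.sqrt_le_iff.2 ⟨by norm_num, by linarith [Real.pi_lt_four]⟩
  have := mul_le_mul_of_nonneg_left a3 (Real.exp_pos (-(b / 4))).le
  linarith

theorem ev_Iz : Ev fun D => 1 / D.n ^ 5 ≤ D.Iz ∧ D.Iz ≤ 1 ∧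
    ∫ z : ℝ, Real.exp (-((1 + D.Om) * z ^ 2)) ≤ (1 + Real.exp (-(20 * D.n))) * D.Iz := by
  refine (ev_ge 10).mono fun D _ hn => ?_
  have n0 : 0 < D.n := by linarith
  have hO : 0 ≤ D.Om := by unfold Des.Om; positivity
  have h1 : 1 / D.n ^ 5 ≤ D.Iz := desh_low (by linarith)
  refine ⟨h1, ?_, ?_⟩
  · have hc : Continuous fun z : ℝ => Real.exp (-((1 + D.Om) * z ^ 2)) := by fun_prop
    have a2 : D.Iz ≤ ∫ _ in Set.Icc (-(1 / 2) : ℝ) (1 / 2), (1 : ℝ) :=
      setIntegral_mono_on hc.integrableOn_Icc continuous_const.integrableOn_Icc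
        measurableSet_Icc fun z _ => Real.exp_le_one_iff.2 (neg_nonpos.2 (by positivity))
    rw [setIntegral_const, Real.volume_real_Icc_of_le (by norm_num), smul_eq_mul] at a2
    linarith
  · have i2 : Integrable fun z : ℝ => Real.exp (-((1 + D.Om) * z ^ 2)) := by
      simpa only [neg_mul] using integrable_exp_neg_mul_sq (b := 1 + D.Om) (by linarith)
    rw [← integral_add_compl (s := Set.Icc (-(1 / 2) : ℝ) (1 / 2)) measurableSet_Icc i2]
    have a1 := desh_tail hO
    have a2 : 2 * Real.exp (-(D.Om / 4)) ≤ Real.exp (-(20 * D.n)) * (1 / D.n ^ 5) := by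
      have b1 : D.n ≤ Real.exp D.n := by linarith [Real.add_one_le_exp D.n]
      have b2 : D.n ^ 6 ≤ Real.exp (6 * D.n) := by
        have := pow_le_pow_left₀ n0.le b1 6
        rwa [← Real.exp_nat_mul, Nat.cast_ofNat] at this
      have b3 : (10 : ℝ) ^ 7 ≤ D.n ^ 7 := pow_le_pow_left₀ (by norm_num) hn 7
      have b4 : -(D.Om / 4) + 6 * D.n ≤ -(20 * D.n) := by
        have : D.Om = D.n ^ 7 * D.n := by unfold Des.Om; ring
        nlinarith
      have b5 := Real.exp_le_exp.2 b4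
      rw [Real.exp_add] at b5
      have b6 : 2 * D.n ^ 5 ≤ D.n ^ 6 := by
        have := pow_pos n0 5
        rw [pow_succ _ 5]
        nlinarith
      rw [mul_one_div, le_div_iff₀ (by positivity)]
      have := mul_le_mul_of_nonneg_left (b6.trans b2) (Real.exp_pos (-(D.Om / 4))).le
      linarith
    have a3 := mul_le_mul_of_nonneg_left h1 (Real.exp_pos (-(20 * D.n))).le
    have a4 : D.Iz = ∫ z in Set.Icc (-(1 / 2) : ℝ) (1 / 2), Real.exp (-((1 + D.Om) * z ^ 2)) := rfl
    linarith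

/-- The rotation to the coordinates `(p, q, z)`, an involution. -/
noncomputable def rot (x : Pt) : Pt := ![pc x, qc x, x 2]

theorem desh_s : (√2 : ℝ)⁻¹ * (√2)⁻¹ * 2 = 1 := by
  rw [← mul_inv, Real.mul_self_sqrt zero_le_two]
  norm_num

theorem rot_rot (x : Pt) : rot (rot x) = x := by
  funext i
  fin_cases i
  · show ((x 0 + x 1) / √2 + (x 0 - x 1) / √2) / √2 = x 0
    linear_combination x 0 * desh_s
  · show ((x 0 + x 1) / √2 - (x 0 - x 1) / √2) / √2 = x 1
    linear_combination x 1 * desh_s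
  · rfl

/-- Matrix of the rotation. -/
noncomputable def deshM : Matrix (Fin 3) (Fin 3) ℝ :=
  !![(√2)⁻¹, (√2)⁻¹, 0; (√2)⁻¹, -(√2)⁻¹, 0; 0, 0, 1]

theorem desh_rot : rot = Matrix.toLin' deshM := by
  funext x i
  fin_cases i <;>
    simp [rot, pc, qc, deshM, Matrix.toLin'_apply, Matrix.mulVec, dotProduct, Fin.sum_univ_three] <;>
    ring

theorem desh_det : deshM.det = -1 := by
  rw [deshM, Matrix.det_fin_three]
  simp only [Matrix.of_apply, Matrix.cons_val', Matrix.cons_val_zero, Matrix.cons_val_one,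
    Matrix.cons_val_fin_one, Matrix.cons_val]
  linear_combination -desh_s

theorem mp_rot : MeasurePreserving rot volume volume := by
  rw [desh_rot]
  refine ⟨(Matrix.toLin' deshM).continuous_of_finiteDimensional.measurable, ?_⟩
  rw [Real.map_matrix_volume_pi_eq_smul_volume_pi (by rw [desh_det]; norm_num), desh_det]
  simp

theorem cd_rot : ContDiff ℝ ∞ rot := by
  rw [desh_rot]
  exact (LinearMap.toContinuousLinearMap (Matrix.toLin' deshM)).contDiff

theorem gsq_rot {f : Pt → ℝ} (hf : Differentiable ℝ f) (x : Pt) :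
    gsq (fun y => f (rot y)) x = gsq f (rot x) := by
  have h : HasFDerivAt rot (LinearMap.toContinuousLinearMap (Matrix.toLin' deshM)) x := by
    rw [desh_rot]
    exact (LinearMap.toContinuousLinearMap (Matrix.toLin' deshM)).hasFDerivAt
  have h1 : ∀ k, pd k (fun y => f (rot y)) x = fderiv ℝ f (rot x) (rot (ek k)) := fun k => by
    unfold pd
    rw [show (fun y => f (rot y)) = f ∘ rot from rfl, ((hf (rot x)).hasFDerivAt.comp x h).fderiv,
      desh_rot]
    rfl
  have e0 : rot (ek 0) = (√2 : ℝ)⁻¹ • ek 0 + (√2 : ℝ)⁻¹ • ek 1 := by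
    funext i
    fin_cases i <;> simp [rot, pc, qc, ek]
  have e1 : rot (ek 1) = (√2 : ℝ)⁻¹ • ek 0 - (√2 : ℝ)⁻¹ • ek 1 := by
    funext i
    fin_cases i <;> simp [rot, pc, qc, ek, neg_div]
  have e2 : rot (ek 2) = ek 2 := by
    funext i
    fin_cases i <;> simp [rot, pc, qc, ek]
  simp only [gsq, Fin.sum_univ_three, h1, e0, e1, e2, map_add, map_sub, map_smul, smul_eq_mul]
  unfold pd
  linear_combination (fderiv ℝ f (rot x) (ek 0) ^ 2 + fderiv ℝ f (rot x) (ek 1) ^ 2) * desh_s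

theorem desh_shift (G : Pt → ℝ) (c : Pt) : ∫ x, G (rot x - c) = ∫ y, G y := by
  rw [mp_rot.integral_comp
    (MeasurableEquiv.ofInvolutive rot rot_rot mp_rot.measurable).measurableEmbedding
    fun y => G (y - c)]
  exact integral_sub_right_eq_self G c

theorem desh_dd {a : Fin 5} {x : Pt} (hx : x ∈ Aw a) :
    dd x = 1 + 6 * sqb aw a x ∧ |pc x| ≤ 2 * Lc ∧ |qc x| ≤ 2 * Lc := by
  obtain ⟨h1, h2, -⟩ := hx
  rw [abs_le] at h1 h2
  have hb : (|pc x| ≤ aw + 1 ∨ |qc x| ≤ aw + 1) ∧ |pc x| ≤ Lc + aw + 1 ∧ |qc x| ≤ Lc + aw + 1 := by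
    simp only [abs_le]
    fin_cases a <;> simp [ctr, aw, Lc] at h1 h2 ⊢ <;>
      refine ⟨?_, ⟨by linarith, by linarith⟩, by linarith, by linarith⟩
    exacts [Or.inl ⟨by linarith, by linarith⟩, Or.inr ⟨by linarith, by linarith⟩,
      Or.inl ⟨by linarith, by linarith⟩, Or.inr ⟨by linarith, by linarith⟩,
      Or.inl ⟨by linarith, by linarith⟩]
  have hc : crs x = 1 := by
    have e : sqb (Lc + aw + 1) 0 x = 1 := by
      simp only [sqb, ctr, Matrix.cons_val_zero, sub_zero]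
      rw [bmp_one hb.2.1, bmp_one hb.2.2, one_mul]
    unfold crs
    rcases hb.1 with h | h <;> rw [e, bmp_one h] <;> ring
  have hz : ∀ b, b ≠ a → sqb aw b x = 0 := fun b hb => by
    have : aw + 1 ≤ |pc x - (ctr b).1| ∨ aw + 1 ≤ |qc x - (ctr b).2| := by
      by_contra hh
      simp only [not_or, not_le, abs_lt] at hh
      obtain ⟨⟨g1, g2⟩, g3, g4⟩ := hh
      fin_cases a <;> fin_cases b <;> simp [ctr, aw, Lc] at h1 h2 g1 g2 g3 g4 hb <;>
        linarith [h1.1, h1.2, h2.1, h2.2]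
    unfold sqb
    rcases this with h | h <;> rw [bmp_zero h] <;> ring
  have hL : Lc + aw + 1 ≤ 2 * Lc := by norm_num [aw, Lc]
  refine ⟨?_, hb.2.1.trans hL, hb.2.2.trans hL⟩
  unfold dd
  rw [hc, Finset.sum_eq_single a (fun b _ h => hz b h) (by simp)]

theorem desh_box (D : Des) {A : ℝ} (hA : 0 ≤ A) :
    ∫ y in box A A (1 / 2), Real.exp (-((1 + D.Om) * y 2 ^ 2)) = (2 * A) ^ 2 * D.Iz := by
  have h := integral_pt_prod ((Set.Icc (-A) A).indicator fun _ => 1)
    ((Set.Icc (-A) A).indicator fun _ => 1)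
    ((Set.Icc (-(1 / 2) : ℝ) (1 / 2)).indicator fun z => Real.exp (-((1 + D.Om) * z ^ 2)))
  rw [integral_indicator measurableSet_Icc, integral_indicator measurableSet_Icc,
    setIntegral_const, Real.volume_real_Icc_of_le (by linarith), smul_eq_mul] at h
  rw [← integral_indicator (measurableSet_box _ _ _)]
  refine Eq.trans (integral_congr_ae (ae_of_all _ fun y => ?_)) (h.trans ?_)
  · simp only [Set.indicator, box, Set.mem_ofPred_eq, Set.mem_Icc, abs_le]
    by_cases h0 : -A ≤ y 0 ∧ y 0 ≤ A <;> by_cases h1 : -A ≤ y 1 ∧ y 1 ≤ A <;>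
      by_cases h2 : -(1 / 2) ≤ y 2 ∧ y 2 ≤ 1 / 2 <;> simp only [h0, h1, h2] <;> simp
  · unfold Des.Iz
    ring

theorem ev_mass : Ev fun D => ∀ a, D.mass a = D.mass 0 ∧ 4 * aw ^ 2 * D.Iz ≤ D.mass a ∧
    D.mass a ≤ (2 * aw + 2) ^ 2 * D.Iz := by
  refine (ev_Ls.and (ev_ge 0)).mono fun D hD ⟨⟨hL, _⟩, hn⟩ => ?_
  obtain ⟨g, hg⟩ : ∃ g : Pt → ℝ, g = fun y => Real.exp (-((1 + D.Om) * y 2 ^ 2)) *
      Real.exp (-(12 * D.n * (1 - bmp aw (y 0) * bmp aw (y 1)))) := ⟨_, rfl⟩
  have cb := (contDiff_bmp aw).continuous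
  have cg : Continuous g := by rw [hg]; fun_prop
  have ce : Continuous fun y : Pt => Real.exp (-((1 + D.Om) * y 2 ^ 2)) := by fun_prop
  have key : ∀ a, D.mass a = ∫ y in box (aw + 1) (aw + 1) (1 / 2), g y := fun a => by
    obtain ⟨c, hc⟩ : ∃ c : Pt, c = ![(ctr a).1, (ctr a).2, 0] := ⟨_, rfl⟩
    have e0 : ∀ x, (rot x - c) 0 = pc x - (ctr a).1 := fun x => by simp [rot, hc]
    have e1 : ∀ x, (rot x - c) 1 = qc x - (ctr a).2 := fun x => by simp [rot, hc]
    have e2 : ∀ x, (rot x - c) 2 = x 2 := fun x => by simp [rot, hc]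
    have hA : Aw a = (fun x => rot x - c) ⁻¹' box (aw + 1) (aw + 1) (1 / 2) := by
      ext x
      simp only [Aw, box, Set.mem_preimage, Set.mem_ofPred_eq, e0, e1, e2]
    have hm : MeasurableSet (Aw a) := by
      rw [hA]
      exact (mp_rot.measurable.sub_const c) (measurableSet_box _ _ _)
    rw [← integral_indicator (measurableSet_box _ _ _), ← desh_shift _ c, Des.mass,
      ← integral_indicator hm]
    refine integral_congr_ae (ae_of_all _ fun x => ?_)
    by_cases hx : x ∈ Aw a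
    · have hx' : rot x - c ∈ box (aw + 1) (aw + 1) (1 / 2) := by rwa [hA] at hx
      obtain ⟨d1, d2, d3⟩ := desh_dd hx
      simp only [Set.indicator_of_mem hx, Set.indicator_of_mem hx', hg, e0, e1, e2]
      rw [Des.φ0, hD.S_box hL d2 d3 (hx.2.2.trans (by norm_num)), d1, ← Real.exp_nat_mul,
        ← Real.exp_add, sqb]
      congr 1
      push_cast
      ring
    · have hx' : rot x - c ∉ box (aw + 1) (aw + 1) (1 / 2) := by rwa [hA] at hx
      simp only [Set.indicator_of_notMem hx, Set.indicator_of_notMem hx']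
  have a0 : (0 : ℝ) ≤ aw := by norm_num [aw]
  have ig : IntegrableOn g (box (aw + 1) (aw + 1) (1 / 2)) :=
    cg.continuousOn.integrableOn_compact (isCompact_box _ _ _)
  refine fun a => ⟨(key a).trans (key 0).symm, ?_, ?_⟩
  · have h1 := desh_box D a0
    have h2 : ∫ y in box aw aw (1 / 2), Real.exp (-((1 + D.Om) * y 2 ^ 2)) =
        ∫ y in box aw aw (1 / 2), g y :=
      setIntegral_congr_fun (measurableSet_box _ _ _) fun y hy => by
        simp only [hg]
        rw [bmp_one hy.1, bmp_one hy.2.1]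
        simp
    have hs : box aw aw (1 / 2) ⊆ box (aw + 1) (aw + 1) (1 / 2) := fun y hy =>
      ⟨hy.1.trans (by linarith), hy.2.1.trans (by linarith), hy.2.2⟩
    have h3 := setIntegral_mono_set ig (ae_of_all _ fun y => by rw [hg]; positivity)
      hs.eventuallyLE
    rw [key a]
    linarith
  · have h1 := desh_box D (A := aw + 1) (by linarith)
    have h2 := setIntegral_mono_on ig (ce.continuousOn.integrableOn_compact (isCompact_box _ _ _))
      (measurableSet_box _ _ _) fun y _ => by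
        rw [hg]
        refine mul_le_of_le_one_right (Real.exp_pos _).le (Real.exp_le_one_iff.2 (neg_nonpos.2 ?_))
        have := mul_le_one₀ (bmp_le_one aw (y 0)) (bmp_nonneg aw (y 1)) (bmp_le_one aw (y 1))
        exact mul_nonneg (by linarith) (by linarith)
    rw [key a]
    linarith

end Vale.Agent.P363
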