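import Vale.Agent.P363.FD

/-! Part F, the potentials.  `f0_f`: with `w = indicator {R ≤ nrm} (2 lam / r + max (-1 / r²) (min (1 / r²) q₁))`
(bounded, measurable) take `q = V + k + w` (`FB.add`, `fb_of_bdd`) and the source `s - w f`. -/

namespace Vale.Agent.P363

open MeasureTheory Vale.Agent.P370 Filter Topology
open scoped ContDiff

variable {V : Pt → ℝ} {lam k g Λ β A R Z : ℝ} {φ : Fin 5 → Pt → ℝ} {f a ρ b n : Pt → ℝ}

lemma f0_le {x : Pt} (hR : 100 ≤ R) (hx : R + 1 / 4 / R ≤ nrm x) :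
    R ≤ nrm x ∧ R + 1 / 8 / R ≤ nrm x := by
  have h0 : 0 < R := by linarith
  have h1 : 0 < 1 / 8 / R := by positivity
  have h2 : 1 / 4 / R = 2 * (1 / 8 / R) := by ring
  constructor <;> linarith

theorem f0_q (hV : FB V) (hv : Vac V R Z) (hR : 100 ≤ R) (l0 : 0 ≤ lam) (l1 : lam ≤ 1 / 100)
    (k g : ℝ) : Qn R k (Z - 2 * lam) (1 / 50) g fun x => V x + k + g := by
  refine ⟨(hV.add_const k).add_const g, fun x hx => ?_⟩
  obtain ⟨h1, h2⟩ := f0_le hR hx
  have h3 := abs_le.1 (hv x h2)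
  have h0 : 0 < nrm x := by linarith
  have h4 : 0 ≤ lam / nrm x := by positivity
  have h5 : lam / nrm x ≤ 1 / 100 / nrm x := div_le_div_of_nonneg_right l1 h0.le
  have h6 : 0 ≤ 1 / nrm x ^ 2 := by positivity
  have e1 : (Z - 2 * lam) / nrm x = Z / nrm x - 2 * (lam / nrm x) := by ring
  have e2 : 1 / 50 / nrm x = 2 * (1 / 100 / nrm x) := by ring
  have e3 : 2 / nrm x ^ 2 = 2 * (1 / nrm x ^ 2) := by ring
  rw [e1, e2, e3, abs_le]
  constructor <;> linarith [h3.1, h3.2]

theorem f0_f (hV : FB V) (hv : Vac V R Z) (hR : 100 ≤ R) (hΛ : Λ ≤ 1)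
    (hs : Scal V lam k g Λ β A φ f a ρ b n) :
    ∃ q s gf, Eqf R k (Z - 2 * lam) q s f gf ∧
      ∀ᵐ x, R ≤ nrm x → |s x| ≤ Λ / nrm x ^ 2 * ρ x := by
  obtain ⟨gf, s, q₁, s₂, h1, h2, h3, h4, h5⟩ := hs.hf
  have hn := continuous_nrm.measurable
  obtain ⟨w, hw⟩ : ∃ w : Pt → ℝ, w = fun x => if R ≤ nrm x then
    2 * lam / nrm x + max (-(1 / nrm x ^ 2)) (min (1 / nrm x ^ 2) (q₁ x)) else 0 := ⟨_, rfl⟩
  have hm : Measurable w := by
    rw [hw]
    exact Measurable.ite (measurableSet_le measurable_const hn) (by fun_prop) measurable_const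
  have hc : ∀ x, |max (-(1 / nrm x ^ 2)) (min (1 / nrm x ^ 2) (q₁ x))| ≤ 1 / nrm x ^ 2 :=
    fun x => abs_le.2 ⟨le_max_left _ _, max_le (neg_le_self (by positivity)) (min_le_left _ _)⟩
  have hb : ∀ x, |w x| ≤ |2 * lam| + 1 := fun x => by
    simp only [hw]
    split_ifs with hx
    · have h6 : 1 ≤ nrm x := by linarith
      refine (abs_add_le _ _).trans (add_le_add ?_ ((hc x).trans ?_))
      · rw [abs_div, abs_of_nonneg (nrm_nonneg x)]
        exact div_le_self (abs_nonneg _) h6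
      · exact div_le_one_of_le₀ (one_le_pow₀ h6) (sq_nonneg _)
    · rw [abs_zero]; positivity
  have hwf : MemLp (fun x => w x * f x) 2 :=
    h1.1.of_le_mul (c := |2 * lam| + 1) (hm.aestronglyMeasurable.mul h1.1.1)
      (Eventually.of_forall fun x => by
        rw [norm_mul]; exact mul_le_mul_of_nonneg_right (hb x) (norm_nonneg _))
  refine ⟨fun x => V x + k + w x, fun x => s x - w x * f x, gf,
    ⟨⟨(hV.add_const k).add (fb_of_bdd hm hb), fun x hx => ?_⟩, h1, h2.sub hwf, fun ζ hζ => ?_,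
      hs.odd⟩, h5.mono fun x hx hR' => ?_⟩
  · obtain ⟨h6, h7⟩ := f0_le hR hx
    have h8 := abs_le.1 (hv x h7)
    have h9 := abs_le.1 (hc x)
    have e1 : (Z - 2 * lam) / nrm x = Z / nrm x - 2 * lam / nrm x := by ring
    have e3 : 2 / nrm x ^ 2 = 2 * (1 / nrm x ^ 2) := by ring
    simp only [hw, if_pos h6]
    rw [e1, e3, zero_div, abs_le]
    constructor <;> linarith [h8.1, h8.2, h9.1, h9.2]
  · have h6 := h4 ζ hζ
    have hz := C1c.h1 hζ
    have i1 := (hV.add_const k).integrable h1 hz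
    have i2 : Integrable fun x => w x * f x * ζ x := hwf.integrable_mul hz.1
    have i3 : Integrable fun x => -s x * ζ x := h2.neg.integrable_mul hz.1
    have e1 : ∫ x, (V x + k + w x) * (f x * ζ x) =
        (∫ x, (V x + k) * (f x * ζ x)) + ∫ x, w x * f x * ζ x := by
      rw [← integral_add i1 i2]
      exact integral_congr_ae (Eventually.of_forall fun x => by simp only; ring)
    have e2 : ∫ x, -(s x - w x * f x) * ζ x = (∫ x, -s x * ζ x) + ∫ x, w x * f x * ζ x := by
      rw [← integral_add i3 i2]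
      exact integral_congr_ae (Eventually.of_forall fun x => by simp only; ring)
    unfold q1 at h6 ⊢
    rw [e1, e2, ← h6]
    ring
  · have h6 := abs_le.1 (hx.2.2.1.trans (div_le_div_of_nonneg_right hΛ (sq_nonneg (nrm x))))
    have h7 : s x - w x * f x = s₂ x := by
      simp only [hw, if_pos hR']
      rw [min_eq_right h6.2, max_eq_right h6.1, hx.2.1]
      ring
    exact (congrArg abs h7).trans_le hx.2.2.2

end Vale.Agent.P363
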