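import Vale.Agent.P363.FW

/-! Part F, steps F1 and F2: `mp_ext` with `r₀ = R`, `r₁ = R + 1 / 4 / R`, `r₂ = R + 3 / 4 / R`, barrier
`φ (nrm x) * Y x` (`W.bar`, `Qn.bdd`, `Qn.sup`).  F1: `Y = 8 Ca R^(-1/8) * (r^(1/8) * 1)` (`Lw_pow`; `PP / (8 r)` beats
`1 / (50 r)`).  F2: `Y = 10 Ca R^(-1/8) * (r^(1/8) * n r)`, `n r = T / (T + r)`, `T = 8 R / g`; `Lw_pow`, and `Lw_rad`,
`dr_comp` for `n`; `PP / (T + r) ≤ g / 2`; on the shell `n ≥ 0.8`; at the end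
`T / (T + r) ≤ √(T / r) / 2 ≤ 1.5 (R / r)^(1/2) / √g`. -/

namespace Vale.Agent.P363

open MeasureTheory Vale.Agent.P370 Filter Topology
open scoped ContDiff

variable {R k Z g Ca : ℝ} {p φ : ℝ → ℝ} {q τ u : Pt → ℝ} {gu : Fin 3 → Pt → ℝ}

theorem f1_mp (W : Wkb R k Z p φ) (g0 : 0 ≤ g) (g1 : g ≤ 1) (hq : Qn R k Z (1 / 50) g q)
    (hu : H1 u gu) (hτ : MemLp τ 2) (hs : Sub q τ u gu) (hC : 0 ≤ Ca) {Y : Pt → ℝ} (hY : Pol R Y)
    (h0 : ∀ x, R < nrm x → 0 ≤ Y x)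
    (h1 : ∀ᵐ x, R + 1 / 4 / R ≤ nrm x → τ x ≤
      φ (nrm x) * (Lw p Y x + (g - 1 / 50 / nrm x + R ^ 2 / (7 * nrm x ^ 2)) * Y x))
    (hsh : ∀ᵐ x, x ∈ Sh R (1 / 4) (3 / 4) → u x ≤ Ca)
    (h2 : ∀ x, R < nrm x → nrm x ≤ 2 * R → 8 * Ca ≤ Y x) :
    ∀ᵐ x, R + 1 / 4 / R ≤ nrm x → u x ≤ φ (nrm x) * Y x := by
  have hR := W.hR
  have hR0 : 0 < R := by linarith
  have a1 : R < R + 1 / 4 / R := lt_add_of_pos_right _ (by positivity)
  have a2 : 1 / R ≤ 1 := (div_le_one hR0).2 (by linarith)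
  have a3 : 1 / 4 / R = 1 / 4 * (1 / R) := by ring
  have a4 : 3 / 4 / R = 3 / 4 * (1 / R) := by ring
  have a5 : 0 < 1 / R := by positivity
  refine mp_ext (r₂ := R + 3 / 4 / R) hq.1 hu hτ hs hR0 a1 (by linarith) (W.bar Y hY) one_pos
    (fun x hx => hq.bdd W (by norm_num) g0 g1 hx) ?_ ?_
  · filter_upwards [h1] with x h hx _
    exact (h hx).trans (hq.sup W hx (hY.cd (a1.trans_le hx)) (h0 x (a1.trans_le hx)))
  · filter_upwards [hsh] with x h hx hx'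
    have b1 := W.shell (nrm x) (by linarith) (by linarith)
    have b2 := h2 x (a1.trans_le hx) (by linarith)
    have b3 := mul_le_mul b1 b2 (by positivity) (W.pos _).le
    linarith [h ⟨hx, hx'⟩]

theorem f1_one (p : ℝ → ℝ) (x : Pt) : Lw p (fun _ => 1) x = 0 := by
  simp only [Lw, lap_const, dr_const, mul_zero, add_zero]

theorem f1_num {r P : ℝ} (hR : 100 ≤ R) (hr : R ≤ r) (hP : 9 / 10 * R ≤ P) :
    1 / 50 / r ≤ 1 / 8 * (P + 1 / r) / r - 1 / 8 * (1 / 8 + 1) / (2 * r ^ 2) := by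
  have h0 : 0 < r := by linarith
  have e : 1 / 8 * (P + 1 / r) / r - 1 / 8 * (1 / 8 + 1) / (2 * r ^ 2) =
      P / 8 / r + 7 / 128 / r ^ 2 := by
    field_simp
    ring
  rw [e]
  have h1 : 1 / 50 / r ≤ P / 8 / r := div_le_div_of_nonneg_right (by linarith) h0.le
  have h2 : 0 ≤ 7 / 128 / r ^ 2 := by positivity
  linarith

theorem f1_ge {r : ℝ} (hR : 0 < R) (hr : R ≤ r) : R ^ (1 / 8 : ℝ) ≤ r ^ (1 / 8 : ℝ) :=
  Real.rpow_le_rpow hR.le hr (by norm_num)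

theorem f1_a (W : Wkb R k Z p φ) (hq : Qn R k Z (1 / 50) 0 q) (hu : H1 u gu) (hs : Sub q 0 u gu)
    (hC : 0 ≤ Ca) (hsh : ∀ᵐ x, x ∈ Sh R (1 / 4) (3 / 4) → u x ≤ Ca) :
    ∀ᵐ x, R + 1 / 4 / R ≤ nrm x → u x ≤ 8 * Ca * (φ (nrm x) * (nrm x / R) ^ (1 / 8 : ℝ)) := by
  have hR := W.hR
  have hR0 : 0 < R := by linarith
  have a1 : R < R + 1 / 4 / R := lt_add_of_pos_right _ (by positivity)
  have a2 : 0 < R ^ (1 / 8 : ℝ) := by positivity
  have key := f1_mp W le_rfl zero_le_one hq hu (MemLp.zero) hs hC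
    (((pol_pow (r := R) (a := 1 / 8) (by linarith) (by norm_num)).mul (pol_const R 1)).cmul
      (8 * Ca / R ^ (1 / 8 : ℝ))) (fun x hx => by
        have : 0 < nrm x := by linarith
        positivity) (.of_forall fun x hx => ?_) hsh fun x hx _ => ?_
  · filter_upwards [key] with x h hx
    refine (h hx).trans_eq ?_
    rw [Real.div_rpow (by linarith) hR0.le]
    ring
  · have h0 : 0 < nrm x := by linarith
    rw [Lw_cmul ((fa_cd_pow h0 _).mul contDiffAt_const), Lw_pow h0 contDiffAt_const, f1_one,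
      dr_const]
    have b1 := f1_num hR (a1.le.trans hx) (W.lo _ (a1.le.trans hx))
    have b2 : 0 ≤ R ^ 2 / (7 * nrm x ^ 2) := by positivity
    have b3 : 0 ≤ 8 * Ca / R ^ (1 / 8 : ℝ) * nrm x ^ (1 / 8 : ℝ) := by positivity
    refine mul_nonneg (W.pos _).le ?_
    nlinarith [mul_nonneg b3 (add_nonneg (sub_nonneg.2 b1) b2)]
  · rw [mul_one, div_mul_eq_mul_div, le_div_iff₀ a2]
    exact mul_le_mul_of_nonneg_left (f1_ge hR0 hx.le) (by positivity)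

theorem f1_d1 {T t : ℝ} (h : 0 < T + t) :
    HasDerivAt (fun t => T / (T + t)) (-T / (T + t) ^ 2) t := by
  refine ((hasDerivAt_const t T).div ((hasDerivAt_id' t).const_add T) h.ne').congr_deriv ?_
  ring

theorem f1_d2 {T t : ℝ} (h : 0 < T + t) :
    HasDerivAt (fun t => -T / (T + t) ^ 2) (2 * T / (T + t) ^ 3) t := by
  refine ((hasDerivAt_const t (-T)).div (((hasDerivAt_id' t).const_add T).pow 2)
    (pow_pos h 2).ne').congr_deriv ?_
  simp only [Pi.pow_apply]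
  field_simp
  ring

theorem f1_cd {T t : ℝ} (h : 0 < T + t) : ContDiffAt ℝ 2 (fun t => T / (T + t)) t :=
  contDiffAt_const.div (contDiffAt_const.add contDiffAt_id) h.ne'

theorem f1_pol {T : ℝ} (hR : 1 ≤ R) (hT : 0 < T) : Pol R fun x => T / (T + nrm x) := by
  refine (pol_nrm hR).comp (S := Set.Ioi 0) (C := 2) isOpen_Ioi
    (fun x hx => by rw [Set.mem_Ioi]; linarith)
    (fun t ht => (f1_cd (add_pos hT ht)).contDiffWithinAt) (fun t ht => f1_d1 (add_pos hT ht))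
    (fun t ht => f1_d2 (add_pos hT ht)) fun x hx => ?_
  have h1 : 1 ≤ T + nrm x := by linarith
  have h2 : T ≤ T + nrm x := by linarith
  have h3 := abs_nonneg (nrm x)
  refine ⟨?_, ?_, ?_⟩
  · rw [abs_of_nonneg (by positivity)]
    have := (div_le_one (by linarith)).2 h2
    linarith
  · rw [neg_div, abs_neg, abs_of_nonneg (by positivity), div_le_iff₀ (by positivity)]
    nlinarith
  · rw [abs_of_nonneg (by positivity), div_le_iff₀ (by positivity)]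
    nlinarith [le_self_pow₀ h1 three_ne_zero]

theorem f1_lw {T : ℝ} (hT : 0 < T) {x : Pt} (hx : 0 < nrm x) (p : ℝ → ℝ) :
    dr (fun y => T / (T + nrm y)) x = -T / (T + nrm x) ^ 2 ∧
      Lw p (fun y => T / (T + nrm y)) x =
        p (nrm x) * (-T / (T + nrm x) ^ 2) - 2 * T / (T + nrm x) ^ 3 / 2 := by
  have h := add_pos hT hx
  refine ⟨?_, ?_⟩
  · rw [dr_comp ((fa_cd_nrm hx).differentiableAt one_ne_zero) (f1_d1 h), dr_nrm hx, mul_one]
  · have := Lw_rad (p := p) (E := fun _ => 1) hx contDiffAt_const (f1_cd h)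
      ((lt_mem_nhds hx).mono fun t ht => f1_d1 (add_pos hT ht)) (f1_d2 h)
    simpa only [mul_one, f1_one, dr_const, mul_zero, sub_zero, zero_add] using this

theorem f1_num2 {r P T X : ℝ} (hR : 100 ≤ R) (hr : R ≤ r) (hP : P ≤ 2 * R) (g0 : 0 < g)
    (g1 : g ≤ 1) (hT : T = 8 * R / g) (hX : 1 / 50 / r ≤ X) :
    8 / r ^ 2 ≤ 10 * (P * (-T / (T + r) ^ 2) - 2 * T / (T + r) ^ 3 / 2 -
      1 / 8 / r * (-T / (T + r) ^ 2) + X * (T / (T + r)) +
      (g - 1 / 50 / r + R ^ 2 / (7 * r ^ 2)) * (T / (T + r))) := by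
  have h0 : 0 < r := by linarith
  have hg : g * T = 8 * R := by
    rw [hT]
    field_simp
  have hT0 : 0 < T := by rw [hT]; positivity
  have hT8 : 8 * R ≤ T := by nlinarith
  have h1 : 0 < T + r := by linarith
  have e : P * (-T / (T + r) ^ 2) - 2 * T / (T + r) ^ 3 / 2 -
      1 / 8 / r * (-T / (T + r) ^ 2) + X * (T / (T + r)) +
      (g - 1 / 50 / r + R ^ 2 / (7 * r ^ 2)) * (T / (T + r)) =
      T / (T + r) * (-(P / (T + r)) - 1 / (T + r) ^ 2 + 1 / 8 / r / (T + r) + X + g - 1 / 50 / r +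
        R ^ 2 / (7 * r ^ 2)) := by
    field_simp
    ring
  have b1 : P / (T + r) ≤ g / 4 := by
    rw [div_le_iff₀ h1]
    nlinarith
  have b2 : 1 / (T + r) ^ 2 ≤ g / 4 := by
    rw [div_le_iff₀ (by positivity)]
    have : 4 ≤ g * (T + r) := by nlinarith
    nlinarith
  have b3 : 0 ≤ 1 / 8 / r / (T + r) := by positivity
  have b4 : 8 / r ^ 2 ≤ 10 * (T / (T + r) * (g / 2 + R ^ 2 / (7 * r ^ 2))) := by
    have e2 : 10 * (T / (T + r) * (g / 2 + R ^ 2 / (7 * r ^ 2))) =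
        10 * T * (g / 2 * r ^ 2 + R ^ 2 / 7) / (T + r) / r ^ 2 := by
      field_simp
    rw [e2]
    refine div_le_div_of_nonneg_right ?_ (by positivity)
    rw [le_div_iff₀ h1]
    have c1 : 8 * r ≤ g * T * r ^ 2 := by rw [hg]; nlinarith
    have c2 : 8 * T ≤ T * R ^ 2 := by nlinarith
    nlinarith
  rw [e]
  refine b4.trans (mul_le_mul_of_nonneg_left (mul_le_mul_of_nonneg_left ?_ (by positivity))
    (by norm_num))
  linarith

theorem f1_end {r T : ℝ} (hR : 0 < R) (hr : 0 < r) (g0 : 0 < g) (hT : T = 8 * R / g) :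
    10 / R ^ (1 / 8 : ℝ) * (r ^ (1 / 8 : ℝ) * (T / (T + r))) ≤
      15 / √g * (R / r) ^ (3 / 8 : ℝ) := by
  obtain ⟨s, hs, es⟩ : ∃ s : ℝ, 0 < s ∧ s = (r / R) ^ (1 / 8 : ℝ) := ⟨_, by positivity, rfl⟩
  obtain ⟨w, hw, ew⟩ : ∃ w : ℝ, 0 < w ∧ w = √g := ⟨_, by positivity, rfl⟩
  have e1 : s ^ 8 = r / R := by
    rw [es, ← Real.rpow_natCast, ← Real.rpow_mul (by positivity)]
    norm_num
  have e2 : (R / r) ^ (3 / 8 : ℝ) = 1 / s ^ 3 := by
    rw [es, ← Real.rpow_natCast, ← Real.rpow_mul (by positivity), one_div (_ ^ _),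
      ← Real.inv_rpow (by positivity), inv_div]
    norm_num
  have e3 : w ^ 2 = g := ew ▸ Real.sq_sqrt g0.le
  have e4 : r = R * s ^ 8 := by
    rw [e1]
    field_simp
  have e5 : 10 / R ^ (1 / 8 : ℝ) * (r ^ (1 / 8 : ℝ) * (T / (T + r))) =
      10 * s * (T / (T + r)) := by
    rw [es, Real.div_rpow hr.le hR.le]
    ring
  have e6 : T / (T + r) = 8 / (8 + (w * s ^ 4) ^ 2) := by
    rw [hT, e4, ← e3]
    field_simp
  rw [e5, e6, e2, ← ew, mul_div_assoc', div_mul_div_comm,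
    div_le_div_iff₀ (by positivity) (by positivity)]
  nlinarith [sq_nonneg (w * s ^ 4 - 8 / 3)]

theorem f1_rho (W : Wkb R k Z p φ) (g0 : 0 < g) (g1 : g ≤ 1) (hq : Qn R k Z (1 / 50) g q)
    (hu : H1 u gu) (hτ : MemLp τ 2) (hs : Sub q τ u gu) (hC : 0 ≤ Ca)
    (hτ' : ∀ᵐ x, R + 1 / 4 / R ≤ nrm x →
      τ x ≤ 8 * Ca * (φ (nrm x) * (nrm x / R) ^ (1 / 8 : ℝ)) / nrm x ^ 2)
    (hsh : ∀ᵐ x, x ∈ Sh R (1 / 4) (3 / 4) → u x ≤ Ca) :
    ∀ᵐ x, R + 1 / 4 / R ≤ nrm x →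
      u x ≤ 15 * Ca / √g * (φ (nrm x) * (R / nrm x) ^ (3 / 8 : ℝ)) := by
  have hR := W.hR
  have hR0 : 0 < R := by linarith
  have a1 : R < R + 1 / 4 / R := lt_add_of_pos_right _ (by positivity)
  have a2 : 0 < R ^ (1 / 8 : ℝ) := by positivity
  obtain ⟨T, hT⟩ : ∃ T, T = 8 * R / g := ⟨_, rfl⟩
  have hT0 : 0 < T := by rw [hT]; positivity
  have hT8 : 8 * R ≤ T := by
    rw [hT, le_div_iff₀ g0]
    nlinarith
  have hn := f1_pol (R := R) (by linarith) hT0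
  have key := f1_mp W g0.le g1 hq hu hτ hs hC
    (((pol_pow (r := R) (a := 1 / 8) (by linarith) (by norm_num)).mul hn).cmul
      (Ca * (10 / R ^ (1 / 8 : ℝ)))) (fun x hx => by
        have : 0 < nrm x := by linarith
        positivity) ?_ hsh fun x hx hx' => ?_
  · filter_upwards [key] with x h hx
    have := mul_le_mul_of_nonneg_left (f1_end (r := nrm x) hR0 (by linarith) g0 hT)
      (mul_nonneg (W.pos (nrm x)).le hC)
    refine (h hx).trans (le_of_eq_of_le ?_ (this.trans_eq ?_)) <;> ring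
  · filter_upwards [hτ'] with x h hx
    have h0 : 0 < nrm x := by linarith
    have hc := hn.cd (a1.trans_le hx)
    rw [Lw_cmul ((fa_cd_pow h0 _).mul hc), Lw_pow h0 hc, (f1_lw hT0 h0 p).1, (f1_lw hT0 h0 p).2]
    have b1 := f1_num2 hR (a1.le.trans hx) (W.hi _ (a1.le.trans hx)) g0 g1 hT
      (f1_num hR (a1.le.trans hx) (W.lo _ (a1.le.trans hx)))
    have b2 := mul_le_mul_of_nonneg_left b1 (show 0 ≤ φ (nrm x) * Ca * nrm x ^ (1 / 8 : ℝ) /
      R ^ (1 / 8 : ℝ) by have := W.pos (nrm x); positivity)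
    refine (h hx).trans (le_of_eq_of_le ?_ (b2.trans_eq ?_))
    · rw [Real.div_rpow h0.le hR0.le]
      ring
    · ring
  · have b1 : 1 ≤ nrm x ^ (1 / 8 : ℝ) / R ^ (1 / 8 : ℝ) := (one_le_div a2).2 (f1_ge hR0 hx.le)
    have b2 : 4 / 5 ≤ T / (T + nrm x) := by
      rw [le_div_iff₀ (by linarith)]
      linarith
    have b3 := mul_le_mul_of_nonneg_left (mul_le_mul b1 b2 (by norm_num) (by linarith))
      (show 0 ≤ 10 * Ca by positivity)
    exact le_of_eq_of_le (by ring) (b3.trans_eq (by ring))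

end Vale.Agent.P363
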