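import Vale.Agent.P363.FP

/-! Part F, the subsolution.  Near `x`, `YT R = e (nrm ·) * H` with `e r = exp (10 R / r - 10)`, `H = P * exp (B (c - 1))`,
`P = r^(-2) x y`, `c = r^(-1) z`, `B = 2 R²`.  `dr P = 0 = dr c`, `r² lap P = -6 P`, `r² lap c = -2 c`,
`r² gsq c = 1 - c²`, `r² ∑ pd P * pd c = -2 c P`, so `r² lap H = (B² (1 - c²) - 6 - 6 B c) H ≥ -(6 + 6 B) H`, `dr H = 0`.
`Lw_rad` with `e' = -A e / r²`, `e'' = (A² / r⁴ + 2 A / r³) e`, `A = 10 R`; `p A ≥ 9 R² ≥ 3 + 3 B + 2 R²`.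
`yt_ge`: `1 - z / r ≤ (x² + y²) / r²`. -/

namespace Vale.Agent.P363

open MeasureTheory Vale.Agent.P370 Filter Topology
open scoped ContDiff

variable {R k Z : ℝ} {p φ : ℝ → ℝ} {x : Pt}

theorem ft_c (hx : 0 < nrm x) : |x 2 / nrm x| ≤ 1 := by
  rw [abs_div, abs_of_pos hx, div_le_one hx]
  exact abs_le_of_sq_le_sq (by rw [fa_sq]; nlinarith [sq_nonneg (x 0), sq_nonneg (x 1)]) hx.le

theorem ft_A {r : ℝ} (hR : 0 < R) (hr : R ≤ r) : 10 * R / r - 10 ≤ 0 := by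
  rw [sub_nonpos, div_le_iff₀ (by linarith)]
  linarith

theorem ft_cd (i : Fin 3) : ContDiffAt ℝ 2 (fun y : Pt => y i) x := by fun_prop

theorem ft_d {f : Pt → ℝ} (h : ContDiffAt ℝ 2 f x) : DifferentiableAt ℝ f x :=
  h.differentiableAt two_ne_zero

/-- The cosine of the polar angle. -/
theorem ft_cos (hx : 0 < nrm x) : ContDiffAt ℝ 2 (fun y => (nrm y)⁻¹ * y 2) x ∧
    (∀ k, pd k (fun y => (nrm y)⁻¹ * y 2) x =
      (if 2 = k then 1 else 0) / nrm x - x 2 * x k / nrm x ^ 3) ∧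
    lap (fun y => (nrm y)⁻¹ * y 2) x = -2 * x 2 / nrm x ^ 3 := by
  have h0 := hx.ne'
  have hi : ContDiffAt ℝ 2 (fun y => (nrm y)⁻¹) x := (fa_cd_nrm hx).inv h0
  refine ⟨hi.mul (ft_cd 2), fun k => ?_, ?_⟩
  · rw [pd_mul (ft_d hi) (ft_d (ft_cd 2)), pd_comp (ft_d (fa_cd_nrm hx)) (hasDerivAt_inv h0),
      pd_coord, pd_nrm hx]
    field_simp
    ring
  · rw [lap_rad (m := fun t => t⁻¹) (m' := fun t => -(t ^ 2)⁻¹) hx (ft_cd 2)
      (contDiffAt_inv ℝ h0) ((eventually_ne_nhds h0).mono fun t ht => hasDerivAt_inv ht)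
      ((hasDerivAt_pow 2 (nrm x)).fun_inv (pow_ne_zero 2 h0)).fun_neg, lap_coord, dr_coord]
    simp only [Nat.cast_ofNat, Nat.add_one_sub_one, pow_one]
    field_simp
    ring

/-- The angular factor times `x y`. -/
theorem ft_E (hx : 0 < nrm x) (B : ℝ) {E : Pt → ℝ}
    (hE : E = fun y => y 0 * y 1 * Real.exp (B * ((nrm y)⁻¹ * y 2))) : ContDiffAt ℝ 2 E x ∧
    dr E x = 2 / nrm x * E x ∧
    lap E x = (B ^ 2 * (x 0 ^ 2 + x 1 ^ 2) / nrm x ^ 4 - 6 * B * x 2 / nrm x ^ 3) * E x := by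
  subst hE
  obtain ⟨c1, c2, c3⟩ := ft_cos hx
  have h0 := hx.ne'
  have hs := fa_sq x
  have d : ∀ t, HasDerivAt (fun t => Real.exp (B * t)) (Real.exp (B * t) * B) t := fun t => by
    simpa using ((hasDerivAt_id t).const_mul B).exp
  have hu : ContDiffAt ℝ 2 (fun y : Pt => y 0 * y 1) x := (ft_cd 0).mul (ft_cd 1)
  have hG : ContDiffAt ℝ 2 (fun y => Real.exp (B * ((nrm y)⁻¹ * y 2))) x :=
    (contDiffAt_const.mul c1).exp
  have g1 : ∀ k, pd k (fun y => Real.exp (B * ((nrm y)⁻¹ * y 2))) x = _ := fun k =>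
    pd_comp (F := fun t => Real.exp (B * t)) (ft_d c1) (d _)
  have u1 : ∀ k, pd k (fun y : Pt => y 0 * y 1) x = _ := fun k =>
    pd_mul (ft_d (ft_cd 0)) (ft_d (ft_cd 1))
  refine ⟨hu.mul hG, ?_, ?_⟩
  · rw [dr_mul (ft_d hu) (ft_d hG), dr_mul (ft_d (ft_cd 0)) (ft_d (ft_cd 1)), dr_coord, dr_coord,
      dr_comp (F := fun t => Real.exp (B * t)) (ft_d c1) (d _),
      dr_mul (ft_d ((fa_cd_nrm hx).fun_inv h0)) (ft_d (ft_cd 2)), dr_coord,
      dr_comp (ft_d (fa_cd_nrm hx)) (hasDerivAt_inv h0), dr_nrm hx]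
    field_simp
    ring
  · rw [lap_mul hu hG, lap_mul (ft_cd 0) (ft_cd 1), lap_coord, lap_coord,
      lap_comp (F := fun t => Real.exp (B * t)) c1 (.of_forall d) ((d _).mul_const B), c3, gsq]
    simp only [g1, u1, c2, pd_coord, Fin.sum_univ_three]
    simp only [Fin.isValue, Fin.reduceEq, reduceIte]
    field_simp
    linear_combination (B ^ 2 * x 0 * x 1 * (nrm x ^ 2 - x 2 ^ 2)) * hs

theorem ft_m (A K : ℝ) {t : ℝ} (ht : t ≠ 0) :
    HasDerivAt (fun t => Real.exp (A * t⁻¹ + K) * t⁻¹ ^ 2)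
      (-(A * t⁻¹ ^ 2 + 2 * t⁻¹) * (Real.exp (A * t⁻¹ + K) * t⁻¹ ^ 2)) t := by
  have h := hasDerivAt_inv ht
  refine ((((h.const_mul A).add_const K).exp).fun_mul (h.fun_pow 2)).congr_deriv ?_
  simp only [Nat.cast_ofNat, Nat.add_one_sub_one, pow_one]
  field_simp
  ring

theorem yt_pol (hR : 1 ≤ R) : Pol R (YT R) := by
  have i := pol_pow (a := -1) hR (by norm_num)
  simp only [Real.rpow_neg_one] at i
  refine (((((pol_coord R 0).mul (pol_coord R 1)).mul (i.mul i)).mul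
    (((((pol_coord R 2).mul i).add (pol_const R (-1))).cmul (2 * R ^ 2)).exp (M := 0)
      fun x hx => ?_)).mul (((i.cmul (10 * R)).add (pol_const R (-10))).exp (M := 0)
        fun x hx => ?_)).congr fun x _ => ?_
  · have := (abs_le.1 (ft_c (x := x) (by linarith))).2
    rw [div_eq_mul_inv] at this
    exact mul_nonpos_of_nonneg_of_nonpos (by positivity) (by linarith)
  · have := ft_A (by linarith) hx.le
    rwa [div_eq_mul_inv] at this
  · simp only [YT, div_eq_mul_inv, sub_eq_add_neg, sq, mul_inv]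

theorem yt_sub (W : Wkb R k Z p φ) (hx : x ∈ Qd) (hr : R < nrm x) :
    Lw p (YT R) x + 2 * R ^ 2 / nrm x ^ 2 * YT R x ≤ 0 := by
  have hR := W.hR
  have h1 : 0 < nrm x := by linarith
  have h0 := h1.ne'
  obtain ⟨E, hE⟩ : ∃ E : Pt → ℝ,
    E = fun y => y 0 * y 1 * Real.exp (2 * R ^ 2 * ((nrm y)⁻¹ * y 2)) := ⟨_, rfl⟩
  obtain ⟨e1, e2, e3⟩ := ft_E h1 _ hE
  have e : YT R = fun y => (fun t => Real.exp (10 * R * t⁻¹ + (-10 - 2 * R ^ 2)) * t⁻¹ ^ 2) (nrm y) *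
      E y := funext fun y => by
    have : Real.exp (2 * R ^ 2 * (y 2 / nrm y - 1)) * Real.exp (10 * R / nrm y - 10) =
        Real.exp (10 * R * (nrm y)⁻¹ + (-10 - 2 * R ^ 2)) *
          Real.exp (2 * R ^ 2 * ((nrm y)⁻¹ * y 2)) := by
      rw [← Real.exp_add, ← Real.exp_add]
      congr 1
      ring
    simp only [YT, hE]
    linear_combination (y 0 * y 1 / nrm y ^ 2) * this
  have h := hasDerivAt_inv h0
  have hi := contDiffAt_inv ℝ (n := 2) h0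
  rw [e, Lw_rad h1 e1 (((contDiffAt_const.mul hi).add contDiffAt_const).exp.mul (hi.pow 2))
    ((eventually_ne_nhds h0).mono fun t ht => ft_m _ _ ht)
    ((((h.fun_pow 2).const_mul _).fun_add (h.const_mul 2)).fun_neg.fun_mul (ft_m _ _ h0)), Lw, e2, e3]
  simp only [Nat.cast_ofNat, Nat.add_one_sub_one, pow_one]
  have E0 : 0 ≤ E x := by
    rw [hE]
    exact mul_nonneg (mul_pos hx.1 hx.2).le (Real.exp_pos _).le
  have c1 := (abs_le.1 (ft_c h1)).2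
  have p1 := W.lo _ hr.le
  have key : 3 + 6 * R ^ 2 * (x 2 / nrm x) + 2 * R ^ 2 - p (nrm x) * (10 * R) -
      (2 * R ^ 4 * (x 0 ^ 2 + x 1 ^ 2) / nrm x ^ 2 + 50 * R ^ 2 / nrm x ^ 2 + 10 * R / nrm x) ≤ 0 := by
    have : 0 ≤ 2 * R ^ 4 * (x 0 ^ 2 + x 1 ^ 2) / nrm x ^ 2 + 50 * R ^ 2 / nrm x ^ 2 +
      10 * R / nrm x := by positivity
    nlinarith
  refine (mul_nonpos_of_nonneg_of_nonpos (show 0 ≤ Real.exp (10 * R * (nrm x)⁻¹ + (-10 - 2 * R ^ 2)) *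
    E x / nrm x ^ 4 by positivity) key).trans_eq' ?_
  field_simp
  ring

theorem yt_le (hR : 0 < R) (hx : x ∈ Qd) (hr : R ≤ nrm x) : 0 ≤ YT R x ∧
    R ^ 2 * YT R x ≤ x 0 * x 1 * Real.exp (2 * R ^ 2 * (x 2 / nrm x - 1)) := by
  have h := mul_pos hx.1 hx.2
  have h1 : 0 < nrm x := by linarith
  refine ⟨by unfold YT; positivity, ?_⟩
  calc _ = x 0 * x 1 * Real.exp (2 * R ^ 2 * (x 2 / nrm x - 1)) *
        ((R / nrm x) ^ 2 * Real.exp (10 * R / nrm x - 10)) := by unfold YT; ring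
    _ ≤ _ := mul_le_of_le_one_right (by positivity) (mul_le_one₀
      (pow_le_one₀ (by positivity) ((div_le_one h1).2 hr)) (by positivity)
      (Real.exp_le_one_iff.2 (ft_A hR hr)))

theorem yt_ge (hR : 0 < R) (hx : x ∈ Qd) (h0 : x 0 ≤ 1) (h1 : x 1 ≤ 1) (h2 : 0 < x 2)
    (hr : 2 * R ≤ nrm x) : Real.exp (-11) * (x 0 * x 1) / nrm x ^ 2 ≤ YT R x := by
  have h := mul_pos hx.1 hx.2
  have h3 : 0 < nrm x := by linarith
  have c1 := (abs_le.1 (ft_c h3)).2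
  have c0 : 0 < x 2 / nrm x := by positivity
  have c2 : (1 - (x 2 / nrm x) ^ 2) * nrm x ^ 2 = x 0 ^ 2 + x 1 ^ 2 := by
    field_simp
    linarith [fa_sq x]
  have c3 : (1 - x 2 / nrm x) * (2 * R) ^ 2 ≤ 2 :=
    (mul_le_mul (show _ ≤ 1 - (x 2 / nrm x) ^ 2 by nlinarith)
      (pow_le_pow_left₀ (by positivity) hr 2) (by positivity) (by nlinarith)).trans
      (c2.trans_le (by nlinarith [hx.1, hx.2]))
  have c4 : 0 < 10 * R / nrm x := by positivity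
  rw [YT, mul_assoc, ← Real.exp_add, mul_div_assoc, mul_comm]
  exact mul_le_mul_of_nonneg_left (Real.exp_le_exp.2 (by linarith)) (by positivity)

end Vale.Agent.P363
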