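import Vale.Agent.P363.FD

/-! Part F, the function `eta` and the algebraic inequality.  With `w = eta t`, `u = t + 2`: `w⁴ = u² + 1`,
`eta' = u / (2 w³)`, `eta'' = (2 - u²) / (4 w⁷)`, and `u² - 2 ≥ 2 (u² + 1) / 5` for `u ≥ 2`.
`fe_alg`: call `b` small if `85 θ b⁴ ≤ 10⁴` (then `(17/8) θ b ≤ 250 / b³`).  If `b` is not small, `b² ≥ 6`, `Y ≥ b² / 2`,
`1 ≤ 0.4 ϱ² b`.  Always `Y + b ≥ b² / 2`, and `ϱ² a ≤ 10` for small `a`.  By symmetry `a ≤ b`.  Both small: the bracket is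
`≥ 250 (Y + b) / a³ ≥ 125 / a`.  `a` small, `b` not: `X b` is absorbed by `ϱ X Y`, `a b` and `a Y` by `500 (Y + b) / a³`,
`125 (Y + b) / a³` is left.  Both large: everything is absorbed by half of `25 ϱ θ X Y`, and `θ X Y ≥ θ a² b² / 4 ≥ 25`. -/

namespace Vale.Agent.P363

open MeasureTheory Vale.Agent.P370 Filter Topology
open scoped ContDiff

theorem fe_sq (t : ℝ) : eta t ^ 2 = √((t + 2) ^ 2 + 1) := Real.sq_sqrt (Real.sqrt_nonneg _)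

theorem fe_four (t : ℝ) : eta t ^ 4 = (t + 2) ^ 2 + 1 := by
  rw [show eta t ^ 4 = (eta t ^ 2) ^ 2 by ring, fe_sq, Real.sq_sqrt (by positivity)]

theorem fe_one (t : ℝ) : 1 ≤ eta t :=
  Real.one_le_sqrt.2 (Real.one_le_sqrt.2 (le_add_of_nonneg_left (sq_nonneg _)))

theorem fe_abs (t : ℝ) : |t + 2| ≤ eta t ^ 2 ∧ eta t ^ 2 ≤ |t + 2| + 1 := by
  rw [fe_sq]
  refine ⟨Real.abs_le_sqrt (by linarith), Real.sqrt_le_iff.2 ⟨by positivity, ?_⟩⟩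
  nlinarith [sq_abs (t + 2), abs_nonneg (t + 2)]

theorem fe_d1 (t : ℝ) : HasDerivAt eta ((t + 2) / (2 * eta t ^ 3)) t := by
  have h0 : HasDerivAt (fun t : ℝ => (t + 2) ^ 2 + 1) (2 * (t + 2)) t := by
    simpa using (((hasDerivAt_id t).add_const 2).fun_pow 2).add_const 1
  have h1 := h0.sqrt (by positivity)
  have h2 := h1.sqrt (Real.sqrt_pos.2 (by positivity)).ne'
  have hw : 0 < eta t := zero_lt_one.trans_le (fe_one t)
  refine h2.congr_deriv ?_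
  change 2 * (t + 2) / (2 * √((t + 2) ^ 2 + 1)) / (2 * eta t) = _
  rw [← fe_sq]
  field_simp

theorem fe_d2 (t : ℝ) : HasDerivAt (fun t => (t + 2) / (2 * eta t ^ 3))
    ((2 - (t + 2) ^ 2) / (4 * eta t ^ 7)) t := by
  have hw : 0 < eta t := zero_lt_one.trans_le (fe_one t)
  have h1 := ((hasDerivAt_id' t).add_const 2).fun_div (((fe_d1 t).fun_pow 3).const_mul 2)
    (by positivity)
  refine h1.congr_deriv ?_
  have h4 : 2 - (t + 2) ^ 2 = 2 * eta t ^ 4 - 3 * (t + 2) ^ 2 := by rw [fe_four]; ring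
  rw [h4]
  norm_num
  field_simp
  ring

theorem eta_der : ∃ η' η'' : ℝ → ℝ, ContDiff ℝ 2 eta ∧ (∀ t, HasDerivAt eta (η' t) t) ∧
    (∀ t, HasDerivAt η' (η'' t) t) ∧ (∀ t, |eta t| ≤ 3 * (1 + |t|) ∧ |η' t| ≤ 3 ∧ |η'' t| ≤ 3) ∧
      ∀ t, 0 ≤ t → 0 ≤ η' t ∧ η'' t ≤ -(1 / (10 * eta t ^ 3)) := by
  refine ⟨_, _, ?_, fe_d1, fe_d2, fun t => ?_, fun t ht => ?_⟩
  · have h0 : ContDiff ℝ 2 fun t : ℝ => (t + 2) ^ 2 + 1 := by fun_prop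
    exact (h0.sqrt fun t => by positivity).sqrt fun t => (Real.sqrt_pos.2 (by positivity)).ne'
  · have h1 := fe_one t
    have hw : 0 < eta t := zero_lt_one.trans_le h1
    obtain ⟨h2, h3⟩ := fe_abs t
    have h4 := fe_four t
    refine ⟨?_, ?_, ?_⟩
    · have h5 : |t + 2| ≤ |t| + 2 := (abs_add_le _ _).trans_eq (by norm_num)
      rw [abs_of_pos hw]
      nlinarith [abs_nonneg t]
    · rw [abs_div, abs_of_pos (by positivity : 0 < 2 * eta t ^ 3), div_le_iff₀ (by positivity)]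
      have h5 : eta t ^ 2 ≤ eta t ^ 3 := pow_le_pow_right₀ h1 (by norm_num)
      nlinarith [sq_nonneg (eta t)]
    · rw [abs_div, abs_of_pos (by positivity : 0 < 4 * eta t ^ 7), div_le_iff₀ (by positivity)]
      have h5 : eta t ^ 4 ≤ eta t ^ 7 := pow_le_pow_right₀ h1 (by norm_num)
      have h6 := sq_nonneg (t + 2)
      exact abs_le.2 ⟨by linarith, by linarith⟩
  · have hw : 0 < eta t := zero_lt_one.trans_le (fe_one t)
    refine ⟨by positivity, ?_⟩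
    have e : -(1 / (10 * eta t ^ 3)) = -(2 / 5 * eta t ^ 4) / (4 * eta t ^ 7) := by
      field_simp
      norm_num
    rw [e, fe_four]
    exact div_le_div_of_nonneg_right (by nlinarith) (by positivity)

theorem eta_bd {t : ℝ} (ht : 0 ≤ t) : 1 ≤ eta t ∧ t + 2 ≤ eta t ^ 2 ∧ eta t ^ 2 ≤ t + 3 := by
  obtain ⟨h2, h3⟩ := fe_abs t
  rw [abs_of_pos (by positivity)] at h2 h3
  exact ⟨fe_one t, h2, by linarith⟩

theorem fe_small {a θ : ℝ} (a0 : 1 ≤ a) (h : 85 * θ * a ^ 4 ≤ 10 ^ 4) :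
    17 / 8 * θ * a ≤ 250 * (1 / a ^ 3) := by
  rw [mul_one_div, le_div_iff₀ (by positivity)]
  linarith [show 17 / 8 * θ * a * a ^ 3 = 85 * θ * a ^ 4 / 40 by ring]

theorem fe_left {Y a b ϱ θ : ℝ} (hY : 0 ≤ Y) (a0 : 1 ≤ a) (hab : a ≤ b) (b2 : b ^ 2 ≤ Y + 3)
    (t0 : 9 / 10 * ϱ ^ 8 ≤ θ) (h : 85 * θ * a ^ 4 ≤ 10 ^ 4) :
    ϱ ^ 2 ≤ 250 * ((Y + b) * (1 / a ^ 3)) := by
  have h1 : ϱ ^ 2 * a ≤ 10 := by
    refine le_of_pow_le_pow_left₀ (n := 4) (by norm_num) (by norm_num) ?_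
    have h2 := mul_le_mul_of_nonneg_right t0 (by positivity : 0 ≤ a ^ 4)
    have h3 : 0 ≤ ϱ ^ 8 * a ^ 4 := by positivity
    calc (ϱ ^ 2 * a) ^ 4 = ϱ ^ 8 * a ^ 4 := by ring
      _ ≤ 10 ^ 4 := by linarith
  have h2 : b ^ 2 / 2 ≤ Y + b := by
    rcases le_total b 2 with h3 | h3 <;> nlinarith
  have h3 : a ^ 2 ≤ b ^ 2 := pow_le_pow_left₀ (by linarith) hab 2
  rw [mul_one_div, ← mul_div_assoc, le_div_iff₀ (by positivity)]
  have h4 := mul_le_mul_of_nonneg_right h1 (sq_nonneg a)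
  nlinarith [sq_nonneg a]

theorem fe_large {Y b ϱ θ : ℝ} (b0 : 1 ≤ b) (b2 : b ^ 2 ≤ Y + 3) (r0 : 0 < ϱ) (r1 : ϱ ≤ 1)
    (t1 : θ ≤ 21 / 10 * ϱ ^ 8) (h : 10 ^ 4 ≤ 85 * θ * b ^ 4) :
    b ^ 2 / 2 ≤ Y ∧ 5 * b ≤ 4 * ϱ * Y := by
  have h1 : 5 / 2 ≤ ϱ ^ 2 * b := by
    refine le_of_pow_le_pow_left₀ (n := 4) (by norm_num) (by positivity) ?_
    have h2 := mul_le_mul_of_nonneg_right t1 (by positivity : 0 ≤ b ^ 4)
    calc (5 / 2 : ℝ) ^ 4 ≤ ϱ ^ 8 * b ^ 4 := by linarith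
      _ = (ϱ ^ 2 * b) ^ 4 := by ring
  have h2 : ϱ ^ 2 * b ≤ ϱ * b := mul_le_mul_of_nonneg_right (by nlinarith) (by linarith)
  have h3 : ϱ * b ≤ b := mul_le_of_le_one_left (by linarith) r1
  have h4 : b ^ 2 / 2 ≤ Y := by nlinarith
  refine ⟨h4, ?_⟩
  have h5 := mul_le_mul_of_nonneg_left h4 r0.le
  have h6 := mul_le_mul_of_nonneg_right (h1.trans h2) (by linarith : 0 ≤ b)
  nlinarith

theorem fe_main {X Y a b ϱ θ : ℝ} (hab : a ≤ b) (hX : 0 ≤ X) (hY : 0 ≤ Y) (a0 : 1 ≤ a)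
    (a2 : a ^ 2 ≤ X + 3) (b2 : b ^ 2 ≤ Y + 3) (r0 : 0 < ϱ)
    (r1 : ϱ ≤ 1) (t0 : 9 / 10 * ϱ ^ 8 ≤ θ) (t1 : θ ≤ 21 / 10 * ϱ ^ 8) :
    ϱ ^ 2 ≤ 25 * ϱ * θ * (X * Y) + 500 * ((X + a) * (1 / b ^ 3) + (Y + b) * (1 / a ^ 3)) -
      17 / 8 * θ * (X * b + a * Y + a * b) := by
  have b0 : 1 ≤ b := a0.trans hab
  have hθ : 0 < θ := lt_of_lt_of_le (by positivity) t0
  have p1 : 0 ≤ (X + a) * (1 / b ^ 3) := by positivity
  have p2 : 0 ≤ (Y + b) * (1 / a ^ 3) := by positivity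
  rcases le_total (85 * θ * a ^ 4) (10 ^ 4) with ha | ha
  · have h1 := fe_left hY a0 hab b2 t0 ha
    have h2 := mul_le_mul_of_nonneg_left (fe_small a0 ha) (by positivity : 0 ≤ Y + b)
    rcases le_total (85 * θ * b ^ 4) (10 ^ 4) with hb | hb
    · have h3 := mul_le_mul_of_nonneg_left (fe_small b0 hb) hX
      have p3 : 0 ≤ ϱ * θ * (X * Y) := by positivity
      have p4 : 0 ≤ a * (1 / b ^ 3) := by positivity
      have p5 : 0 ≤ X * (1 / b ^ 3) := by positivity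
      nlinarith
    · have h3 := mul_le_mul_of_nonneg_left (fe_large b0 b2 r0 r1 t1 hb).2
        (by positivity : 0 ≤ θ * X)
      have p3 : 0 ≤ ϱ * θ * (X * Y) := by positivity
      nlinarith
  · have h4 : a ^ 4 ≤ b ^ 4 := pow_le_pow_left₀ (by linarith) hab 4
    have hb : 10 ^ 4 ≤ 85 * θ * b ^ 4 := ha.trans (mul_le_mul_of_nonneg_left h4 (by positivity))
    obtain ⟨h1, h2⟩ := fe_large a0 a2 r0 r1 t1 ha
    obtain ⟨h5, h6⟩ := fe_large b0 b2 r0 r1 t1 hb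
    have h7 := mul_le_mul_of_nonneg_left h6 (by positivity : 0 ≤ θ * X)
    have h8 := mul_le_mul_of_nonneg_left h2 (by positivity : 0 ≤ θ * Y)
    have h9 : b ≤ Y := by nlinarith [mul_le_mul_of_nonneg_right r1 hY]
    have h10 := mul_le_mul_of_nonneg_left h9 (by positivity : 0 ≤ θ * a)
    have h11 : a ^ 2 ≤ b ^ 2 := pow_le_pow_left₀ (by linarith) hab 2
    have h12 : a ^ 2 / 2 * (a ^ 2 / 2) ≤ X * Y :=
      mul_le_mul h1 (by linarith) (by positivity) hX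
    have h13 := mul_le_mul_of_nonneg_left h12 hθ.le
    have h14 : 1 ≤ θ * (X * Y) := by nlinarith
    have h15 := mul_le_mul_of_nonneg_left h14 r0.le
    nlinarith

theorem fe_alg {X Y a b ϱ θ : ℝ} (hX : 0 ≤ X) (hY : 0 ≤ Y) (a0 : 1 ≤ a) (a1 : X + 2 ≤ a ^ 2)
    (a2 : a ^ 2 ≤ X + 3) (b0 : 1 ≤ b) (b1 : Y + 2 ≤ b ^ 2) (b2 : b ^ 2 ≤ Y + 3) (r0 : 0 < ϱ)
    (r1 : ϱ ≤ 1) (t0 : 9 / 10 * ϱ ^ 8 ≤ θ) (t1 : θ ≤ 21 / 10 * ϱ ^ 8) :
    ϱ ^ 2 ≤ 25 * ϱ * θ * (X * Y) + 500 * ((X + a) / b ^ 3 + (Y + b) / a ^ 3) -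
      17 / 8 * θ * (X * b + a * Y + a * b) := by
  rw [div_eq_mul_one_div (X + a), div_eq_mul_one_div (Y + b)]
  rcases le_total a b with h | h
  · exact fe_main h hX hY a0 a2 b2 r0 r1 t0 t1
  · exact (fe_main h hY hX b0 b2 a2 r0 r1 t0 t1).trans_eq (by ring)

end Vale.Agent.P363
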