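import Vale.Agent.P363.FP
import Vale.Agent.P363.FE

/-! Part F, the barrier.  `X = 100 x`, `Y = 100 y`, `a = eta X`, `b = eta Y`, `ϱ = (R / r)^(1/8)`, `θ = PP / r`, so
`YB = (200 (1 - ϱ² / 2) X Y + ϱ EE) / r²` and `0.9 ϱ⁸ ≤ θ ≤ 2.1 ϱ⁸`.  `Lw_add`, `Lw_cmul`, `Lw_pow` three times;
`lap (X Y) = 0`, `dr (X Y) = 2 X Y / r`: the first two terms give `≥ 25 ϱ² θ X Y / r²`;
`-lap EE / 2 ≥ 500 ((X + a) / b³ + (Y + b) / a³)`, `dr EE ≥ 0`, the term `(153 / 128) EE / r²` is absorbed by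
`R² / (7 r²)`; finish with `fe_alg`. -/

namespace Vale.Agent.P363

open MeasureTheory Vale.Agent.P370 Filter Topology
open scoped ContDiff

variable {R k Z : ℝ} {p φ : ℝ → ℝ} {x : Pt}

theorem fy_pow {r : ℝ} (hR : 0 < R) (hr : 0 < r) :
    r ^ (-2 : ℝ) = 1 / r ^ 2 ∧
    R ^ (1 / 4 : ℝ) * r ^ (-(9 / 4) : ℝ) = ((R / r) ^ (1 / 8 : ℝ)) ^ 2 / r ^ 2 ∧
    R ^ (1 / 8 : ℝ) * r ^ (-(17 / 8) : ℝ) = (R / r) ^ (1 / 8 : ℝ) / r ^ 2 ∧
    ((R / r) ^ (1 / 8 : ℝ)) ^ 8 = R / r ∧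
    (R / r) ^ (3 / 8 : ℝ) = ((R / r) ^ (1 / 8 : ℝ)) ^ 3 := by
  have h : 0 ≤ R / r := by positivity
  have e : ∀ t : ℝ, R ^ t * r ^ (-(t + 2)) = (R / r) ^ t / r ^ 2 := fun t => by
    rw [Real.div_rpow hR.le hr.le, Real.rpow_neg hr.le, Real.rpow_add hr, Real.rpow_two]
    field_simp
  refine ⟨by rw [Real.rpow_neg hr.le, Real.rpow_two, one_div], ?_, ?_, ?_, ?_⟩
  · rw [← Real.rpow_natCast, ← Real.rpow_mul h, ← e]; norm_num
  · rw [← e]; norm_num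
  · rw [← Real.rpow_natCast, ← Real.rpow_mul h]; norm_num
  · rw [← Real.rpow_natCast, ← Real.rpow_mul h]; norm_num

theorem fy_eq (hR : 0 < R) (hr : 0 < nrm x) : YB R x =
    ((200 - 100 * ((R / nrm x) ^ (1 / 8 : ℝ)) ^ 2) * (100 * x 0 * (100 * x 1)) +
      (R / nrm x) ^ (1 / 8 : ℝ) * EE x) / nrm x ^ 2 := by
  obtain ⟨h1, h2, h3, -, -⟩ := fy_pow hR hr
  rw [YB, h1]
  linear_combination (-100 * (100 * x 0 * (100 * x 1))) * h2 + EE x * h3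

theorem fy_rho (hR : 0 < R) (hr : R ≤ nrm x) :
    0 < (R / nrm x) ^ (1 / 8 : ℝ) ∧ (R / nrm x) ^ (1 / 8 : ℝ) ≤ 1 :=
  ⟨Real.rpow_pos_of_pos (div_pos hR (hR.trans_le hr)) _,
    Real.rpow_le_one (div_pos hR (hR.trans_le hr)).le ((div_le_one (hR.trans_le hr)).2 hr)
      (by norm_num)⟩

theorem fy_pol_lin (r : ℝ) (i : Fin 3) : Pol r fun x => 100 * x i := (pol_coord r i).cmul 100

theorem fy_pol_eta (r : ℝ) (i : Fin 3) : Pol r fun x => eta (100 * x i) := by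
  obtain ⟨η', η'', h0, h1, h2, h3, -⟩ := eta_der
  exact (fy_pol_lin r i).comp isOpen_univ (fun _ _ => Set.mem_univ _) h0.contDiffOn
    (fun t _ => h1 t) (fun t _ => h2 t) fun x _ => h3 _

theorem fy_pol_EE (r : ℝ) : Pol r EE :=
  (((fy_pol_lin r 0).mul (fy_pol_eta r 1)).add ((fy_pol_eta r 0).mul (fy_pol_lin r 1))).add
    ((fy_pol_eta r 0).mul (fy_pol_eta r 1))

theorem yb_pol (hR : 1 ≤ R) : Pol R (YB R) :=
  ((((pol_pow hR (by norm_num)).mul ((fy_pol_lin R 0).mul (fy_pol_lin R 1))).cmul _).add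
    (((pol_pow hR (by norm_num)).mul ((fy_pol_lin R 0).mul (fy_pol_lin R 1))).cmul _)).add
    (((pol_pow hR (by norm_num)).mul (fy_pol_EE R)).cmul _)

/-- Jets of a product `F (100 x) * G (100 y)`. -/
theorem fy_prod {F F' F'' G G' G'' : ℝ → ℝ} (cF : ContDiff ℝ 2 F) (cG : ContDiff ℝ 2 G)
    (hF : ∀ t, HasDerivAt F (F' t) t) (hF' : ∀ t, HasDerivAt F' (F'' t) t)
    (hG : ∀ t, HasDerivAt G (G' t) t) (hG' : ∀ t, HasDerivAt G' (G'' t) t) (x : Pt) :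
    ContDiffAt ℝ 2 (fun y : Pt => F (100 * y 0) * G (100 * y 1)) x ∧
    lap (fun y : Pt => F (100 * y 0) * G (100 * y 1)) x =
      10 ^ 4 * (F (100 * x 0) * G'' (100 * x 1) + G (100 * x 1) * F'' (100 * x 0)) ∧
    dr (fun y : Pt => F (100 * y 0) * G (100 * y 1)) x =
      (F (100 * x 0) * G' (100 * x 1) * (100 * x 1) +
        G (100 * x 1) * F' (100 * x 0) * (100 * x 0)) / nrm x := by
  have c0 : ∀ i : Fin 3, ContDiffAt ℝ 2 (fun y : Pt => y i) x := fun i =>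
    (contDiff_apply ℝ ℝ i).contDiffAt
  have c : ∀ i : Fin 3, ContDiffAt ℝ 2 (fun y : Pt => 100 * y i) x := fun i =>
    contDiffAt_const.mul (c0 i)
  have d0 := fun i => (c0 i).differentiableAt (by norm_num)
  have d := fun i => (c i).differentiableAt (by norm_num)
  have a : ContDiffAt ℝ 2 (fun y : Pt => F (100 * y 0)) x := cF.contDiffAt.comp x (c 0)
  have b : ContDiffAt ℝ 2 (fun y : Pt => G (100 * y 1)) x := cG.contDiffAt.comp x (c 1)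
  refine ⟨a.mul b, ?_, ?_⟩
  · rw [lap_mul a b, lap_comp (c 0) (Eventually.of_forall hF) (hF' _),
      lap_comp (c 1) (Eventually.of_forall hG) (hG' _)]
    simp only [pd_comp (d 0) (hF _), pd_comp (d 1) (hG _), lap_cmul (c0 _), lap_coord, gsq,
      pd_cmul (d0 _), pd_coord, Fin.sum_univ_three]
    simp
    ring
  · rw [dr_mul (a.differentiableAt (by norm_num)) (b.differentiableAt (by norm_num)),
      dr_comp (d 0) (hF _), dr_comp (d 1) (hG _), dr_cmul (d0 _), dr_cmul (d0 _), dr_coord,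
      dr_coord]
    ring

theorem fy_EE_ge (hx : x ∈ Qd) : 1 ≤ EE x := by
  have h0 : 0 ≤ 100 * x 0 := by linarith [hx.1]
  have h1 : 0 ≤ 100 * x 1 := by linarith [hx.2]
  have a := (eta_bd h0).1
  have b := (eta_bd h1).1
  unfold EE
  nlinarith [mul_nonneg h0 (by linarith : 0 ≤ eta (100 * x 1)),
    mul_nonneg h1 (by linarith : 0 ≤ eta (100 * x 0))]

theorem fy_ge (hR : 0 < R) (hx : x ∈ Qd) (hr : R ≤ nrm x) :
    (R / nrm x) ^ (1 / 8 : ℝ) * EE x / nrm x ^ 2 ≤ YB R x := by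
  obtain ⟨r0, r1⟩ := fy_rho hR hr
  rw [fy_eq hR (hR.trans_le hr)]
  refine div_le_div_of_nonneg_right (le_add_of_nonneg_left (mul_nonneg (by nlinarith) ?_))
    (sq_nonneg _)
  exact mul_nonneg (by linarith [hx.1]) (by linarith [hx.2])

theorem fy_jets (hx : x ∈ Qd) (r0 : 0 < nrm x) : ContDiffAt ℝ 2 EE x ∧ 0 ≤ dr EE x ∧
    500 * ((100 * x 0 + eta (100 * x 0)) / eta (100 * x 1) ^ 3 +
      (100 * x 1 + eta (100 * x 1)) / eta (100 * x 0) ^ 3) ≤ -(1 / 2) * lap EE x := by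
  obtain ⟨η', η'', e0, e1, e2, -, e4⟩ := eta_der
  have i1 : ∀ t : ℝ, HasDerivAt (fun t : ℝ => t) ((fun _ => (1 : ℝ)) t) t := fun t => hasDerivAt_id t
  have i2 : ∀ t : ℝ, HasDerivAt (fun _ : ℝ => (1 : ℝ)) ((fun _ => (0 : ℝ)) t) t :=
    fun t => hasDerivAt_const t 1
  obtain ⟨B1, B2, B3⟩ := fy_prod contDiff_id e0 i1 i2 e1 e2 x
  obtain ⟨C1, C2, C3⟩ := fy_prod e0 contDiff_id e1 e2 i1 i2 x
  obtain ⟨D1, D2, D3⟩ := fy_prod e0 e0 e1 e2 e1 e2 x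
  simp only [id] at B1 B2 B3 C1 C2 C3
  have dd := fun {f : Pt → ℝ} (h : ContDiffAt ℝ 2 f x) => h.differentiableAt (by norm_num)
  have lE := lap_add (B1.add C1) D1
  rw [lap_add B1 C1, B2, C2, D2] at lE
  have rE := dr_add (dd (B1.add C1)) (dd D1)
  rw [dr_add (dd B1) (dd C1), B3, C3, D3] at rE
  change lap EE x = _ at lE
  change dr EE x = _ at rE
  have hX : 0 ≤ 100 * x 0 := by linarith [hx.1]
  have hY : 0 ≤ 100 * x 1 := by linarith [hx.2]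
  have a0 := (eta_bd hX).1
  have b0 := (eta_bd hY).1
  obtain ⟨u1, u2⟩ := e4 _ hX
  obtain ⟨v1, v2⟩ := e4 _ hY
  refine ⟨(B1.add C1).add D1, ?_, ?_⟩
  · rw [rE]
    generalize 100 * x 0 = X at *
    generalize 100 * x 1 = Y at *
    have a1 : 0 ≤ eta X := by linarith
    have b1 : 0 ≤ eta Y := by linarith
    positivity
  · rw [lE]
    generalize 100 * x 0 = X at *
    generalize 100 * x 1 = Y at *
    generalize eta X = a at *
    generalize eta Y = b at *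
    have k1 := mul_le_mul_of_nonneg_left v2 (by linarith : 0 ≤ X + a)
    have k2 := mul_le_mul_of_nonneg_left u2 (by linarith : 0 ≤ Y + b)
    have k3 : (X + a) * -(1 / (10 * b ^ 3)) = -(1 / 10) * ((X + a) / b ^ 3) := by field_simp
    have k4 : (Y + b) * -(1 / (10 * a ^ 3)) = -(1 / 10) * ((Y + b) / a ^ 3) := by field_simp
    linarith

theorem fy_Lw (R0 : 0 < R) (hx : x ∈ Qd) (r0 : 0 < nrm x) {r ϱ P : ℝ} (hr : r = nrm x)
    (hϱ : ϱ = (R / r) ^ (1 / 8 : ℝ)) (hP : P = p r + 1 / r) : Lw p (YB R) x =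
    ϱ / r ^ 2 * (25 * ϱ * (P / r) * (100 * x 0 * (100 * x 1)) + -(1 / 2) * lap EE x -
      17 / 8 * (P / r) * EE x) + (600 - 2475 / 8 * ϱ ^ 2) * (100 * x 0 * (100 * x 1)) / r ^ 4 +
      ϱ / r ^ 2 * ((P + 17 / 8 * (1 / r)) * dr EE x) -
      153 / 128 * (ϱ * EE x / r ^ 2) / r ^ 2 := by
  have i1 : ∀ t : ℝ, HasDerivAt (fun t : ℝ => t) ((fun _ => (1 : ℝ)) t) t := fun t => hasDerivAt_id t
  have i2 : ∀ t : ℝ, HasDerivAt (fun _ : ℝ => (1 : ℝ)) ((fun _ => (0 : ℝ)) t) t :=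
    fun t => hasDerivAt_const t 1
  obtain ⟨A1, A2, A3⟩ := fy_prod contDiff_id contDiff_id i1 i2 i1 i2 x
  simp only [id] at A1 A2 A3
  have cE := (fy_jets hx r0).1
  obtain ⟨w1, w2, w3, -, -⟩ := fy_pow R0 r0
  have t1 := fun a : ℝ => (fa_cd_pow r0 a).mul A1
  have L : Lw p (YB R) x = _ := Lw_add ((contDiffAt_const.mul (t1 _)).add
    (contDiffAt_const.mul (t1 _))) (contDiffAt_const.mul ((fa_cd_pow r0 _).mul cE))
  have LA : Lw p (fun y => 100 * y 0 * (100 * y 1)) x = _ := rfl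
  have LE : Lw p EE x = -(1 / 2) * lap EE x + (p (nrm x) + 1 / nrm x) * dr EE x := rfl
  conv_rhs at LA => rw [Lw, A2, A3]
  rw [L, Lw_add (contDiffAt_const.mul (t1 _)) (contDiffAt_const.mul (t1 _)), Lw_cmul (t1 _),
    Lw_cmul (t1 _), Lw_cmul ((fa_cd_pow r0 _).mul cE), Lw_pow r0 A1, Lw_pow r0 A1, Lw_pow r0 cE,
    LA, LE, A3, w1, neg_mul (100 * R ^ (1 / 4 : ℝ)), mul_assoc 100 (R ^ (1 / 4 : ℝ)),
    ← mul_assoc (R ^ (1 / 4 : ℝ)), w2, ← mul_assoc (R ^ (1 / 8 : ℝ)), w3, ← hr, ← hϱ, ← hP]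
  rw [← hr] at r0
  field_simp
  ring

theorem yb_sup (W : Wkb R k Z p φ) (hx : x ∈ Qd) (hr : R < nrm x) :
    (R / nrm x) ^ (3 / 8 : ℝ) / nrm x ^ 2 ≤
      Lw p (YB R) x + R ^ 2 / (7 * nrm x ^ 2) * YB R x := by
  have hR := W.hR
  have R0 : 0 < R := by linarith
  have r0 : 0 < nrm x := by linarith
  have hX : 0 ≤ 100 * x 0 := by linarith [hx.1]
  have hY : 0 ≤ 100 * x 1 := by linarith [hx.2]
  obtain ⟨a0, a1, a2⟩ := eta_bd hX
  obtain ⟨b0, b1, b2⟩ := eta_bd hY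
  obtain ⟨q0, q1⟩ := fy_rho R0 hr.le
  obtain ⟨-, -, -, w4, w5⟩ := fy_pow R0 r0
  obtain ⟨-, dE, lE⟩ := fy_jets hx r0
  have hg := fy_ge R0 hx hr.le
  have hE := fy_EE_ge hx
  have p0 := W.lo _ hr.le
  have p1 := W.hi _ hr.le
  have ir : 1 / nrm x ≤ 1 / 100 := one_div_le_one_div_of_le (by norm_num) (by linarith)
  have ir0 : 0 < 1 / nrm x := by positivity
  have alg := fe_alg (θ := (p (nrm x) + 1 / nrm x) / nrm x) hX hY a0 a1 a2 b0 b1 b2 q0 q1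
    (by rw [w4, ← mul_div_assoc]; exact div_le_div_of_nonneg_right (by linarith) r0.le)
    (by rw [w4, ← mul_div_assoc]; exact div_le_div_of_nonneg_right (by linarith) r0.le)
  change _ ≤ _ - _ * EE x at alg
  rw [w5, fy_Lw R0 hx r0 rfl rfl rfl]
  have hXY := mul_nonneg hX hY
  have hP : 0 ≤ p (nrm x) + 1 / nrm x := by linarith
  clear a0 a1 a2 b0 b1 b2 w4 w5 p0 p1 hr W
  generalize 500 * _ = T at alg lE
  generalize 100 * x 0 * (100 * x 1) = XY at *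
  generalize p (nrm x) + 1 / nrm x = P at *
  generalize (R / nrm x) ^ (1 / 8 : ℝ) = ϱ at *
  generalize nrm x = r at *
  have s1 : ϱ ^ 3 / r ^ 2 ≤ ϱ / r ^ 2 * (25 * ϱ * (P / r) * XY + -(1 / 2) * lap EE x -
      17 / 8 * (P / r) * EE x) := by
    rw [show ϱ ^ 3 / r ^ 2 = ϱ / r ^ 2 * ϱ ^ 2 by ring]
    exact mul_le_mul_of_nonneg_left (by linarith) (by positivity)
  have s2 : 0 ≤ (600 - 2475 / 8 * ϱ ^ 2) * XY / r ^ 4 :=
    div_nonneg (mul_nonneg (by nlinarith) hXY) (by positivity)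
  have s3 : 0 ≤ ϱ / r ^ 2 * ((P + 17 / 8 * (1 / r)) * dr EE x) := by positivity
  have s4 : 153 / 128 * (ϱ * EE x / r ^ 2) / r ^ 2 ≤ R ^ 2 / (7 * r ^ 2) * YB R x := by
    have : 0 ≤ ϱ * EE x / r ^ 2 := by positivity
    rw [show R ^ 2 / (7 * r ^ 2) * YB R x = R ^ 2 / 7 * YB R x / r ^ 2 by field_simp]
    exact div_le_div_of_nonneg_right (mul_le_mul (by nlinarith) hg this (by positivity))
      (sq_nonneg _)
  linarith

theorem yb_ge (hR : 100 ≤ R) (hx : x ∈ Qd) (hr : R ≤ nrm x) :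
    0 ≤ YB R x ∧ (nrm x ≤ R + 1 / R → 2 / (5 * R ^ 2) ≤ YB R x) := by
  have R0 : 0 < R := by linarith
  have r0 : 0 < nrm x := by linarith
  have hg := fy_ge R0 hx hr
  have hE := fy_EE_ge hx
  obtain ⟨q0, q1⟩ := fy_rho R0 hr
  refine ⟨le_trans (by positivity) hg, fun h => le_trans ?_ hg⟩
  have ir : 1 / R ≤ 1 / 100 := one_div_le_one_div_of_le (by norm_num) hR
  have h1 : R / nrm x ≤ (R / nrm x) ^ (1 / 8 : ℝ) :=
    Real.self_le_rpow_of_le_one (by positivity) ((div_le_one r0).2 hr) (by norm_num)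
  have h2 : 1 / 2 ≤ R / nrm x := by rw [le_div_iff₀ r0]; linarith
  have h3 : nrm x ^ 2 ≤ (11 / 10 * R) ^ 2 := pow_le_pow_left₀ r0.le (by linarith) 2
  rw [div_le_div_iff₀ (by positivity) (by positivity)]
  have h4 : 1 / 2 ≤ (R / nrm x) ^ (1 / 8 : ℝ) * EE x := by nlinarith
  nlinarith [mul_le_mul_of_nonneg_right h4 (by positivity : 0 ≤ 5 * R ^ 2)]

theorem fy_EE_le (hx : x ∈ Qd) : EE x ≤ 3 * ((100 * x 0 + 2) * (100 * x 1 + 2)) := by
  have h0 : 0 ≤ 100 * x 0 := by linarith [hx.1]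
  have h1 : 0 ≤ 100 * x 1 := by linarith [hx.2]
  obtain ⟨a0, -, a2⟩ := eta_bd h0
  obtain ⟨b0, -, b2⟩ := eta_bd h1
  have a : eta (100 * x 0) ≤ 100 * x 0 + 2 := abs_le_of_sq_le_sq' (by nlinarith) (by linarith) |>.2
  have b : eta (100 * x 1) ≤ 100 * x 1 + 2 := abs_le_of_sq_le_sq' (by nlinarith) (by linarith) |>.2
  have k1 := mul_le_mul (by linarith : 100 * x 0 ≤ 100 * x 0 + 2) b (by linarith) (by linarith)
  have k2 := mul_le_mul a (by linarith : 100 * x 1 ≤ 100 * x 1 + 2) h1 (by linarith)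
  have k3 := mul_le_mul a b (by linarith) (by linarith)
  unfold EE
  linarith

theorem fy_le (hR : 0 < R) (hx : x ∈ Qd) (hr : R ≤ nrm x) : YB R x ≤
    (2 * 10 ^ 6 * (x 0 * x 1) + (R / nrm x) ^ (1 / 8 : ℝ) * EE x) / nrm x ^ 2 := by
  rw [fy_eq hR (hR.trans_le hr)]
  refine div_le_div_of_nonneg_right ?_ (sq_nonneg _)
  nlinarith [mul_nonneg (sq_nonneg ((R / nrm x) ^ (1 / 8 : ℝ))) (mul_pos hx.1 hx.2).le]

theorem yb_le (hR : 100 ≤ R) (hx : x ∈ Qd) (hr : R ≤ nrm x) :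
    YB R x ≤ 10 ^ 7 * (1 + x 0 ^ 2 + x 1 ^ 2) / nrm x ^ 2 := by
  have R0 : 0 < R := by linarith
  obtain ⟨q0, q1⟩ := fy_rho R0 hr
  refine (fy_le R0 hx hr).trans (div_le_div_of_nonneg_right ?_ (sq_nonneg _))
  have h1 := mul_le_of_le_one_left (by linarith [fy_EE_ge hx] : 0 ≤ EE x) q1
  nlinarith [fy_EE_le hx, sq_nonneg (x 0 - x 1), sq_nonneg (x 0 - 1), sq_nonneg (x 1 - 1)]

theorem yb_axis (hR : 100 ≤ R) (hx : x ∈ Qd) (hr : R ≤ nrm x) (h0 : x 0 ≤ 1) (h1 : x 1 ≤ 1) :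
    YB R x ≤ (2 * 10 ^ 6 * (x 0 * x 1) + 10 ^ 4 * (R / nrm x) ^ (1 / 8 : ℝ)) / nrm x ^ 2 := by
  have R0 : 0 < R := by linarith
  obtain ⟨q0, -⟩ := fy_rho R0 hr
  refine (fy_le R0 hx hr).trans (div_le_div_of_nonneg_right ?_ (sq_nonneg _))
  have X0 : 0 ≤ 100 * x 0 := by linarith [hx.1]
  have Y0 : 0 ≤ 100 * x 1 := by linarith [hx.2]
  obtain ⟨a0, -, a2⟩ := eta_bd X0
  obtain ⟨b0, -, b2⟩ := eta_bd Y0
  have a : eta (100 * x 0) ≤ 11 := abs_le_of_sq_le_sq' (by linarith) (by norm_num) |>.2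
  have b : eta (100 * x 1) ≤ 11 := abs_le_of_sq_le_sq' (by linarith) (by norm_num) |>.2
  have k1 := mul_le_mul (by linarith : 100 * x 0 ≤ 100) b (by linarith) (by norm_num)
  have k2 := mul_le_mul a (by linarith : 100 * x 1 ≤ 100) Y0 (by norm_num)
  have k3 := mul_le_mul a b (by linarith) (by norm_num)
  have : EE x ≤ 10 ^ 4 := by unfold EE; linarith
  nlinarith

end Vale.Agent.P363
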