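import Vale.Agent.P363.FW
import Vale.Agent.P363.FT
import Vale.Agent.P363.FY

/-! Part F, steps F3 and F4: `mp_quad` (radii as in F1) for `u = -f` (source `s`) or `u = f` (source `-s`), with
`B = φ (nrm x) * (β₀ * YB R x)`, `T = φ (nrm x) * (μ R² * YT R x)`, `β₀ = 20 R² a₀ + S`; `ho` by `H1.hardy_odd`;
`Qn.sup` + `yb_sup`, `Qn.sub` + `yt_sub` (`Lw_cmul`).  Prove one lemma for `u` with `Sub q τ u`, `τ ≤ S ..`.
F4: `μ = 0`, `a₀ = Ca` for both signs gives the bound on `Qd` (`yb_le`); transport it with `mp_rf` and oddness, the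
planes are null sets. -/

namespace Vale.Agent.P363

open MeasureTheory Vale.Agent.P370 Filter Topology
open scoped ContDiff

variable {R k Z S μ a₀ Ca : ℝ} {p φ : ℝ → ℝ} {q s f : Pt → ℝ} {gf : Fin 3 → Pt → ℝ}

lemma f3_core (W : Wkb R k Z p φ) (hq : Qn R k Z 0 0 q) {u τ : Pt → ℝ} {gu : Fin 3 → Pt → ℝ}
    (hu : H1 u gu) (hτ : MemLp τ 2) (hsub : Sub q τ u gu)
    (ho : ∀ i : Fin 3, i ≠ 2 → ∀ᵐ x, u (rf i x) = -u x) (hS : 0 ≤ S)
    (hs : ∀ᵐ x, R + 1 / 4 / R ≤ nrm x →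
      τ x ≤ S * (φ (nrm x) * (R / nrm x) ^ (3 / 8 : ℝ)) / nrm x ^ 2)
    (hμ : 0 ≤ μ) (ha : 0 ≤ a₀) (hsh : ∀ᵐ x, x ∈ Sh R (1 / 4) (3 / 4) → x ∈ Qd →
      u x ≤ a₀ - μ * (x 0 * x 1 * Real.exp (2 * R ^ 2 * (x 2 / nrm x - 1)))) :
    ∀ᵐ x, x ∈ Qd → R + 1 / 4 / R ≤ nrm x → u x ≤
      φ (nrm x) * ((20 * R ^ 2 * a₀ + S) * YB R x) - φ (nrm x) * (μ * R ^ 2 * YT R x) := by
  have hR := W.hR
  have R0 : 0 < R := by linarith
  have r1 : R < R + 1 / 4 / R := lt_add_of_pos_right _ (by positivity)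
  have b0 : 0 ≤ 20 * R ^ 2 * a₀ + S := by positivity
  have c0 : 0 ≤ μ * R ^ 2 := by positivity
  have pB := yb_pol (R := R) (by linarith)
  have pT := yt_pol (R := R) (by linarith)
  refine mp_quad (r₂ := R + 3 / 4 / R) (q₀ := 1) (C := 3 * R ^ 2) hq.1 hu hτ hsub R0 r1
    (by gcongr; norm_num) (fun i hi => (hu.hardy_odd (ho i hi)).1) (W.bar _ (pB.cmul _))
    (W.bar _ (pT.cmul _)) (fun x hx hr => mul_nonneg (W.pos _).le
      (mul_nonneg b0 (yb_ge hR hx hr.le).1)) (fun x _ hx => ?_) one_pos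
    (fun x hx => hq.bdd W zero_le_one le_rfl zero_le_one hx) (hs.mono fun x h1 hx hr _ => ?_)
    (hsh.mono fun x h1 hx hr hr' => ?_)
  · rcases hx with hx | hx <;> simp [YT, hx]
  · have hr0 := r1.trans_le hr
    have e1 := hq.sup W hr ((pB.cmul (20 * R ^ 2 * a₀ + S)).cd hr0)
      (mul_nonneg b0 (yb_ge hR hx hr0.le).1)
    have e2 := hq.sub W hr ((pT.cmul (μ * R ^ 2)).cd hr0) (mul_nonneg c0 (yt_le R0 hx hr0.le).1)
    rw [Lw_cmul (pB.cd hr0)] at e1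
    rw [Lw_cmul (pT.cd hr0)] at e2
    have f0 := (W.pos (nrm x)).le
    have e3 := mul_le_mul_of_nonneg_left (yb_sup W hx hr0) (mul_nonneg f0 b0)
    have e4 := mul_le_mul_of_nonneg_left (yt_sub W hx hr0) (mul_nonneg f0 c0)
    have e5 : 0 ≤ φ (nrm x) * (20 * R ^ 2 * a₀) * ((R / nrm x) ^ (3 / 8 : ℝ) / nrm x ^ 2) := by
      have := R0.trans hr0
      positivity
    have e6 : S * (φ (nrm x) * (R / nrm x) ^ (3 / 8 : ℝ)) / nrm x ^ 2 =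
        φ (nrm x) * S * ((R / nrm x) ^ (3 / 8 : ℝ) / nrm x ^ 2) := by ring
    have e7 := h1 hr
    simp only [zero_div, sub_zero, zero_add] at e1
    nlinarith
  · have hr0 := (r1.trans_le hr).le
    have hr2 : nrm x ≤ R + 1 / R := hr'.trans (by gcongr; norm_num)
    have e1 := h1 ⟨hr, hr'⟩ hx
    obtain ⟨y0, y1⟩ := yb_ge hR hx hr0
    obtain ⟨t0, t1⟩ := yt_le R0 hx hr0
    have e2 : a₀ ≤ φ (nrm x) * ((20 * R ^ 2 * a₀ + S) * YB R x) := by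
      calc a₀ = 1 / 8 * (20 * R ^ 2 * a₀ * (2 / (5 * R ^ 2))) := by field_simp; ring
        _ ≤ _ := mul_le_mul (W.shell _ hr0 hr2) (mul_le_mul (by linarith) (y1 hr2)
          (by positivity) b0) (by positivity) (W.pos _).le
    have e3 : φ (nrm x) * (μ * R ^ 2 * YT R x) ≤
        μ * (x 0 * x 1 * Real.exp (2 * R ^ 2 * (x 2 / nrm x - 1))) := by
      refine (mul_le_of_le_one_left (mul_nonneg c0 t0) (W.le_one _ hr0)).trans ?_
      rw [mul_assoc]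
      exact mul_le_mul_of_nonneg_left t1 hμ
    linarith

lemma f3_neg (h : Eqf R k Z q s f gf) : H1 (fun x => -1 * f x) (fun j x => -1 * gf j x) ∧
    Sub q s (fun x => -1 * f x) (fun j x => -1 * gf j x) ∧
    ∀ i : Fin 3, i ≠ 2 → ∀ᵐ x, -1 * f (rf i x) = -(-1 * f x) := by
  refine ⟨h1_iff.2 ((h1_iff.1 h.h1).smul (-1)), fun ζ hζ _ => ?_,
    fun i hi => (h.odd i hi).mono fun x hx => by rw [hx]; ring⟩
  have := h.sol ζ hζ
  simp only [q1, neg_mul, one_mul, mul_neg, integral_neg, Finset.sum_neg_distrib] at this ⊢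
  linarith

theorem f3_low (W : Wkb R k Z p φ) (h : Eqf R k Z q s f gf) (hS : 0 ≤ S)
    (hs : ∀ᵐ x, R + 1 / 4 / R ≤ nrm x →
      |s x| ≤ S * (φ (nrm x) * (R / nrm x) ^ (3 / 8 : ℝ)) / nrm x ^ 2)
    (hμ : 0 ≤ μ) (ha : 0 ≤ a₀) (hsh : ∀ᵐ x, x ∈ Sh R (1 / 4) (3 / 4) → x ∈ Qd →
      μ * (x 0 * x 1 * Real.exp (2 * R ^ 2 * (x 2 / nrm x - 1))) - a₀ ≤ f x) :
    ∀ᵐ x, x ∈ Qd → R + 1 / 4 / R ≤ nrm x →
      φ (nrm x) * (μ * R ^ 2 * YT R x - (20 * R ^ 2 * a₀ + S) * YB R x) ≤ f x := by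
  obtain ⟨n1, n2, n3⟩ := f3_neg h
  filter_upwards [f3_core W h.qn n1 h.hs n2 n3 hS
    (hs.mono fun x hx hr => (le_abs_self _).trans (hx hr)) hμ ha
    (hsh.mono fun x hx a b => by linarith [hx a b])] with x hx a b
  linarith [hx a b]

lemma f3_nrm (i : Fin 3) (x : Pt) : nrm (rf i x) = nrm x := by
  unfold nrm
  congr 1
  refine Finset.sum_congr rfl fun j _ => ?_
  rw [ld_rf_apply]
  split_ifs <;> ring

lemma f3_refl {i : Fin 3} {P : Pt → Prop} {b : Pt → ℝ} (ho : ∀ᵐ x, f (rf i x) = -f x)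
    (hP : ∀ x, P x → P (rf i x)) (hb : ∀ x, b (rf i x) = b x)
    (h : ∀ᵐ x, 0 < x i → P x → |f x| ≤ b x) : ∀ᵐ x, P x → |f x| ≤ b x := by
  filter_upwards [h, (mp_rf i).quasiMeasurePreserving.ae h, ho,
    Measure.ae_eval_ne (fun _ : Fin 3 => (volume : Measure ℝ)) i 0] with x h1 h2 h3 h4 hx
  rcases lt_or_gt_of_ne h4 with h5 | h5
  · have := h2 (by rw [ld_rf_apply, if_pos rfl]; linarith) (hP x hx)
    rwa [h3, abs_neg, hb] at this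
  · exact h1 h5 hx

theorem f3_up (W : Wkb R k Z p φ) (h : Eqf R k Z q s f gf) (hS : 0 ≤ S)
    (hs : ∀ᵐ x, R + 1 / 4 / R ≤ nrm x →
      |s x| ≤ S * (φ (nrm x) * (R / nrm x) ^ (3 / 8 : ℝ)) / nrm x ^ 2)
    (hC : 0 ≤ Ca) (hsh : ∀ᵐ x, x ∈ Sh R (1 / 4) (3 / 4) → |f x| ≤ Ca) :
    ∃ C, 0 ≤ C ∧ ∀ᵐ x, R + 1 / 4 / R ≤ nrm x →
      |f x| ≤ C * (1 + x 0 ^ 2 + x 1 ^ 2) * φ (nrm x) / nrm x ^ 2 := by
  have hR := W.hR
  have R0 : 0 < R := by linarith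
  have b0 : 0 ≤ 20 * R ^ 2 * Ca + S := by positivity
  refine ⟨(20 * R ^ 2 * Ca + S) * 10 ^ 7, by positivity, ?_⟩
  have l := f3_low (μ := 0) W h hS hs le_rfl hC
    (hsh.mono fun x hx a _ => by linarith [(abs_le.1 (hx a)).1])
  have u := f3_core (μ := 0) W h.qn h.h1 h.hs.neg (fun ζ hζ _ => (h.sol ζ hζ).le) h.odd hS
    (hs.mono fun x hx hr => (neg_le_abs _).trans (hx hr)) le_rfl hC
    (hsh.mono fun x hx a _ => by linarith [(abs_le.1 (hx a)).2])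
  have hb : ∀ i : Fin 3, ∀ x, (20 * R ^ 2 * Ca + S) * 10 ^ 7 * (1 + rf i x 0 ^ 2 + rf i x 1 ^ 2) *
      φ (nrm (rf i x)) / nrm (rf i x) ^ 2 =
      (20 * R ^ 2 * Ca + S) * 10 ^ 7 * (1 + x 0 ^ 2 + x 1 ^ 2) * φ (nrm x) / nrm x ^ 2 :=
    fun i x => by
    rw [f3_nrm, ld_rf_apply, ld_rf_apply]
    split_ifs <;> ring
  refine f3_refl (h.odd 1 (by decide)) (fun x hx => by rwa [f3_nrm]) (hb 1) ?_
  refine (f3_refl (P := fun x => 0 < x 1 ∧ R + 1 / 4 / R ≤ nrm x) (b := fun x =>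
    (20 * R ^ 2 * Ca + S) * 10 ^ 7 * (1 + x 0 ^ 2 + x 1 ^ 2) * φ (nrm x) / nrm x ^ 2)
    (h.odd 0 (by decide)) (fun x hx => by rw [f3_nrm, ld_rf_apply, if_neg (by decide)]; exact hx)
    (hb 0) ?_).mono fun x hx a b => hx ⟨a, b⟩
  filter_upwards [l, u] with x h1 h2 a b
  have hx : x ∈ Qd := ⟨a, b.1⟩
  have hr : R ≤ nrm x := le_trans (le_add_of_nonneg_right (by positivity)) b.2
  have e := mul_le_mul_of_nonneg_left (yb_le hR hx hr) (mul_nonneg (W.pos (nrm x)).le b0)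
  have e1 := h1 hx b.2
  have e2 := h2 hx b.2
  refine le_trans (b := φ (nrm x) * (20 * R ^ 2 * Ca + S) * YB R x)
    (abs_le.2 ⟨by linarith, by linarith⟩) (e.trans (le_of_eq (by ring)))

end Vale.Agent.P363
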