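import Vale.Agent.P363.FW

/-! Part F, step F5.  `mean_value'` (`O = {R + 1 ≤ nrm}`, `s = 1`) bounds `u` by a constant for `r ≥ R + 2`.  Take
`R₁ ≥ R + 2` with `4 PP / r + 6 / r² + 1 / (50 r) ≤ g / 4` for `r ≥ R₁`; `mp_ext` with radii `R, R₁, R₁ + 1` and barrier
`φ (nrm x) * (C' * (r^(-4) * (M + x² + y²)))`, `M = 8 / g` (`Lw_pow`, `lap = 4`, `dr ≥ 0`; `W.harn` on the shell). -/

namespace Vale.Agent.P363

open MeasureTheory Vale.Agent.P370 Filter Topology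
open scoped ContDiff

variable {R k Z g C : ℝ} {p φ : ℝ → ℝ} {q τ u : Pt → ℝ} {gu : Fin 3 → Pt → ℝ}

/-- A uniform bound away from the ball. -/
theorem f5_bdd (W : Wkb R k Z p φ) (g0 : 0 < g) (g1 : g ≤ 1) (hq : Qn R k Z (1 / 50) g q)
    (hu : H1 u gu) (u0 : ∀ x, 0 ≤ u x) (hτ : MemLp τ 2) (hs : Sub q τ u gu) :
    ∃ K, 0 ≤ K ∧ ∀ᵐ x, R + 2 ≤ nrm x → u x ≤ K := by
  have hR := W.hR
  have a1 : 1 / 4 / R ≤ 1 := by
    rw [div_le_one (by linarith)]
    linarith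
  obtain ⟨C₀, c1, h⟩ := mean_value'
  have h1 := h q τ u gu {x | R + 1 ≤ nrm x} 1 hu hq.1 hτ one_pos hs (.of_forall fun x hx =>
    mul_nonneg (zero_le_one.trans (hq.bdd W (by norm_num) g0.le g1
      (le_trans (by linarith) hx)).1) (u0 x))
  refine ⟨C₀ * (√(∫ y, u y ^ 2) + √(∫ y, τ y ^ 2)), by positivity, ?_⟩
  filter_upwards [h1] with x hx hr
  refine (hx fun y hy => ?_).trans (mul_le_mul_of_nonneg_left (add_le_add ?_ ?_) (by linarith))
  · have b1 : nrm (y - x) ≤ 1 := hy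
    have b2 := nrm_add_le y (x - y)
    rw [add_sub_cancel, nrm_sub_comm] at b2
    show R + 1 ≤ nrm y
    linarith
  · simp only [one_pow, div_one, max_eq_left (u0 _)]
    exact Real.sqrt_le_sqrt (setIntegral_le_integral hu.1.integrable_sq
      (.of_forall fun _ => sq_nonneg _))
  · rw [one_mul]
    exact Real.sqrt_le_sqrt (setIntegral_le_integral hτ.integrable_sq
      (.of_forall fun _ => sq_nonneg _))

theorem f5_pol (R M : ℝ) : Pol R fun x => M + x 0 * x 0 + x 1 * x 1 :=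
  ((pol_const R M).add ((pol_coord R 0).mul (pol_coord R 0))).add
    ((pol_coord R 1).mul (pol_coord R 1))

theorem f5_E (M : ℝ) (x : Pt) : lap (fun y => M + y 0 * y 0 + y 1 * y 1) x = 4 ∧
    0 ≤ dr (fun y => M + y 0 * y 0 + y 1 * y 1) x := by
  have c : ∀ i : Fin 3, ContDiffAt ℝ 2 (fun y : Pt => y i) x := fun i =>
    (contDiff_apply ℝ ℝ i).contDiffAt
  have l : ∀ i : Fin 3, lap (fun y : Pt => y i * y i) x = 2 := fun i => by
    rw [lap_mul (c i) (c i), lap_coord]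
    simp [pd_coord]
  have d : ∀ i : Fin 3, 0 ≤ dr (fun y : Pt => y i * y i) x := fun i => by
    rw [dr_mul (fa_dc i) (fa_dc i), dr_coord]
    have : 0 ≤ x i * (x i / nrm x) := by
      rw [← mul_div_assoc]
      exact div_nonneg (mul_self_nonneg _) (nrm_nonneg x)
    linarith
  have c0 := (c 0).mul (c 0)
  have c1 := (c 1).mul (c 1)
  constructor
  · rw [lap_add (contDiffAt_const.add c0) c1, lap_add contDiffAt_const c0, lap_const, l, l]
    norm_num
  · rw [dr_add (fa_da (contDiffAt_const.add c0)) (fa_da c1),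
      dr_add (differentiableAt_const _) (fa_da c0), dr_const]
    linarith [d 0, d 1]

theorem f5_num {r P : ℝ} (hR : 100 ≤ R) (g0 : 0 < g) (g1 : g ≤ 1) (hr : 4 * (8 * R + 1) / g ≤ r)
    (hP : P ≤ 2 * R) : R + 2 ≤ r ∧
      g * (3 / 4) ≤ -4 * (P + 1 / r) / r - -4 * (-4 + 1) / (2 * r ^ 2) + (g - 1 / 50 / r) := by
  rw [div_le_iff₀ g0] at hr
  have h0 : 0 < r := by
    by_contra h
    nlinarith
  have h1 : R + 2 ≤ r := by nlinarith
  refine ⟨h1, ?_⟩
  have h2 : 1 / r ≤ 1 / 100 := one_div_le_one_div_of_le (by norm_num) (by linarith)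
  have e : -4 * (P + 1 / r) / r - -4 * (-4 + 1) / (2 * r ^ 2) + (g - 1 / 50 / r) =
      g - (4 * P + 10 * (1 / r) + 1 / 50) / r := by
    field_simp
    ring
  have h3 : (4 * P + 10 * (1 / r) + 1 / 50) / r ≤ g / 4 := by
    rw [div_le_iff₀ h0]
    linarith
  rw [e]
  linarith

theorem f5 (W : Wkb R k Z p φ) (g0 : 0 < g) (g1 : g ≤ 1) (hq : Qn R k Z (1 / 50) g q)
    (hu : H1 u gu) (u0 : ∀ x, 0 ≤ u x) (hτ : MemLp τ 2) (hs : Sub q τ u gu) (hC : 0 ≤ C)
    (hτ' : ∀ᵐ x, R + 1 / 4 / R ≤ nrm x →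
      τ x ≤ C * (1 + x 0 ^ 2 + x 1 ^ 2) * φ (nrm x) / nrm x ^ 4) :
    ∃ C' R₁, 0 ≤ C' ∧ ∀ᵐ x, R₁ ≤ nrm x →
      u x ≤ C' * (1 + x 0 ^ 2 + x 1 ^ 2) * φ (nrm x) / nrm x ^ 4 := by
  have hR := W.hR
  have a1 : 1 / 4 / R ≤ 1 := by
    rw [div_le_one (by linarith)]
    linarith
  obtain ⟨K, K0, hK⟩ := f5_bdd W g0 g1 hq hu u0 hτ hs
  obtain ⟨R₁, hR₁⟩ : ∃ R₁, R₁ = 4 * (8 * R + 1) / g := ⟨_, rfl⟩
  obtain ⟨M, hM⟩ : ∃ M, M = 8 / g := ⟨_, rfl⟩
  have m1 : g * M = 8 := by rw [hM]; field_simp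
  have m2 : 1 ≤ M := by nlinarith
  have r1 : R + 2 ≤ R₁ := (f5_num hR g0 g1 hR₁.ge le_rfl).1
  have φ1 := W.pos R₁
  obtain ⟨A, hA⟩ : ∃ A, A = 2 * C / g + K * (R₁ + 1) ^ 4 * Real.exp (6 * R) / φ R₁ := ⟨_, rfl⟩
  have A1 : 0 ≤ 2 * C / g := by positivity
  have A2 : 0 ≤ K * (R₁ + 1) ^ 4 * Real.exp (6 * R) / φ R₁ := by positivity
  have A0 : 0 ≤ A := by linarith
  have hY := ((pol_pow (r := R) (a := -4) (by linarith) (by norm_num)).mul (f5_pol R M)).cmul A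
  have pw : ∀ x : Pt, nrm x ^ (-4 : ℝ) = (nrm x ^ 4)⁻¹ := fun x => by
    rw [Real.rpow_neg (nrm_nonneg x), Real.rpow_ofNat]
  have E1 : ∀ x : Pt, M ≤ M + x 0 * x 0 + x 1 * x 1 := fun x => by
    linarith [mul_self_nonneg (x 0), mul_self_nonneg (x 1)]
  have key := mp_ext (r₁ := R₁) (r₂ := R₁ + 1) hq.1 hu hτ hs (by linarith) (by linarith)
    (by linarith) (W.bar _ hY) one_pos
    (fun x hx => hq.bdd W (by norm_num) g0.le g1 (by linarith)) ?_ ?_
  · refine ⟨A * M, R₁, by positivity, ?_⟩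
    filter_upwards [key] with x h hx
    refine (h hx).trans ?_
    have b1 : M + x 0 * x 0 + x 1 * x 1 ≤ M * (1 + x 0 ^ 2 + x 1 ^ 2) := by
      nlinarith [sq_nonneg (x 0), sq_nonneg (x 1)]
    have b2 := W.pos (nrm x)
    have b3 : 0 ≤ φ (nrm x) * A * (nrm x ^ 4)⁻¹ := by positivity
    have := mul_le_mul_of_nonneg_left b1 b3
    rw [pw, div_eq_mul_inv]
    linarith
  · filter_upwards [hτ'] with x h hx _
    have h0 : 0 < nrm x := by linarith
    have e0 := E1 x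
    refine (h (by linarith)).trans (le_trans ?_ (hq.sup W (by linarith) (hY.cd (by linarith)) (by
      have : 0 ≤ M + x 0 * x 0 + x 1 * x 1 := by linarith
      positivity)))
    have cE := (f5_pol R M).cd (x := x) (by linarith)
    rw [Lw_cmul ((fa_cd_pow h0 _).mul cE), Lw_pow h0 cE, Lw, (f5_E M x).1, pw]
    have b1 := (f5_num (P := p (nrm x)) hR g0 g1 (hR₁.ge.trans hx) (W.hi _ (by linarith))).2
    have b2 := (f5_E M x).2
    have b3 := W.lo (nrm x) (by linarith)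
    have b4 : 0 ≤ (p (nrm x) + 1 / nrm x) * dr (fun y => M + y 0 * y 0 + y 1 * y 1) x :=
      mul_nonneg (add_nonneg (by linarith) (by positivity)) b2
    have b5 : 0 ≤ 4 / nrm x * dr (fun y => M + y 0 * y 0 + y 1 * y 1) x := by positivity
    have b6 : 0 ≤ R ^ 2 / (7 * nrm x ^ 2) * (M + x 0 * x 0 + x 1 * x 1) :=
      mul_nonneg (by positivity) (by linarith)
    have b7 := mul_le_mul_of_nonneg_right b1 (show 0 ≤ M + x 0 * x 0 + x 1 * x 1 by linarith)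
    have b8 := mul_le_mul_of_nonneg_left e0 g0.le
    have b9 : C * (1 + x 0 ^ 2 + x 1 ^ 2) ≤ A * (g / 2 * (M + x 0 * x 0 + x 1 * x 1)) := by
      have d1 : C ≤ A * (g / 2) := by
        have : 2 * C / g * (g / 2) = C := by field_simp
        nlinarith
      rw [← mul_assoc]
      exact mul_le_mul d1 (by linarith) (by positivity) (by positivity)
    generalize dr (fun y => M + y 0 * y 0 + y 1 * y 1) x = d at b4 b5 ⊢
    generalize M + x 0 * x 0 + x 1 * x 1 = E at b6 b7 b8 b9 ⊢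
    have c1 : g / 2 * E ≤ -(1 / 2) * 4 + (p (nrm x) + 1 / nrm x) * d - -4 / nrm x * d +
        (-4 * (p (nrm x) + 1 / nrm x) / nrm x - -4 * (-4 + 1) / (2 * nrm x ^ 2)) * E +
        (g - 1 / 50 / nrm x + R ^ 2 / (7 * nrm x ^ 2)) * E := by
      rw [neg_div (nrm x) 4]
      linarith
    have c2 := b9.trans (mul_le_mul_of_nonneg_left c1 A0)
    have c3 : 0 ≤ φ (nrm x) * (nrm x ^ 4)⁻¹ := by
      have := W.pos (nrm x)
      positivity
    have := mul_le_mul_of_nonneg_left c2 c3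
    rw [div_eq_mul_inv (C * _ * _)]
    linarith
  · filter_upwards [hK] with x h hx hx'
    refine (h (by linarith)).trans ?_
    have h0 : 0 < nrm x := by linarith
    have b1 := W.harn R₁ (nrm x) (by linarith) (by linarith) (abs_le.2 ⟨by linarith, by linarith⟩)
    have b2 := W.pos (nrm x)
    have b3 : nrm x ^ 4 ≤ (R₁ + 1) ^ 4 := pow_le_pow_left₀ h0.le hx' 4
    have b4 : K * nrm x ^ 4 ≤ φ (nrm x) * A := by
      have d1 : K * (R₁ + 1) ^ 4 ≤ φ (nrm x) * (K * (R₁ + 1) ^ 4 * Real.exp (6 * R) / φ R₁) := by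
        rw [← mul_div_assoc, le_div_iff₀ φ1]
        have := mul_le_mul_of_nonneg_left b1 (show 0 ≤ K * (R₁ + 1) ^ 4 by positivity)
        linarith
      have d2 := mul_le_mul_of_nonneg_left b3 K0
      have d3 := mul_nonneg b2.le A1
      rw [hA, mul_add]
      linarith
    have b5 : K ≤ φ (nrm x) * A * (nrm x ^ 4)⁻¹ := by
      rw [← div_eq_mul_inv, le_div_iff₀ (by positivity)]
      exact b4
    have b6 := mul_le_mul_of_nonneg_left (m2.trans (E1 x)) (K0.trans b5)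
    rw [pw]
    linarith

end Vale.Agent.P363
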