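import Vale.Agent.P363.FC

/-! Part F, step F6.  `r₀ = 1`, the `θ` of `Nodal` is the square of the `θ` of `FN`; choose `ε ≤ 1` with
`ε ≤ c r² / 8` and `24 K ε² ≤ η`.  Cubes: `Real.volume_pi_ball`.  Lower bound: on the box `s / 2 < x, y < s`,
`|z - p 2| < s` (volume `s³ / 2`, `Real.volume_pi_Ioo`) `f ≥ θ c s² / 8`.  Plane term: `fc_plane` for `2 f²` (`s² ≤ ρ² ≤ n`),
the bound `K` for `2 ρ² + b²`. -/

namespace Vale.Agent.P363

open MeasureTheory Vale.Agent.P370 Filter Topology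
open scoped ContDiff

theorem f6_vol (p : Pt) {t : ℝ} (ht : 0 < t) (h1 : t ≤ 1) : volume.real (Metric.ball p t) ≤ 8 := by
  rw [measureReal_def, Real.volume_pi_ball p ht, ENNReal.toReal_ofReal (by positivity),
    Fintype.card_fin]
  calc (2 * t) ^ 3 ≤ 2 ^ 3 := pow_le_pow_left₀ (by positivity) (by linarith) 3
    _ = 8 := by norm_num

theorem f6_box (p : Pt) (p0 : p 0 = 0) (p1 : p 1 = 0) {t : ℝ} (ht : 0 < t) :
    ∃ S : Set Pt, MeasurableSet S ∧ S ⊆ Metric.ball p t ∧ volume.real S = t ^ 3 / 2 ∧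
      ∀ x ∈ S, t / 2 < x 0 ∧ t / 2 < x 1 := by
  refine ⟨Set.pi Set.univ fun i => Set.Ioo (![t / 2, t / 2, p 2 - t] i) (![t, t, p 2 + t] i),
    MeasurableSet.univ_pi fun _ => measurableSet_Ioo, fun x hx => ?_, ?_,
    fun x hx => ⟨(hx 0 trivial).1, (hx 1 trivial).1⟩⟩
  · rw [Metric.mem_ball, dist_pi_lt_iff ht]
    have h0 : t / 2 < x 0 ∧ x 0 < t := hx 0 trivial
    have h1 : t / 2 < x 1 ∧ x 1 < t := hx 1 trivial
    have h2 : p 2 - t < x 2 ∧ x 2 < p 2 + t := hx 2 trivial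
    simp only [Fin.forall_fin_succ, Fin.succ_zero_eq_one, Fin.succ_one_eq_two, IsEmpty.forall_iff,
      and_true, Real.dist_eq, abs_lt, p0, p1]
    refine ⟨⟨?_, ?_⟩, ⟨?_, ?_⟩, ?_, ?_⟩ <;> linarith [h0.1, h0.2, h1.1, h1.2, h2.1, h2.2]
  · rw [measureReal_def, Real.volume_pi_Ioo_toReal, Fin.prod_univ_three]
    · simp only [Matrix.cons_val_zero, Matrix.cons_val_one, Matrix.cons_val]
      ring
    · intro i
      fin_cases i <;> simp <;> linarith

theorem nodal_of {q s f ρ b n : Pt → ℝ} {gf : Fin 3 → Pt → ℝ} (hq : FB q) (hf : H1 f gf)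
    (hs : MemLp s 2) (sol : Sol q (fun x => -s x) f gf)
    (odd : ∀ i : Fin 3, i ≠ 2 → ∀ᵐ x, f (rf i x) = -f x) (hρ : MemLp ρ 2) (hb : MemLp b 2)
    (ρ0 : ∀ x, 0 ≤ ρ x) (b0 : ∀ x, 0 ≤ b x)
    (hn : ∀ᵐ x, n x = 2 * (f x ^ 2 + ρ x ^ 2) + b x ^ 2)
    (symm : ∀ i : Fin 3, i ≠ 2 → ∀ᵐ x, n (rf i x) = n x) (h : FN q s f ρ b) : Nodal n := by
  obtain ⟨C, c, hc, h⟩ := h
  obtain ⟨C₀, hC₀, hpl⟩ := fc_plane
  have if2 : Integrable fun x => f x ^ 2 := hf.1.integrable_sq
  have is2 : Integrable fun x => s x ^ 2 := hs.integrable_sq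
  have hni : Integrable n :=
    (((if2.add hρ.integrable_sq).const_mul 2).add hb.integrable_sq).congr
      (hn.mono fun x hx => hx.symm)
  have hn0 : ∀ᵐ x, 0 ≤ n x := hn.mono fun x hx => by rw [hx]; positivity
  have hA : 0 ≤ 8 * (2 * C ^ 2 + 3) := by positivity
  have hB : 0 ≤ 2 * (C₀ * (1 + |C|)) := by positivity
  refine ⟨symm 0 (by decide), symm 1 (by decide), 1, 8 * (2 * C ^ 2 + 3) + 2 * (C₀ * (1 + |C|)),
    c ^ 2 / 64, one_pos, by positivity, fun r K η hr hK hη => ?_⟩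
  obtain ⟨ε, hε, e1, e2, e3⟩ : ∃ ε : ℝ, 0 < ε ∧ ε ≤ 1 ∧ ε ≤ c * r ^ 2 / 8 ∧ ε ≤ η / (24 * K) :=
    ⟨min 1 (min (c * r ^ 2 / 8) (η / (24 * K))), by positivity, min_le_left _ _,
      (min_le_right _ _).trans (min_le_left _ _), (min_le_right _ _).trans (min_le_right _ _)⟩
  obtain ⟨p, θ, p0, p1, hθ, hqb, hae⟩ := h ε hε
  have hsq : ∀ {a : ℝ}, 0 ≤ a → a ≤ ε * θ → a ^ 2 ≤ ε * θ ^ 2 := fun {a} h0 h1 => by
    have := pow_le_pow_left₀ h0 h1 2
    nlinarith [mul_le_mul_of_nonneg_right e1 (by positivity : 0 ≤ ε * θ ^ 2)]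
  have hfin : ∀ t, volume (Metric.ball p t) ≠ ⊤ := fun t => measure_ball_lt_top.ne
  refine ⟨p, θ ^ 2, p0, p1, by positivity, ?_, fun t hrt ht1 => ⟨?_, fun i hi => ?_⟩⟩
  · have h1 : ∫ x in Metric.ball p 1, n x ≤ ∫ _ in Metric.ball p 1, (2 * C ^ 2 + 3) * θ ^ 2 := by
      refine setIntegral_mono_on_ae hni.integrableOn (integrableOn_const (hfin 1))
        measurableSet_ball ?_
      filter_upwards [hn, hae] with x h1 h2 hx
      obtain ⟨a1, a2, a3, -⟩ := h2 hx
      have a4 := pow_le_pow_left₀ (abs_nonneg _) a1 2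
      rw [sq_abs] at a4
      have a5 := mul_le_mul_of_nonneg_right e1 (sq_nonneg θ)
      rw [h1]
      nlinarith [hsq (ρ0 x) a2, hsq (b0 x) a3]
    rw [setIntegral_const, smul_eq_mul] at h1
    have h2 := mul_le_mul_of_nonneg_right (f6_vol p one_pos le_rfl)
      (by positivity : 0 ≤ (2 * C ^ 2 + 3) * θ ^ 2)
    nlinarith [mul_nonneg hB (sq_nonneg θ)]
  · have ht := hr.trans_le hrt
    obtain ⟨S, hS, hSb, hSv, hSx⟩ := f6_box p p0 p1 ht
    have h1 : ∫ _ in S, c ^ 2 * t ^ 4 * θ ^ 2 / 32 ≤ ∫ x in S, n x := by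
      refine setIntegral_mono_on_ae
        (integrableOn_const (ne_top_of_le_ne_top (hfin t) (measure_mono hSb))) hni.integrableOn hS ?_
      filter_upwards [hn, hae] with x h1 h2 hx
      obtain ⟨x0, x1⟩ := hSx x hx
      have a1 := (h2 (Metric.ball_subset_ball ht1 (hSb hx))).2.2.2.2
        ⟨(half_pos ht).trans x0, (half_pos ht).trans x1⟩
      have a2 : t / 2 * (t / 2) ≤ x 0 * x 1 :=
        mul_le_mul x0.le x1.le (by positivity) ((half_pos ht).trans x0).le
      have a3 : r ^ 2 ≤ t ^ 2 := pow_le_pow_left₀ hr.le hrt 2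
      have a4 : c * t ^ 2 / 8 ≤ c * (x 0 * x 1) - ε := by
        nlinarith [mul_le_mul_of_nonneg_left a2 hc.le, mul_le_mul_of_nonneg_left a3 hc.le]
      have a5 := pow_le_pow_left₀ (by positivity)
        ((mul_le_mul_of_nonneg_left a4 hθ.le).trans a1) 2
      rw [h1]
      nlinarith [sq_nonneg (ρ x), sq_nonneg (b x)]
    have h2 : ∫ x in S, n x ≤ ∫ x in Metric.ball p t, n x :=
      setIntegral_mono_set hni.integrableOn (ae_restrict_of_ae hn0) hSb.eventuallyLE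
    rw [setIntegral_const, smul_eq_mul, hSv] at h1
    linarith
  · have ht := hr.trans_le hrt
    have hp : p i = 0 := by
      fin_cases i
      exacts [p0, p1, absurd rfl hi]
    have h1 := hpl q s f gf p i t K |C| hq hf hs sol (odd i hi) hp ht ht1 hK.le
      fun x hx => (hqb x (Metric.ball_subset_ball ht1 hx)).trans (le_abs_self C)
    have hw : ∀ x : Pt, 0 ≤ min (t ^ 2 / x i ^ 2) K := fun x => le_min (by positivity) hK.le
    have hwm : Measurable fun x : Pt => min (t ^ 2 / x i ^ 2) K := by fun_prop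
    have hwi : ∀ g : Pt → ℝ, Integrable g → Integrable fun x => min (t ^ 2 / x i ^ 2) K * g x :=
      fun g hg => hg.bdd_mul (c := K) hwm.aestronglyMeasurable (Eventually.of_forall fun x => by
        rw [Real.norm_of_nonneg (hw x)]
        exact min_le_right _ _)
    have i1 : IntegrableOn (fun x : Pt => 2 * (min (t ^ 2 / x i ^ 2) K * f x ^ 2))
        (Metric.ball p (t / 2)) := ((hwi _ if2).const_mul 2).integrableOn
    have i2 : IntegrableOn (fun _ : Pt => K * (3 * (ε * θ ^ 2))) (Metric.ball p (t / 2)) :=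
      integrableOn_const (hfin _)
    have h2 : ∫ x in Metric.ball p (t / 2), min (t ^ 2 / x i ^ 2) K * n x ≤
        ∫ x in Metric.ball p (t / 2),
          (2 * (min (t ^ 2 / x i ^ 2) K * f x ^ 2) + K * (3 * (ε * θ ^ 2))) := by
      refine setIntegral_mono_on_ae (hwi _ hni).integrableOn (i1.add i2) measurableSet_ball ?_
      filter_upwards [hn, hae] with x h1 h2 hx
      obtain ⟨-, a2, a3, -⟩ := h2 (Metric.ball_subset_ball (by linarith) hx)
      have a4 : min (t ^ 2 / x i ^ 2) K * (2 * ρ x ^ 2 + b x ^ 2) ≤ K * (3 * (ε * θ ^ 2)) :=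
        mul_le_mul (min_le_right _ _) (by linarith [hsq (ρ0 x) a2, hsq (b0 x) a3])
          (by positivity) hK.le
      rw [h1]
      linarith
    have h3 : ∫ x in Metric.ball p t, (f x ^ 2 + s x ^ 2) ≤ ∫ x in Metric.ball p t, n x := by
      refine setIntegral_mono_on_ae (if2.add is2).integrableOn hni.integrableOn
        measurableSet_ball ?_
      filter_upwards [hn, hae] with x h1 h2 hx
      have a4 := pow_le_pow_left₀ (abs_nonneg _) (h2 (Metric.ball_subset_ball ht1 hx)).2.2.2.1 2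
      rw [sq_abs] at a4
      rw [h1]
      nlinarith [sq_nonneg (ρ x), sq_nonneg (b x), sq_nonneg (f x)]
    rw [integral_add if2.integrableOn is2.integrableOn] at h3
    rw [integral_add i1 i2, integral_const_mul, setIntegral_const, smul_eq_mul] at h2
    have h4 := mul_le_mul_of_nonneg_right (f6_vol p (half_pos ht) (by linarith))
      (by positivity : 0 ≤ K * (3 * (ε * θ ^ 2)))
    have h5 : 0 ≤ ∫ x in Metric.ball p t, n x := integral_nonneg_of_ae (ae_restrict_of_ae hn0)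
    have h6 := mul_le_mul_of_nonneg_left h3 (by positivity : 0 ≤ C₀ * (1 + |C|))
    rw [le_div_iff₀ (by positivity)] at e3
    have h7 := mul_le_mul_of_nonneg_right e3 (sq_nonneg θ)
    nlinarith [mul_nonneg hA h5]

end Vale.Agent.P363
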