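import Vale.Agent.P363.FW
import Vale.Agent.P363.FT
import Vale.Agent.P363.FY

/-! Part F, the facts near the axis.  Centre `![0, 0, T]`, `θ = φ T / T²`, `T` large.  On the unit cube
`T - 1 ≤ r ≤ T + 2`, so `φ r / r²` lies in `[θ / H, H θ]`, `H = 4 exp (6 R)` (`W.harn`).  `yt_ge`, `yb_axis`, `Qn.bdd`. -/

namespace Vale.Agent.P363

open MeasureTheory Vale.Agent.P370 Filter Topology
open scoped ContDiff

theorem f7_cube {T : ℝ} (hT : 0 ≤ T) {x : Pt} (hx : x ∈ Metric.ball (![0, 0, T] : Pt) 1) :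
    |x 0| ≤ 1 ∧ |x 1| ≤ 1 ∧ T - 1 ≤ x 2 ∧ T - 1 ≤ nrm x ∧ nrm x ≤ T + 2 := by
  have h : ∀ i, |x i - (![0, 0, T] : Pt) i| ≤ 1 := fun i =>
    (dist_le_pi_dist x _ i).trans (le_of_lt hx)
  have h0 : |x 0| ≤ 1 := by simpa using h 0
  have h1 : |x 1| ≤ 1 := by simpa using h 1
  have h2 : |x 2 - T| ≤ 1 := by simpa using h 2
  rw [abs_le] at h2
  refine ⟨h0, h1, by linarith [h2.1], ?_, ?_⟩
  · linarith [h2.1, le_abs_self (x 2), abs_le_nrm' x 2]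
  · rw [nrm, Fin.sum_univ_three, Real.sqrt_le_left (by linarith)]
    have a0 : x 0 ^ 2 ≤ 1 := (sq_le_one_iff_abs_le_one _).2 h0
    have a1 : x 1 ^ 2 ≤ 1 := (sq_le_one_iff_abs_le_one _).2 h1
    have a2 : x 2 ^ 2 ≤ (T + 1) ^ 2 := sq_le_sq' (by linarith [h2.1]) (by linarith [h2.2])
    nlinarith

theorem f7_cmp {a b r T E : ℝ} (hb : 0 < b) (hE : 0 < E) (hr : 0 < r) (hT : 0 < T)
    (h : a ≤ E * b) (h2 : T ≤ 2 * r) : a / r ^ 2 ≤ 4 * E * (b / T ^ 2) := by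
  rw [← mul_div_assoc, div_le_div_iff₀ (by positivity) (by positivity)]
  have h3 : T ^ 2 ≤ (2 * r) ^ 2 := pow_le_pow_left₀ hT.le h2 2
  have h4 : 0 < E * b := by positivity
  calc a * T ^ 2 ≤ E * b * T ^ 2 := mul_le_mul_of_nonneg_right h (by positivity)
    _ ≤ E * b * (2 * r) ^ 2 := mul_le_mul_of_nonneg_left h3 h4.le
    _ = 4 * E * b * r ^ 2 := by ring

theorem f7_up {C u a r H θ : ℝ} (hC : 0 ≤ C) (ha : 0 < a) (hu : u ≤ 3)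
    (h : a / r ^ 2 ≤ H * θ) : C * u * a / r ^ 2 ≤ 3 * C * H * θ := by
  have h1 : 0 ≤ a / r ^ 2 := by positivity
  calc C * u * a / r ^ 2 = C * (u * (a / r ^ 2)) := by ring
    _ ≤ C * (3 * (H * θ)) := mul_le_mul_of_nonneg_left
        ((mul_le_mul_of_nonneg_right hu h1).trans (by linarith)) hC
    _ = 3 * C * H * θ := by ring

theorem f7_up4 {C u a r H θ ε : ℝ} (hC : 0 ≤ C) (ha : 0 < a) (hu : u ≤ 3) (hr : 0 < r)
    (hθ : 0 < θ) (h : a / r ^ 2 ≤ H * θ) (h2 : 3 * C * H ≤ ε * r ^ 2) :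
    C * u * a / r ^ 4 ≤ ε * θ := by
  have h1 := f7_up hC ha hu h
  have e : C * u * a / r ^ 4 = C * u * a / r ^ 2 / r ^ 2 := by
    field_simp
  rw [e, div_le_iff₀ (by positivity)]
  calc _ ≤ 3 * C * H * θ := h1
    _ ≤ ε * r ^ 2 * θ := mul_le_mul_of_nonneg_right h2 hθ.le
    _ = ε * θ * r ^ 2 := by ring

theorem f7_low {a r H θ ε m e y β d t1 t2 : ℝ} (ha : 0 < a) (hH : 0 < H) (hθ : 0 < θ)
    (hy : 0 ≤ y) (hβ : 0 ≤ β) (hd : 0 ≤ d) (he : 0 < e) (hm : 2 * 10 ^ 6 * β < m * e)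
    (h1 : a / r ^ 2 ≤ H * θ) (h2 : θ ≤ H * (a / r ^ 2)) (h3 : e * y / r ^ 2 ≤ t1)
    (h4 : t2 ≤ (2 * 10 ^ 6 * y + 10 ^ 4 * d) / r ^ 2) (h5 : H * (β * (10 ^ 4 * d)) ≤ ε) :
    θ * ((m * e - 2 * 10 ^ 6 * β) / H * y - ε) ≤ a * (m * t1 - β * t2) := by
  have hm0 : 0 ≤ m := by
    by_contra h0
    have := mul_neg_of_neg_of_pos (not_le.1 h0) he
    nlinarith
  have hc : 0 ≤ (m * e - 2 * 10 ^ 6 * β) * y := mul_nonneg (by linarith) hy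
  have b1 : a * (m * (e * y / r ^ 2) - β * ((2 * 10 ^ 6 * y + 10 ^ 4 * d) / r ^ 2))
      ≤ a * (m * t1 - β * t2) :=
    mul_le_mul_of_nonneg_left (sub_le_sub (mul_le_mul_of_nonneg_left h3 hm0)
      (mul_le_mul_of_nonneg_left h4 hβ)) ha.le
  have b2 : θ / H * ((m * e - 2 * 10 ^ 6 * β) * y)
      ≤ a / r ^ 2 * ((m * e - 2 * 10 ^ 6 * β) * y) :=
    mul_le_mul_of_nonneg_right (by rwa [div_le_iff₀' hH]) hc
  have b3 : a / r ^ 2 * (β * (10 ^ 4 * d)) ≤ θ * ε :=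
    calc _ ≤ H * θ * (β * (10 ^ 4 * d)) := mul_le_mul_of_nonneg_right h1 (by positivity)
      _ = θ * (H * (β * (10 ^ 4 * d))) := by ring
      _ ≤ θ * ε := mul_le_mul_of_nonneg_left h5 hθ.le
  calc _ = θ / H * ((m * e - 2 * 10 ^ 6 * β) * y) - θ * ε := by ring
    _ ≤ a / r ^ 2 * ((m * e - 2 * 10 ^ 6 * β) * y) - a / r ^ 2 * (β * (10 ^ 4 * d)) :=
        sub_le_sub b2 b3
    _ = a * (m * (e * y / r ^ 2) - β * ((2 * 10 ^ 6 * y + 10 ^ 4 * d) / r ^ 2)) := by ring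
    _ ≤ _ := b1

theorem f7_far (R R₁ A H β : ℝ) {ε : ℝ} (hε : 0 < ε) : ∃ r0 : ℝ, ∀ r, r0 ≤ r →
    R₁ ≤ r ∧ 2 * R ≤ r ∧ A ≤ ε * r ^ 2 ∧ H * (β * (10 ^ 4 * (R / r) ^ (1 / 8 : ℝ))) ≤ ε := by
  have t1 : Tendsto (fun r : ℝ => ε * r ^ 2) atTop atTop :=
    (tendsto_pow_atTop two_ne_zero).const_mul_atTop hε
  have t2 : Tendsto (fun r : ℝ => (R / r) ^ (1 / 8 : ℝ)) atTop (𝓝 0) := by
    have := (tendsto_const_nhds.div_atTop (a := R) tendsto_id).rpow_const (p := (1 / 8 : ℝ))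
      (Or.inr (by norm_num))
    rwa [Real.zero_rpow (by norm_num)] at this
  have t3 := ((t2.const_mul (10 ^ 4)).const_mul β).const_mul H
  rw [mul_zero, mul_zero, mul_zero] at t3
  exact eventually_atTop.1 ((eventually_ge_atTop R₁).and ((eventually_ge_atTop (2 * R)).and
    ((t1.eventually_ge_atTop A).and (t3.eventually (ge_mem_nhds hε)))))

theorem fn_of {R k Z C R₁ μ β₀ : ℝ} {p φ : ℝ → ℝ} {q s f ρ b : Pt → ℝ} (W : Wkb R k Z p φ)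
    (hq : Qn R k Z 0 0 q) (hC : 0 ≤ C) (hβ : 0 ≤ β₀)
    (hμ : 2 * 10 ^ 6 * β₀ < μ * R ^ 2 * Real.exp (-11))
    (h : ∀ᵐ x, R₁ ≤ nrm x → |f x| ≤ C * (1 + x 0 ^ 2 + x 1 ^ 2) * φ (nrm x) / nrm x ^ 2 ∧
      ρ x ≤ C * (1 + x 0 ^ 2 + x 1 ^ 2) * φ (nrm x) / nrm x ^ 4 ∧
      b x ≤ C * (1 + x 0 ^ 2 + x 1 ^ 2) * φ (nrm x) / nrm x ^ 4 ∧ |s x| ≤ ρ x ∧
      (x ∈ Qd → φ (nrm x) * (μ * R ^ 2 * YT R x - β₀ * YB R x) ≤ f x)) : FN q s f ρ b := by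
  have hR := W.hR
  have hE := Real.exp_pos (6 * R)
  have hH : 0 < 4 * Real.exp (6 * R) := by positivity
  refine ⟨3 * R ^ 2 + 3 * C * (4 * Real.exp (6 * R)),
    (μ * R ^ 2 * Real.exp (-11) - 2 * 10 ^ 6 * β₀) / (4 * Real.exp (6 * R)),
    div_pos (by linarith) hH, fun ε hε => ?_⟩
  obtain ⟨r0, hr0⟩ := f7_far R R₁ (3 * C * (4 * Real.exp (6 * R))) (4 * Real.exp (6 * R)) β₀ hε
  obtain ⟨T, hT1, hT2⟩ : ∃ T, r0 + 1 ≤ T ∧ R ≤ T := ⟨_, le_max_left _ _, le_max_right _ _⟩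
  have hT : 0 < T := by linarith
  have hθ : 0 < φ T / T ^ 2 := div_pos (W.pos T) (by positivity)
  have hC' : 0 ≤ 3 * C * (4 * Real.exp (6 * R)) := by positivity
  refine ⟨![0, 0, T], φ T / T ^ 2, rfl, rfl, hθ, fun x hx => ?_, h.mono fun x h hx => ?_⟩
  · obtain ⟨-, -, -, a1, -⟩ := f7_cube hT.le hx
    have a2 := (hr0 (nrm x) (by linarith)).2.1
    have a3 : 1 / 4 / R ≤ R := by
      rw [div_le_iff₀ (by linarith)]
      nlinarith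
    obtain ⟨b1, b2⟩ := hq.bdd W zero_le_one le_rfl zero_le_one (x := x) (by linarith)
    rw [abs_of_nonneg (by linarith)]
    linarith
  · obtain ⟨a0, a1, a2, a3, a4⟩ := f7_cube hT.le hx
    obtain ⟨c1, c2, c3, c4⟩ := hr0 (nrm x) (by linarith)
    obtain ⟨d1, d2, d3, d4, d5⟩ := h c1
    have hr : 0 < nrm x := by linarith
    have hRr : R ≤ nrm x := by linarith
    have w1 : φ (nrm x) / nrm x ^ 2 ≤ 4 * Real.exp (6 * R) * (φ T / T ^ 2) :=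
      f7_cmp (W.pos T) hE hr hT
        (W.harn _ _ hRr hT2 (abs_le.2 ⟨by linarith, by linarith⟩)) (by linarith)
    have w2 : φ T / T ^ 2 ≤ 4 * Real.exp (6 * R) * (φ (nrm x) / nrm x ^ 2) :=
      f7_cmp (W.pos _) hE hT hr
        (W.harn _ _ hT2 hRr (abs_le.2 ⟨by linarith, by linarith⟩)) (by linarith)
    have u3 : 1 + x 0 ^ 2 + x 1 ^ 2 ≤ 3 := by
      linarith [(sq_le_one_iff_abs_le_one _).2 a0, (sq_le_one_iff_abs_le_one _).2 a1]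
    refine ⟨d1.trans ((f7_up hC (W.pos _) u3 w1).trans
      (mul_le_mul_of_nonneg_right (le_add_of_nonneg_left (by positivity)) hθ.le)),
      d2.trans (f7_up4 hC (W.pos _) u3 hr hθ w1 c3),
      d3.trans (f7_up4 hC (W.pos _) u3 hr hθ w1 c3), d4, fun hQ => le_trans ?_ (d5 hQ)⟩
    have x0 := (le_abs_self _).trans a0
    have x1 := (le_abs_self _).trans a1
    exact f7_low (W.pos _) hH hθ (mul_pos hQ.1 hQ.2).le hβ
      (Real.rpow_nonneg (div_nonneg (by linarith) hr.le) _) (Real.exp_pos _) hμ w1 w2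
      (yt_ge (by linarith) hQ x0 x1 (by linarith) c2) (yb_axis hR hQ hRr x0 x1) c4

end Vale.Agent.P363
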