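import Vale.Agent.P363.FD

/-! Part F, calculus.  First order rules from `fderiv`; second order rules by applying them near `x`
(`ContDiffAt.eventually`, `nw_pd_congr`). -/

namespace Vale.Agent.P363

open MeasureTheory Vale.Agent.P370 Filter Topology
open scoped ContDiff

variable {f g E : Pt → ℝ} {x : Pt} {k : Fin 3} {p F F' m m' : ℝ → ℝ} {F₁ F₂ m₂ : ℝ}

theorem fa_open (r : ℝ) : IsOpen {x : Pt | r < nrm x} := isOpen_lt continuous_const continuous_nrm
theorem fa_sq (x : Pt) : nrm x ^ 2 = x 0 ^ 2 + x 1 ^ 2 + x 2 ^ 2 := by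
  rw [nrm, Real.sq_sqrt (Finset.sum_nonneg fun _ _ => sq_nonneg _), Fin.sum_univ_three]
theorem fa_cd_nrm {n : WithTop ℕ∞} (hx : 0 < nrm x) : ContDiffAt ℝ n nrm x := by
  have h : ContDiffAt ℝ n (fun y : Pt => ∑ k, y k ^ 2) x :=
    ContDiffAt.sum fun k _ => (contDiffAt_apply ℝ ℝ k x).pow 2
  exact h.sqrt (Real.sqrt_pos.1 hx).ne'
theorem fa_cd_pd (hf : ContDiffAt ℝ 2 f x) (k : Fin 3) : ContDiffAt ℝ 1 (pd k f) x :=
  (hf.fderiv_right (m := 1) (by norm_num)).clm_apply contDiffAt_const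
theorem pd_const (c : ℝ) : pd k (fun _ => c) x = 0 := by simp [pd]
theorem pd_coord (i : Fin 3) : pd k (fun y => y i) x = if i = k then 1 else 0 := by
  rw [pd, (hasFDerivAt_apply (𝕜 := ℝ) i x).fderiv]
  simp [ek, Pi.single_apply]
theorem pd_add (hf : DifferentiableAt ℝ f x) (hg : DifferentiableAt ℝ g x) :
    pd k (fun y => f y + g y) x = pd k f x + pd k g x := by
  simp only [pd, fderiv_fun_add hf hg, add_apply]
theorem pd_cmul (hf : DifferentiableAt ℝ f x) (c : ℝ) :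
    pd k (fun y => c * f y) x = c * pd k f x := by
  simp only [pd, fderiv_const_mul hf, smul_apply, smul_eq_mul]
theorem pd_mul (hf : DifferentiableAt ℝ f x) (hg : DifferentiableAt ℝ g x) :
    pd k (fun y => f y * g y) x = f x * pd k g x + g x * pd k f x := by
  simp only [pd, fderiv_fun_mul hf hg, add_apply, smul_apply, smul_eq_mul]
theorem pd_comp (hf : DifferentiableAt ℝ f x) (hF : HasDerivAt F F₁ (f x)) :
    pd k (fun y => F (f y)) x = F₁ * pd k f x := by
  have h := (hF.comp_hasFDerivAt x hf.hasFDerivAt).fderiv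
  rw [pd, show (fun y => F (f y)) = F ∘ f from rfl, h]
  simp [pd]

theorem fa_da (hf : ContDiffAt ℝ 2 f x) : DifferentiableAt ℝ f x := hf.differentiableAt two_ne_zero
theorem fa_dpd (hf : ContDiffAt ℝ 2 f x) (k : Fin 3) : DifferentiableAt ℝ (pd k f) x :=
  (fa_cd_pd hf k).differentiableAt one_ne_zero
theorem fa_ev (hf : ContDiffAt ℝ 2 f x) : ∀ᶠ y in 𝓝 x, DifferentiableAt ℝ f y :=
  (hf.eventually (by simp)).mono fun _ h => fa_da h
theorem fa_dc (i : Fin 3) : DifferentiableAt ℝ (fun y : Pt => y i) x := differentiableAt_apply i x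
theorem fa_pos (hx : 0 < nrm x) : ∀ᶠ y in 𝓝 x, 0 < nrm y := (fa_open 0).mem_nhds hx

theorem pd_nrm (hx : 0 < nrm x) : pd k nrm x = x k / nrm x := by
  have hd : DifferentiableAt ℝ nrm x := fa_da (fa_cd_nrm hx)
  have h := pd_mul (k := k) hd hd
  have e : (fun y : Pt => nrm y * nrm y) = fun y => y 0 * y 0 + y 1 * y 1 + y 2 * y 2 := by
    funext y
    have := fa_sq y
    nlinarith
  rw [e, pd_add (((fa_dc 0).fun_mul (fa_dc 0)).fun_add ((fa_dc 1).fun_mul (fa_dc 1)))
    ((fa_dc 2).fun_mul (fa_dc 2)), pd_add ((fa_dc 0).fun_mul (fa_dc 0))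
    ((fa_dc 1).fun_mul (fa_dc 1)), pd_mul (fa_dc 0) (fa_dc 0), pd_mul (fa_dc 1) (fa_dc 1),
    pd_mul (fa_dc 2) (fa_dc 2)] at h
  simp only [pd_coord] at h
  rw [eq_div_iff hx.ne']
  fin_cases k <;> simp at h ⊢ <;> linarith

theorem fa_lap {G : Fin 3 → Pt → ℝ} (h : ∀ k, ∀ᶠ y in 𝓝 x, pd k f y = G k y) :
    lap f x = ∑ k, pd k (G k) x :=
  Finset.sum_congr rfl fun k _ => (nw_pd_congr (h k) k).self_of_nhds

theorem lap_const (c : ℝ) : lap (fun _ => c) x = 0 := by
  rw [fa_lap (G := fun _ _ => 0) fun k => .of_forall fun y => pd_const c]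
  simp only [pd_const, Finset.sum_const_zero]
theorem lap_coord (i : Fin 3) : lap (fun y => y i) x = 0 := by
  rw [fa_lap (G := fun k _ => if i = k then 1 else 0) fun k => .of_forall fun y => pd_coord i]
  simp only [pd_const, Finset.sum_const_zero]
theorem gsq_nrm (hx : 0 < nrm x) : gsq nrm x = 1 := by
  simp only [gsq, pd_nrm hx, Fin.sum_univ_three, div_pow]
  rw [← add_div, ← add_div, ← fa_sq, div_self (by positivity)]
theorem lap_nrm (hx : 0 < nrm x) : lap nrm x = 2 / nrm x := by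
  have hd : DifferentiableAt ℝ nrm x := fa_da (fa_cd_nrm hx)
  rw [fa_lap (G := fun k y => y k * (nrm y)⁻¹) fun k => (fa_pos hx).mono fun y hy => by
    rw [pd_nrm hy, div_eq_mul_inv]]
  have h : ∀ k, pd k (fun y : Pt => y k * (nrm y)⁻¹) x =
      x k * (-(nrm x ^ 2)⁻¹ * (x k / nrm x)) + (nrm x)⁻¹ := fun k => by
    rw [pd_mul (fa_dc k) (hd.fun_inv hx.ne'), pd_comp (F := fun t => t⁻¹) hd (hasDerivAt_inv hx.ne'),
      pd_nrm hx, pd_coord, if_pos rfl, mul_one]
  simp only [h, Fin.sum_univ_three]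
  have := fa_sq x
  field_simp
  linarith
theorem lap_add (hf : ContDiffAt ℝ 2 f x) (hg : ContDiffAt ℝ 2 g x) :
    lap (fun y => f y + g y) x = lap f x + lap g x := by
  rw [fa_lap (G := fun k y => pd k f y + pd k g y) fun k => by
    filter_upwards [fa_ev hf, fa_ev hg] with y h1 h2 using pd_add h1 h2]
  simp only [pd_add (fa_dpd hf _) (fa_dpd hg _), Finset.sum_add_distrib, lap]
theorem lap_cmul (hf : ContDiffAt ℝ 2 f x) (c : ℝ) :
    lap (fun y => c * f y) x = c * lap f x := by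
  rw [fa_lap (G := fun k y => c * pd k f y) fun k => by
    filter_upwards [fa_ev hf] with y h1 using pd_cmul h1 c]
  simp only [pd_cmul (fa_dpd hf _), lap, Finset.mul_sum]
theorem lap_mul (hf : ContDiffAt ℝ 2 f x) (hg : ContDiffAt ℝ 2 g x) :
    lap (fun y => f y * g y) x =
      f x * lap g x + g x * lap f x + 2 * ∑ k, pd k f x * pd k g x := by
  rw [fa_lap (G := fun k y => f y * pd k g y + g y * pd k f y) fun k => by
    filter_upwards [fa_ev hf, fa_ev hg] with y h1 h2 using pd_mul h1 h2]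
  have h : ∀ k, pd k (fun y => f y * pd k g y + g y * pd k f y) x =
      f x * pd k (pd k g) x + pd k g x * pd k f x + (g x * pd k (pd k f) x + pd k f x * pd k g x) :=
    fun k => by
      rw [pd_add ((fa_da hf).fun_mul (fa_dpd hg k)) ((fa_da hg).fun_mul (fa_dpd hf k)),
        pd_mul (fa_da hf) (fa_dpd hg k), pd_mul (fa_da hg) (fa_dpd hf k)]
  simp only [h, lap, Fin.sum_univ_three]
  ring
theorem lap_comp (hf : ContDiffAt ℝ 2 f x) (hF : ∀ᶠ t in 𝓝 (f x), HasDerivAt F (F' t) t)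
    (hF' : HasDerivAt F' F₂ (f x)) :
    lap (fun y => F (f y)) x = F' (f x) * lap f x + F₂ * gsq f x := by
  rw [fa_lap (G := fun k y => F' (f y) * pd k f y) fun k => by
    filter_upwards [fa_ev hf, hf.continuousAt.eventually hF] with y h1 h2 using pd_comp h1 h2]
  have hd : DifferentiableAt ℝ (fun y => F' (f y)) x :=
    hF'.differentiableAt.comp x (fa_da hf)
  have h : ∀ k, pd k (fun y => F' (f y) * pd k f y) x =
      F' (f x) * pd k (pd k f) x + pd k f x * (F₂ * pd k f x) := fun k => by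
    rw [pd_mul hd (fa_dpd hf k), pd_comp (fa_da hf) hF']
  simp only [h, lap, gsq, Fin.sum_univ_three]
  ring

theorem dr_const (c : ℝ) : dr (fun _ => c) x = 0 := by simp [dr, pd_const]
theorem dr_coord (i : Fin 3) : dr (fun y => y i) x = x i / nrm x := by simp [dr, pd_coord]
theorem dr_nrm (hx : 0 < nrm x) : dr nrm x = 1 := by
  simp only [dr, pd_nrm hx, Fin.sum_univ_three]
  have := fa_sq x
  field_simp
  linarith
theorem dr_add (hf : DifferentiableAt ℝ f x) (hg : DifferentiableAt ℝ g x) :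
    dr (fun y => f y + g y) x = dr f x + dr g x := by
  simp only [dr, pd_add hf hg, Fin.sum_univ_three]
  ring
theorem dr_cmul (hf : DifferentiableAt ℝ f x) (c : ℝ) :
    dr (fun y => c * f y) x = c * dr f x := by
  simp only [dr, pd_cmul hf, Fin.sum_univ_three]
  ring
theorem dr_mul (hf : DifferentiableAt ℝ f x) (hg : DifferentiableAt ℝ g x) :
    dr (fun y => f y * g y) x = f x * dr g x + g x * dr f x := by
  simp only [dr, pd_mul hf hg, Fin.sum_univ_three]
  ring
theorem dr_comp (hf : DifferentiableAt ℝ f x) (hF : HasDerivAt F F₁ (f x)) :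
    dr (fun y => F (f y)) x = F₁ * dr f x := by
  simp only [dr, pd_comp hf hF, Fin.sum_univ_three]
  ring

/-- Laplacian of a radial function times a function. -/
theorem lap_rad (hx : 0 < nrm x) (hE : ContDiffAt ℝ 2 E x) (hc : ContDiffAt ℝ 2 m (nrm x))
    (hm : ∀ᶠ t in 𝓝 (nrm x), HasDerivAt m (m' t) t) (hm' : HasDerivAt m' m₂ (nrm x)) :
    lap (fun y => m (nrm y) * E y) x = m (nrm x) * lap E x + 2 * m' (nrm x) * dr E x +
      (m₂ + 2 * m' (nrm x) / nrm x) * E x := by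
  have hn : ContDiffAt ℝ 2 nrm x := fa_cd_nrm hx
  rw [lap_mul (f := fun y => m (nrm y)) (hc.comp x hn) hE, lap_comp hn hm hm', lap_nrm hx,
    gsq_nrm hx]
  simp only [pd_comp (fa_da hn) hm.self_of_nhds, pd_nrm hx, dr, Fin.sum_univ_three]
  ring

theorem Lw_add (hf : ContDiffAt ℝ 2 f x) (hg : ContDiffAt ℝ 2 g x) :
    Lw p (fun y => f y + g y) x = Lw p f x + Lw p g x := by
  simp only [Lw, lap_add hf hg, dr_add (fa_da hf) (fa_da hg)]
  ring
theorem Lw_cmul (hf : ContDiffAt ℝ 2 f x) (c : ℝ) :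
    Lw p (fun y => c * f y) x = c * Lw p f x := by
  simp only [Lw, lap_cmul hf, dr_cmul (fa_da hf)]
  ring
theorem Lw_rad (hx : 0 < nrm x) (hE : ContDiffAt ℝ 2 E x) (hc : ContDiffAt ℝ 2 m (nrm x))
    (hm : ∀ᶠ t in 𝓝 (nrm x), HasDerivAt m (m' t) t) (hm' : HasDerivAt m' m₂ (nrm x)) :
    Lw p (fun y => m (nrm y) * E y) x = m (nrm x) * Lw p E x - m' (nrm x) * dr E x +
      (p (nrm x) * m' (nrm x) - m₂ / 2) * E x := by
  have hn : ContDiffAt ℝ 2 nrm x := fa_cd_nrm hx
  rw [Lw, Lw, lap_rad hx hE hc hm hm', dr_mul (f := fun y => m (nrm y)) (fa_da (hc.comp x hn))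
    (fa_da hE), dr_comp (fa_da hn) hm.self_of_nhds, dr_nrm hx]
  ring
theorem fa_cd_pow (hx : 0 < nrm x) (a : ℝ) : ContDiffAt ℝ 2 (fun y => nrm y ^ a) x :=
  (fa_cd_nrm hx).rpow_const_of_ne hx.ne'
theorem Lw_pow (hx : 0 < nrm x) (hE : ContDiffAt ℝ 2 E x) (a : ℝ) :
    Lw p (fun y => nrm y ^ a * E y) x = nrm x ^ a * (Lw p E x - a / nrm x * dr E x +
      (a * (p (nrm x) + 1 / nrm x) / nrm x - a * (a + 1) / (2 * nrm x ^ 2)) * E x) := by
  rw [Lw_rad (m := fun t => t ^ a) (m' := fun t => a * t ^ (a - 1))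
    (m₂ := a * ((a - 1) * nrm x ^ (a - 1 - 1))) hx hE (contDiffAt_id.rpow_const_of_ne hx.ne')
    ((eventually_ne_nhds hx.ne').mono fun t ht => Real.hasDerivAt_rpow_const (.inl ht))
    ((Real.hasDerivAt_rpow_const (.inl hx.ne')).const_mul a)]
  simp only [Real.rpow_sub_one hx.ne']
  field_simp
  ring

end Vale.Agent.P363
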