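import Vale.Agent.P363.FA

/-! Part F, Hardy and Caccioppoli.  Cutoff `χ x = ∏ j, h ((x j - p j) / t)` with a fixed even `C¹` function `h`, one on
`[-1/2, 1/2]`, zero off ` (-1, 1)`, `0 ≤ h ≤ 1`, `|h'| ≤ D` (a `ContDiffBump (0 : ℝ)`); `χ f` is `H1` (`WD.mul`) and odd,
`H1.hardy_odd`; `Sol.h1` with the test `χ² f` and `q1_weight` give
`∑ ∫ (grad (χ f))² ≤ ∫ gsq χ f² + 2 ∫ |q| χ² f² + 2 ∫ |s| χ² |f|`. -/

namespace Vale.Agent.P363

open MeasureTheory Vale.Agent.P370 Filter Topology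
open scoped ContDiff

theorem fc_base : ∃ (w : Pt → ℝ) (D : ℝ), ContDiff ℝ 1 w ∧ (∀ x, 0 ≤ w x ∧ w x ≤ 1) ∧
    (∀ x, ‖fderiv ℝ w x‖ ≤ D) ∧ (∀ x, ‖x‖ ≤ 1 / 2 → w x = 1) ∧ (∀ x, 1 ≤ ‖x‖ → w x = 0) ∧
    ∀ i x, w (rf i x) = w x := by
  let h : ContDiffBump (0 : ℝ) := ⟨1 / 2, 1, by norm_num, by norm_num⟩
  have hc : ContDiff ℝ 1 fun x : Pt => ∏ j, h (x j) :=
    contDiff_prod fun j _ => h.contDiff.comp (contDiff_apply ℝ ℝ j)
  have h0 : ∀ x : Pt, 1 ≤ ‖x‖ → ∏ j, h (x j) = 0 := fun x hx => by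
    obtain ⟨j, hj⟩ : ∃ j, 1 ≤ ‖x j‖ := by
      by_contra hn
      push Not at hn
      exact absurd ((pi_norm_lt_iff one_pos).2 hn) (not_lt.2 hx)
    exact Finset.prod_eq_zero (Finset.mem_univ j) (h.zero_of_le_dist (by simpa using hj))
  have hs : HasCompactSupport fun x : Pt => ∏ j, h (x j) :=
    HasCompactSupport.intro (isCompact_closedBall (0 : Pt) 1) fun x hx =>
      h0 x (not_le.1 fun h' => hx (mem_closedBall_zero_iff.2 h')).le
  obtain ⟨D, hD⟩ := (hc.continuous_fderiv one_ne_zero).bounded_above_of_compact_support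
    (hs.fderiv ℝ)
  refine ⟨_, D, hc, fun x => ⟨Finset.prod_nonneg fun j _ => h.nonneg,
    Finset.prod_le_one (fun j _ => h.nonneg) fun j _ => h.le_one⟩, hD, fun x hx => ?_, h0,
    fun i x => Finset.prod_congr rfl fun j _ => ?_⟩
  · exact Finset.prod_eq_one fun j _ => h.one_of_mem_closedBall
      (mem_closedBall_zero_iff.2 ((norm_le_pi_norm x j).trans hx))
  · by_cases hj : j = i
    · rw [hj, rf, Function.update_self, h.neg]
    · rw [rf, Function.update_of_ne hj]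

theorem fc_cut : ∃ D : ℝ, ∀ (p : Pt) (i : Fin 3) (t : ℝ), p i = 0 → 0 < t → ∃ χ : Pt → ℝ,
    ContDiff ℝ 1 χ ∧ (∀ x, 0 ≤ χ x ∧ χ x ≤ 1) ∧ (∀ x k, |pd k χ x| ≤ D / t) ∧
    (∀ x ∈ Metric.ball p (t / 2), χ x = 1) ∧ (∀ x ∉ Metric.ball p t, χ x = 0 ∧ ∀ k, pd k χ x = 0) ∧
    ∀ x, χ (rf i x) = χ x := by
  obtain ⟨w, D, h1, h2, h3, h4, h5, h6⟩ := fc_base
  refine ⟨D, fun p i t hp ht => ⟨fun x => w (t⁻¹ • (x - p)), h1.comp (by fun_prop), fun x => h2 _,
    fun x k => ?_, fun x hx => h4 _ ?_, fun x hx => ?_, fun x => ?_⟩⟩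
  · have hd : HasFDerivAt (fun x : Pt => w (t⁻¹ • (x - p))) _ x :=
      (h1.differentiable one_ne_zero _).hasFDerivAt.comp x
        (((hasFDerivAt_id x).sub_const p).const_smul t⁻¹)
    rw [pd, hd.fderiv]
    have hk : ‖ek k‖ = 1 := by rw [ek, Pi.norm_single, norm_one]
    refine ((fderiv ℝ w _).le_of_opNorm_le (h3 _) _).trans (le_of_eq ?_)
    change D * ‖t⁻¹ • ek k‖ = _
    rw [norm_smul, hk, Real.norm_of_nonneg (inv_pos.2 ht).le, mul_one, div_eq_mul_inv]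
  · rw [norm_smul, Real.norm_of_nonneg (inv_pos.2 ht).le, inv_mul_le_iff₀ ht]
    linarith [mem_ball_iff_norm.1 hx]
  · have e : w (t⁻¹ • (x - p)) = 0 := h5 _ (by
      rw [norm_smul, Real.norm_of_nonneg (inv_pos.2 ht).le, le_inv_mul_iff₀ ht, mul_one]
      exact not_lt.1 fun h => hx (mem_ball_iff_norm.2 h))
    refine ⟨e, fun k => ?_⟩
    have hm : IsLocalMin (fun x : Pt => w (t⁻¹ • (x - p))) x :=
      Eventually.of_forall fun y => e.trans_le (h2 _).1
    rw [pd, hm.fderiv_eq_zero, zero_apply]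
  · refine (congrArg w (funext fun j => ?_)).trans (h6 i (t⁻¹ • (x - p)))
    by_cases hj : j = i
    · simp [hj, rf, hp]
    · simp [rf, Function.update_of_ne hj]

theorem fc_abs {g h : Pt → ℝ} {B : Set Pt} (hB : MeasurableSet B) (hh : Integrable h)
    (h0 : ∀ x ∉ B, g x = 0) (h1 : ∀ x ∈ B, |g x| ≤ h x) : |∫ x, g x| ≤ ∫ x in B, h x := by
  rw [← setIntegral_eq_integral_of_forall_compl_eq_zero h0]
  exact norm_integral_le_of_norm_le (f := g) hh.integrableOn ((ae_restrict_mem hB).mono h1)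

theorem fc_plane : ∃ C : ℝ, 0 ≤ C ∧ ∀ (q s f : Pt → ℝ) (gf : Fin 3 → Pt → ℝ) (p : Pt) (i : Fin 3)
    (t K Cq : ℝ), FB q → H1 f gf → MemLp s 2 → Sol q (fun x => -s x) f gf →
    (∀ᵐ x, f (rf i x) = -f x) → p i = 0 → 0 < t → t ≤ 1 → 0 ≤ K →
    (∀ x ∈ Metric.ball p t, |q x| ≤ Cq) →
    ∫ x in Metric.ball p (t / 2), min (t ^ 2 / x i ^ 2) K * f x ^ 2 ≤
      C * (1 + Cq) * ((∫ x in Metric.ball p t, f x ^ 2) + ∫ x in Metric.ball p t, s x ^ 2) := by
  obtain ⟨D, hD⟩ := fc_cut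
  refine ⟨12 * D ^ 2 + 8, by positivity,
    fun q s f gf p i t K Cq hq hf hs hsol ho hp ht ht1 hK hCq => ?_⟩
  obtain ⟨χ, c1, c2, c3, c4, c5, c6⟩ := hD p i t hp ht
  have hC0 : 0 ≤ Cq := (abs_nonneg _).trans (hCq p (Metric.mem_ball_self ht))
  have hv : ∀ k, ‖ek k‖ ≤ 1 := fun k => by rw [ek, Pi.norm_single, norm_one]
  have b0 : ∀ x, |χ x| ≤ max 1 (D / t) := fun x =>
    le_max_of_le_left (by rw [abs_of_nonneg (c2 x).1]; exact (c2 x).2)
  have b1 : ∀ x k, |pd k χ x| ≤ max 1 (D / t) := fun x k => le_max_of_le_right (c3 x k)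
  have hu : H1 (fun x => χ x * f x) fun k x => χ x * gf k x + pd k χ x * f x :=
    WD.mul (h1_iff.1 hf) hv c1 b0 b1
  have hu' : H1 (fun x => χ x ^ 2 * f x)
      fun k x => χ x ^ 2 * gf k x + 2 * χ x * pd k χ x * f x := by
    have h := WD.mul (h1_iff.1 hu) hv c1 b0 b1
    have e1 : (fun x => χ x * (χ x * f x)) = fun x => χ x ^ 2 * f x := funext fun x => by ring
    have e2 : (fun k x => χ x * (χ x * gf k x + pd k χ x * f x) +
        fderiv ℝ χ x (ek k) * (χ x * f x)) =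
        fun k x => χ x ^ 2 * gf k x + 2 * χ x * pd k χ x * f x :=
      funext fun k => funext fun x => by rw [pd]; ring
    rwa [e1, e2] at h
  have e := (q1_weight hq hf c1 b0 b1).symm.trans (hsol.h1 hq hf hs.neg hu')
  obtain ⟨i1, i2⟩ := hu.hardy_odd (i := i) (ho.mono fun x hx => by rw [c6, hx, mul_neg])
  have mB : MeasurableSet (Metric.ball p t) := measurableSet_ball
  have sq1 : ∀ x, χ x ^ 2 ≤ 1 := fun x => pow_le_one₀ (c2 x).1 (c2 x).2
  have k1 := fc_abs (g := fun x => gsq χ x * f x ^ 2) mB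
    (hf.1.integrable_sq.const_mul (3 * (D / t) ^ 2))
    (fun x hx => by simp [gsq, (c5 x hx).2]) fun x _ => by
      have : gsq χ x ≤ 3 * (D / t) ^ 2 := by
        have h := fun k => pow_le_pow_left₀ (abs_nonneg _) (c3 x k) 2
        simp only [sq_abs] at h
        rw [gsq, Fin.sum_univ_three]
        linarith [h 0, h 1, h 2]
      rw [abs_of_nonneg (mul_nonneg (Finset.sum_nonneg fun _ _ => sq_nonneg _) (sq_nonneg _))]
      exact mul_le_mul_of_nonneg_right this (sq_nonneg _)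
  have k2 := fc_abs (g := fun x => q x * (χ x * f x * (χ x * f x))) mB
    (hf.1.integrable_sq.const_mul Cq) (fun x hx => by simp [(c5 x hx).1]) fun x hx => by
      rw [abs_mul, abs_mul_self]
      exact mul_le_mul (hCq x hx) (by nlinarith [mul_le_mul_of_nonneg_right (sq1 x) (sq_nonneg (f x))])
        (mul_self_nonneg _) hC0
  have k3 := fc_abs (g := fun x => -s x * (χ x ^ 2 * f x)) mB
    ((hf.1.integrable_sq.add hs.integrable_sq).const_mul (1 / 2))
    (fun x hx => by simp [(c5 x hx).1]) fun x _ => by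
      rw [abs_mul, abs_mul, abs_neg, abs_of_nonneg (sq_nonneg (χ x)), Pi.add_apply]
      nlinarith [sq_nonneg (|s x| - |f x|), sq_abs (s x), sq_abs (f x),
        mul_le_mul_of_nonneg_right (sq1 x) (mul_nonneg (abs_nonneg (s x)) (abs_nonneg (f x)))]
  simp only [Pi.add_apply] at k3
  rw [integral_const_mul] at k1 k2 k3
  rw [integral_add hf.1.integrable_sq.integrableOn hs.integrable_sq.integrableOn] at k3
  have k4 : ∫ x in Metric.ball p (t / 2), min (t ^ 2 / x i ^ 2) K * f x ^ 2 ≤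
      t ^ 2 * ∫ x, (χ x * f x) ^ 2 / x i ^ 2 := by
    rw [← integral_const_mul]
    refine le_trans ((Real.le_norm_self _).trans (norm_integral_le_of_norm_le
      (i1.const_mul (t ^ 2)).integrableOn ((ae_restrict_mem measurableSet_ball).mono fun x hx => ?_)))
      (setIntegral_le_integral (i1.const_mul (t ^ 2)) (ae_of_all _ fun x => by positivity))
    rw [Real.norm_of_nonneg (mul_nonneg (le_min (by positivity) hK) (sq_nonneg _)), c4 x hx, one_mul]
    refine (mul_le_mul_of_nonneg_right (min_le_left _ _) (sq_nonneg _)).trans (le_of_eq ?_)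
    ring
  have k5 : ∫ x, (χ x * gf i x + pd i χ x * f x) ^ 2 ≤ ∑ k, ∫ x,
      (χ x * gf k x + pd k χ x * f x) * (χ x * gf k x + pd k χ x * f x) := by
    simp only [← sq]
    exact Finset.single_le_sum (f := fun k => ∫ x, (χ x * gf k x + pd k χ x * f x) ^ 2)
      (fun k _ => integral_nonneg fun x => sq_nonneg _) (Finset.mem_univ i)
  rw [q1] at e
  have F0 : 0 ≤ ∫ x in Metric.ball p t, f x ^ 2 := integral_nonneg fun x => sq_nonneg _
  have S0 : 0 ≤ ∫ x in Metric.ball p t, s x ^ 2 := integral_nonneg fun x => sq_nonneg _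
  generalize ∫ x in Metric.ball p t, f x ^ 2 = F at *
  generalize ∫ x in Metric.ball p t, s x ^ 2 = S at *
  have k6 : ∫ x, (χ x * f x) ^ 2 / x i ^ 2 ≤
      4 * (3 * (D / t) ^ 2 * F + (2 * Cq * F + (F + S))) := by
    linarith [(abs_le.1 k1).2, (abs_le.1 k2).1, (abs_le.1 k3).2]
  have t2 : t ^ 2 ≤ 1 := pow_le_one₀ ht.le ht1
  have k7 : t ^ 2 * (2 * Cq * F + (F + S)) ≤ 2 * Cq * F + (F + S) :=
    mul_le_of_le_one_left (by positivity) t2
  have k8 : t ^ 2 * (3 * (D / t) ^ 2 * F) = 3 * D ^ 2 * F := by field_simp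
  have k9 := mul_le_mul_of_nonneg_left k6 (sq_nonneg t)
  have p1 : 0 ≤ D ^ 2 * S := by positivity
  have p2 : 0 ≤ D ^ 2 * Cq * (F + S) := by positivity
  have p3 : 0 ≤ Cq * S := by positivity
  nlinarith

end Vale.Agent.P363
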