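import Vale.Agent.P363.LC

/-! Library LF: the mean value inequality.  For a radial polynomial bump `b` of integral one and
`0 < t ≤ s`, the potential `h` of `b_t - b_s` (explicit, radial, `C²`, nonnegative, supported in
the ball of radius `s`, integral `≤ C s ^ 2`) is a test function; let `t → 0` at Lebesgue points
(or use `L²` convergence of mollifications along a subsequence). -/

namespace Vale.Agent.P363

open MeasureTheory Vale.Agent.P370 Filter Topology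
open scoped ContDiff

theorem lf_cs {X : Type*} [MeasurableSpace X] {μ : Measure X} {f g : X → ℝ} (hf : MemLp f 2 μ)
    (hg : MemLp g 2 μ) : ∫ x, f x * g x ∂μ ≤ √(∫ x, f x ^ 2 ∂μ) * √(∫ x, g x ^ 2 ∂μ) := by
  have i1 := hf.integrable_sq
  have i2 := hg.integrable_sq
  have i3 : Integrable (fun x => f x * g x) μ := hf.integrable_mul hg
  have h := discrim_le_zero (a := ∫ x, f x ^ 2 ∂μ) (b := -2 * ∫ x, f x * g x ∂μ)
    (c := ∫ x, g x ^ 2 ∂μ) fun t => by
      have e : ∫ x, (t * f x - g x) ^ 2 ∂μ =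
          ∫ x, (t * t * f x ^ 2 + -2 * t * (f x * g x) + g x ^ 2) ∂μ :=
        integral_congr_ae (Eventually.of_forall fun x => by ring)
      have h0 : 0 ≤ ∫ x, (t * f x - g x) ^ 2 ∂μ := integral_nonneg fun x => sq_nonneg _
      rw [e, integral_add ((i1.const_mul _).fun_add (i3.const_mul _)) i2,
        integral_add (i1.const_mul _) (i3.const_mul _), integral_const_mul,
        integral_const_mul] at h0
      linarith
  rw [← Real.sqrt_mul (integral_nonneg fun x => sq_nonneg _)]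
  refine Real.le_sqrt_of_sq_le ?_
  rw [discrim] at h
  linarith

theorem lf_glue {f f' p q : ℝ → ℝ} {a : ℝ} (hp : ∀ r ≤ a, f r = p r ∧ HasDerivAt p (f' r) r)
    (hq : ∀ r, a ≤ r → f r = q r ∧ HasDerivAt q (f' r) r) (r : ℝ) : HasDerivAt f (f' r) r := by
  have h1 : r ≤ a → HasDerivWithinAt f (f' r) (Set.Iic a) r := fun h =>
    (hp r h).2.hasDerivWithinAt.congr (fun y hy => (hp y hy).1) (hp r h).1
  have h2 : a ≤ r → HasDerivWithinAt f (f' r) (Set.Ici a) r := fun h =>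
    (hq r h).2.hasDerivWithinAt.congr (fun y hy => (hq y hy).1) (hq r h).1
  rcases lt_trichotomy r a with h | h | h
  · exact (h1 h.le).hasDerivAt (Iic_mem_nhds h)
  · exact ((h1 h.le).union (h2 h.ge)).hasDerivAt (by rw [Set.Iic_union_Ici]; exact univ_mem)
  · exact (h2 h.le).hasDerivAt (Ici_mem_nhds h)

/-- Second order Taylor polynomial of the inverse square root at `m ^ 2`. -/
noncomputable def lfT (m ρ : ℝ) : ℝ := 15 / 8 / m - 5 / 4 * ρ / m ^ 3 + 3 / 8 * ρ ^ 2 / m ^ 5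

/-- Regularised kernel as a function of the squared distance. -/
noncomputable def lfG (t ρ : ℝ) : ℝ := lfT (max t √ρ) ρ

/-- Its first derivative. -/
noncomputable def lfG1 (t ρ : ℝ) : ℝ := -(5 / 4) / max t √ρ ^ 3 + 3 / 4 * ρ / max t √ρ ^ 5

/-- Its second derivative. -/
noncomputable def lfG2 (t ρ : ℝ) : ℝ := 3 / 4 / max t √ρ ^ 5

/-- The bump. -/
noncomputable def lfB (t ρ : ℝ) : ℝ := 15 / 2 * (max t √ρ ^ 2 - ρ) / max t √ρ ^ 5

variable {t s : ℝ}

theorem lf_anti (ρ : ℝ) (ht : 0 < t) (h : t ≤ s) : lfT s ρ ≤ lfT t ρ := by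
  have hd : ∀ m : ℝ, 0 < m →
      HasDerivAt (fun m => lfT m ρ) (-(15 / 8 * (m ^ 2 - ρ) ^ 2 / m ^ 6)) m := fun m hm => by
    have h1 := hasDerivAt_id' m
    refine ((((hasDerivAt_const m (15 / 8 : ℝ)).fun_div h1 hm.ne').fun_sub
      ((hasDerivAt_const m (5 / 4 * ρ)).fun_div (h1.fun_pow 3) (pow_pos hm 3).ne')).fun_add
        ((hasDerivAt_const m (3 / 8 * ρ ^ 2)).fun_div (h1.fun_pow 5)
          (pow_pos hm 5).ne')).congr_deriv ?_
    norm_num
    field_simp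
    ring
  refine antitoneOn_of_deriv_nonpos (convex_Ioi (0 : ℝ))
    (fun m hm => (hd m hm).continuousAt.continuousWithinAt)
    (fun m hm => (hd m (interior_subset hm)).differentiableAt.differentiableWithinAt)
    (fun m hm => ?_) ht (ht.trans_le h) h
  have hm' : 0 < m := interior_subset hm
  rw [(hd m hm').deriv, neg_nonpos]
  positivity

theorem lf_T_self {w : ℝ} (hw : 0 < w) : lfT w (w ^ 2) = w⁻¹ := by
  unfold lfT
  field_simp
  ring

theorem lf_T_nonneg (ρ : ℝ) (ht : 0 < t) : 0 ≤ lfT t ρ := by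
  have e : lfT t ρ = (3 / 8 * (ρ - 5 / 3 * t ^ 2) ^ 2 + 5 / 6 * t ^ 4) / t ^ 5 := by
    unfold lfT
    field_simp
    ring
  rw [e]
  positivity

theorem lf_lo (ht : 0 < t) {r : ℝ} (h : r ≤ t ^ 2) : max t √r = t :=
  max_eq_left (Real.sqrt_le_iff.2 ⟨ht.le, h⟩)

theorem lf_hi {r : ℝ} (h : t ^ 2 ≤ r) : max t √r = √r := max_eq_right (Real.le_sqrt_of_sq_le h)

theorem lf_d1 (ht : 0 < t) (r : ℝ) : HasDerivAt (lfG t) (lfG1 t r) r := by
  refine lf_glue (a := t ^ 2) (p := lfT t) (q := fun r => (√r)⁻¹) (fun r h => ?_) (fun r h => ?_) r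
  · refine ⟨by rw [lfG, lf_lo ht h], ?_⟩
    have h1 := hasDerivAt_id' r
    refine (((hasDerivAt_const r (15 / 8 / t)).fun_sub ((h1.const_mul (5 / 4)).div_const
      (t ^ 3))).fun_add (((h1.fun_pow 2).const_mul (3 / 8)).div_const (t ^ 5))).congr_deriv ?_
    rw [lfG1, lf_lo ht h]
    norm_num
    ring
  · have hr : 0 < r := (pow_pos ht 2).trans_le h
    have hw := Real.sqrt_pos.2 hr
    refine ⟨by rw [lfG, lf_hi h, ← lf_T_self hw, Real.sq_sqrt hr.le], ?_⟩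
    refine ((Real.hasDerivAt_sqrt hr.ne').fun_inv hw.ne').congr_deriv ?_
    rw [lfG1, lf_hi h]
    obtain ⟨w, hw', rfl⟩ : ∃ w, 0 < w ∧ r = w ^ 2 := ⟨_, hw, (Real.sq_sqrt hr.le).symm⟩
    rw [Real.sqrt_sq hw'.le]
    field_simp
    ring

theorem lf_d2 (ht : 0 < t) (r : ℝ) : HasDerivAt (lfG1 t) (lfG2 t r) r := by
  refine lf_glue (a := t ^ 2) (p := fun r => -(5 / 4) / t ^ 3 + 3 / 4 * r / t ^ 5)
    (q := fun r => -(1 / 2) * (√r)⁻¹ ^ 3) (fun r h => ?_) (fun r h => ?_) r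
  · refine ⟨by rw [lfG1, lf_lo ht h], ?_⟩
    refine ((((hasDerivAt_id' r).const_mul (3 / 4)).div_const (t ^ 5)).const_add _).congr_deriv ?_
    rw [lfG2, lf_lo ht h, mul_one]
  · have hr : 0 < r := (pow_pos ht 2).trans_le h
    have hw := Real.sqrt_pos.2 hr
    refine ⟨?_, ((((Real.hasDerivAt_sqrt hr.ne').fun_inv hw.ne').fun_pow 3).const_mul
      _).congr_deriv ?_⟩
    · rw [lfG1, lf_hi h]
      obtain ⟨w, hw', rfl⟩ : ∃ w, 0 < w ∧ r = w ^ 2 := ⟨_, hw, (Real.sq_sqrt hr.le).symm⟩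
      rw [Real.sqrt_sq hw'.le]
      field_simp
      ring
    · rw [lfG2, lf_hi h]
      norm_num
      field_simp
      ring

theorem lf_max (ht : 0 < t) (r : ℝ) : 0 < max t √r := ht.trans_le (le_max_left _ _)

theorem lf_c2 (ht : 0 < t) : ContDiff ℝ 2 (lfG t) := by
  have e1 : deriv (lfG t) = lfG1 t := funext fun r => (lf_d1 ht r).deriv
  have e2 : deriv (lfG1 t) = lfG2 t := funext fun r => (lf_d2 ht r).deriv
  rw [← one_add_one_eq_two, contDiff_succ_iff_deriv, e1, contDiff_one_iff_deriv, e2]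
  refine ⟨fun r => (lf_d1 ht r).differentiableAt, by simp, fun r => (lf_d2 ht r).differentiableAt,
    continuous_const.div (by fun_prop) fun r => (pow_pos (lf_max ht r) 5).ne'⟩

theorem lf_lap {F F1 F2 : ℝ → ℝ} (h1 : ∀ r, HasDerivAt F (F1 r) r)
    (h2 : ∀ r, HasDerivAt F1 (F2 r) r) (x y : Pt) :
    lap (fun y => F (nwQ 0 x y)) y = 4 * nwQ 0 x y * F2 (nwQ 0 x y) + 6 * F1 (nwQ 0 x y) := by
  have e : ∀ k, pd k (fun y => F (nwQ 0 x y)) = fun y => F1 (nwQ 0 x y) * (-2 * (x k - y k)) :=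
    fun k => funext fun y => by
      obtain ⟨L, hL, hL'⟩ := nwQ_hasFDerivAt 0 x y
      rw [pd, show (fun y => F (nwQ 0 x y)) = F ∘ nwQ 0 x from rfl,
        ((h1 _).comp_hasFDerivAt y hL).fderiv]
      simp [hL']
  have e2 : ∀ k, pd k (fun y => F1 (nwQ 0 x y) * (-2 * (x k - y k))) y =
      4 * (x k - y k) ^ 2 * F2 (nwQ 0 x y) + 2 * F1 (nwQ 0 x y) := fun k => by
    obtain ⟨L, hL, hL'⟩ := nwQ_hasFDerivAt 0 x y
    have h3 : HasFDerivAt (fun y => F1 (nwQ 0 x y)) _ y := (h2 _).comp_hasFDerivAt y hL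
    rw [pd, (h3.fun_mul ((nw_hasFDerivAt_coord (x k) k y).const_mul (-2))).fderiv]
    have h4 : ek k k = 1 := by simp [ek]
    simp [hL', h4]
    ring
  simp only [lap, e, e2]
  rw [Finset.sum_add_distrib, ← Finset.sum_mul, ← Finset.mul_sum, nwQ]
  simp
  ring

theorem lf_sqrt (x y : Pt) : √(nwQ 0 x y) = nrm (y - x) := by
  rw [nwQ_eq, add_zero, Real.sqrt_sq (nrm_nonneg _), nrm_sub_comm]

theorem lf_Q (x y : Pt) : nwQ 0 x y = nrm (y - x) ^ 2 := by
  rw [nwQ_eq, add_zero, nrm_sub_comm]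

theorem lf_closed (x : Pt) (s : ℝ) : IsClosed {y | nrm (y - x) ≤ s} :=
  isClosed_le (continuous_nrm.comp (continuous_id.sub continuous_const)) continuous_const

theorem lf_sub (x : Pt) (s : ℝ) : {y | nrm (y - x) ≤ s} ⊆ Metric.closedBall x s :=
  fun _ hy => mem_closedBall_iff_norm.2 ((norm_le_nrm _).trans hy)

theorem lf_compact (x : Pt) (s : ℝ) : IsCompact {y | nrm (y - x) ≤ s} :=
  (isCompact_closedBall x s).of_isClosed_subset (lf_closed x s) (lf_sub x s)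

theorem lf_vol (x : Pt) (hs : 0 < s) : volume.real (Metric.closedBall x s) = 8 * s ^ 3 := by
  rw [Measure.real, Real.volume_pi_closedBall x hs.le, ENNReal.toReal_ofReal (by positivity)]
  simp
  ring

theorem lf_B (ht : 0 < t) (x y : Pt) : 0 ≤ lfB t (nwQ 0 x y) ∧ lfB t (nwQ 0 x y) ≤ 8 / t ^ 3 ∧
    (¬nrm (y - x) ≤ t → lfB t (nwQ 0 x y) = 0) := by
  rw [lfB, lf_sqrt, lf_Q]
  have h0 := nrm_nonneg (y - x)
  rcases le_total (nrm (y - x)) t with h | h
  · rw [max_eq_left h]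
    refine ⟨div_nonneg (mul_nonneg (by norm_num) (by nlinarith)) (by positivity), ?_,
      fun h' => absurd h h'⟩
    rw [div_le_div_iff₀ (by positivity) (by positivity)]
    nlinarith [mul_nonneg (sq_nonneg (nrm (y - x))) (pow_pos ht 3).le, pow_pos ht 5]
  · rw [max_eq_right h, sub_self, mul_zero, zero_div]
    exact ⟨le_rfl, by positivity, fun _ => rfl⟩

theorem lf_Bc (ht : 0 < t) (x : Pt) : Continuous (fun y => lfB t (nwQ 0 x y)) ∧
    HasCompactSupport fun y => lfB t (nwQ 0 x y) := by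
  have hQ := (nwQ_smooth 0 x (n := 0)).continuous
  refine ⟨Continuous.div (by fun_prop) (by fun_prop) fun y => (pow_pos (lf_max ht _) 5).ne',
    HasCompactSupport.intro (lf_compact x t) fun y hy => (lf_B ht x y).2.2 hy⟩

/-- The test function. -/
noncomputable def lfH (t s : ℝ) (x y : Pt) : ℝ := lfG t (nwQ 0 x y) - lfG s (nwQ 0 x y)

theorem lf_H (ht : 0 < t) (h : t ≤ s) (x : Pt) : ContDiff ℝ 2 (lfH t s x) ∧
    HasCompactSupport (lfH t s x) ∧ tsupport (lfH t s x) ⊆ {y | nrm (y - x) ≤ s} ∧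
    (∀ y, 0 ≤ lfH t s x y) ∧ (∀ y, y ≠ x → lfH t s x y ≤ P370.ker (x - y)) ∧
    ∀ y, lap (lfH t s x) y = lfB s (nwQ 0 x y) - lfB t (nwQ 0 x y) := by
  have hs := ht.trans_le h
  have h0 : ∀ y, ¬nrm (y - x) ≤ s → lfH t s x y = 0 := fun y hy => by
    rw [lfH, lfG, lfG, lf_sqrt, max_eq_right (h.trans (not_le.1 hy).le),
      max_eq_right (not_le.1 hy).le, sub_self]
  refine ⟨((lf_c2 ht).comp (nwQ_smooth 0 x)).sub ((lf_c2 hs).comp (nwQ_smooth 0 x)),
    HasCompactSupport.intro (lf_compact x s) h0,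
    closure_minimal (fun y hy => by_contra fun k => hy (h0 y k)) (lf_closed x s),
    fun y => sub_nonneg.2 (lf_anti _ (lf_max ht _) (max_le_max h le_rfl)), fun y hy => ?_,
    fun y => ?_⟩
  · have hp := nrm_pos (sub_ne_zero.2 hy)
    refine (sub_le_self _ (lf_T_nonneg _ (lf_max hs _))).trans ?_
    rw [lfG, lf_sqrt, P370.ker, nrm_sub_comm x, ← lf_T_self hp, lf_Q]
    exact lf_anti _ hp (le_max_right _ _)
  · refine (lf_lap (F := fun r => lfG t r - lfG s r)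
      (fun r => (lf_d1 ht r).fun_sub (lf_d1 hs r)) (fun r => (lf_d2 ht r).fun_sub (lf_d2 hs r))
      x y).trans ?_
    have k1 := lf_max ht (nwQ 0 x y)
    have k2 := lf_max hs (nwQ 0 x y)
    simp only [lfG1, lfG2, lfB]
    field_simp
    ring

theorem lf_mass (ht : 0 < t) (x : Pt) :
    ∫ y, lfB t (nwQ 0 x y) = ∫ y, lfB 1 (nwQ 0 0 y) := by
  have k : ∀ {t s : ℝ}, 0 < t → t ≤ s → ∫ y, lfB s (nwQ 0 x y) = ∫ y, lfB t (nwQ 0 x y) :=
    fun {t s} ht h => by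
      obtain ⟨h1, h2, -, -, -, h3⟩ := lf_H ht h x
      have h4 := integral_lap h1 h2
      have hs := ht.trans_le h
      simp only [h3] at h4
      rwa [integral_sub ((lf_Bc hs x).1.integrable_of_hasCompactSupport (lf_Bc hs x).2)
        ((lf_Bc ht x).1.integrable_of_hasCompactSupport (lf_Bc ht x).2), sub_eq_zero] at h4
  have e : ∫ y, lfB t (nwQ 0 x y) = ∫ y, lfB 1 (nwQ 0 x y) :=
    (le_total t 1).elim (fun h => (k ht h).symm) fun h => k one_pos h
  rw [e, ← integral_sub_right_eq_self (fun y => lfB 1 (nwQ 0 0 y)) x]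
  simp only [lf_Q, sub_zero]

theorem lf_pos : 0 < ∫ y, lfB 1 (nwQ 0 0 y) := by
  refine (lf_Bc one_pos 0).1.integral_pos_of_hasCompactSupport_nonneg_nonzero (x := 0)
    (lf_Bc one_pos 0).2 (fun y => (lf_B one_pos 0 y).1) ?_
  simp [lfB, nwQ]

theorem lf_leb {u : Pt → ℝ} (hu : MemLp u 2) : ∀ᵐ x, Tendsto
    (fun t => ∫ y, (lfB t (nwQ 0 x y) / ∫ y, lfB 1 (nwQ 0 0 y)) • u y) (𝓝[>] 0) (𝓝 (u x)) := by
  have hg := hu.locallyIntegrable one_le_two
  filter_upwards [(Besicovitch.vitaliFamily volume).ae_tendsto_average_norm_sub hg] with x h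
  refine tendsto_integral_smul_of_tendsto_average_norm_sub (64 / ∫ y, lfB 1 (nwQ 0 0 y))
    (h.comp (Besicovitch.tendsto_filterAt volume x)) ?_ (tendsto_const_nhds.congr' ?_) ?_ ?_
  · exact Eventually.of_forall fun t => hg.integrableOn_isCompact (isCompact_closedBall _ _)
  · filter_upwards [self_mem_nhdsWithin] with t ht
    rw [integral_div, lf_mass ht, div_self lf_pos.ne']
  · filter_upwards [self_mem_nhdsWithin] with t ht y hy
    refine lf_sub x t (by_contra fun k => hy ?_)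
    simp only [(lf_B ht x y).2.2 k, zero_div]
  · filter_upwards [self_mem_nhdsWithin] with t ht y
    have ht' : 0 < t := ht
    rw [lf_vol x ht', abs_of_nonneg (div_nonneg (lf_B ht' x y).1 lf_pos.le), div_right_comm]
    refine div_le_div_of_nonneg_right ((lf_B ht' x y).2.1.trans (le_of_eq ?_)) lf_pos.le
    field_simp
    norm_num

theorem lf_avg {u : Pt → ℝ} (hu : MemLp u 2) (hs : 0 < s) (x : Pt) :
    ∫ y, lfB s (nwQ 0 x y) * u y ≤
      24 * √((∫ y in {y | nrm (y - x) ≤ s}, max (u y) 0 ^ 2) / s ^ 3) := by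
  have hB := (lf_closed x s).measurableSet
  have hfin : IsFiniteMeasure (volume.restrict {y | nrm (y - x) ≤ s}) :=
    isFiniteMeasure_restrict.2 (lf_compact x s).measure_lt_top.ne
  have hp : MemLp (fun y => max (u y) 0) 2 (volume.restrict {y | nrm (y - x) ≤ s}) :=
    (hu.restrict _).pos_part
  have hb : MemLp (fun y => lfB s (nwQ 0 x y)) 2 :=
    (lf_Bc hs x).1.memLp_of_hasCompactSupport (lf_Bc hs x).2
  rw [← setIntegral_eq_integral_of_forall_compl_eq_zero (s := {y | nrm (y - x) ≤ s})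
    fun y hy => by rw [(lf_B hs x y).2.2 hy, zero_mul]]
  have k1 : ∫ y in {y | nrm (y - x) ≤ s}, lfB s (nwQ 0 x y) * u y ≤
      ∫ y in {y | nrm (y - x) ≤ s}, 8 / s ^ 3 * max (u y) 0 :=
    integral_mono ((hb.restrict _).integrable_mul (hu.restrict _))
      ((hp.integrable one_le_two).const_mul _) fun y =>
        (mul_le_mul_of_nonneg_left (le_max_left _ _) (lf_B hs x y).1).trans
          (mul_le_mul_of_nonneg_right (lf_B hs x y).2.1 (le_max_right _ _))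
  refine k1.trans ((lf_cs (memLp_const _) hp).trans ?_)
  rw [show (24 : ℝ) = √(24 ^ 2) by simp, ← Real.sqrt_mul (by positivity),
    ← Real.sqrt_mul (by positivity), mul_div_assoc', ← div_mul_eq_mul_div]
  refine Real.sqrt_le_sqrt (mul_le_mul_of_nonneg_right ?_ (integral_nonneg fun _ => sq_nonneg _))
  rw [setIntegral_const, smul_eq_mul]
  have k2 := (measureReal_mono (lf_sub x s) measure_closedBall_lt_top.ne).trans_eq (lf_vol x hs)
  refine (mul_le_mul_of_nonneg_right k2 (sq_nonneg _)).trans ?_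
  have e : 8 * s ^ 3 * (8 / s ^ 3) ^ 2 = 512 / s ^ 3 := by
    field_simp
    norm_num
  rw [e]
  gcongr
  norm_num

theorem lf_core : ∃ C : ℝ, 1 ≤ C ∧ ∀ (u : Pt → ℝ) (g : Fin 3 → Pt → ℝ), H1 u g → ∀ᵐ x,
    ∀ s A : ℝ, 0 < s → 0 ≤ A → (∀ ζ, C1c ζ → (∀ y, 0 ≤ ζ y) →
      tsupport ζ ⊆ {y | nrm (y - x) ≤ s} → ∫ y, ζ y ≤ 7 * s ^ 2 → ∫ y, ζ y ^ 2 ≤ 7 ^ 2 * s →
        1 / 2 * ∑ k, ∫ y, g k y * pd k ζ y ≤ 7 * A) →
      u x ≤ C * (√((∫ y in {y | nrm (y - x) ≤ s}, max (u y) 0 ^ 2) / s ^ 3) + A) := by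
  have hc := lf_pos
  refine ⟨24 / (∫ y, lfB 1 (nwQ 0 0 y)) + 1, le_add_of_nonneg_left (by positivity),
    fun u g hu => ?_⟩
  filter_upwards [lf_leb hu.1] with x hx s A hs hA h
  refine le_of_tendsto hx ?_
  filter_upwards [Ioc_mem_nhdsGT hs] with t ht
  obtain ⟨h1, h2, h3, h4, h5, h6⟩ := lf_H ht.1 ht.2 x
  have hc1 : C1c (lfH t s x) := ⟨h1.of_le one_le_two, h2⟩
  have hB : {y | nrm (y - x) ≤ s} = {y | nrm (x - y) ≤ s} := by simp only [nrm_sub_comm x]
  have hz : ∀ y ∉ {y | nrm (x - y) ≤ s}, lfH t s x y = 0 := fun y hy =>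
    image_eq_zero_of_notMem_tsupport fun k => hy (hB ▸ h3 k)
  have hae : ∀ᵐ y ∂volume.restrict {y | nrm (x - y) ≤ s}, y ≠ x :=
    ae_restrict_of_ae (by simp [ae_iff])
  have k1 : ∫ y, lfH t s x y ≤ 7 * s ^ 2 := by
    obtain ⟨i1, i2⟩ := rpow_in (a := 1) (by norm_num) hs x
    rw [← setIntegral_eq_integral_of_forall_compl_eq_zero hz]
    refine (integral_mono_of_nonneg (Eventually.of_forall h4) i1 ?_).trans ?_
    · filter_upwards [hae] with y hy
      rw [← ker_eq_rpow]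
      exact h5 y hy
    · rw [i2, show (3 : ℝ) - 1 = 2 by norm_num, Real.rpow_two]
      nlinarith [Real.pi_lt_d2, sq_nonneg s]
  have k2 : ∫ y, lfH t s x y ^ 2 ≤ 7 ^ 2 * s := by
    obtain ⟨i1, i2⟩ := rpow_in (a := 2) (by norm_num) hs x
    rw [← setIntegral_eq_integral_of_forall_compl_eq_zero (s := {y | nrm (x - y) ≤ s})
      fun y hy => by rw [hz y hy]; norm_num]
    refine (integral_mono_of_nonneg (Eventually.of_forall fun _ => sq_nonneg _) i1 ?_).trans ?_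
    · filter_upwards [hae] with y hy
      rw [← ker_sq_eq_rpow]
      exact pow_le_pow_left₀ (h4 y) (h5 y hy) 2
    · rw [i2, show (3 : ℝ) - 2 = 1 by norm_num, Real.rpow_one]
      nlinarith [Real.pi_lt_d2]
  have k3 := h _ hc1 h4 h3 k1 k2
  have k4 := hu.green h1 (fun k => (nw_cont_pd hc1.1 k).memLp_of_hasCompactSupport
    (nw_supp_pd h2 k)) ((continuous_lap h1).memLp_of_hasCompactSupport
      (h2.of_isClosed_subset (isClosed_tsupport _) (tsupport_lap _)))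
  have ib : ∀ {t : ℝ}, 0 < t → Integrable fun y => lfB t (nwQ 0 x y) * u y := fun ht =>
    ((lf_Bc ht x).1.memLp_of_hasCompactSupport (p := 2) (lf_Bc ht x).2).integrable_mul hu.1
  simp only [h6, sub_mul, mul_comm (pd _ _ _)] at k4
  rw [integral_sub (ib hs) (ib ht.1)] at k4
  have k5 := lf_avg hu.1 hs x
  have k6 := Real.sqrt_nonneg ((∫ y in {y | nrm (y - x) ≤ s}, max (u y) 0 ^ 2) / s ^ 3)
  simp only [smul_eq_mul, div_mul_eq_mul_div]
  rw [integral_div, div_le_iff₀ hc, mul_right_comm, add_mul, div_mul_cancel₀ _ hc.ne']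
  nlinarith [mul_nonneg hc.le (add_nonneg k6 hA)]

theorem lf_loc : ∃ C : ℝ, 1 ≤ C ∧
    ∀ (τ u : Pt → ℝ) (g : Fin 3 → Pt → ℝ) (O : Set Pt) (s : ℝ), H1 u g → MemLp τ 2 → 0 < s →
    (∀ ζ, C1c ζ → (∀ x, 0 ≤ ζ x) → tsupport ζ ⊆ O →
      1 / 2 * ∑ k, ∫ x, g k x * pd k ζ x ≤ ∫ x, τ x * ζ x) →
    ∀ᵐ x, {y | nrm (y - x) ≤ s} ⊆ O →
      u x ≤ C * (√((∫ y in {y | nrm (y - x) ≤ s}, max (u y) 0 ^ 2) / s ^ 3) +
        √(s * ∫ y in {y | nrm (y - x) ≤ s}, τ y ^ 2)) := by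
  obtain ⟨C, hC, h⟩ := lf_core
  refine ⟨C, hC, fun τ u g O s hu hτ hs H => ?_⟩
  filter_upwards [h u g hu] with x hx hO
  refine hx s _ hs (Real.sqrt_nonneg _) fun ζ h1 h2 h3 _ h5 => (H ζ h1 h2 (h3.trans hO)).trans ?_
  have hζ : MemLp ζ 2 := h1.1.continuous.memLp_of_hasCompactSupport h1.2
  rw [← setIntegral_eq_integral_of_forall_compl_eq_zero (s := {y | nrm (y - x) ≤ s})
    fun y hy => by rw [image_eq_zero_of_notMem_tsupport fun k => hy (h3 k), mul_zero]]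
  refine (lf_cs (hτ.restrict _) (hζ.restrict _)).trans ?_
  rw [mul_comm, Real.sqrt_mul hs.le, ← mul_assoc]
  refine mul_le_mul_of_nonneg_right ?_ (Real.sqrt_nonneg _)
  rw [show (7 : ℝ) = √(7 ^ 2) by simp, ← Real.sqrt_mul (by positivity)]
  exact Real.sqrt_le_sqrt ((setIntegral_le_integral hζ.integrable_sq
    (Eventually.of_forall fun _ => sq_nonneg _)).trans h5)

theorem mean_value : ∃ C : ℝ, 1 ≤ C ∧ ∀ (u : Pt → ℝ) (g : Fin 3 → Pt → ℝ) (O : Set Pt) (M s : ℝ),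
    H1 u g → 0 ≤ M → 0 < s →
    (∀ ζ, C1c ζ → (∀ x, 0 ≤ ζ x) → tsupport ζ ⊆ O →
      1 / 2 * ∑ k, ∫ x, g k x * pd k ζ x ≤ M * ∫ x, ζ x) →
    ∀ᵐ x, {y | nrm (y - x) ≤ s} ⊆ O →
      u x ≤ C * (√((∫ y in {y | nrm (y - x) ≤ s}, max (u y) 0 ^ 2) / s ^ 3) + s ^ 2 * M) := by
  obtain ⟨C, hC, h⟩ := lf_core
  refine ⟨C, hC, fun u g O M s hu hM hs H => ?_⟩
  filter_upwards [h u g hu] with x hx hO
  refine hx s _ hs (by positivity) fun ζ h1 h2 h3 h4 _ => (H ζ h1 h2 (h3.trans hO)).trans ?_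
  linarith [mul_le_mul_of_nonneg_left h4 hM]

/-- Version with a square integrable right-hand side and a nonnegative potential (the potential
`h` above has square integral `≤ C s`). -/
theorem mean_value' : ∃ C : ℝ, 1 ≤ C ∧ ∀ (q τ u : Pt → ℝ) (g : Fin 3 → Pt → ℝ) (O : Set Pt) (s : ℝ),
    H1 u g → FB q → MemLp τ 2 → 0 < s → Sub q τ u g → (∀ᵐ x, x ∈ O → 0 ≤ q x * u x) →
    ∀ᵐ x, {y | nrm (y - x) ≤ s} ⊆ O →
      u x ≤ C * (√((∫ y in {y | nrm (y - x) ≤ s}, max (u y) 0 ^ 2) / s ^ 3) +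
        √(s * ∫ y in {y | nrm (y - x) ≤ s}, τ y ^ 2)) := by
  obtain ⟨C, hC, h⟩ := lf_loc
  refine ⟨C, hC, fun q τ u g O s hu _ hτ hs H h0 => h τ u g O s hu hτ hs fun ζ h1 h2 h3 => ?_⟩
  refine le_trans (le_add_of_nonneg_right (integral_nonneg_of_ae ?_)) (H ζ h1 h2)
  filter_upwards [h0] with x hx
  by_cases k : x ∈ O
  · rw [← mul_assoc]
    exact mul_nonneg (hx k) (h2 x)
  · simp [image_eq_zero_of_notMem_tsupport fun k' => k (h3 k')]

end Vale.Agent.P363
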