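import Vale.Agent.P363.LE
import Vale.Agent.P363.LF

/-! Part F: definitions (architect helper28).  Everywhere `r = nrm x`, `PP = p r + 1 / r`. -/

namespace Vale.Agent.P363

open MeasureTheory Vale.Agent.P370
open scoped ContDiff

noncomputable section

/-- Radial derivative. -/
def dr (Y : Pt → ℝ) (x : Pt) : ℝ := (∑ k, x k * pd k Y x) / nrm x

/-- The operator after conjugation with the radial profile. -/
def Lw (p : ℝ → ℝ) (Y : Pt → ℝ) (x : Pt) : ℝ :=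
  -(1 / 2) * lap Y x + (p (nrm x) + 1 / nrm x) * dr Y x

/-- `C²` outside a ball, with polynomial bounds. -/
def Pol (r : ℝ) (Y : Pt → ℝ) : Prop :=
  ContDiffOn ℝ 2 Y {x | r < nrm x} ∧ ∃ (C : ℝ) (N : ℕ), ∀ x, r < nrm x →
    |Y x| ≤ C * (1 + nrm x) ^ N ∧ (∀ k, |pd k Y x| ≤ C * (1 + nrm x) ^ N) ∧
      |lap Y x| ≤ C * (1 + nrm x) ^ N

/-- The radial profile `φ` with local decay rate `p`. -/
structure Wkb (R k Z : ℝ) (p φ : ℝ → ℝ) : Prop where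
  hR : 100 ≤ R
  sq : ∀ r, R ≤ r → p r ^ 2 / 2 = k - Z / r
  lo : ∀ r, R ≤ r → 9 / 10 * R ≤ p r
  hi : ∀ r, R ≤ r → p r ≤ 2 * R
  pos : ∀ r, 0 < φ r
  le_one : ∀ r, R ≤ r → φ r ≤ 1
  shell : ∀ r, R ≤ r → r ≤ R + 1 / R → 1 / 8 ≤ φ r
  harn : ∀ r r', R ≤ r → R ≤ r' → |r - r'| ≤ 2 → φ r ≤ Real.exp (6 * R) * φ r'
  bar : ∀ Y, Pol R Y → Bar R fun x => φ (nrm x) * Y x
  op : ∀ Y x, R < nrm x → ContDiffAt ℝ 2 Y x → ∃ d, R ^ 2 / (6 * nrm x ^ 2) ≤ d ∧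
    d ≤ R ^ 2 / nrm x ^ 2 ∧ -(1 / 2) * lap (fun y => φ (nrm y) * Y y) x +
      (k - Z / nrm x) * (φ (nrm x) * Y x) = φ (nrm x) * (Lw p Y x + d * Y x)

/-- Potentials close to `g + k - Z / r` outside the ball. -/
def Qn (R k Z c g : ℝ) (q : Pt → ℝ) : Prop :=
  FB q ∧ ∀ x, R + 1 / 4 / R ≤ nrm x → |q x - g - (k - Z / nrm x)| ≤ c / nrm x + 2 / nrm x ^ 2

/-- Profile of the subsolution. -/
def YT (R : ℝ) (x : Pt) : ℝ :=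
  x 0 * x 1 / nrm x ^ 2 * Real.exp (2 * R ^ 2 * (x 2 / nrm x - 1)) *
    Real.exp (10 * R / nrm x - 10)

/-- A concave function on the half line. -/
def eta (t : ℝ) : ℝ := √(√((t + 2) ^ 2 + 1))

/-- The part of the barrier that is positive on the planes. -/
def EE (x : Pt) : ℝ :=
  100 * x 0 * eta (100 * x 1) + eta (100 * x 0) * (100 * x 1) + eta (100 * x 0) * eta (100 * x 1)

/-- Profile of the barrier. -/
def YB (R : ℝ) (x : Pt) : ℝ :=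
  200 * (nrm x ^ (-2 : ℝ) * (100 * x 0 * (100 * x 1))) +
    -(100 * R ^ (1 / 4 : ℝ)) * (nrm x ^ (-(9 / 4) : ℝ) * (100 * x 0 * (100 * x 1))) +
    R ^ (1 / 8 : ℝ) * (nrm x ^ (-(17 / 8) : ℝ) * EE x)

/-- The facts near the axis. -/
def FN (q s f ρ b : Pt → ℝ) : Prop :=
  ∃ C c : ℝ, 0 < c ∧ ∀ ε : ℝ, 0 < ε → ∃ (p : Pt) (θ : ℝ), p 0 = 0 ∧ p 1 = 0 ∧ 0 < θ ∧
    (∀ x ∈ Metric.ball p 1, |q x| ≤ C) ∧ ∀ᵐ x, x ∈ Metric.ball p 1 →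
      |f x| ≤ C * θ ∧ ρ x ≤ ε * θ ∧ b x ≤ ε * θ ∧ |s x| ≤ ρ x ∧
        (x ∈ Qd → θ * (c * (x 0 * x 1) - ε) ≤ f x)

/-- The equation of the Dyson orbital outside the ball. -/
structure Eqf (R k Z : ℝ) (q s f : Pt → ℝ) (gf : Fin 3 → Pt → ℝ) : Prop where
  qn : Qn R k Z 0 0 q
  h1 : H1 f gf
  hs : MemLp s 2
  sol : Sol q (fun x => -s x) f gf
  odd : ∀ i : Fin 3, i ≠ 2 → ∀ᵐ x, f (rf i x) = -f x

end

end Vale.Agent.P363
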