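import Vale.Agent.P363.FA

/-! Part F, closure properties of `Pol` and `Bar`.  Use the rules of `FA` at points of the open set
(`ContDiffOn.contDiffAt`, `fa_open`); `(1 + r) ^ N * exp (-(c * r)) ≤ C * exp (-(c / 2 * r))`. -/

namespace Vale.Agent.P363

open MeasureTheory Vale.Agent.P370 Filter Topology
open scoped ContDiff

variable {r : ℝ} {Y Y' B : Pt → ℝ} {x : Pt}

/-- A bound for a function, its gradient and its Laplacian at a point. -/
def FpB (Y : Pt → ℝ) (x : Pt) (b : ℝ) : Prop :=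
  |Y x| ≤ b ∧ (∀ k, |pd k Y x| ≤ b) ∧ |lap Y x| ≤ b

theorem FpB.mono {b b' : ℝ} (h : FpB Y x b) (e : b ≤ b') : FpB Y x b' :=
  ⟨h.1.trans e, fun k => (h.2.1 k).trans e, h.2.2.trans e⟩

theorem fp_diff (h : ContDiffAt ℝ 2 Y x) : DifferentiableAt ℝ Y x := h.differentiableAt two_ne_zero

theorem fp_am {a a' b b' : ℝ} (h : |a| ≤ b) (h' : |a'| ≤ b') : |a * a'| ≤ b * b' := by
  rw [abs_mul]
  exact mul_le_mul h h' (abs_nonneg _) ((abs_nonneg _).trans h)

theorem FpB.add {b b' : ℝ} (h : FpB Y x b) (h' : FpB Y' x b') (c : ContDiffAt ℝ 2 Y x)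
    (c' : ContDiffAt ℝ 2 Y' x) : FpB (fun x => Y x + Y' x) x (b + b') := by
  refine ⟨(abs_add_le _ _).trans (add_le_add h.1 h'.1), fun k => ?_, ?_⟩
  · rw [pd_add (fp_diff c) (fp_diff c')]
    exact (abs_add_le _ _).trans (add_le_add (h.2.1 k) (h'.2.1 k))
  · rw [lap_add c c']
    exact (abs_add_le _ _).trans (add_le_add h.2.2 h'.2.2)

theorem FpB.mul {b b' : ℝ} (h : FpB Y x b) (h' : FpB Y' x b') (c : ContDiffAt ℝ 2 Y x)
    (c' : ContDiffAt ℝ 2 Y' x) : FpB (fun x => Y x * Y' x) x (8 * (b * b')) := by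
  have a0 := fp_am h.1 h'.1
  have p0 := (abs_nonneg _).trans a0
  refine ⟨a0.trans (by linarith), fun k => ?_, ?_⟩
  · rw [pd_mul (fp_diff c) (fp_diff c')]
    have a1 := abs_le.1 (fp_am h.1 (h'.2.1 k))
    have a2 := abs_le.1 (fp_am h'.1 (h.2.1 k))
    rw [mul_comm b' b] at a2
    rw [abs_le]
    constructor <;> linarith [a1.1, a1.2, a2.1, a2.2]
  · rw [lap_mul c c', Fin.sum_univ_three]
    have a1 := abs_le.1 (fp_am h.1 h'.2.2)
    have a2 := abs_le.1 (fp_am h'.1 h.2.2)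
    have a3 := fun k => abs_le.1 (fp_am (h.2.1 k) (h'.2.1 k))
    rw [mul_comm b' b] at a2
    rw [abs_le]
    constructor <;>
      linarith [a1.1, a1.2, a2.1, a2.2, (a3 0).1, (a3 0).2, (a3 1).1, (a3 1).2, (a3 2).1, (a3 2).2]

theorem FpB.comp {b C F₂ : ℝ} (h : FpB Y x b) (c : ContDiffAt ℝ 2 Y x) {F F' : ℝ → ℝ}
    (h1 : ∀ᶠ t in 𝓝 (Y x), HasDerivAt F (F' t) t) (h2 : HasDerivAt F' F₂ (Y x))
    (b0 : |F (Y x)| ≤ C * (1 + |Y x|)) (b1 : |F' (Y x)| ≤ C) (b2 : |F₂| ≤ C) :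
    FpB (fun x => F (Y x)) x (3 * C * (1 + b) ^ 2) := by
  have C0 := (abs_nonneg _).trans b1
  have p0 := (abs_nonneg _).trans h.1
  have p1 := mul_nonneg C0 p0
  have p2 := mul_nonneg C0 (mul_nonneg p0 p0)
  refine ⟨b0.trans ?_, fun k => ?_, ?_⟩
  · nlinarith [mul_le_mul_of_nonneg_left h.1 C0]
  · rw [pd_comp (fp_diff c) h1.self_of_nhds]
    exact (fp_am b1 (h.2.1 k)).trans (by nlinarith)
  · rw [lap_comp c h1 h2]
    have a3 := fun k => abs_le.1 (fp_am (h.2.1 k) (h.2.1 k))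
    have a4 : |gsq Y x| ≤ 3 * (b * b) := by
      rw [gsq, Fin.sum_univ_three, abs_of_nonneg (by positivity), sq, sq, sq]
      linarith [(a3 0).2, (a3 1).2, (a3 2).2]
    exact (abs_add_le _ _).trans ((add_le_add (fp_am b1 h.2.2) (fp_am b2 a4)).trans (by nlinarith))

theorem fp_one (x : Pt) (N : ℕ) : 1 ≤ (1 + nrm x) ^ N :=
  one_le_pow₀ (le_add_of_nonneg_right (nrm_nonneg x))

theorem fp_exp {c : ℝ} (hc : 0 < c) (N : ℕ) : ∃ K : ℝ, ∀ t : ℝ, 0 ≤ t →
    (1 + t) ^ N * Real.exp (-(c * t)) ≤ K * Real.exp (-(c / 2 * t)) := by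
  refine ⟨N.factorial * Real.exp (c / 2) / (c / 2) ^ N, fun t ht => ?_⟩
  have h := Real.pow_div_factorial_le_exp (c / 2 * (1 + t)) (by positivity) N
  rw [div_le_iff₀ (by positivity), mul_pow] at h
  have e : Real.exp (c / 2) * Real.exp (-(c / 2 * t)) =
      Real.exp (c / 2 * (1 + t)) * Real.exp (-(c * t)) := by
    rw [← Real.exp_add, ← Real.exp_add]
    congr 1
    ring
  rw [div_mul_eq_mul_div, le_div_iff₀ (by positivity), mul_assoc (N.factorial : ℝ), e]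
  nlinarith [mul_le_mul_of_nonneg_right h (Real.exp_pos (-(c * t))).le]

theorem Pol.cd (h : Pol r Y) (hx : r < nrm x) : ContDiffAt ℝ 2 Y x :=
  h.1.contDiffAt ((fa_open r).mem_nhds hx)

theorem pol_const (r c : ℝ) : Pol r fun _ => c :=
  ⟨contDiffOn_const, |c|, 0, fun x _ => by simp [pd_const, lap_const]⟩

theorem pol_coord (r : ℝ) (i : Fin 3) : Pol r fun x => x i := by
  refine ⟨(contDiff_apply ℝ ℝ i).contDiffOn, 1, 1, fun x _ => ?_⟩
  have h0 := nrm_nonneg x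
  have h1 := abs_le_nrm' x i
  rw [lap_coord, abs_zero, one_mul, pow_one]
  refine ⟨by linarith, fun k => ?_, by linarith⟩
  rw [pd_coord]
  split_ifs
  · rw [abs_one]
    linarith
  · rw [abs_zero]
    linarith

theorem pol_nrm (hr : 1 ≤ r) : Pol r nrm := by
  refine ⟨fun x hx => (fa_cd_nrm (by linarith [show r < nrm x from hx])).contDiffWithinAt, 1, 1,
    fun x hx => ?_⟩
  have h0 : 0 < nrm x := by linarith
  rw [lap_nrm h0, one_mul, pow_one, abs_of_pos h0, abs_of_pos (by positivity)]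
  refine ⟨by linarith, fun k => ?_, ?_⟩
  · rw [pd_nrm h0, abs_div, abs_of_pos h0]
    exact ((div_le_one h0).2 (abs_le_nrm' x k)).trans (by linarith)
  · rw [div_le_iff₀ h0]
    nlinarith

theorem Pol.add (h : Pol r Y) (h' : Pol r Y') : Pol r fun x => Y x + Y' x := by
  obtain ⟨C, N, H⟩ := h.2
  obtain ⟨C', N', H'⟩ := h'.2
  refine ⟨h.1.add h'.1, |C| + |C'|, N + N', fun x hx =>
    (FpB.add (H x hx) (H' x hx) (h.cd hx) (h'.cd hx)).mono ?_⟩
  have a := fp_one x N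
  have a' := fp_one x N'
  rw [pow_add, add_mul]
  refine add_le_add (mul_le_mul (le_abs_self _) ?_ (by linarith) (abs_nonneg _))
    (mul_le_mul (le_abs_self _) ?_ (by linarith) (abs_nonneg _))
  · exact le_mul_of_one_le_right (by linarith) a'
  · exact le_mul_of_one_le_left (by linarith) a

theorem Pol.mul (h : Pol r Y) (h' : Pol r Y') : Pol r fun x => Y x * Y' x := by
  obtain ⟨C, N, H⟩ := h.2
  obtain ⟨C', N', H'⟩ := h'.2
  refine ⟨h.1.mul h'.1, 8 * C * C', N + N', fun x hx =>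
    (FpB.mul (H x hx) (H' x hx) (h.cd hx) (h'.cd hx)).mono (le_of_eq ?_)⟩
  ring

theorem Pol.cmul (h : Pol r Y) (c : ℝ) : Pol r fun x => c * Y x :=
  (pol_const r c).mul h

theorem Pol.congr (h : Pol r Y) (e : ∀ x, r < nrm x → Y' x = Y x) : Pol r Y' := by
  obtain ⟨C, N, H⟩ := h.2
  refine ⟨h.1.congr e, C, N, fun x hx => ?_⟩
  have e' : Y' =ᶠ[𝓝 x] Y := mem_of_superset ((fa_open r).mem_nhds hx) e
  rw [e x hx, lap_congr e']
  exact ⟨(H x hx).1, fun k => (nw_pd_congr e' k).self_of_nhds ▸ (H x hx).2.1 k, (H x hx).2.2⟩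

theorem Pol.comp (h : Pol r Y) {F F' F'' : ℝ → ℝ} {S : Set ℝ} (hS : IsOpen S)
    (hm : ∀ x, r < nrm x → Y x ∈ S) (hF : ContDiffOn ℝ 2 F S)
    (h1 : ∀ t ∈ S, HasDerivAt F (F' t) t) (h2 : ∀ t ∈ S, HasDerivAt F' (F'' t) t) {C : ℝ}
    (hb : ∀ x, r < nrm x → |F (Y x)| ≤ C * (1 + |Y x|) ∧ |F' (Y x)| ≤ C ∧ |F'' (Y x)| ≤ C) :
    Pol r fun x => F (Y x) := by
  obtain ⟨C', N, H⟩ := h.2
  refine ⟨hF.comp h.1 hm, 3 * C * (1 + |C'|) ^ 2, N * 2, fun x hx =>
    (FpB.comp (H x hx) (h.cd hx) (mem_of_superset (hS.mem_nhds (hm x hx)) h1) (h2 _ (hm x hx))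
      (hb x hx).1 (hb x hx).2.1 (hb x hx).2.2).mono ?_⟩
  have C0 := (abs_nonneg _).trans (hb x hx).2.1
  have p0 := (abs_nonneg _).trans (H x hx).1
  have a := fp_one x N
  rw [pow_mul, mul_assoc (3 * C), ← mul_pow]
  refine mul_le_mul_of_nonneg_left (pow_le_pow_left₀ (by linarith) ?_ 2) (by linarith)
  nlinarith [mul_le_mul_of_nonneg_right (le_abs_self C') (zero_le_one.trans a)]

theorem pol_pow (hr : 1 ≤ r) {a : ℝ} (ha : a ≤ 1) : Pol r fun x => nrm x ^ a := by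
  refine (pol_nrm hr).comp (F := fun t => t ^ a) (F' := fun t => a * t ^ (a - 1))
    (F'' := fun t => a * ((a - 1) * t ^ (a - 1 - 1))) (S := Set.Ioi 0) isOpen_Ioi
    (fun x hx => show 0 < nrm x by linarith)
    (fun t ht => (Real.contDiffAt_rpow_const_of_ne (ne_of_gt ht)).contDiffWithinAt)
    (fun t ht => Real.hasDerivAt_rpow_const (Or.inl (ne_of_gt ht)))
    (fun t ht => (Real.hasDerivAt_rpow_const (Or.inl (ne_of_gt ht))).const_mul a)
    (C := 1 + |a| + |a| * |a - 1|) fun x hx => ?_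
  have h1 : 1 ≤ nrm x := by linarith
  have h0 : 0 ≤ nrm x := by linarith
  have e : ∀ b : ℝ, b ≤ 0 → |nrm x ^ b| ≤ 1 := fun b hb => by
    rw [abs_of_nonneg (Real.rpow_nonneg h0 _)]
    exact Real.rpow_le_one_of_one_le_of_nonpos h1 hb
  have p1 := abs_nonneg a
  have p2 := mul_nonneg p1 (abs_nonneg (a - 1))
  refine ⟨?_, (fp_am le_rfl (e _ (by linarith))).trans (by linarith),
    (fp_am le_rfl (fp_am le_rfl (e _ (by linarith)))).trans (by linarith)⟩
  have e1 := Real.rpow_le_rpow_of_exponent_le h1 ha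
  rw [Real.rpow_one] at e1
  rw [abs_of_nonneg (Real.rpow_nonneg h0 _), abs_of_nonneg h0]
  nlinarith [mul_nonneg p1 h0, mul_nonneg p2 h0]

theorem Pol.exp (h : Pol r Y) {M : ℝ} (hM : ∀ x, r < nrm x → Y x ≤ M) :
    Pol r fun x => Real.exp (Y x) := by
  refine h.comp (F' := Real.exp) (F'' := Real.exp) isOpen_univ (fun _ _ => trivial)
    Real.contDiff_exp.contDiffOn (fun t _ => Real.hasDerivAt_exp t)
    (fun t _ => Real.hasDerivAt_exp t) (C := Real.exp M) fun x hx => ?_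
  have e : |Real.exp (Y x)| ≤ Real.exp M := by
    rw [abs_of_pos (Real.exp_pos _)]
    exact Real.exp_le_exp.2 (hM x hx)
  exact ⟨e.trans (le_mul_of_one_le_right (Real.exp_pos _).le
    (le_add_of_nonneg_right (abs_nonneg _))), e, e⟩

theorem Bar.mul_pol (h : Bar r B) (hY : Pol r Y) : Bar r fun x => B x * Y x := by
  obtain ⟨C, c, hc, H⟩ := h.2
  obtain ⟨C', N, H'⟩ := hY.2
  obtain ⟨K, hK⟩ := fp_exp hc N
  refine ⟨h.1.mul hY.1, 8 * |C * C'| * K, c / 2, half_pos hc, fun x hx =>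
    (FpB.mul (H x hx) (H' x hx) (h.1.contDiffAt ((fa_open r).mem_nhds hx)) (hY.cd hx)).mono ?_⟩
  have a := mul_le_mul_of_nonneg_left (hK _ (nrm_nonneg x)) (abs_nonneg (C * C'))
  have p : 0 ≤ (1 + nrm x) ^ N * Real.exp (-(c * nrm x)) :=
    mul_nonneg (zero_le_one.trans (fp_one x N)) (Real.exp_pos _).le
  have a' := mul_le_mul_of_nonneg_right (le_abs_self (C * C')) p
  linarith

theorem Bar.mono (h : Bar r B) {r' : ℝ} (hr : r ≤ r') : Bar r' B := by
  obtain ⟨C, c, hc, H⟩ := h.2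
  exact ⟨h.1.mono fun x (hx : r' < nrm x) => hr.trans_lt hx, C, c, hc,
    fun x hx => H x (hr.trans_lt hx)⟩

end Vale.Agent.P363
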