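import Vale.Agent.P363.FP

/-! Part F, the radial profile.  `p r = √(2 k - 2 Z / r)` (continuous on `Ioi 0`, smooth on
`Ioi (0.9 R)`), `φ r = exp (-∫ t in R..r, (p t + 1 / t))`, `φ' = -(p + 1 / r) φ`,
`p' = Z / (p r²)`, `φ'' + 2 φ' / r = (p² - p') φ`; `op` is `lap_rad` with `d = p' / 2`.  `bar`: first
`Bar R (φ ∘ nrm)` (`φ r ≤ exp (-0.9 R (r - R))`, `pd_comp`, `lap_comp`), then `Bar.mul_pol`.
`shell`: `(2 R + 1 / R) / R ≤ 2.01`, `exp 2.01 ≤ 8`. -/

namespace Vale.Agent.P363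

open MeasureTheory Vale.Agent.P370 Filter Topology
open scoped ContDiff

variable {R k Z c g : ℝ} {p φ : ℝ → ℝ} {q Y : Pt → ℝ} {x : Pt}

lemma fw_rad (hR : 100 ≤ R) (hZ : |Z - R ^ 3| ≤ 2) (hk : |k - 3 / 2 * R ^ 2| ≤ R) {r : ℝ}
    (hr : R ≤ r) : (9 / 10 * R) ^ 2 ≤ 2 * k - 2 * Z / r ∧ 2 * k - 2 * Z / r ≤ (2 * R) ^ 2 := by
  obtain ⟨z1, z2⟩ := abs_le.1 hZ
  obtain ⟨k1, k2⟩ := abs_le.1 hk
  have h0 : 0 < r := by linarith
  have h3 : 0 ≤ R ^ 2 * (R - 100) := mul_nonneg (sq_nonneg R) (by linarith)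
  have h1 : 0 ≤ 2 * Z / r := div_nonneg (by nlinarith) h0.le
  have h2 : 2 * Z / r ≤ 2 * R ^ 2 + 1 := by
    rw [div_le_iff₀ h0]
    nlinarith [mul_le_mul_of_nonneg_left hr (show 0 ≤ 2 * R ^ 2 + 1 by positivity)]
  constructor <;> nlinarith

theorem exists_wk (hR : 100 ≤ R) (hZ : |Z - R ^ 3| ≤ 2) (hk : |k - 3 / 2 * R ^ 2| ≤ R) :
    ∃ p φ, Wkb R k Z p φ := by
  have R0 : 0 < R := by linarith
  obtain ⟨p, hp⟩ : ∃ p : ℝ → ℝ, p = fun r => √(2 * k - 2 * Z / r) := ⟨_, rfl⟩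
  have pos : ∀ r, R ≤ r → 0 < 2 * k - 2 * Z / r := fun r hr =>
    lt_of_lt_of_le (by positivity) (fw_rad hR hZ hk hr).1
  have hsq : ∀ r, R ≤ r → p r ^ 2 / 2 = k - Z / r := fun r hr => by
    rw [hp, Real.sq_sqrt (pos r hr).le]; ring
  have lo : ∀ r, R ≤ r → 9 / 10 * R ≤ p r := fun r hr =>
    hp ▸ Real.le_sqrt_of_sq_le (fw_rad hR hZ hk hr).1
  have hi : ∀ r, R ≤ r → p r ≤ 2 * R := fun r hr =>
    hp ▸ Real.sqrt_le_iff.2 ⟨by positivity, (fw_rad hR hZ hk hr).2⟩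
  have hpd : ∀ r, R ≤ r → HasDerivAt p (Z / (p r * r ^ 2)) r := fun r hr => by
    have h0 : r ≠ 0 := by linarith
    have h1 := (((hasDerivAt_inv h0).const_mul (2 * Z)).const_sub (2 * k)).sqrt (pos r hr).ne'
    have h2 : 0 < p r := lt_of_lt_of_le (by positivity) (lo r hr)
    have h3 : √(2 * k - 2 * Z * r⁻¹) = p r := by rw [hp]; rfl
    rw [h3] at h1
    rw [show Z / (p r * r ^ 2) = -(2 * Z * -(r ^ 2)⁻¹) / (2 * p r) by field_simp, hp]
    rw [hp] at h1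
    exact h1
  have hinv : ∀ r, R ≤ r → 0 < 1 / r ∧ 1 / r ≤ 1 / 100 := fun r hr =>
    ⟨by have : 0 < r := by linarith
        positivity, one_div_le_one_div_of_le (by norm_num) (by linarith)⟩
  obtain ⟨P, hP⟩ : ∃ P : ℝ → ℝ, P = fun t => p (max t R) + 1 / max t R := ⟨_, rfl⟩
  have Pc : Continuous P := by
    rw [hP, hp]
    have : ∀ t, max t R ≠ 0 := fun t => (R0.trans_le (le_max_right _ _)).ne'
    fun_prop (disch := exact this _)
  have Pb : ∀ t, 9 / 10 * R ≤ P t ∧ P t ≤ 2 * R + 1 / 100 := fun t => by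
    have := hinv _ (le_max_right t R)
    rw [hP]
    constructor <;> linarith [lo _ (le_max_right t R), hi _ (le_max_right t R)]
  have Pe : ∀ t, R ≤ t → P t = p t + 1 / t := fun t ht => by rw [hP]; simp only [max_eq_left ht]
  obtain ⟨I, hI⟩ : ∃ I : ℝ → ℝ, I = fun r => ∫ t in R..r, P t := ⟨_, rfl⟩
  have Id : ∀ r, HasDerivAt I (P r) r := fun r => hI ▸ (Pc.integral_hasStrictDerivAt R r).hasDerivAt
  have Is : ∀ r r', I r - I r' = ∫ t in r'..r, P t := fun r r' => by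
    rw [hI]
    exact intervalIntegral.integral_interval_sub_left (Pc.intervalIntegrable _ _)
      (Pc.intervalIntegrable _ _)
  have Ia : ∀ r r', |I r - I r'| ≤ (2 * R + 1 / 100) * |r - r'| := fun r r' => by
    rw [Is]
    exact intervalIntegral.norm_integral_le_of_norm_le_const (f := P) fun t _ =>
      abs_le.2 ⟨by linarith [(Pb t).1], (Pb t).2⟩
  have I0 : I R = 0 := by rw [hI]; exact intervalIntegral.integral_same
  have Il : ∀ r, R ≤ r → 9 / 10 * R * (r - R) ≤ I r := fun r hr => by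
    have := intervalIntegral.integral_mono_on (μ := volume) hr
      (intervalIntegrable_const (c := 9 / 10 * R)) (Pc.intervalIntegrable _ _) fun t _ => (Pb t).1
    rw [intervalIntegral.integral_const, smul_eq_mul, mul_comm] at this
    rw [hI]; exact this
  have Ic : ContDiffOn ℝ 2 I (Set.Ioi R) := by
    rw [show (2 : WithTop ℕ∞) = 1 + 1 from rfl, contDiffOn_succ_iff_deriv_of_isOpen isOpen_Ioi]
    refine ⟨fun t _ => (Id t).differentiableAt.differentiableWithinAt, by simp, ?_⟩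
    have h0 : ∀ t ∈ Set.Ioi R, t ≠ 0 := fun t ht => (R0.trans ht).ne'
    refine ContDiffOn.congr (f := fun t => √(2 * k - 2 * Z / t) + 1 / t) ?_ fun t ht => by
      rw [(Id t).deriv, Pe t (le_of_lt ht), hp]
    exact (ContDiffOn.sqrt (contDiffOn_const.sub (contDiffOn_const.div contDiffOn_id h0))
      fun t ht => (pos t (le_of_lt ht)).ne').add (contDiffOn_const.div contDiffOn_id h0)
  have φc : ∀ r, R < r → ContDiffAt ℝ 2 (fun r => Real.exp (-I r)) r := fun r hr =>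
    (Ic.contDiffAt (Ioi_mem_nhds hr)).neg.exp
  have φd : ∀ r, R ≤ r →
      HasDerivAt (fun r => Real.exp (-I r)) (Real.exp (-I r) * -(p r + 1 / r)) r := fun r hr =>
    Pe r hr ▸ (Id r).neg.exp
  have op : ∀ (Y : Pt → ℝ) x, R < nrm x → ContDiffAt ℝ 2 Y x → ∃ d, R ^ 2 / (6 * nrm x ^ 2) ≤ d ∧
      d ≤ R ^ 2 / nrm x ^ 2 ∧ -(1 / 2) * lap (fun y => Real.exp (-I (nrm y)) * Y y) x +
        (k - Z / nrm x) * (Real.exp (-I (nrm x)) * Y x) =
          Real.exp (-I (nrm x)) * (Lw p Y x + d * Y x) := by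
    intro Y x hx hY
    have r0 : 0 < nrm x := R0.trans hx
    have p0 : 0 < p (nrm x) := lt_of_lt_of_le (by positivity) (lo _ hx.le)
    obtain ⟨z1, z2⟩ := abs_le.1 hZ
    have h3 : 0 ≤ R ^ 2 * (R - 100) := mul_nonneg (sq_nonneg R) (by linarith)
    have h4 : 100 * 100 ≤ R ^ 2 := by nlinarith
    refine ⟨Z / (p (nrm x) * nrm x ^ 2) / 2, ?_, ?_, ?_⟩
    · rw [div_div, div_le_div_iff₀ (by positivity) (by positivity)]
      have h1 : R ^ 2 * p (nrm x) ≤ 3 * Z := by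
        nlinarith [mul_le_mul_of_nonneg_left (hi _ hx.le) (sq_nonneg R)]
      nlinarith [mul_le_mul_of_nonneg_left h1 (sq_nonneg (nrm x))]
    · rw [div_div, div_le_div_iff₀ (by positivity) (by positivity)]
      have h1 : Z ≤ 2 * (R ^ 2 * p (nrm x)) := by
        nlinarith [mul_le_mul_of_nonneg_left (lo _ hx.le) (sq_nonneg R)]
      nlinarith [mul_le_mul_of_nonneg_left h1 (sq_nonneg (nrm x))]
    · have h2 : HasDerivAt (fun r : ℝ => 1 / r) (-(nrm x ^ 2)⁻¹) (nrm x) := by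
        simpa only [one_div] using hasDerivAt_inv r0.ne'
      have h1 := (φd _ hx.le).mul ((hpd _ hx.le).add h2).neg
      have h5 : ∀ᶠ t in 𝓝 (nrm x), R ≤ t := Ici_mem_nhds hx
      rw [lap_rad (m := fun r => Real.exp (-I r))
        (m' := fun r => Real.exp (-I r) * -(p r + 1 / r)) r0 hY (φc _ hx)
        (h5.mono φd) h1, ← hsq _ hx.le, Lw]
      simp only [Pi.add_apply, Pi.neg_apply]
      field_simp
      ring
  refine ⟨p, fun r => Real.exp (-I r), hR, hsq, lo, hi, fun r => Real.exp_pos _,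
    fun r hr => Real.exp_le_one_iff.2 ?_, fun r h1 h2 => ?_, fun r r' _ _ h => ?_,
    fun Y hY => Bar.mul_pol (B := fun x => Real.exp (-I (nrm x))) ?_ hY, op⟩
  · nlinarith [Il r hr, mul_nonneg R0.le (sub_nonneg.2 hr)]
  · have h3 := (abs_le.1 (Ia r R)).2
    rw [I0, abs_of_nonneg (sub_nonneg.2 h1)] at h3
    have h4 : R * (1 / R) = 1 := mul_one_div_cancel R0.ne'
    have h5 := hinv R le_rfl
    have h6 : I r ≤ 2 + 1 / 100 := by
      nlinarith [mul_le_mul_of_nonneg_left (show r - R ≤ 1 / R by linarith)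
        (show 0 ≤ 2 * R + 1 / 100 by positivity)]
    have h7 : Real.exp (2 + 1 / 100) ≤ 8 := by
      have e1 := Real.exp_one_lt_d9
      have e2 := Real.exp_bound_div_one_sub_of_interval' (x := 1 / 100) (by norm_num) (by norm_num)
      have e3 : Real.exp (2 + 1 / 100) = Real.exp 1 * Real.exp 1 * Real.exp (1 / 100) := by
        rw [← Real.exp_add, ← Real.exp_add]; norm_num
      have e4 : Real.exp 1 * Real.exp 1 ≤ 2.72 * 2.72 :=
        mul_le_mul (by linarith) (by linarith) (Real.exp_pos 1).le (by norm_num)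
      rw [e3]
      exact (mul_le_mul e4 e2.le (Real.exp_pos _).le (by norm_num)).trans (by norm_num)
    rw [Real.exp_neg, one_div]
    exact inv_anti₀ (Real.exp_pos _) ((Real.exp_le_exp.2 h6).trans h7)
  · rw [← Real.exp_add, Real.exp_le_exp]
    have h3 := (abs_le.1 (Ia r r')).1
    nlinarith [mul_le_mul_of_nonneg_left h (show 0 ≤ 2 * R + 1 / 100 by positivity)]
  · refine ⟨fun x hx => ((φc _ hx).comp x (fa_cd_nrm (R0.trans hx))).contDiffWithinAt,
      5 * R ^ 2 * Real.exp (9 / 10 * R * R), 9 / 10 * R, by positivity, fun x hx => ?_⟩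
    have r0 : 0 < nrm x := R0.trans hx
    have h4 : 100 * R ≤ R ^ 2 := by nlinarith
    have key : ∀ a : ℝ, |a| ≤ 5 * R ^ 2 → |Real.exp (-I (nrm x)) * a| ≤
        5 * R ^ 2 * Real.exp (9 / 10 * R * R) * Real.exp (-(9 / 10 * R * nrm x)) := fun a ha => by
      rw [abs_mul, abs_of_pos (Real.exp_pos _), mul_assoc (5 * R ^ 2), ← Real.exp_add, mul_comm]
      exact mul_le_mul ha (Real.exp_le_exp.2 (by linarith [Il _ hx.le])) (Real.exp_pos _).le
        (by positivity)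
    have h1 := lo _ hx.le
    have h2 := hi _ hx.le
    refine ⟨by simpa only [mul_one] using key 1 (by rw [abs_one]; linarith), fun j => ?_, ?_⟩
    · rw [pd_comp (F := fun r => Real.exp (-I r))
        ((fa_cd_nrm (n := 1) r0).differentiableAt one_ne_zero) (φd _ hx.le), pd_nrm r0, mul_assoc]
      refine key _ ?_
      have h5 := hinv _ hx.le
      have h6 : |x j / nrm x| ≤ 1 := by
        rw [abs_div, abs_of_pos r0]; exact div_le_one_of_le₀ (abs_le_nrm x j) r0.le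
      rw [abs_mul, abs_neg, abs_of_pos (by linarith)]
      nlinarith [mul_le_mul_of_nonneg_left h6 (show 0 ≤ p (nrm x) + 1 / nrm x by linarith)]
    · obtain ⟨d, d1, d2, e⟩ := op (fun _ => 1) x hx contDiffAt_const
      have d0 : 0 ≤ d := le_trans (by positivity) d1
      have d3 : d ≤ 1 := d2.trans (div_le_one_of_le₀ (pow_le_pow_left₀ R0.le hx.le 2) (sq_nonneg _))
      simp only [Lw, lap_const, dr_const, mul_one, ← hsq _ hx.le] at e
      have e2 : lap (fun y => Real.exp (-I (nrm y))) x =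
          Real.exp (-I (nrm x)) * (p (nrm x) ^ 2 - 2 * d) := by linarith
      rw [e2]
      exact key _ (abs_le.2 ⟨by nlinarith, by nlinarith⟩)

lemma fw_lt (hR : 100 ≤ R) (hx : R + 1 / 4 / R ≤ nrm x) : R < nrm x := by
  have h0 : 0 < R := by linarith
  have h1 : 0 < 1 / 4 / R := by positivity
  linarith

theorem Qn.bdd (hq : Qn R k Z c g q) (W : Wkb R k Z p φ) (hc : c ≤ 1) (g0 : 0 ≤ g) (g1 : g ≤ 1)
    (hx : R + 1 / 4 / R ≤ nrm x) : 1 ≤ q x ∧ q x ≤ 3 * R ^ 2 := by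
  have hR := W.hR
  have h1 := fw_lt hR hx
  have h2 := abs_le.1 (hq.2 x hx)
  have h3 : c / nrm x ≤ 1 := div_le_one_of_le₀ (by linarith) (nrm_nonneg x)
  have h4 : 2 / nrm x ^ 2 ≤ 1 := div_le_one_of_le₀ (by nlinarith) (sq_nonneg _)
  have h5 := pow_le_pow_left₀ (by linarith) (W.lo _ h1.le) 2
  have h6 := pow_le_pow_left₀ (by linarith [W.lo _ h1.le]) (W.hi _ h1.le) 2
  rw [← W.sq _ h1.le] at h2
  constructor <;> nlinarith [h2.1, h2.2]

theorem Qn.sup (hq : Qn R k Z c g q) (W : Wkb R k Z p φ) (hx : R + 1 / 4 / R ≤ nrm x)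
    (hY : ContDiffAt ℝ 2 Y x) (h0 : 0 ≤ Y x) :
    φ (nrm x) * (Lw p Y x + (g - c / nrm x + R ^ 2 / (7 * nrm x ^ 2)) * Y x) ≤
      -(1 / 2) * lap (fun y => φ (nrm y) * Y y) x + q x * (φ (nrm x) * Y x) := by
  have hR := W.hR
  have h1 := fw_lt hR hx
  obtain ⟨d, d1, -, e⟩ := W.op Y x h1 hY
  have h2 := (abs_le.1 (hq.2 x hx)).1
  have h3 : R ^ 2 / (7 * nrm x ^ 2) + 2 / nrm x ^ 2 ≤ R ^ 2 / (6 * nrm x ^ 2) := by
    rw [← div_div, ← div_div, ← add_div]
    exact div_le_div_of_nonneg_right (by nlinarith) (sq_nonneg _)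
  have h4 : g - c / nrm x + R ^ 2 / (7 * nrm x ^ 2) ≤ d + (q x - (k - Z / nrm x)) := by linarith
  nlinarith [mul_le_mul_of_nonneg_right h4 (mul_nonneg (W.pos (nrm x)).le h0)]

theorem Qn.sub (hq : Qn R k Z 0 0 q) (W : Wkb R k Z p φ) (hx : R + 1 / 4 / R ≤ nrm x)
    (hY : ContDiffAt ℝ 2 Y x) (h0 : 0 ≤ Y x) :
    -(1 / 2) * lap (fun y => φ (nrm y) * Y y) x + q x * (φ (nrm x) * Y x) ≤
      φ (nrm x) * (Lw p Y x + 2 * R ^ 2 / nrm x ^ 2 * Y x) := by
  have hR := W.hR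
  have h1 := fw_lt hR hx
  obtain ⟨d, -, d2, e⟩ := W.op Y x h1 hY
  have h2 := (abs_le.1 (hq.2 x hx)).2
  have h3 : R ^ 2 / nrm x ^ 2 + 2 / nrm x ^ 2 ≤ 2 * R ^ 2 / nrm x ^ 2 := by
    rw [← add_div]
    exact div_le_div_of_nonneg_right (by nlinarith) (sq_nonneg _)
  rw [zero_div] at h2
  have h4 : d + (q x - (k - Z / nrm x)) ≤ 2 * R ^ 2 / nrm x ^ 2 := by linarith
  nlinarith [mul_le_mul_of_nonneg_right h4 (mul_nonneg (W.pos (nrm x)).le h0)]

end Vale.Agent.P363
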