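import Vale.Agent.P363.Main
import Vale.Agent.P363.Stmt

/-! Transfer to the statement-level definitions. -/

namespace Vale.Agent.P363

open MeasureTheory

theorem formC_eq (nuc : List (P370.Pt × ℕ)) :
    (P363S.formC nuc : P370.Wave 3 → P370.Grad 3 → ℝ) =
      P370.form (nuc.map fun p => (p.1, (p.2 : ℝ))) := by
  funext Ψ G
  simp only [P363S.formC, P370.form, List.map_map]
  rfl

theorem dens_int {Ψ : P370.Wave 3} {G : P370.Grad 3} (h : P370.Dom Ψ G) :
    ∫ x, dens Ψ x = 3 * P370.normSq Ψ := by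
  obtain ⟨f, H, h1, h2, -, h4⟩ := spin_split h
  have k := fun m => dens3_int (f := f m) (w := fun _ => 1) measurable_const (h1 m).1.1
    fun _ => by simpa using (h1 m).1.1.integrable_sq
  simp only [one_mul, Finset.sum_const, Finset.card_univ, Fintype.card_fin, nsmul_eq_mul,
    Nat.cast_ofNat] at k
  rw [integral_congr_ae h4, integral_finsetSum _ fun m _ => (k m).1, h2, Finset.mul_sum]
  exact Finset.sum_congr rfl fun m _ => (k m).2

theorem final : ∃ nuc : List (P363S.Pt × ℕ), nuc ≠ [] ∧ (nuc.map Prod.fst).Nodup ∧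
    (∀ p ∈ nuc, 0 < p.2) ∧ ∃ Ψ : P363S.Wave 3, P363S.IsGround (P363S.formC nuc) Ψ ∧
      ∫ x, P363S.dens Ψ x = 3 ∧ ¬P363S.Repr 2 (P363S.dens Ψ) := by
  obtain ⟨nuc, h1, h2, h3, Ψ, h4, h5⟩ := main
  refine ⟨nuc, h1, h2, h3, Ψ, ?_, ?_, h5⟩
  · rw [formC_eq]; exact h4
  · obtain ⟨G, a, b, -⟩ := h4
    have := dens_int a
    rw [b, mul_one] at this
    exact this

end Vale.Agent.P363
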