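import Vale.Agent.P363.LF

/-! Library LH: local mean value inequality with a square integrable right-hand side, and the
inequality of Kato for positive parts. -/

namespace Vale.Agent.P363

open MeasureTheory Vale.Agent.P370 Filter Topology
open scoped ContDiff

/-- Same proof as `mean_value'`, tests supported in `O` only. -/
theorem mean_value_loc : ∃ C : ℝ, 1 ≤ C ∧
    ∀ (τ u : Pt → ℝ) (g : Fin 3 → Pt → ℝ) (O : Set Pt) (s : ℝ), H1 u g → MemLp τ 2 → 0 < s →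
    (∀ ζ, C1c ζ → (∀ x, 0 ≤ ζ x) → tsupport ζ ⊆ O →
      1 / 2 * ∑ k, ∫ x, g k x * pd k ζ x ≤ ∫ x, τ x * ζ x) →
    ∀ᵐ x, {y | nrm (y - x) ≤ s} ⊆ O →
      u x ≤ C * (√((∫ y in {y | nrm (y - x) ≤ s}, max (u y) 0 ^ 2) / s ^ 3) +
        √(s * ∫ y in {y | nrm (y - x) ≤ s}, τ y ^ 2)) :=
  lf_loc

end Vale.Agent.P363
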