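import Vale.Agent.P363.LD
import Vale.Agent.P363.LH

/-! Part I, file 0: small tools, numerical facts, the weight. -/

namespace Vale.Agent.P363

open MeasureTheory Vale.Agent.P370 Filter Topology
open scoped ContDiff

namespace I0

theorem int_mul {f g : Pt → ℝ} (hf : MemLp f 2) (hg : MemLp g 2) :
    Integrable fun x => f x * g x := hf.integrable_mul hg

theorem amgm {f g : Pt → ℝ} (hf : MemLp f 2) (hg : MemLp g 2) {t : ℝ} (ht : 0 < t) :
    ∫ x, f x * g x ≤ t * (∫ x, f x ^ 2) + 1 / (4 * t) * ∫ x, g x ^ 2 := by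
  rw [← integral_const_mul, ← integral_const_mul, ← integral_add (hf.integrable_sq.const_mul _)
    (hg.integrable_sq.const_mul _)]
  refine integral_mono (int_mul hf hg) ((hf.integrable_sq.const_mul _).add
    (hg.integrable_sq.const_mul _)) fun x => ?_
  have h : t * f x ^ 2 + 1 / (4 * t) * g x ^ 2 - f x * g x = (2 * t * f x - g x) ^ 2 / (4 * t) := by
    field_simp
    ring
  have h2 : 0 ≤ (2 * t * f x - g x) ^ 2 / (4 * t) := by positivity
  simp only
  linarith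

theorem sq_int_nonneg (f : Pt → ℝ) : 0 ≤ ∫ x, f x ^ 2 := integral_nonneg fun _ => sq_nonneg _

theorem cs {f g : Pt → ℝ} (hf : MemLp f 2) (hg : MemLp g 2) :
    (∫ x, f x * g x) ^ 2 ≤ (∫ x, f x ^ 2) * ∫ x, g x ^ 2 := by
  have key : ∀ t : ℝ, 0 ≤ (∫ x, f x ^ 2) * (t * t) + (2 * ∫ x, f x * g x) * t + ∫ x, g x ^ 2 := by
    intro t
    have e : ∫ x, (t * f x + g x) ^ 2 =
        (∫ x, f x ^ 2) * (t * t) + (2 * ∫ x, f x * g x) * t + ∫ x, g x ^ 2 := by
      have e1 : ∀ x, (t * f x + g x) ^ 2 = (t * t) * f x ^ 2 + (2 * t) * (f x * g x) + g x ^ 2 :=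
        fun x => by ring
      simp_rw [e1]
      have i1 : Integrable fun x => (t * t) * f x ^ 2 + (2 * t) * (f x * g x) :=
        (hf.integrable_sq.const_mul _).add ((int_mul hf hg).const_mul _)
      rw [integral_add i1 hg.integrable_sq, integral_add (hf.integrable_sq.const_mul _)
        ((int_mul hf hg).const_mul _), integral_const_mul, integral_const_mul]
      ring
    rw [← e]
    exact integral_nonneg fun _ => sq_nonneg _
  have := discrim_le_zero key
  rw [discrim] at this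
  nlinarith

theorem vol {S : Set Pt} {c : Pt} {r : ℝ} (hr : 0 ≤ r) (h : ∀ x ∈ S, nrm (x - c) ≤ r) :
    volume S ≠ ⊤ ∧ volume.real S ≤ 8 * r ^ 3 := by
  have hs : S ⊆ Metric.closedBall c r := fun x hx => by
    rw [Metric.mem_closedBall, dist_eq_norm]
    exact (norm_le_nrm _).trans (h x hx)
  have hv : volume (Metric.closedBall c r) = ENNReal.ofReal ((2 * r) ^ 3) := by
    rw [Real.volume_pi_closedBall c hr]
    simp
  have hle : volume S ≤ ENNReal.ofReal ((2 * r) ^ 3) := hv ▸ measure_mono hs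
  refine ⟨ne_top_of_le_ne_top ENNReal.ofReal_ne_top hle, ?_⟩
  have := ENNReal.toReal_le_of_le_ofReal (by positivity) hle
  rw [Measure.real]
  linarith [show (2 * r) ^ 3 = 8 * r ^ 3 by ring]

/-- Integral over a set of finite volume. -/
theorem set_le {S : Set Pt} (hS : MeasurableSet S) (hv : volume S ≠ ⊤) {F H : Pt → ℝ}
    (hF : Integrable F) (hH : Integrable H) (h0 : ∀ x, 0 ≤ H x) {c v : ℝ} (hc : 0 ≤ c)
    (hvv : volume.real S ≤ v) (h : ∀ᵐ x, x ∈ S → F x ≤ c + H x) :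
    ∫ x in S, F x ≤ c * v + ∫ x, H x := by
  have h1 : ∫ x in S, F x ≤ ∫ x in S, (c + H x) := by
    refine setIntegral_mono_on_ae hF.integrableOn
      ((integrableOn_const hv).add hH.integrableOn) hS h
  have i1 : IntegrableOn (fun _ : Pt => c) S := integrableOn_const hv
  rw [integral_add i1 hH.integrableOn, setIntegral_const, smul_eq_mul] at h1
  have h2 : ∫ x in S, H x ≤ ∫ x, H x :=
    setIntegral_le_integral hH (Eventually.of_forall h0)
  nlinarith [mul_le_mul_of_nonneg_left hvv hc]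

theorem ek_le (j : Fin 3) : ‖ek j‖ ≤ 1 := by
  unfold ek
  rw [Pi.norm_single]
  simp

theorem memLp_ind {S : Set Pt} (hS : MeasurableSet S) (hv : volume S ≠ ⊤) (c : ℝ) :
    MemLp (S.indicator fun _ => c) 2 := memLp_indicator_const 2 hS c (Or.inr hv)

theorem int_ind_sq {S : Set Pt} (hS : MeasurableSet S) (c : ℝ) :
    ∫ x, S.indicator (fun _ => c) x ^ 2 = c ^ 2 * volume.real S := by
  have e : ∀ x, S.indicator (fun _ => c) x ^ 2 = S.indicator (fun _ => c ^ 2) x := fun x => by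
    by_cases hx : x ∈ S <;> simp [hx]
  simp_rw [e]
  rw [integral_indicator hS, setIntegral_const, smul_eq_mul, mul_comm]

theorem meas_Qd : MeasurableSet Qd :=
  ((isOpen_lt continuous_const (continuous_apply 0)).inter
    (isOpen_lt continuous_const (continuous_apply 1))).measurableSet

theorem meas_Sh (R s t : ℝ) : MeasurableSet (Sh R s t) :=
  ((isClosed_le continuous_const continuous_nrm).inter
    (isClosed_le continuous_nrm continuous_const)).measurableSet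

theorem meas_ball (x : Pt) (s : ℝ) : MeasurableSet {y : Pt | nrm (y - x) ≤ s} :=
  (isClosed_le (continuous_nrm.comp (continuous_id.sub continuous_const))
    continuous_const).measurableSet

theorem ball_sub {R : ℝ} {x : Pt} (hx : x ∈ Sh R (1 / 4) (3 / 4)) :
    {y : Pt | nrm (y - x) ≤ 1 / 8 / R} ⊆ Sh R (1 / 8) (7 / 8) := by
  intro y hy
  have hy' : nrm (y - x) ≤ 1 / 8 / R := hy
  have h1 := nrm_add_le (y - x) x
  have h2 := nrm_add_le (x - y) y
  rw [sub_add_cancel] at h1 h2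
  rw [nrm_sub_comm] at h2
  obtain ⟨a, b⟩ := hx
  have e1 : 1 / 4 / R = 1 / 8 / R + 1 / 8 / R := by ring
  have e2 : 7 / 8 / R = 3 / 4 / R + 1 / 8 / R := by ring
  exact ⟨by linarith, by linarith⟩

theorem q1_split {q u T : Pt → ℝ} {g gT : Fin 3 → Pt → ℝ} {u' : Pt → ℝ} {g' : Fin 3 → Pt → ℝ}
    (hq : FB q) (hu : H1 u g) (hu' : H1 u' g') (hT : H1 T gT) (c : ℝ) :
    q1 q (fun x => c * u x - u' x) (fun k x => c * g k x - g' k x) T gT =
      c * q1 q u g T gT - q1 q u' g' T gT := by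
  have e1 : ∀ k, ∫ x, (c * g k x - g' k x) * gT k x =
      c * (∫ x, g k x * gT k x) - ∫ x, g' k x * gT k x := fun k => by
    rw [← integral_const_mul, ← integral_sub ((int_mul (hu.2 k).1 (hT.2 k).1).const_mul c)
      (int_mul (hu'.2 k).1 (hT.2 k).1)]
    exact integral_congr_ae (Eventually.of_forall fun x => by ring)
  have e2 : ∫ x, q x * ((c * u x - u' x) * T x) =
      c * (∫ x, q x * (u x * T x)) - ∫ x, q x * (u' x * T x) := by
    rw [← integral_const_mul, ← integral_sub ((hq.integrable hu hT).const_mul c)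
      (hq.integrable hu' hT)]
    exact integral_congr_ae (Eventually.of_forall fun x => by ring)
  simp only [q1, e1, e2, Finset.sum_sub_distrib, ← Finset.mul_sum]
  ring

end I0

/-- The hypotheses of Part I. -/
structure ICtx (M : Mol) (E₁ k : ℝ) : Prop where
  ok : M.OK
  e1 : |E₁ - M.E| ≤ 1
  wt : Wt M.U E₁ M.R M.P M.sm M.nu M.G M.φ M.N M.A
  th : Th M.U E₁ M.R M.P M.sm M.nu M.G M.Θ M.φ M.N M.A
  hk : |k + M.E| ≤ 20 * (M.lam / Lc)

/-- The exponential weight. -/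
noncomputable def Mol.w (M : Mol) (x : Pt) : ℝ := Real.exp (M.G x)

namespace ICtx

variable {M : Mol} {E₁ k : ℝ} (c : ICtx M E₁ k)
include c

theorem P100 : 10 ^ 100 ≤ M.P := le_trans (by norm_num) c.ok.P_ge
theorem P3 : 1000 ≤ M.P := le_trans (by norm_num) c.ok.P_ge
theorem P1 : 1 ≤ M.P := le_trans (by norm_num) c.ok.P_ge
theorem P0 : 0 < M.P := lt_of_lt_of_le one_pos c.P1
theorem s0 : 0 < M.sm := c.ok.sm_pos
theorem l0 : 0 < M.lam := c.ok.ob.lam_pos
theorem R0 : 0 < M.R := lt_of_lt_of_le (by norm_num) c.ok.R_ge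

theorem Ps (j : ℕ) (hj : j ≤ 999) : M.P ^ j * M.sm ≤ 1 / 1000 := by
  have h1 : M.P ^ j * 1000 ≤ M.P ^ 1000 := by
    calc M.P ^ j * 1000 ≤ M.P ^ 999 * M.P :=
          mul_le_mul (pow_le_pow_right₀ c.P1 hj) c.P3 (by norm_num) (pow_nonneg c.P0.le _)
      _ = M.P ^ 1000 := by ring
  nlinarith [c.ok.P_le, c.s0]

theorem s1 : M.sm ≤ 1 / 1000 := by simpa using c.Ps 0 (by norm_num)

theorem e_le : 1000 * (M.lam / Lc) ≤ gam := by
  have h1 : M.lam / Lc ≤ M.lam := div_le_self c.l0.le (by unfold Lc; norm_num)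
  have h2 := c.ok.ob.lam_le
  have h3 := c.l0
  nlinarith

theorem e_small : 20 * (M.lam / Lc) ≤ 1 / 4 := by
  have h1 := c.e_le
  have h2 : gam ≤ 1 := by unfold gam; norm_num
  linarith

theorem kE : |k + E₁| ≤ 3 / 2 := by
  have h1 := abs_le.1 c.hk
  have h2 := abs_le.1 c.e1
  have h3 := c.e_small
  exact abs_le.2 ⟨by linarith, by linarith⟩

omit c in
theorem gam_pos : (0 : ℝ) < gam := by unfold gam; positivity

theorem beta_le : M.lam / gam ≤ M.P * M.sm ^ 12 := by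
  have e : M.lam / gam = 10 ^ 100 * M.lam := by unfold gam; field_simp
  rw [e]
  exact mul_le_mul c.P100 c.ok.lam_le c.l0.le c.P0.le

theorem beta_small : M.lam / gam ≤ 1 / 1000 := by
  rw [div_le_iff₀ gam_pos]
  have h2 := c.ok.ob.lam_le
  have h3 := c.l0
  nlinarith

theorem beta0 : 0 ≤ M.lam / gam := div_nonneg c.l0.le gam_pos.le

theorem fb : FB fun x => M.V x + k := c.ok.ob.fb.add_const k

theorem volN : volume M.N ≠ ⊤ ∧ volume.real M.N ≤ M.P ^ 4 := by
  obtain ⟨h1, h2⟩ := I0.vol (S := M.N) (c := 0) c.R0.le fun x hx => by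
    rw [sub_zero]; exact c.wt.NR x hx
  refine ⟨h1, h2.trans ?_⟩
  have h3 : M.R ^ 3 ≤ M.P ^ 3 := pow_le_pow_left₀ c.R0.le c.ok.R_le 3
  have h4 := c.P3
  have h5 : 0 ≤ M.P ^ 3 := pow_nonneg c.P0.le 3
  nlinarith

theorem volB : volume {x : Pt | nrm x ≤ M.R + 2} ≠ ⊤ ∧
    volume.real {x : Pt | nrm x ≤ M.R + 2} ≤ M.P ^ 4 := by
  have hR := c.ok.R_ge
  obtain ⟨h1, h2⟩ := I0.vol (S := {x : Pt | nrm x ≤ M.R + 2}) (c := 0) (r := M.R + 2)
    (by linarith) fun x hx => by rw [sub_zero]; exact hx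
  refine ⟨h1, h2.trans ?_⟩
  have h3 : (M.R + 2) ^ 3 ≤ (2 * M.P) ^ 3 :=
    pow_le_pow_left₀ (by linarith) (by linarith [c.ok.R_le]) 3
  have h4 := c.P3
  have h5 : 0 ≤ M.P ^ 3 := pow_nonneg c.P0.le 3
  nlinarith

theorem q_nonneg {x : Pt} (hx : x ∈ Sh M.R (1 / 8) (7 / 8)) : 0 ≤ M.V x + k := by
  have hR := c.ok.R_ge
  have h1 := (abs_le.1 (c.ok.vac x hx.1)).1
  have h0 : 0 < 1 / 8 / M.R := div_pos (by norm_num) c.R0
  have hr : M.R ≤ nrm x := by linarith [hx.1]
  have hr0 : 0 < nrm x := by linarith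
  have h2 : 1 / nrm x ^ 2 ≤ 1 := by
    rw [div_le_one (by positivity)]
    nlinarith
  have h3 : M.Z / nrm x ≤ M.R ^ 2 + 1 := by
    rw [div_le_iff₀ hr0]
    have := (abs_le.1 c.ok.Z_eq).2
    nlinarith [mul_le_mul_of_nonneg_left hr (by positivity : 0 ≤ M.R ^ 2 + 1)]
  have h4 := (abs_le.1 c.hk).1
  have h5 := (abs_le.1 c.ok.E_eq).2
  have h6 := c.e_small
  nlinarith

theorem notN {x : Pt} (hx : x ∈ Sh M.R (1 / 8) (7 / 8)) : x ∉ M.N := fun h => by
  have h0 : 0 < 1 / 8 / M.R := div_pos (by norm_num) c.R0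
  linarith [hx.1, c.wt.NR x h]

theorem w1 : ContDiff ℝ 1 M.w := c.wt.G1.exp

omit c in
theorem w0 (x : Pt) : 0 < M.w x := Real.exp_pos _

theorem pdw (j : Fin 3) (x : Pt) : pd j M.w x = M.w x * pd j M.G x := by
  have h := ((c.wt.G1.differentiable one_ne_zero x).hasFDerivAt.exp).fderiv
  unfold pd
  rw [show M.w = fun x => Real.exp (M.G x) from rfl, h]
  simp

theorem pdG (j : Fin 3) (x : Pt) : pd j M.G x ^ 2 ≤ M.P :=
  (Finset.single_le_sum (f := fun j => pd j M.G x ^ 2) (fun _ _ => sq_nonneg _)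
    (Finset.mem_univ j)).trans (c.wt.Gd x)

theorem wb : ∃ C, (∀ x, |M.w x| ≤ C) ∧ ∀ x j, |pd j M.w x| ≤ C := by
  obtain ⟨C, hC⟩ := c.wt.Gb
  have h1 : ∀ x, M.w x ≤ Real.exp C := fun x => Real.exp_le_exp.2 (abs_le.1 (hC x)).2
  refine ⟨Real.exp C * M.P, fun x => ?_, fun x j => ?_⟩
  · rw [abs_of_pos (w0 x)]
    nlinarith [h1 x, c.P1, Real.exp_pos C]
  · rw [c.pdw, abs_mul, abs_of_pos (w0 x)]
    have h2 : |pd j M.G x| ≤ M.P := by
      apply abs_le_of_sq_le_sq' _ c.P0.le |> fun h => abs_le.2 h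
      nlinarith [c.pdG j x, c.P1]
    exact mul_le_mul (h1 x) h2 (abs_nonneg _) (Real.exp_pos C).le

theorem h1w {v : Pt → ℝ} {g : Fin 3 → Pt → ℝ} (hv : H1 v g) :
    H1 (fun x => M.w x * v x) fun j x => M.w x * g j x + pd j M.w x * v x := by
  obtain ⟨C, h0, h1⟩ := c.wb
  exact WD.mul (h1_iff.1 hv) I0.ek_le c.w1 h0 h1

theorem h1w2 {v : Pt → ℝ} {g : Fin 3 → Pt → ℝ} (hv : H1 v g) :
    H1 (fun x => M.w x ^ 2 * v x) fun j x => M.w x ^ 2 * g j x + 2 * M.w x * pd j M.w x * v x :=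
  WD.congr (h1_iff.1 (c.h1w (c.h1w hv))) (Eventually.of_forall fun x => by ring)
    fun j => Eventually.of_forall fun x => by ring

end ICtx

end Vale.Agent.P363
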