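import Vale.Agent.P363.I0

/-! Part I, file 1: the Agmon estimate and the bounds for the amplitude. -/

namespace Vale.Agent.P363

open MeasureTheory Vale.Agent.P370 Filter Topology
open scoped ContDiff

theorem I1.q1_sq (q v : Pt → ℝ) (g : Fin 3 → Pt → ℝ) :
    q1 q v g v g = 1 / 2 * (∑ j, ∫ x, g j x ^ 2) + ∫ x, q x * v x ^ 2 := by
  simp only [q1, sq]

theorem I1.bdd_int {b v : Pt → ℝ} (hb : Measurable b) {C : ℝ} (hC : ∀ x, |b x| ≤ C)
    (hv : MemLp v 2) : Integrable fun x => b x * v x ^ 2 :=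
  hv.integrable_sq.bdd_mul hb.aestronglyMeasurable (Eventually.of_forall hC)

theorem I1.K_nonneg (g : Fin 3 → Pt → ℝ) : 0 ≤ ∑ j, ∫ x, g j x ^ 2 :=
  Finset.sum_nonneg fun _ _ => I0.sq_int_nonneg _

namespace ICtx

variable {M : Mol} {E₁ k : ℝ} (c : ICtx M E₁ k)
include c

theorem gsq_meas : Measurable (gsq M.G) := by
  have h : ∀ j, Continuous (pd j M.G) := fun j =>
    (c.wt.G1.continuous_fderiv one_ne_zero).clm_apply continuous_const
  exact (continuous_finsetSum _ fun j _ => (h j).pow 2).measurable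

theorem gsq_abs (x : Pt) : |gsq M.G x| ≤ M.P := by
  rw [abs_of_nonneg (Finset.sum_nonneg fun _ _ => sq_nonneg _)]
  exact c.wt.Gd x

theorem expand {v : Pt → ℝ} (hv : MemLp v 2) :
    ∫ x, (4 + E₁ + 1 / 2 * gsq M.G x - M.P * M.N.indicator (fun _ => 1) x) * v x ^ 2 =
      (4 + E₁) * (∫ x, v x ^ 2) + 1 / 2 * (∫ x, gsq M.G x * v x ^ 2) -
        M.P * ∫ x in M.N, v x ^ 2 := by
  have i1 := hv.integrable_sq
  have i2 := I1.bdd_int c.gsq_meas c.gsq_abs hv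
  have i3 : Integrable fun x => (4 + E₁) * v x ^ 2 + 1 / 2 * (gsq M.G x * v x ^ 2) :=
    (i1.const_mul _).add (i2.const_mul _)
  have i4 : Integrable fun x => M.P * M.N.indicator (fun x => v x ^ 2) x :=
    (i1.indicator c.wt.mN).const_mul _
  rw [← integral_indicator c.wt.mN, ← integral_const_mul, ← integral_const_mul,
    ← integral_const_mul, ← integral_add (i1.const_mul _) (i2.const_mul _), ← integral_sub i3 i4]
  refine integral_congr_ae (Eventually.of_forall fun x => ?_)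
  by_cases hx : x ∈ M.N <;> simp [hx] <;> ring

theorem ag_h1 {v : Pt → ℝ} {g : Fin 3 → Pt → ℝ} (hv : H1 v g) :
    4 * (∫ x, v x ^ 2) ≤ q1 M.U v g v g - E₁ * (∫ x, v x ^ 2) -
      1 / 2 * (∫ x, gsq M.G x * v x ^ 2) + M.P * ∫ x in M.N, v x ^ 2 := by
  have hm : Measurable fun x => 4 + E₁ + 1 / 2 * gsq M.G x - M.P * M.N.indicator (fun _ => 1) x :=
    (measurable_const.add (c.gsq_meas.const_mul _)).sub
      ((measurable_const.indicator c.wt.mN).const_mul _)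
  have hb : ∀ x, |4 + E₁ + 1 / 2 * gsq M.G x - M.P * M.N.indicator (fun _ => 1) x| ≤
      4 + |E₁| + 2 * M.P := fun x => by
    have h1 := abs_le.1 (c.gsq_abs x)
    have h2 := le_abs_self E₁
    have h3 := neg_abs_le E₁
    have h4 := c.P0
    by_cases hx : x ∈ M.N <;> simp only [hx, Set.indicator_of_mem, Set.indicator_of_notMem,
      not_false_eq_true] <;> rw [abs_le] <;> constructor <;> linarith
  have h := low_h1 (fb_of_bdd c.ok.mU c.ok.Ub) hm hb (c := 0) (fun ψ hψ => by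
    have := c.wt.ag ψ hψ
    rw [c.expand (C1c.h1 hψ).1]
    linarith) hv
  rw [c.expand hv.1] at h
  linarith

theorem E1_le : |E₁| ≤ 2 * M.P ^ 2 := by
  have h1 := abs_le.1 c.e1
  have h2 := abs_le.1 c.ok.E_eq
  have h3 := c.ok.R_le
  have h4 := c.ok.R_ge
  have h5 : M.R ^ 2 ≤ M.P ^ 2 := pow_le_pow_left₀ c.R0.le h3 2
  rw [abs_le]
  constructor <;> nlinarith

theorem q1_V {v : Pt → ℝ} {g : Fin 3 → Pt → ℝ} (hv : H1 v g) :
    q1 M.U v g v g - M.sm * ((∑ j, ∫ x, g j x ^ 2) + ∫ x, v x ^ 2) + k * ∫ x, v x ^ 2 ≤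
      q1 (fun x => M.V x + k) v g v g := by
  have i1 := I1.bdd_int c.ok.mU c.ok.Ub hv.1
  obtain ⟨i2, b2⟩ := c.ok.W1.h1 hv
  have i3 := I1.bdd_int c.ok.mW2 (C := 1) (fun x => by
    rw [abs_of_nonneg (c.ok.W2 x).1]; exact (c.ok.W2 x).2) hv.1
  have i4 := hv.1.integrable_sq.const_mul k
  have i5 : Integrable fun x => M.U x * v x ^ 2 + M.W₁ x * v x ^ 2 := i1.add i2
  have i6 : Integrable fun x => M.U x * v x ^ 2 + M.W₁ x * v x ^ 2 + M.W₂ x * v x ^ 2 := i5.add i3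
  have e : ∫ x, (M.V x + k) * v x ^ 2 = (∫ x, M.U x * v x ^ 2) + (∫ x, M.W₁ x * v x ^ 2) +
      (∫ x, M.W₂ x * v x ^ 2) + k * ∫ x, v x ^ 2 := by
    rw [← integral_const_mul, ← integral_add i1 i2, ← integral_add i5 i3, ← integral_add i6 i4]
    refine integral_congr_ae (Eventually.of_forall fun x => ?_)
    simp only [c.ok.split x]
    ring
  have b3 : 0 ≤ ∫ x, M.W₂ x * v x ^ 2 :=
    integral_nonneg fun x => mul_nonneg (c.ok.W2 x).1 (sq_nonneg _)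
  have b4 : -∫ x, |M.W₁ x| * v x ^ 2 ≤ ∫ x, M.W₁ x * v x ^ 2 := by
    rw [← integral_neg]
    have i7 : Integrable fun x => |M.W₁ x| * v x ^ 2 := by
      refine i2.abs.congr (Eventually.of_forall fun x => ?_)
      simp only [abs_mul, abs_pow, sq_abs]
    refine integral_mono i7.neg i2 fun x => ?_
    have := neg_abs_le (M.W₁ x)
    simp only
    nlinarith [sq_nonneg (v x)]
  rw [I1.q1_sq, I1.q1_sq, e]
  linarith

theorem star {v : Pt → ℝ} {g : Fin 3 → Pt → ℝ} (hv : H1 v g) :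
    2 * (∫ x, v x ^ 2) + 1 / (4 * M.P ^ 3) * ∑ j, ∫ x, g j x ^ 2 ≤
      q1 (fun x => M.V x + k) v g v g - 1 / 2 * (∫ x, gsq M.G x * v x ^ 2) +
        M.P * ∫ x in M.N, v x ^ 2 := by
  have h1 := c.ag_h1 hv
  have h2 := c.q1_V hv
  have P0 := c.P0
  have h3 : -(M.P * ∫ x, v x ^ 2) ≤ ∫ x, M.U x * v x ^ 2 := by
    rw [← integral_const_mul, ← integral_neg]
    refine integral_mono (hv.1.integrable_sq.const_mul _).neg
      (I1.bdd_int c.ok.mU c.ok.Ub hv.1) fun x => ?_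
    have := (abs_le.1 (c.ok.Ub x)).1
    simp only
    nlinarith [sq_nonneg (v x)]
  have h4 : ∫ x, gsq M.G x * v x ^ 2 ≤ M.P * ∫ x, v x ^ 2 := by
    rw [← integral_const_mul]
    exact integral_mono (I1.bdd_int c.gsq_meas c.gsq_abs hv.1) (hv.1.integrable_sq.const_mul _)
      fun x => mul_le_mul_of_nonneg_right (c.wt.Gd x) (sq_nonneg _)
  have h5 : 0 ≤ ∫ x in M.N, v x ^ 2 := integral_nonneg fun _ => sq_nonneg _
  have h6 := I1.q1_sq M.U v g
  have hn := I0.sq_int_nonneg v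
  have hK := I1.K_nonneg g
  generalize ∫ x, v x ^ 2 = n at *
  generalize ∑ j, ∫ x, g j x ^ 2 = K at *
  generalize ∫ x, gsq M.G x * v x ^ 2 = m at *
  generalize ∫ x in M.N, v x ^ 2 = N at *
  generalize q1 M.U v g v g = Q at *
  generalize q1 (fun x => M.V x + k) v g v g = Q' at *
  generalize ∫ x, M.U x * v x ^ 2 = u at *
  have hE := (abs_le.1 c.E1_le).2
  have hk := (abs_le.1 c.kE).1
  have P3 := c.P3
  set t := 1 / M.P ^ 3 with ht
  have t0 : 0 < t := by positivity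
  have tP : t * M.P ^ 3 = 1 := by rw [ht]; field_simp
  have e4 : 1 / (4 * M.P ^ 3) = t / 4 := by rw [ht]; field_simp
  have hs : M.sm ≤ t / 4 := by
    have := c.Ps 3 (by norm_num)
    have h7 : M.sm = t * (M.P ^ 3 * M.sm) := by rw [← mul_assoc, tP, one_mul]
    rw [h7]
    nlinarith
  have tP2 : t * (4 * M.P ^ 2) ≤ 1 / 100 := by
    have h8 : 0 ≤ t * M.P ^ 2 := by positivity
    nlinarith
  have t1 : t ≤ 1 / 400 := by nlinarith [one_le_pow₀ c.P1 (n := 2)]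
  have b1 : K / 2 - 4 * M.P ^ 2 * n ≤ Q - E₁ * n - 1 / 2 * m + M.P * N := by
    have a1 : E₁ * n ≤ 2 * M.P ^ 2 * n := mul_le_mul_of_nonneg_right hE hn
    have a2 : M.P * n ≤ M.P ^ 2 * n := mul_le_mul_of_nonneg_right (by nlinarith) hn
    have a3 : 0 ≤ M.P * N := mul_nonneg P0.le h5
    have a4 : 0 ≤ M.P * n := mul_nonneg P0.le hn
    linarith
  have b2 := mul_le_mul_of_nonneg_left b1 t0.le
  have b3 := mul_le_mul_of_nonneg_left h1 (by linarith : 0 ≤ 1 - t)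
  have b4 : t * (4 * M.P ^ 2) * n ≤ 1 / 100 * n := mul_le_mul_of_nonneg_right tP2 hn
  have b5 : t * n ≤ 1 / 400 * n := mul_le_mul_of_nonneg_right t1 hn
  have b6 : M.sm * K ≤ t / 4 * K := mul_le_mul_of_nonneg_right hs hK
  have b7 : M.sm * n ≤ 1 / 1000 * n := mul_le_mul_of_nonneg_right c.s1 hn
  have b8 : -(3 / 2) * n ≤ (k + E₁) * n := mul_le_mul_of_nonneg_right hk hn
  rw [e4]
  linarith

theorem agmon {v : Pt → ℝ} {g : Fin 3 → Pt → ℝ} (hv : H1 v g) :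
    2 * (∫ x, (M.w x * v x) ^ 2) +
      1 / (4 * M.P ^ 3) * ∑ j, ∫ x, (M.w x * g j x + pd j M.w x * v x) ^ 2 ≤
      q1 (fun x => M.V x + k) v g (fun x => M.w x ^ 2 * v x)
        (fun j x => M.w x ^ 2 * g j x + 2 * M.w x * pd j M.w x * v x) +
        M.P * ∫ x in M.N, (M.w x * v x) ^ 2 := by
  obtain ⟨C, h0, h1⟩ := c.wb
  rw [q1_weight c.fb hv c.w1 h0 h1]
  have h := c.star (c.h1w hv)
  have e : ∫ x, gsq M.w x * v x ^ 2 = ∫ x, gsq M.G x * (M.w x * v x) ^ 2 := by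
    refine integral_congr_ae (Eventually.of_forall fun x => ?_)
    simp only [gsq, c.pdw, Fin.sum_univ_three]
    ring
  rw [e]
  exact h

theorem wN {x : Pt} (hx : x ∈ M.N) : M.w x ^ 2 ≤ 1 / M.sm ^ 14 := by
  have h := c.wt.GN x hx
  have s0 := c.s0
  rw [le_div_iff₀ (by positivity)]
  have h0 : 0 ≤ M.w x * M.sm ^ 7 := mul_nonneg (w0 x).le (by positivity)
  have : (M.w x * M.sm ^ 7) ^ 2 ≤ 1 := pow_le_one₀ h0 h
  calc M.w x ^ 2 * M.sm ^ 14 = (M.w x * M.sm ^ 7) ^ 2 := by ring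
    _ ≤ 1 := this

/-- The weighted bound for the amplitude. -/
theorem wa_le {a e : Pt → ℝ} {ga : Fin 3 → Pt → ℝ} (ha : H1 a ga)
    (hs : Sub (fun x => M.V x + k) 0 a ga) (h0 : ∀ x, 0 ≤ a x) (he : MemLp e 2)
    (hb : ∫ x, e x ^ 2 ≤ M.lam / gam) (hc : ∀ᵐ x, a x ≤ (∑ i, M.φ i x) + e x) :
    ∫ x, (M.w x * a x) ^ 2 ≤ M.P ^ 8 / M.sm ^ 2 := by
  have h1 := c.agmon ha
  have h2 := hs.h1 c.fb ha (MemLp.zero) (c.h1w2 ha)
    (Eventually.of_forall fun x => mul_nonneg (sq_nonneg _) (h0 x))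
  simp only [Pi.zero_apply, zero_mul, integral_zero] at h2
  have P0 := c.P0
  have s0 := c.s0
  have h3 : ∫ x in M.N, (M.w x * a x) ^ 2 ≤ 50 * M.P ^ 2 * M.P ^ 4 +
      ∫ x, 2 / M.sm ^ 14 * e x ^ 2 := by
    refine I0.set_le c.wt.mN c.volN.1 (c.h1w ha).1.integrable_sq (he.integrable_sq.const_mul _)
      (fun x => by positivity) (by positivity) c.volN.2 ?_
    filter_upwards [hc] with x hx hN
    have a1 : M.w x * ∑ i, M.φ i x ≤ 5 * M.P := by
      rw [Finset.mul_sum]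
      have := Finset.sum_le_sum fun i (_ : i ∈ Finset.univ) => c.wt.φN i x hN
      simpa [Mol.w] using this
    have a2 : M.w x * a x ≤ 5 * M.P + |M.w x * e x| := by
      have := mul_le_mul_of_nonneg_left hx (w0 (M := M) x).le
      have := le_abs_self (M.w x * e x)
      linarith
    have a3 : (M.w x * a x) ^ 2 ≤ (5 * M.P + |M.w x * e x|) ^ 2 :=
      pow_le_pow_left₀ (mul_nonneg (w0 x).le (h0 x)) a2 2
    have a4 : |M.w x * e x| ^ 2 ≤ 1 / M.sm ^ 14 * e x ^ 2 := by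
      rw [sq_abs, mul_pow]
      exact mul_le_mul_of_nonneg_right (c.wN hN) (sq_nonneg _)
    have a5 : 2 / M.sm ^ 14 * e x ^ 2 = 2 * (1 / M.sm ^ 14 * e x ^ 2) := by ring
    nlinarith [sq_nonneg (5 * M.P - |M.w x * e x|)]
  rw [integral_const_mul] at h3
  have h4 : 2 / M.sm ^ 14 * ∫ x, e x ^ 2 ≤ 2 * M.P / M.sm ^ 2 := by
    calc 2 / M.sm ^ 14 * ∫ x, e x ^ 2 ≤ 2 / M.sm ^ 14 * (M.P * M.sm ^ 12) :=
          mul_le_mul_of_nonneg_left (hb.trans c.beta_le) (by positivity)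
      _ = 2 * M.P / M.sm ^ 2 := by field_simp
  have h5 : 0 ≤ 1 / (4 * M.P ^ 3) * ∑ j, ∫ x, (M.w x * ga j x + pd j M.w x * a x) ^ 2 :=
    mul_nonneg (by positivity) (I1.K_nonneg _)
  have h6 : M.P ^ 6 ≤ M.P ^ 6 / M.sm ^ 2 := by
    rw [le_div_iff₀ (by positivity)]
    have : M.sm ^ 2 ≤ 1 := pow_le_one₀ s0.le (by linarith [c.s1])
    nlinarith [pow_pos P0 6]
  have h7 : M.P / M.sm ^ 2 ≤ M.P ^ 6 / M.sm ^ 2 :=
    div_le_div_of_nonneg_right (le_self_pow₀ c.P1 (by norm_num)) (by positivity)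
  have h8 : ∫ x in M.N, (M.w x * a x) ^ 2 ≤ 52 * (M.P ^ 6 / M.sm ^ 2) := by
    have : 2 * M.P / M.sm ^ 2 = 2 * (M.P / M.sm ^ 2) := by ring
    nlinarith
  have h9 := mul_le_mul_of_nonneg_left h8 P0.le
  have h10 : M.P ^ 8 / M.sm ^ 2 = M.P * (M.P * (M.P ^ 6 / M.sm ^ 2)) := by ring
  have h11 : 0 ≤ M.P * (M.P ^ 6 / M.sm ^ 2) := by positivity
  rw [h10]
  nlinarith [c.P3]

/-- Integrals over small balls in the shell. -/
theorem ball_le {v : Pt → ℝ} {g : Fin 3 → Pt → ℝ} (hv : H1 v g) {B : Set Pt} (hB : MeasurableSet B)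
    (hs : B ⊆ Sh M.R (1 / 8) (7 / 8)) :
    ∫ y in B, v y ^ 2 ≤ (M.P * M.nu) ^ 2 * ∫ x, (M.w x * v x) ^ 2 := by
  have i1 := ((c.h1w hv).1.integrable_sq).const_mul ((M.P * M.nu) ^ 2)
  rw [← integral_const_mul]
  refine le_trans (setIntegral_mono_on hv.1.integrable_sq.integrableOn i1.integrableOn hB
    fun x hx => ?_) (setIntegral_le_integral i1 (Eventually.of_forall fun x => by positivity))
  have h1 : 1 ≤ (M.P * M.nu * M.w x) ^ 2 := one_le_pow₀ (c.wt.Gsh x (hs hx))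
  calc v x ^ 2 = 1 * v x ^ 2 := (one_mul _).symm
    _ ≤ (M.P * M.nu * M.w x) ^ 2 * v x ^ 2 := mul_le_mul_of_nonneg_right h1 (sq_nonneg _)
    _ = _ := by ring

theorem s_cube : 1 / (1 / 8 / M.R) ^ 3 ≤ M.P ^ 4 := by
  have R0 := c.R0
  have e : 1 / (1 / 8 / M.R) ^ 3 = 512 * M.R ^ 3 := by field_simp; norm_num
  have h3 : M.R ^ 3 ≤ M.P ^ 3 := pow_le_pow_left₀ c.R0.le c.ok.R_le 3
  have h5 : 0 ≤ M.P ^ 3 := pow_nonneg c.P0.le 3
  rw [e]
  nlinarith [c.P3]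

end ICtx

end Vale.Agent.P363
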