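import Vale.Agent.P363.I0

/-! Part I, file 2: the inequality of Kato for nonnegative functions. -/

namespace Vale.Agent.P363

open MeasureTheory Vale.Agent.P370 Filter Topology
open scoped ContDiff

namespace I2

theorem c1c_bdd {ζ : Pt → ℝ} (h : C1c ζ) :
    ∃ C, (∀ x, |ζ x| ≤ C) ∧ ∀ x j, |fderiv ℝ ζ x (ek j)| ≤ C := by
  obtain ⟨C₁, h1⟩ := h.2.exists_bound_of_continuous h.1.continuous
  obtain ⟨C₂, h2⟩ := (h.2.fderiv ℝ).exists_bound_of_continuous (h.1.continuous_fderiv one_ne_zero)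
  refine ⟨max C₁ C₂, fun x => (h1 x).trans (le_max_left _ _), fun x j => ?_⟩
  have h3 := (fderiv ℝ ζ x).le_opNorm (ek j)
  have h4 := mul_le_mul (h2 x) (I0.ek_le j) (norm_nonneg _) ((norm_nonneg _).trans (h2 x))
  rw [mul_one] at h4
  exact (h3.trans h4).trans (le_max_right _ _)

theorem hd (m t : ℝ) : HasDerivAt (fun t => Real.arctan (m * t)) (1 / (1 + (m * t) ^ 2) * m) t := by
  have h : HasDerivAt (fun t => m * t) m t := by simpa using (hasDerivAt_id t).const_mul m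
  exact (Real.hasDerivAt_arctan (m * t)).comp t h

theorem step {v τ : Pt → ℝ} {g : Fin 3 → Pt → ℝ} {O : Set Pt} (hv : H1 v g) (h0 : ∀ x, 0 ≤ v x)
    (hg : ∀ x, v x = 0 → ∀ j, g j x = 0) (hτ : MemLp τ 2) (τ0 : ∀ x, 0 ≤ τ x)
    (h : ∀ T gT, H1 T gT → (∀ x, 0 ≤ T x) → (∀ x, x ∉ O → T x = 0) →
      (∀ x, v x = 0 → T x = 0 ∧ ∀ j, gT j x = 0) →
      1 / 2 * ∑ j, ∫ x, g j x * gT j x ≤ ∫ x, τ x * T x)
    {ζ : Pt → ℝ} (hζ : C1c ζ) (ζ0 : ∀ x, 0 ≤ ζ x) (hO : tsupport ζ ⊆ O) {m : ℝ} (hm : 0 ≤ m) :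
    1 / 2 * ∑ j, ∫ x, g j x * pd j ζ x * Real.arctan (m * v x) ≤
      Real.pi / 2 * ∫ x, τ x * ζ x := by
  obtain ⟨C, c0, c1⟩ := c1c_bdd hζ
  have hF : ContDiff ℝ 1 fun t => Real.arctan (m * t) :=
    Real.contDiff_arctan.comp (contDiff_const.mul contDiff_id)
  have hD : ∀ t, deriv (fun t => Real.arctan (m * t)) t = 1 / (1 + (m * t) ^ 2) * m :=
    fun t => (hd m t).deriv
  have hD0 : ∀ t, 0 ≤ deriv (fun t => Real.arctan (m * t)) t := fun t => by
    rw [hD]; positivity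
  have hD1 : ∀ t, |deriv (fun t => Real.arctan (m * t)) t| ≤ m := fun t => by
    rw [abs_of_nonneg (hD0 t), hD]
    have : 1 / (1 + (m * t) ^ 2) ≤ 1 := by
      rw [div_le_one (by positivity)]
      nlinarith [sq_nonneg (m * t)]
    nlinarith
  have w1 := WD.comp (h1_iff.1 hv) I0.ek_le hF (by simp) hD1
  have w2 : H1 _ _ := WD.mul w1 I0.ek_le hζ.1 c0 c1
  have a0 : ∀ x, 0 ≤ Real.arctan (m * v x) := fun x =>
    Real.arctan_nonneg.2 (mul_nonneg hm (h0 x))
  have h1 := h _ _ w2 (fun x => mul_nonneg (ζ0 x) (a0 x))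
    (fun x hx => by
      rw [image_eq_zero_of_notMem_tsupport fun h' => hx (hO h'), zero_mul])
    (fun x hx => ⟨by simp [hx], fun j => by simp [hx, hg x hx j]⟩)
  have hζ1 := C1c.h1 hζ
  have h2 : ∫ x, τ x * (ζ x * Real.arctan (m * v x)) ≤ Real.pi / 2 * ∫ x, τ x * ζ x := by
    rw [← integral_const_mul]
    refine integral_mono (I0.int_mul hτ w2.1) ((I0.int_mul hτ hζ1.1).const_mul _) fun x => ?_
    have := mul_le_mul_of_nonneg_left (Real.arctan_lt_pi_div_two (m * v x)).le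
      (mul_nonneg (τ0 x) (ζ0 x))
    simp only
    linarith
  refine le_trans ?_ (h1.trans h2)
  refine mul_le_mul_of_nonneg_left (Finset.sum_le_sum fun j _ => ?_) (by norm_num)
  have i1 : Integrable fun x => g j x * pd j ζ x * Real.arctan (m * v x) := by
    refine (I0.int_mul (hv.2 j).1 (hζ1.2 j).1).mul_bdd (c := Real.pi / 2)
      (Real.continuous_arctan.comp_aestronglyMeasurable (hv.1.1.const_mul m))
      (Eventually.of_forall fun x => ?_)
    rw [Real.norm_eq_abs, abs_of_nonneg (a0 x)]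
    exact (Real.arctan_lt_pi_div_two _).le
  refine integral_mono i1 (I0.int_mul (hv.2 j).1 (w2.2 j).1) fun x => ?_
  have := mul_nonneg (mul_nonneg (ζ0 x) (hD0 (v x))) (sq_nonneg (g j x))
  simp only [pd]
  nlinarith

end I2

/-- The inequality of Kato. -/
theorem I2.kato {v τ : Pt → ℝ} {g : Fin 3 → Pt → ℝ} {O : Set Pt} (hv : H1 v g) (h0 : ∀ x, 0 ≤ v x)
    (hg : ∀ x, v x = 0 → ∀ j, g j x = 0) (hτ : MemLp τ 2) (τ0 : ∀ x, 0 ≤ τ x)
    (h : ∀ T gT, H1 T gT → (∀ x, 0 ≤ T x) → (∀ x, x ∉ O → T x = 0) →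
      (∀ x, v x = 0 → T x = 0 ∧ ∀ j, gT j x = 0) →
      1 / 2 * ∑ j, ∫ x, g j x * gT j x ≤ ∫ x, τ x * T x)
    (ζ : Pt → ℝ) (hζ : C1c ζ) (ζ0 : ∀ x, 0 ≤ ζ x) (hO : tsupport ζ ⊆ O) :
    1 / 2 * ∑ j, ∫ x, g j x * pd j ζ x ≤ ∫ x, τ x * ζ x := by
  have hζ1 := C1c.h1 hζ
  have lim : ∀ j, Tendsto (fun m : ℕ => ∫ x, g j x * pd j ζ x * Real.arctan (m * v x)) atTop
      (𝓝 (∫ x, g j x * pd j ζ x * (Real.pi / 2))) := by
    intro j
    have i0 : Integrable fun x => g j x * pd j ζ x := I0.int_mul (hv.2 j).1 (hζ1.2 j).1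
    refine tendsto_integral_of_dominated_convergence (fun x => |g j x * pd j ζ x| * (Real.pi / 2))
      (fun m => i0.1.mul
        (Real.continuous_arctan.comp_aestronglyMeasurable (hv.1.1.const_mul (m : ℝ))))
      (i0.abs.mul_const _) (fun m => Eventually.of_forall fun x => ?_)
      (Eventually.of_forall fun x => ?_)
    · rw [Real.norm_eq_abs, abs_mul]
      refine mul_le_mul_of_nonneg_left (abs_le.2 ⟨?_, ?_⟩) (abs_nonneg _)
      · exact (Real.neg_pi_div_two_lt_arctan _).le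
      · exact (Real.arctan_lt_pi_div_two _).le
    · rcases (h0 x).eq_or_lt with hx | hx
      · simp [hg x hx.symm j]
      · refine Tendsto.const_mul _ ?_
        exact (Real.tendsto_arctan_atTop.mono_right nhdsWithin_le_nhds).comp
          (tendsto_natCast_atTop_atTop.atTop_mul_const hx)
  have lim2 := (tendsto_finsetSum Finset.univ fun j _ => lim j).const_mul (1 / 2)
  have h1 := le_of_tendsto' lim2 fun m =>
    I2.step hv h0 hg hτ τ0 h hζ ζ0 hO (Nat.cast_nonneg m)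
  simp only [integral_mul_const, ← Finset.sum_mul] at h1
  have hp : 0 < Real.pi / 2 := by positivity
  refine le_of_mul_le_mul_left ?_ hp
  linarith

end Vale.Agent.P363
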