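import Vale.Agent.P363.I1

/-! Part I, file 3: positive parts on the quadrant; the negative part of the orbital is small. -/

namespace Vale.Agent.P363

open MeasureTheory Vale.Agent.P370 Filter Topology
open scoped ContDiff

namespace I3

/-- Positive part on the quadrant. -/
noncomputable def pq (u : Pt → ℝ) : Pt → ℝ := Qd.indicator fun x => max (u x) 0

/-- Its gradient. -/
noncomputable def gq (u : Pt → ℝ) (g : Fin 3 → Pt → ℝ) (j : Fin 3) : Pt → ℝ :=
  Qd.indicator fun x => if 0 < u x then g j x else 0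

variable {u T q : Pt → ℝ} {g gT : Fin 3 → Pt → ℝ}

theorem h1pq (hu : H1 u g) (hi : ∀ i : Fin 3, i ≠ 2 → Integrable fun x => u x ^ 2 / x i ^ 2) :
    H1 (pq u) (gq u g) := by
  have h1 : H1 _ _ := WD.pos (h1_iff.1 hu) I0.ek_le
  refine H1.quad h1 fun i h2 => (hi i h2).mono' ?_ (Eventually.of_forall fun x => ?_)
  · exact ((h1.1.1.pow 2).aemeasurable.div
      ((measurable_pi_apply i).pow_const 2).aemeasurable).aestronglyMeasurable
  · rw [Real.norm_eq_abs, abs_of_nonneg (by positivity)]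
    refine div_le_div_of_nonneg_right ?_ (sq_nonneg _)
    rcases le_total (u x) 0 with h | h
    · rw [max_eq_right h]
      nlinarith [sq_nonneg (u x)]
    · rw [max_eq_left h]

theorem pq_nonneg (u : Pt → ℝ) (x : Pt) : 0 ≤ pq u x :=
  Set.indicator_nonneg (fun _ _ => le_max_right _ _) x

theorem pq_cases (u : Pt → ℝ) (g : Fin 3 → Pt → ℝ) (x : Pt) :
    (pq u x = 0 ∧ ∀ j, gq u g j x = 0) ∨
      (x ∈ Qd ∧ 0 < u x ∧ pq u x = u x ∧ ∀ j, gq u g j x = g j x) := by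
  by_cases hx : x ∈ Qd
  · by_cases h : 0 < u x
    · exact Or.inr ⟨hx, h, by simp [pq, hx, h.le], fun j => by simp [gq, hx, h]⟩
    · exact Or.inl ⟨by simp [pq, hx, not_lt.1 h], fun j => by simp [gq, hx, h]⟩
  · exact Or.inl ⟨by simp [pq, hx], fun j => by simp [gq, hx]⟩

theorem gq_zero {x : Pt} (h : pq u x = 0) (j : Fin 3) : gq u g j x = 0 := by
  rcases pq_cases u g x with h1 | h1
  · exact h1.2 j
  · exact absurd (h1.2.2.1 ▸ h) h1.2.1.ne'

theorem pq_mem {x : Pt} (hx : x ∈ Qd) : pq u x = max (u x) 0 := by simp [pq, hx]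

theorem q1_pq (h : ∀ x, pq u x = 0 → T x = 0 ∧ ∀ j, gT j x = 0) :
    q1 q u g T gT = q1 q (pq u) (gq u g) T gT := by
  have e1 : ∀ j x, g j x * gT j x = gq u g j x * gT j x := fun j x => by
    rcases pq_cases u g x with h1 | h1
    · rw [(h x h1.1).2 j, mul_zero, mul_zero]
    · rw [h1.2.2.2 j]
  have e2 : ∀ x, u x * T x = pq u x * T x := fun x => by
    rcases pq_cases u g x with h1 | h1
    · rw [(h x h1.1).1, mul_zero, mul_zero]
    · rw [h1.2.2.1]
  simp only [q1, e1, e2]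

variable {φ η : Fin 5 → Pt → ℝ}

theorem memLp_φ (h : Orb φ η) (a : Fin 5) : MemLp (φ a) 2 :=
  (memLp_two_iff_integrable_sq (h.bm a).1.aestronglyMeasurable).2
    (Integrable.of_integral_ne_zero (by rw [h.one a]; exact one_ne_zero))

theorem memLp_oo (h : Orb φ η) : MemLp (oo φ) 2 := by
  have h1 := ((((memLp_φ h 1).sub (memLp_φ h 2)).add (memLp_φ h 3)).sub
    (memLp_φ h 4)).const_mul (1 / 2)
  refine h1.ae_eq (Eventually.of_forall fun x => ?_)
  simp only [oo, Pi.sub_apply, Pi.add_apply]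
  ring

theorem rf_rf (i : Fin 3) (x : Pt) : rf i (rf i x) = x := by
  simp [rf]

theorem φ_Q (h : Orb φ η) {x : Pt} (hx : x ∈ Qd) : φ 2 x = 0 ∧ φ 3 x = 0 ∧ φ 4 x = 0 := by
  have a2 : ∀ y, φ 2 y = φ 1 (rf 0 y) := fun y => (h.symφ 0 (by decide) 2 y).symm
  have a3 : ∀ y, φ 3 y = φ 4 (rf 0 y) := fun y => (h.symφ 0 (by decide) 3 y).symm
  have a4 : ∀ y, φ 4 y = φ 1 (rf 1 y) := fun y => (h.symφ 1 (by decide) 4 y).symm
  obtain ⟨h0, h1⟩ := hx
  refine ⟨?_, ?_, ?_⟩
  · by_contra hc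
    rw [a2] at hc
    have := (h.quad _ hc).1
    simp [rf] at this
    linarith
  · by_contra hc
    rw [a3, a4] at hc
    have := (h.quad _ hc).1
    simp [rf] at this
    linarith
  · by_contra hc
    rw [a4] at hc
    have := (h.quad _ hc).2
    simp [rf] at this
    linarith

theorem oo_Q (h : Orb φ η) {x : Pt} (hx : x ∈ Qd) : oo φ x = φ 1 x / 2 := by
  obtain ⟨a, b, c⟩ := φ_Q h hx
  simp [oo, a, b, c]

theorem half (h : Orb φ η) : ∫ x, {x : Pt | 0 < x 0}.indicator (φ 0) x ^ 2 ≤ 1 / 2 := by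
  have hm : MeasurableSet {x : Pt | 0 < x 0} :=
    (isOpen_lt continuous_const (continuous_apply 0)).measurableSet
  have i1 := ((memLp_φ h 0).indicator hm).integrable_sq
  have e : ∫ x, {x : Pt | 0 < x 0}.indicator (φ 0) x ^ 2 =
      ∫ x, {x : Pt | 0 < x 0}.indicator (φ 0) (rf 0 x) ^ 2 := by
    have := integral_map (μ := volume) (mp_rf 0).aemeasurable
      (f := fun x => {x : Pt | 0 < x 0}.indicator (φ 0) x ^ 2) (by rw [(mp_rf 0).map_eq]; exact i1.1)
    rw [(mp_rf 0).map_eq] at this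
    exact this
  have i2 : Integrable fun x => {x : Pt | 0 < x 0}.indicator (φ 0) (rf 0 x) ^ 2 :=
    (mp_rf 0).integrable_comp_of_integrable i1
  have h1 : (∫ x, {x : Pt | 0 < x 0}.indicator (φ 0) x ^ 2) +
      ∫ x, {x : Pt | 0 < x 0}.indicator (φ 0) (rf 0 x) ^ 2 ≤ ∫ x, φ 0 x ^ 2 := by
    rw [← integral_add i1 i2]
    refine integral_mono (i1.add i2) (memLp_φ h 0).integrable_sq fun x => ?_
    have a0 : φ 0 (rf 0 x) = φ 0 x := h.symφ 0 (by decide) 0 x
    have a1 : rf 0 x 0 = -x 0 := by simp [rf]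
    simp only [Set.indicator, Set.mem_ofPred_eq, a0, a1]
    split_ifs with b1 b2 b2
    · linarith
    · simp
    · simp
    · simpa using sq_nonneg (φ 0 x)
  rw [h.one 0, ← e] at h1
  linarith

theorem low_h1 {V v : Pt → ℝ} {lam E : ℝ} (h : OB V lam E φ η) (hv : H1 v g) :
    (E - tol * (lam / Lc)) * (∫ x, v x ^ 2) + gam * ((∫ x, v x ^ 2) - ∑ a, co5 φ v a ^ 2) ≤
      q1 V v g v g := by
  obtain ⟨u, hu, l1, l2⟩ := WD.seq (h1_iff.1 hv) I0.ek_le
  have hu1 : ∀ m, H1 (u m) (gr1 (u m)) := fun m => C1c.h1 (hu m)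
  have t1 := h.fb.tendsto hu1 hu1 hv hv l1 l2 l1 l2
  have t2 : Tendsto (fun m => ∫ x, u m x ^ 2) atTop (𝓝 (∫ x, v x ^ 2)) := by
    have := L2T.integral_mul (fun m => (hu1 m).1) (fun m => (hu1 m).1) hv.1 hv.1 l1 l1
      (b := fun _ => 1) aestronglyMeasurable_const (C := 1) (fun _ => by simp)
    simpa only [one_mul, ← sq] using this
  have t3 : ∀ a, Tendsto (fun m => co5 φ (u m) a) atTop (𝓝 (co5 φ v a)) := fun a => by
    have := L2T.integral_mul (u := fun _ => φ a) (fun _ => memLp_φ h.orb a) (fun m => (hu1 m).1)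
      (memLp_φ h.orb a) hv.1 (by simp [L2T]) l1
      (b := fun _ => 1) aestronglyMeasurable_const (C := 1) (fun _ => by simp)
    simpa only [one_mul, co5] using this
  have t4 := (t2.const_mul (E - tol * (lam / Lc))).add
    ((t2.sub (tendsto_finsetSum Finset.univ fun a _ => (t3 a).pow 2)).const_mul gam)
  refine le_of_tendsto_of_tendsto' t4 t1 fun m => ?_
  have h1 := h.low (u m) (hu m)
  have h2 : 0 ≤ lam / Lc * Kf (co5 φ (u m)) :=
    mul_nonneg (div_nonneg h.lam_pos.le (by unfold Lc; norm_num)) (by unfold Kf; positivity)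
  rw [q1_self (hu m)]
  linarith

theorem co_le (h : Orb φ η) {f : Pt → ℝ} {A β : ℝ} (hf : MemLp f 2)
    (hv : MemLp (pq fun x => -f x) 2) (hA : 1 / 4 ≤ A)
    (hc : ∫ x, (f x - A * oo φ x) ^ 2 ≤ β) :
    ∑ a, co5 φ (pq fun x => -f x) a ^ 2 ≤ (1 / 2 + 64 * β) * ∫ x, pq (fun x => -f x) x ^ 2 := by
  set v := pq fun x => -f x with hvd
  have hn := I0.sq_int_nonneg v
  have hz : ∀ a, (∀ x ∈ Qd, φ a x = 0) → co5 φ v a = 0 := fun a ha => by
    refine (integral_congr_ae (Eventually.of_forall fun x => ?_)).trans (integral_zero _ _)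
    rcases pq_cases (fun x => -f x) (fun _ _ => 0) x with h1 | h1
    · simp only [hvd, h1.1, mul_zero]
    · simp only [ha x h1.1, zero_mul]
  have hm : MeasurableSet {x : Pt | 0 < x 0} :=
    (isOpen_lt continuous_const (continuous_apply 0)).measurableSet
  have c0 : co5 φ v 0 ^ 2 ≤ 1 / 2 * ∫ x, v x ^ 2 := by
    have e : co5 φ v 0 = ∫ x, {x : Pt | 0 < x 0}.indicator (φ 0) x * v x := by
      refine integral_congr_ae (Eventually.of_forall fun x => ?_)
      rcases pq_cases (fun x => -f x) (fun _ _ => 0) x with h1 | h1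
      · simp only [hvd, h1.1, mul_zero]
      · simp only [Set.indicator_of_mem (show x ∈ {x : Pt | 0 < x 0} from h1.1.1)]
    rw [e]
    exact (I0.cs ((memLp_φ h 0).indicator hm) hv).trans (mul_le_mul_of_nonneg_right (half h) hn)
  have hd : MemLp (fun x => 8 * |f x - A * oo φ x|) 2 :=
    (hf.sub ((memLp_oo h).const_mul A)).abs.const_mul 8
  have c1 : co5 φ v 1 ^ 2 ≤ 64 * β * ∫ x, v x ^ 2 := by
    have a0 : 0 ≤ co5 φ v 1 := integral_nonneg fun x => mul_nonneg (h.nonneg 1 x) (pq_nonneg _ x)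
    have a1 : co5 φ v 1 ≤ ∫ x, 8 * |f x - A * oo φ x| * v x := by
      refine integral_mono (I0.int_mul (memLp_φ h 1) hv) (I0.int_mul hd hv) fun x => ?_
      rcases pq_cases (fun x => -f x) (fun _ _ => 0) x with h1 | h1
      · simp only [hvd, h1.1, mul_zero, le_refl]
      · refine mul_le_mul_of_nonneg_right ?_ (pq_nonneg _ x)
        have b1 := neg_le_abs (f x - A * oo φ x)
        have b2 := h1.2.1
        have b3 := h.nonneg 1 x
        rw [oo_Q h h1.1] at b1 ⊢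
        nlinarith
    have a2 : ∫ x, (8 * |f x - A * oo φ x|) ^ 2 ≤ 64 * β := by
      simp only [mul_pow, sq_abs]
      rw [integral_const_mul]
      linarith
    exact (pow_le_pow_left₀ a0 a1 2).trans ((I0.cs hd hv).trans (mul_le_mul_of_nonneg_right a2 hn))
  rw [Fin.sum_univ_five, hz 2 fun x hx => (φ_Q h hx).1, hz 3 fun x hx => (φ_Q h hx).2.1,
    hz 4 fun x hx => (φ_Q h hx).2.2]
  linarith

theorem h1neg {f : Pt → ℝ} (hf : H1 f g) : H1 (fun x => -f x) fun j x => -g j x :=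
  WD.congr (WD.smul (h1_iff.1 hf) (-1)) (Eventually.of_forall fun x => by ring)
    fun j => Eventually.of_forall fun x => by ring

theorem h1pq_neg {f : Pt → ℝ} (hf : H1 f g) (odd : ∀ i : Fin 3, i ≠ 2 → ∀ᵐ x, f (rf i x) = -f x) :
    H1 (pq fun x => -f x) (gq (fun x => -f x) fun j x => -g j x) :=
  h1pq (h1neg hf) fun i hi => by simpa only [neg_sq] using (hf.hardy_odd (odd i hi)).1

end I3

open I3 in
/-- The negative part of the orbital on the quadrant is small. -/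
theorem ICtx.neg_le {M : Mol} {E₁ k A : ℝ} (c : ICtx M E₁ k) {f a s : Pt → ℝ}
    {gf : Fin 3 → Pt → ℝ} (hf : H1 f gf) (hs : MemLp s 2)
    (sol : Sol (fun x => M.V x + k) (fun x => -s x) f gf)
    (hsa : ∀ᵐ x, |s x| ≤ M.lam * M.P ^ 5 * a x) (ha : MemLp a 2) (ha1 : ∫ x, a x ^ 2 ≤ 1)
    (odd : ∀ i : Fin 3, i ≠ 2 → ∀ᵐ x, f (rf i x) = -f x) (hA : 1 / 4 ≤ A)
    (hc : ∫ x, (f x - A * oo M.φ x) ^ 2 ≤ M.lam / gam) :
    ∫ x, pq (fun x => -f x) x ^ 2 ≤ M.P ^ 12 * M.sm ^ 24 := by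
  have hv := h1pq_neg hf odd
  have h1 := co_le c.ok.ob.orb hf.1 hv.1 hA hc
  have h2 := I3.low_h1 c.ok.ob hv
  have h3 := sol.h1 c.fb hf hs.neg hv
  have h4 := q1_pq (u := fun x => -f x) (g := fun j x => -gf j x) (q := fun x => M.V x + k)
    (T := pq fun x => -f x) (gT := gq (fun x => -f x) fun j x => -gf j x)
    fun x hx => ⟨hx, gq_zero hx⟩
  set v := pq fun x => -f x with hvd
  set gv := gq (fun x => -f x) fun j x => -gf j x with hgd
  have h5 : q1 (fun x => M.V x + k) (fun x => -f x) (fun j x => -gf j x) v gv =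
      -q1 (fun x => M.V x + k) f gf v gv := by
    simp only [q1, neg_mul, mul_neg, integral_neg, Finset.sum_neg_distrib]
    ring
  have h6 : q1 (fun x => M.V x + k) v gv v gv = q1 M.V v gv v gv + k * ∫ x, v x ^ 2 := by
    have i1 : Integrable fun x => M.V x * v x ^ 2 := by
      simpa only [sq] using c.ok.ob.fb.integrable hv hv
    rw [I1.q1_sq, I1.q1_sq, ← integral_const_mul, add_assoc,
      ← integral_add i1 (hv.1.integrable_sq.const_mul k)]
    simp only [add_mul]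
  have g0 := ICtx.gam_pos
  have h7 : ∫ x, s x * v x ≤ gam / 8 * (∫ x, v x ^ 2) +
      1 / (4 * (gam / 8)) * ∫ x, (M.lam * M.P ^ 5 * a x) ^ 2 := by
    refine le_trans (integral_mono_ae (I0.int_mul hs hv.1) (I0.int_mul hv.1 (ha.const_mul _)) ?_)
      (I0.amgm hv.1 (ha.const_mul _) (by positivity))
    filter_upwards [hsa] with x hx
    rw [mul_comm (v x)]
    exact mul_le_mul_of_nonneg_right ((le_abs_self _).trans hx) (pq_nonneg _ x)
  have h8 : ∫ x, (M.lam * M.P ^ 5 * a x) ^ 2 ≤ M.P ^ 10 * M.sm ^ 24 := by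
    simp only [mul_pow]
    rw [integral_const_mul]
    have a1 : M.lam ^ 2 ≤ (M.sm ^ 12) ^ 2 := pow_le_pow_left₀ c.l0.le c.ok.lam_le 2
    have P0 := c.P0
    calc M.lam ^ 2 * (M.P ^ 5) ^ 2 * ∫ x, a x ^ 2 ≤ (M.sm ^ 12) ^ 2 * (M.P ^ 5) ^ 2 * 1 :=
          mul_le_mul (mul_le_mul_of_nonneg_right a1 (by positivity)) ha1 (I0.sq_int_nonneg a)
            (by positivity)
      _ = M.P ^ 10 * M.sm ^ 24 := by ring
  simp only [neg_mul, integral_neg] at h3
  have hn := I0.sq_int_nonneg v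
  generalize ∫ x, v x ^ 2 = n at *
  have e1 := c.e_le
  have k1 := (abs_le.1 c.hk).1
  have e0 : 0 ≤ M.lam / Lc := div_nonneg c.l0.le (by unfold Lc; norm_num)
  have t1 : tol * (M.lam / Lc) ≤ M.lam / Lc := mul_le_of_le_one_left e0 (by unfold tol; norm_num)
  have b1 : -(gam / 40) * n ≤ (M.E - tol * (M.lam / Lc) + k) * n :=
    mul_le_mul_of_nonneg_right (by linarith) hn
  have b2 : (1 / 2 + 64 * (M.lam / gam)) * n ≤ 6 / 10 * n :=
    mul_le_mul_of_nonneg_right (by linarith [c.beta_small]) hn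
  have b3 := mul_le_mul_of_nonneg_left (h1.trans b2) g0.le
  have b4 : 1 / (4 * (gam / 8)) * ∫ x, (M.lam * M.P ^ 5 * a x) ^ 2 ≤
      1 / (4 * (gam / 8)) * (M.P ^ 10 * M.sm ^ 24) := mul_le_mul_of_nonneg_left h8 (by positivity)
  have b5 : gam / 4 * n ≤ 1 / (4 * (gam / 8)) * (M.P ^ 10 * M.sm ^ 24) := by linarith
  have b6 : 0 ≤ M.P ^ 10 * M.sm ^ 24 := mul_nonneg (pow_nonneg c.P0.le _) (pow_nonneg c.s0.le _)
  have b7 : n ≤ 8 * 10 ^ 200 * (M.P ^ 10 * M.sm ^ 24) := by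
    unfold gam at b5
    linarith
  have b8 : 8 * 10 ^ 200 ≤ M.P ^ 2 := by nlinarith [c.ok.P_ge, c.P3]
  calc n ≤ M.P ^ 2 * (M.P ^ 10 * M.sm ^ 24) := b7.trans (mul_le_mul_of_nonneg_right b8 b6)
    _ = M.P ^ 12 * M.sm ^ 24 := by ring

end Vale.Agent.P363
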