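import Vale.Agent.P363.I3

/-! Part I, file 4: the equation for `μ Θ - f` and the source terms. -/

namespace Vale.Agent.P363

open MeasureTheory Vale.Agent.P370 Filter Topology
open scoped ContDiff

/-- The small multiple of the subsolution. -/
noncomputable def Mol.mu (M : Mol) : ℝ := 1 / (16 * M.P)

/-- The difference of the subsolution and the orbital. -/
noncomputable def Mol.du (M : Mol) (f : Pt → ℝ) (x : Pt) : ℝ := M.mu * M.Θ x - f x

/-- Its gradient. -/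
noncomputable def Mol.dg (M : Mol) (gf : Fin 3 → Pt → ℝ) (j : Fin 3) (x : Pt) : ℝ :=
  M.mu * gr1 M.Θ j x - gf j x

theorem I4.off {Θ : Pt → ℝ} {x : Pt} (hx : x ∉ tsupport Θ) :
    Θ x = 0 ∧ (∀ j, pd j Θ x = 0) ∧ lap Θ x = 0 := by
  have h := notMem_tsupport_iff_eventuallyEq.1 hx
  have h1 : ∀ j, pd j Θ =ᶠ[𝓝 x] 0 := fun j => by
    filter_upwards [h.fderiv (𝕜 := ℝ)] with y hy
    simp [pd, hy]
  refine ⟨h.self_of_nhds, fun j => (h1 j).self_of_nhds, Finset.sum_eq_zero fun j _ => ?_⟩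
  rw [pd, (h1 j).fderiv_eq]
  simp

namespace ICtx

open I3

variable {M : Mol} {E₁ k : ℝ} (c : ICtx M E₁ k)
include c

theorem mu0 : 0 < M.mu := by
  have := c.P0
  unfold Mol.mu
  positivity

theorem muP : M.mu * M.P = 1 / 16 := by
  have := c.P0
  unfold Mol.mu
  field_simp

theorem mu1 : M.mu ≤ 1 := by nlinarith [c.muP, c.P1, c.mu0]

theorem Θc : HasCompactSupport M.Θ := by
  refine (isCompact_closedBall (0 : Pt) (M.R + 2)).of_isClosed_subset (isClosed_tsupport _)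
    fun x hx => ?_
  rw [mem_closedBall_zero_iff]
  exact (norm_le_nrm x).trans (c.th.supp hx)

theorem Θ1 : C1c M.Θ := ⟨c.th.C2.of_le (by norm_num), c.Θc⟩

theorem lap_mem : MemLp (lap M.Θ) 2 :=
  memLp_finsetSum Finset.univ (f := fun j x => pd j (pd j M.Θ) x)
    fun j _ => ((C1c.h1 (nw_C1c_pd c.th.C2 c.Θc j)).2 j).1

theorem offB {x : Pt} (hx : ¬nrm x ≤ M.R + 2) :
    M.Θ x = 0 ∧ (∀ j, pd j M.Θ x = 0) ∧ lap M.Θ x = 0 := I4.off fun h => hx (c.th.supp h)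

omit c in
theorem measB : MeasurableSet {x : Pt | nrm x ≤ M.R + 2} :=
  (isClosed_le continuous_nrm continuous_const).measurableSet

variable {f a s T : Pt → ℝ} {gf ga gT : Fin 3 → Pt → ℝ} {A : ℝ}

theorem h1du (hf : H1 f gf) : H1 (M.du f) (M.dg gf) :=
  WD.sub (WD.smul (h1_iff.1 (C1c.h1 c.Θ1)) M.mu) (h1_iff.1 hf)

theorem h1v (hf : H1 f gf) (odd : ∀ i : Fin 3, i ≠ 2 → ∀ᵐ x, f (rf i x) = -f x) :
    H1 (pq (M.du f)) (gq (M.du f) (M.dg gf)) := by
  refine h1pq (c.h1du hf) fun i hi => ?_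
  have i1 : Integrable fun x => M.Θ x ^ 2 / x i ^ 2 := C1c.hardy_plane c.Θ1 fun x hx => by
    refine c.th.zero x ?_
    fin_cases i
    · exact Or.inl hx
    · exact Or.inr hx
    · exact absurd rfl hi
  have i2 := (hf.hardy_odd (odd i hi)).1
  refine ((i1.const_mul (2 * M.mu ^ 2)).add (i2.const_mul 2)).mono' ?_
    (Eventually.of_forall fun x => ?_)
  · exact (((c.h1du hf).1.1.pow 2).aemeasurable.div
      ((measurable_pi_apply i).pow_const 2).aemeasurable).aestronglyMeasurable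
  · rw [Real.norm_eq_abs, abs_of_nonneg (by positivity)]
    simp only [Pi.add_apply, ← mul_div_assoc, ← add_div]
    refine div_le_div_of_nonneg_right ?_ (sq_nonneg _)
    unfold Mol.du
    nlinarith [sq_nonneg (M.mu * M.Θ x + f x)]

theorem int_L (hT : H1 T gT) :
    Integrable fun x => (-(1 / 2) * lap M.Θ x + (M.V x + k) * M.Θ x) * T x := by
  refine (((I0.int_mul c.lap_mem hT.1).const_mul (-(1 / 2))).add
    (c.fb.integrable (C1c.h1 c.Θ1) hT)).congr (Eventually.of_forall fun x => ?_)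
  simp only [Pi.add_apply]
  ring

theorem eqn (hf : H1 f gf) (hs : MemLp s 2)
    (sol : Sol (fun x => M.V x + k) (fun x => -s x) f gf) (hT : H1 T gT) :
    q1 (fun x => M.V x + k) (M.du f) (M.dg gf) T gT =
      M.mu * (∫ x, (-(1 / 2) * lap M.Θ x + (M.V x + k) * M.Θ x) * T x) + ∫ x, s x * T x := by
  have h1 := I0.q1_split c.fb (C1c.h1 c.Θ1) hf hT M.mu
  have h2 := sol.h1 c.fb hf hs.neg hT
  have h3 := hT.green c.th.C2 (fun j => ((C1c.h1 c.Θ1).2 j).1) c.lap_mem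
  have h4 : q1 (fun x => M.V x + k) M.Θ (gr1 M.Θ) T gT =
      ∫ x, (-(1 / 2) * lap M.Θ x + (M.V x + k) * M.Θ x) * T x := by
    have e : ∫ x, (-(1 / 2) * lap M.Θ x + (M.V x + k) * M.Θ x) * T x =
        -(1 / 2) * (∫ x, lap M.Θ x * T x) + ∫ x, (M.V x + k) * (M.Θ x * T x) := by
      rw [← integral_const_mul, ← integral_add ((I0.int_mul c.lap_mem hT.1).const_mul _)
        (c.fb.integrable (C1c.h1 c.Θ1) hT)]
      exact integral_congr_ae (Eventually.of_forall fun x => by ring)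
    rw [e, q1]
    simp only [gr1]
    rw [h3]
    ring
  simp only [neg_mul, integral_neg] at h2
  rw [← h4]
  refine h1.trans ?_
  rw [h2]
  ring

theorem int_B {F : Pt → ℝ} (hF : MemLp F 2) {C : ℝ} (hC : 0 ≤ C) (h : ∀ x, F x ^ 2 ≤ C)
    (h0 : ∀ x, ¬nrm x ≤ M.R + 2 → F x = 0) : ∫ x, F x ^ 2 ≤ C * M.P ^ 4 := by
  have h1 := I0.set_le measB c.volB.1 hF.integrable_sq (integrable_zero _ _ _)
    (fun _ => le_rfl) hC c.volB.2 (Eventually.of_forall fun x _ => by simpa using h x)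
  rw [setIntegral_eq_integral_of_forall_compl_eq_zero fun x hx => by simp [h0 x hx]] at h1
  simpa using h1

theorem wΘ_le : (∑ j, ∫ x, (M.w x * gr1 M.Θ j x + pd j M.w x * M.Θ x) ^ 2) +
    ∫ x, (M.w x * M.Θ x) ^ 2 ≤ M.P ^ 8 := by
  have hw := c.h1w (C1c.h1 c.Θ1)
  have P0 := c.P0
  have a1 : ∀ x, (M.w x * M.Θ x) ^ 2 ≤ M.P ^ 2 := fun x => by
    rw [← sq_abs, abs_mul, abs_of_pos (w0 x)]
    exact pow_le_pow_left₀ (mul_nonneg (w0 x).le (abs_nonneg _)) (c.th.Θb x).1 2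
  have h1 := c.int_B hw.1 (by positivity) a1 fun x hx => by simp [(c.offB hx).1]
  have h2 : ∀ j, ∫ x, (M.w x * gr1 M.Θ j x + pd j M.w x * M.Θ x) ^ 2 ≤ 4 * M.P ^ 3 * M.P ^ 4 :=
    fun j => c.int_B (hw.2 j).1 (by positivity) (fun x => by
      have a2 : (M.w x * pd j M.Θ x) ^ 2 ≤ M.P ^ 2 := by
        rw [← sq_abs, abs_mul, abs_of_pos (w0 x)]
        exact pow_le_pow_left₀ (mul_nonneg (w0 x).le (abs_nonneg _)) ((c.th.Θb x).2 j) 2
      have a3 : (pd j M.w x * M.Θ x) ^ 2 ≤ M.P * M.P ^ 2 := by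
        rw [c.pdw, show (M.w x * pd j M.G x * M.Θ x) ^ 2 = pd j M.G x ^ 2 * (M.w x * M.Θ x) ^ 2 by
          ring]
        exact mul_le_mul (c.pdG j x) (a1 x) (sq_nonneg _) P0.le
      have a4 : M.P ^ 2 ≤ M.P ^ 3 := pow_le_pow_right₀ c.P1 (by norm_num)
      simp only [gr1]
      nlinarith [sq_nonneg (M.w x * pd j M.Θ x - pd j M.w x * M.Θ x)])
      fun x hx => by simp [gr1, (c.offB hx).1, (c.offB hx).2.1 j]
  rw [Fin.sum_univ_three]
  have a5 : M.P ^ 6 ≤ M.P ^ 7 := pow_le_pow_right₀ c.P1 (by norm_num)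
  have a6 : 0 ≤ M.P ^ 7 := by positivity
  nlinarith [h2 0, h2 1, h2 2, c.P3]

theorem coef {x : Pt} : k + M.W₂ x ≤ -E₁ + 3 := by
  linarith [(abs_le.1 c.kE).2, (c.ok.W2 x).2]

/-- On the plateau the positive part is bounded by the distance to the model orbital. -/
theorem du_A (hA : 1 / 4 ≤ A) {x : Pt} (hx : x ∈ M.N ∩ M.A) :
    M.w x * pq (M.du f) x ≤ |f x - A * oo M.φ x| := by
  have hQ := c.wt.AQ hx.2
  have h1 : M.w x ≤ 1 := Real.exp_le_one_iff.2 (c.wt.GA x hx)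
  have h2 : pq (M.du f) x ≤ |f x - A * oo M.φ x| := by
    rw [pq_mem hQ]
    refine max_le ?_ (abs_nonneg _)
    have b1 := neg_le_abs (f x - A * oo M.φ x)
    have b2 := mul_le_mul_of_nonneg_left (c.th.ΘA x hx) c.mu0.le
    have b3 := c.ok.ob.orb.nonneg 1 x
    rw [← mul_assoc, c.muP] at b2
    rw [oo_Q c.ok.ob.orb hQ] at b1 ⊢
    unfold Mol.du
    nlinarith
  exact (mul_le_of_le_one_left (pq_nonneg _ x) h1).trans h2

theorem memLp_d (hf : MemLp f 2) : MemLp (fun x => f x - A * oo M.φ x) 2 :=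
  hf.sub ((memLp_oo c.ok.ob.orb).const_mul A)

theorem pw (i j : ℕ) (hi : i ≤ 999) : M.P ^ i * M.sm ^ (j + 3) ≤ M.sm ^ 2 := by
  have s0 := c.s0
  have h1 := c.Ps i hi
  have h2 : M.sm ^ j ≤ 1 := pow_le_one₀ s0.le (by linarith [c.s1])
  have h3 : M.P ^ i * M.sm * M.sm ^ j ≤ 1 :=
    mul_le_one₀ (by linarith) (by positivity) h2
  calc M.P ^ i * M.sm ^ (j + 3) = M.P ^ i * M.sm * M.sm ^ j * M.sm ^ 2 := by ring
    _ ≤ 1 * M.sm ^ 2 := mul_le_mul_of_nonneg_right h3 (by positivity)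
    _ = _ := one_mul _

theorem N_le (hf : H1 f gf) (odd : ∀ i : Fin 3, i ≠ 2 → ∀ᵐ x, f (rf i x) = -f x) (hA : 1 / 4 ≤ A)
    (hc : ∫ x, (f x - A * oo M.φ x) ^ 2 ≤ M.lam / gam)
    (hn : ∫ x, pq (fun x => -f x) x ^ 2 ≤ M.P ^ 12 * M.sm ^ 24) :
    ∫ x in M.N, (M.w x * pq (M.du f) x) ^ 2 ≤ 2 * M.sm ^ 2 * M.P ^ 4 + 3 * M.sm ^ 2 := by
  have s0 := c.s0
  have i1 := (c.memLp_d (A := A) hf.1).integrable_sq
  have i2 := (h1pq_neg hf odd).1.integrable_sq.const_mul (2 / M.sm ^ 14)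
  have i3 : Integrable fun x =>
      (f x - A * oo M.φ x) ^ 2 + 2 / M.sm ^ 14 * pq (fun x => -f x) x ^ 2 := i1.add i2
  have h1 : ∫ x in M.N, (M.w x * pq (M.du f) x) ^ 2 ≤ 2 * M.sm ^ 2 * M.P ^ 4 +
      ∫ x, ((f x - A * oo M.φ x) ^ 2 + 2 / M.sm ^ 14 * pq (fun x => -f x) x ^ 2) := by
    refine I0.set_le c.wt.mN c.volN.1 (c.h1w (c.h1v hf odd)).1.integrable_sq i3
      (fun x => by positivity) (by positivity) c.volN.2 (Eventually.of_forall fun x hx => ?_)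
    have p0 : 0 ≤ M.w x * pq (M.du f) x := mul_nonneg (w0 x).le (pq_nonneg _ x)
    have p1 : 0 ≤ 2 / M.sm ^ 14 * pq (fun x => -f x) x ^ 2 := by positivity
    by_cases hA' : x ∈ M.A
    · have := pow_le_pow_left₀ p0 (c.du_A (f := f) hA ⟨hx, hA'⟩) 2
      rw [sq_abs] at this
      nlinarith [sq_nonneg M.sm]
    · rcases pq_cases (M.du f) (fun _ _ => 0) x with h1 | h1
      · rw [h1.1, mul_zero]
        nlinarith [sq_nonneg M.sm, sq_nonneg (f x - A * oo M.φ x)]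
      · have b1 : M.w x * M.Θ x ≤ M.sm := c.th.ΘN x hx h1.1 hA'
        have b2 : 0 ≤ M.w x * M.Θ x := mul_nonneg (w0 x).le (c.th.nonneg x h1.1)
        have b3 : -f x ≤ pq (fun x => -f x) x := by
          rw [pq_mem h1.1]; exact le_max_left _ _
        have b4 := mul_le_mul_of_nonneg_left b3 (w0 (M := M) x).le
        have b5 := mul_le_of_le_one_left b2 c.mu1
        have b6 : M.w x * pq (M.du f) x ≤ M.sm + M.w x * pq (fun x => -f x) x := by
          rw [h1.2.2.1]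
          unfold Mol.du
          linarith
        have b7 := pow_le_pow_left₀ p0 b6 2
        have b8 : (M.w x * pq (fun x => -f x) x) ^ 2 ≤
            1 / M.sm ^ 14 * pq (fun x => -f x) x ^ 2 := by
          rw [mul_pow]
          exact mul_le_mul_of_nonneg_right (c.wN hx) (sq_nonneg _)
        have b9 : 2 / M.sm ^ 14 * pq (fun x => -f x) x ^ 2 =
            2 * (1 / M.sm ^ 14 * pq (fun x => -f x) x ^ 2) := by ring
        nlinarith [sq_nonneg (M.sm - M.w x * pq (fun x => -f x) x),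
          sq_nonneg (f x - A * oo M.φ x)]
  rw [integral_add i1 i2, integral_const_mul] at h1
  have h2 : 2 / M.sm ^ 14 * ∫ x, pq (fun x => -f x) x ^ 2 ≤ 2 * (M.P ^ 12 * M.sm ^ 10) := by
    calc _ ≤ 2 / M.sm ^ 14 * (M.P ^ 12 * M.sm ^ 24) :=
          mul_le_mul_of_nonneg_left hn (by positivity)
      _ = _ := by field_simp
  have h3 : M.P ^ 12 * M.sm ^ 10 ≤ M.sm ^ 2 := c.pw 12 7 (by norm_num)
  have h4 : M.P ^ 1 * M.sm ^ 12 ≤ M.sm ^ 2 := c.pw 1 9 (by norm_num)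
  have h5 := c.beta_le
  linarith

end ICtx

end Vale.Agent.P363
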