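import Vale.Agent.P363.I4
import Vale.Agent.P363.I2

/-! Part I, file 5: the weighted bound and the local inequality for the positive part. -/

namespace Vale.Agent.P363

open MeasureTheory Vale.Agent.P370 Filter Topology
open scoped ContDiff

namespace ICtx

open I3

variable {M : Mol} {E₁ k : ℝ} (c : ICtx M E₁ k)
include c

variable {f a s T : Pt → ℝ} {gf ga gT : Fin 3 → Pt → ℝ} {A : ℝ}

theorem src_pt (v : Pt → ℝ) (x : Pt) :
    (-(1 / 2) * lap M.Θ x + (M.V x + k) * M.Θ x) * (M.w x ^ 2 * pq v x) ≤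
      M.w x * pq v x * {x : Pt | nrm x ≤ M.R + 2}.indicator (fun _ => M.sm) x +
        (M.N ∩ M.A).indicator (fun x => M.P * (M.w x * pq v x)) x +
        M.W₁ x * (M.w x * M.Θ x * (M.w x * pq v x)) := by
  have p0 : 0 ≤ M.w x * pq v x := mul_nonneg (w0 x).le (pq_nonneg _ x)
  have e : (M.N ∩ M.A).indicator (fun x => M.P * (M.w x * pq v x)) x =
      (M.N ∩ M.A).indicator (fun _ => M.P) x * (M.w x * pq v x) := by
    by_cases hx : x ∈ M.N ∩ M.A <;> simp [hx]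
  rw [e]
  rcases pq_cases v (fun _ _ => 0) x with h1 | h1
  · simp [h1.1]
  · by_cases hB : nrm x ≤ M.R + 2
    · rw [Set.indicator_of_mem (show x ∈ {x : Pt | nrm x ≤ M.R + 2} from hB), c.ok.split x]
      have b1 : M.w x * (-(1 / 2) * lap M.Θ x + (M.U x - E₁ + 3) * M.Θ x) ≤
          M.sm + (M.N ∩ M.A).indicator (fun _ => M.P) x := c.th.ΘL x h1.1
      have b2 := mul_le_mul_of_nonneg_right b1 p0
      have b3 : 0 ≤ M.w x * M.Θ x := mul_nonneg (w0 x).le (c.th.nonneg x h1.1)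
      have b4 := mul_le_mul_of_nonneg_right (c.coef (x := x)) (mul_nonneg b3 p0)
      linarith
    · rw [Set.indicator_of_notMem (show x ∉ {x : Pt | nrm x ≤ M.R + 2} from hB),
        (c.offB hB).1, (c.offB hB).2.2]
      have b1 : 0 ≤ (M.N ∩ M.A).indicator (fun _ => M.P) x :=
        Set.indicator_nonneg (fun _ _ => c.P0.le) x
      have b2 := mul_nonneg b1 p0
      linarith

theorem NA_le (hf : H1 f gf) (odd : ∀ i : Fin 3, i ≠ 2 → ∀ᵐ x, f (rf i x) = -f x) (hA : 1 / 4 ≤ A)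
    (hc : ∫ x, (f x - A * oo M.φ x) ^ 2 ≤ M.lam / gam) :
    ∫ x, (M.N ∩ M.A).indicator (fun x => M.P * (M.w x * pq (M.du f) x)) x ≤
      M.sm ^ 2 * M.P ^ 4 + M.sm ^ 2 := by
  have s0 := c.s0
  have P0 := c.P0
  have hm := c.wt.mN.inter c.wt.mA
  have hv : volume (M.N ∩ M.A) ≠ ⊤ :=
    ne_top_of_le_ne_top c.volN.1 (measure_mono Set.inter_subset_left)
  have i1 := (c.memLp_d (A := A) hf.1).integrable_sq.const_mul (M.P ^ 2 / M.sm ^ 2)
  have i2 := I0.int_mul (I0.memLp_ind hm hv M.P) (c.h1w (c.h1v hf odd)).1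
  have h1 := I0.set_le hm hv i2 i1 (fun x => by positivity) (sq_nonneg M.sm)
    ((measureReal_mono Set.inter_subset_left c.volN.1).trans c.volN.2)
    (Eventually.of_forall fun x hx => by
      rw [Set.indicator_of_mem hx]
      have b1 := mul_le_mul_of_nonneg_left (c.du_A (f := f) hA hx) P0.le
      have b2 : M.P ^ 2 / M.sm ^ 2 * (f x - A * oo M.φ x) ^ 2 =
          (M.P * |f x - A * oo M.φ x| / M.sm) ^ 2 := by
        rw [div_pow, mul_pow, sq_abs]
        ring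
      have b3 : M.P * |f x - A * oo M.φ x| = M.sm * (M.P * |f x - A * oo M.φ x| / M.sm) := by
        field_simp
      rw [b2]
      nlinarith [sq_nonneg (M.sm - M.P * |f x - A * oo M.φ x| / M.sm)])
  rw [integral_const_mul, setIntegral_congr_fun hm (g := fun x => M.P * (M.w x * pq (M.du f) x))
    (fun x hx => by simp only [Set.indicator_of_mem hx])] at h1
  rw [integral_indicator hm]
  have h2 : M.P ^ 2 / M.sm ^ 2 * ∫ x, (f x - A * oo M.φ x) ^ 2 ≤ M.P ^ 3 * M.sm ^ 10 := by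
    calc _ ≤ M.P ^ 2 / M.sm ^ 2 * (M.P * M.sm ^ 12) :=
          mul_le_mul_of_nonneg_left (hc.trans c.beta_le) (by positivity)
      _ = _ := by field_simp
  have h3 : M.P ^ 3 * M.sm ^ 10 ≤ M.sm ^ 2 := c.pw 3 7 (by norm_num)
  linarith

theorem lam_sq : (M.lam * M.P ^ 5) ^ 2 ≤ M.P ^ 10 * M.sm ^ 24 := by
  have a1 : M.lam ^ 2 ≤ (M.sm ^ 12) ^ 2 := pow_le_pow_left₀ c.l0.le c.ok.lam_le 2
  have P0 := c.P0
  calc (M.lam * M.P ^ 5) ^ 2 = M.lam ^ 2 * M.P ^ 10 := by ring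
    _ ≤ (M.sm ^ 12) ^ 2 * M.P ^ 10 := mul_le_mul_of_nonneg_right a1 (by positivity)
    _ = _ := by ring

/-- The weighted bound for the positive part. -/
theorem wv_le (hf : H1 f gf) (hs : MemLp s 2)
    (sol : Sol (fun x => M.V x + k) (fun x => -s x) f gf)
    (hsa : ∀ᵐ x, |s x| ≤ M.lam * M.P ^ 5 * a x) (ha : H1 a ga)
    (hwa : ∫ x, (M.w x * a x) ^ 2 ≤ M.P ^ 8 / M.sm ^ 2)
    (odd : ∀ i : Fin 3, i ≠ 2 → ∀ᵐ x, f (rf i x) = -f x) (hA : 1 / 4 ≤ A)
    (hc : ∫ x, (f x - A * oo M.φ x) ^ 2 ≤ M.lam / gam)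
    (hn : ∫ x, pq (fun x => -f x) x ^ 2 ≤ M.P ^ 12 * M.sm ^ 24) :
    ∫ x, (M.w x * pq (M.du f) x) ^ 2 ≤ M.P ^ 10 * M.sm ^ 2 := by
  have s0 := c.s0
  have P0 := c.P0
  have hv := c.h1v hf odd
  have hy := c.h1w hv
  have hT := c.h1w2 hv
  have h1 := c.agmon hv
  have h2 := q1_pq (u := M.du f) (g := M.dg gf) (q := fun x => M.V x + k)
    (T := fun x => M.w x ^ 2 * pq (M.du f) x)
    (gT := fun j x => M.w x ^ 2 * gq (M.du f) (M.dg gf) j x +
      2 * M.w x * pd j M.w x * pq (M.du f) x) fun x hx => ⟨by simp [hx], fun j => by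
      simp [hx, gq_zero hx]⟩
  have h3 := c.eqn hf hs sol hT
  have h4 := c.N_le hf odd hA hc hn
  have h5 := c.NA_le hf odd hA hc
  obtain ⟨i3, h6⟩ := c.ok.W1.bil (c.h1w (C1c.h1 c.Θ1)) hy
  have hB := I0.memLp_ind measB c.volB.1 M.sm
  have i1 := I0.int_mul hy.1 hB
  have hm := c.wt.mN.inter c.wt.mA
  have i2 : Integrable ((M.N ∩ M.A).indicator fun x => M.P * (M.w x * pq (M.du f) x)) := by
    refine (I0.int_mul (I0.memLp_ind hm (ne_top_of_le_ne_top c.volN.1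
      (measure_mono Set.inter_subset_left)) M.P) hy.1).congr (Eventually.of_forall fun x => ?_)
    by_cases hx : x ∈ M.N ∩ M.A <;> simp [hx]
  have i4 : Integrable fun x =>
      M.w x * pq (M.du f) x * {x : Pt | nrm x ≤ M.R + 2}.indicator (fun _ => M.sm) x +
        (M.N ∩ M.A).indicator (fun x => M.P * (M.w x * pq (M.du f) x)) x := i1.add i2
  have h7 := integral_mono (c.int_L hT) (i4.add i3) (c.src_pt (M.du f))
  simp only [Pi.add_apply] at h7
  rw [integral_add i4 i3, integral_add i1 i2] at h7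
  have h8 := I0.amgm hy.1 hB (t := 1 / 4) (by norm_num)
  rw [I0.int_ind_sq measB] at h8
  have h9 : M.sm ^ 2 * volume.real {x : Pt | nrm x ≤ M.R + 2} ≤ M.sm ^ 2 * M.P ^ 4 :=
    mul_le_mul_of_nonneg_left c.volB.2 (sq_nonneg _)
  have hwa' := (c.h1w ha).1.const_mul (M.lam * M.P ^ 5)
  have h10 : ∫ x, s x * (M.w x ^ 2 * pq (M.du f) x) ≤
      1 / 4 * (∫ x, (M.w x * pq (M.du f) x) ^ 2) +
        1 / (4 * (1 / 4)) * ∫ x, (M.lam * M.P ^ 5 * (M.w x * a x)) ^ 2 := by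
    refine le_trans (integral_mono_ae (I0.int_mul hs hT.1) (I0.int_mul hy.1 hwa') ?_)
      (I0.amgm hy.1 hwa' (by norm_num))
    filter_upwards [hsa] with x hx
    have := mul_le_mul_of_nonneg_right ((le_abs_self _).trans hx)
      (mul_nonneg (sq_nonneg (M.w x)) (pq_nonneg (M.du f) x))
    linarith
  have h11 : ∫ x, (M.lam * M.P ^ 5 * (M.w x * a x)) ^ 2 ≤ M.sm ^ 2 := by
    simp only [mul_pow (M.lam * M.P ^ 5)]
    rw [integral_const_mul]
    calc _ ≤ M.P ^ 10 * M.sm ^ 24 * (M.P ^ 8 / M.sm ^ 2) :=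
          mul_le_mul c.lam_sq hwa (I0.sq_int_nonneg _) (by positivity)
      _ = M.P ^ 18 * M.sm ^ (19 + 3) := by field_simp
      _ ≤ _ := c.pw 18 19 (by norm_num)
  have h12 := c.wΘ_le
  have hn0 := I0.sq_int_nonneg fun x => M.w x * pq (M.du f) x
  have hK0 := I1.K_nonneg fun j x => M.w x * gq (M.du f) (M.dg gf) j x + pd j M.w x * pq (M.du f) x
  rw [← h2, h3] at h1
  generalize ∫ x, (M.w x * pq (M.du f) x) ^ 2 = n at *
  generalize ∑ j, ∫ x, (M.w x * gq (M.du f) (M.dg gf) j x + pd j M.w x * pq (M.du f) x) ^ 2 = K at *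
  generalize ∫ x, M.W₁ x * (M.w x * M.Θ x * (M.w x * pq (M.du f) x)) = z at *
  have h13 : z ^ 2 ≤ M.sm ^ 2 * M.P ^ 8 * (K + n) :=
    h6.trans (mul_le_mul_of_nonneg_right (mul_le_mul_of_nonneg_left h12 (sq_nonneg _))
      (by linarith))
  have mu0 := c.mu0
  have h14 : M.mu * z ≤ 1 / (4 * M.P ^ 3) * (K + n) + M.sm ^ 2 * M.P ^ 9 := by
    have a0 : 0 ≤ 1 / (4 * M.P ^ 3) * (K + n) := by positivity
    have a1 : 0 ≤ M.sm ^ 2 * M.P ^ 9 := by positivity
    refine (abs_le_of_sq_le_sq' ?_ (add_nonneg a0 a1)).2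
    have a2 : (M.mu * z) ^ 2 ≤ M.mu ^ 2 * (M.sm ^ 2 * M.P ^ 8 * (K + n)) := by
      rw [mul_pow]
      exact mul_le_mul_of_nonneg_left h13 (sq_nonneg _)
    have a3 : M.mu ^ 2 * (M.sm ^ 2 * M.P ^ 8 * (K + n)) =
        (M.mu * M.P) ^ 2 * (M.sm ^ 2 * M.P ^ 6 * (K + n)) := by ring
    have a4 : 4 * (1 / (4 * M.P ^ 3) * (K + n)) * (M.sm ^ 2 * M.P ^ 9) =
        M.sm ^ 2 * M.P ^ 6 * (K + n) := by field_simp
    have a5 : 0 ≤ M.sm ^ 2 * M.P ^ 6 * (K + n) := by positivity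
    rw [a3, c.muP] at a2
    nlinarith [sq_nonneg (1 / (4 * M.P ^ 3) * (K + n) - M.sm ^ 2 * M.P ^ 9)]
  have h15 := mul_le_mul_of_nonneg_left h7 mu0.le
  have h16 : M.mu * ((∫ x, M.w x * pq (M.du f) x *
      {x : Pt | nrm x ≤ M.R + 2}.indicator (fun _ => M.sm) x) +
      ∫ x, (M.N ∩ M.A).indicator (fun x => M.P * (M.w x * pq (M.du f) x)) x) ≤
      1 / 4 * n + 2 * (M.sm ^ 2 * M.P ^ 4) + M.sm ^ 2 := by
    refine (mul_le_mul_of_nonneg_left (by linarith) mu0.le).trans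
      (mul_le_of_le_one_left (by positivity) c.mu1)
  have h17 := mul_le_mul_of_nonneg_left h4 P0.le
  have h18 : 1 / (4 * M.P ^ 3) * n ≤ 1 / 4 * n := by
    refine mul_le_mul_of_nonneg_right (one_div_le_one_div_of_le (by norm_num) ?_) hn0
    linarith [one_le_pow₀ c.P1 (n := 3)]
  have h19 : n ≤ M.sm ^ 2 * (2 * M.P ^ 4 + 2 + M.P ^ 9 + 2 * M.P ^ 5 + 3 * M.P) := by linarith
  have h20 : 2 * M.P ^ 4 + 2 + M.P ^ 9 + 2 * M.P ^ 5 + 3 * M.P ≤ M.P ^ 10 := by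
    have a1 : M.P ^ 4 ≤ M.P ^ 9 := pow_le_pow_right₀ c.P1 (by norm_num)
    have a2 : M.P ^ 5 ≤ M.P ^ 9 := pow_le_pow_right₀ c.P1 (by norm_num)
    have a3 : M.P ≤ M.P ^ 9 := le_self_pow₀ c.P1 (by norm_num)
    have a4 : 1 ≤ M.P ^ 9 := one_le_pow₀ c.P1
    nlinarith [c.P3]
  rw [mul_comm]
  exact h19.trans (mul_le_mul_of_nonneg_left h20 (sq_nonneg _))

/-- The source on the shell. -/
theorem loc_ineq (hf : H1 f gf) (hs : MemLp s 2)
    (sol : Sol (fun x => M.V x + k) (fun x => -s x) f gf)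
    (hsa : ∀ᵐ x, |s x| ≤ M.lam * M.P ^ 5 * a x) (ha : MemLp a 2) (a0 : ∀ x, 0 ≤ a x)
    (odd : ∀ i : Fin 3, i ≠ 2 → ∀ᵐ x, f (rf i x) = -f x) :
    MemLp (fun x => (Sh M.R (1 / 8) (7 / 8)).indicator (fun _ => M.nu * M.sm) x +
      M.lam * M.P ^ 5 * a x) 2 ∧
    ∀ ζ, C1c ζ → (∀ x, 0 ≤ ζ x) → tsupport ζ ⊆ Sh M.R (1 / 8) (7 / 8) →
      1 / 2 * ∑ j, ∫ x, gq (M.du f) (M.dg gf) j x * pd j ζ x ≤
        ∫ x, ((Sh M.R (1 / 8) (7 / 8)).indicator (fun _ => M.nu * M.sm) x +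
          M.lam * M.P ^ 5 * a x) * ζ x := by
  have s0 := c.s0
  have P0 := c.P0
  have n0 := c.ok.nu_pos
  have l0 := c.l0
  have hv := c.h1v hf odd
  have hO : volume (Sh M.R (1 / 8) (7 / 8)) ≠ ⊤ :=
    (I0.vol (c := 0) (r := M.R + 7 / 8 / M.R) (by have := c.R0; positivity) fun x hx => by
      rw [sub_zero]; exact hx.2).1
  have hτ : MemLp (fun x => (Sh M.R (1 / 8) (7 / 8)).indicator (fun _ => M.nu * M.sm) x +
      M.lam * M.P ^ 5 * a x) 2 := (I0.memLp_ind (I0.meas_Sh _ _ _) hO _).add (ha.const_mul _)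
  refine ⟨hτ, I2.kato hv (pq_nonneg _) (fun x hx => gq_zero hx) hτ (fun x => add_nonneg
    (Set.indicator_nonneg (fun _ _ => by positivity) x) (mul_nonneg (by positivity) (a0 x))) ?_⟩
  intro T gT hT T0 TO Tv
  have h2 := q1_pq (u := M.du f) (g := M.dg gf) (q := fun x => M.V x + k) Tv
  have h3 := c.eqn hf hs sol hT
  have h4 : 0 ≤ ∫ x, (M.V x + k) * (pq (M.du f) x * T x) := integral_nonneg fun x => by
    by_cases hx : x ∈ Sh M.R (1 / 8) (7 / 8)
    · exact mul_nonneg (c.q_nonneg hx) (mul_nonneg (pq_nonneg _ x) (T0 x))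
    · simp [TO x hx]
  have h5 : M.mu * (∫ x, (-(1 / 2) * lap M.Θ x + (M.V x + k) * M.Θ x) * T x) + ∫ x, s x * T x ≤
      ∫ x, ((Sh M.R (1 / 8) (7 / 8)).indicator (fun _ => M.nu * M.sm) x +
          M.lam * M.P ^ 5 * a x) * T x := by
    have i1 := (c.int_L hT).const_mul M.mu
    have i2 := I0.int_mul hs hT.1
    rw [← integral_const_mul, ← integral_add i1 i2]
    refine integral_mono_ae (i1.add i2) (I0.int_mul hτ hT.1) ?_
    filter_upwards [hsa] with x hx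
    by_cases hS : x ∈ Sh M.R (1 / 8) (7 / 8)
    · rcases pq_cases (M.du f) (fun _ _ => 0) x with h1 | h1
      · simp [(Tv x h1.1).1]
      · rw [Set.indicator_of_mem hS]
        have b1 : M.w x * (-(1 / 2) * lap M.Θ x + (M.U x - E₁ + 3) * M.Θ x) ≤
            M.sm + (M.N ∩ M.A).indicator (fun _ => M.P) x := c.th.ΘL x h1.1
        rw [Set.indicator_of_notMem fun h => c.notN hS h.1, add_zero] at b1
        have b2 : 1 ≤ M.P * M.nu * M.w x := c.wt.Gsh x hS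
        have b3 : M.V x + k ≤ M.U x - E₁ + 3 := by
          linarith [c.ok.shV x hS, (abs_le.1 c.kE).2]
        have b4 := mul_le_mul_of_nonneg_right b3 (c.th.nonneg x h1.1)
        have b5 : -(1 / 2) * lap M.Θ x + (M.U x - E₁ + 3) * M.Θ x ≤ M.P * M.nu * M.sm := by
          rcases le_total (-(1 / 2) * lap M.Θ x + (M.U x - E₁ + 3) * M.Θ x) 0 with h | h
          · exact h.trans (by positivity)
          · have := mul_le_mul_of_nonneg_right b2 h
            have := mul_le_mul_of_nonneg_left b1 (by positivity : 0 ≤ M.P * M.nu)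
            linarith
        have b6 : M.mu * (-(1 / 2) * lap M.Θ x + (M.V x + k) * M.Θ x) ≤ M.nu * M.sm := by
          have a1 := mul_le_mul_of_nonneg_left (by linarith :
            -(1 / 2) * lap M.Θ x + (M.V x + k) * M.Θ x ≤ M.P * M.nu * M.sm) c.mu0.le
          have a2 : M.mu * (M.P * M.nu * M.sm) = M.mu * M.P * (M.nu * M.sm) := by ring
          rw [a2, c.muP] at a1
          have a3 : 0 ≤ M.nu * M.sm := by positivity
          linarith
        have b7 := mul_le_mul_of_nonneg_right (add_le_add b6 ((le_abs_self _).trans hx)) (T0 x)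
        linarith
    · simp [TO x hS]
  rw [h3, q1] at h2
  linarith

end ICtx

end Vale.Agent.P363
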