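import Vale.Agent.P363.KaC

/-!
Part K, file S: reflections and the sign trick.
`rf i` is an involutive measure preserving measurable equivalence (`mp_rf`), so
`∫ F (rf i x) = ∫ F x` for every `F`.  `par_orth`: `q1_rf`, `q1_congr`, `q1_comm`, `q1_cmul` give
`q = -q`.  `sgn_h1`: `sg i x * b x = 2 * indicator b x + (-1) * b x` with `H1.half`, `H1.hardy_odd`,
`H1.lin`.  `sgn_even`: the plane `x i = 0` is a null set (`Measure.pi_hyperplane` or `ae_eval_ne`).
`odd_low`: `b' = sg i * b` is even, so orthogonal to `b` for both forms, and has the same norm and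
energy; with `s = ∫ φ b'`, `t = -∫ φ b` the function `s b + t b'` is orthogonal to `φ`; if
`s = t = 0` use `b` itself (`q1_quad`, `sq_quad1`, `ip_lin`).
-/

namespace Vale.Agent.P363

open MeasureTheory Vale.Agent.P370 Filter Topology
open scoped ContDiff

variable {V φ u u' b : Pt → ℝ} {g g' gb : Fin 3 → Pt → ℝ} {e : ℝ} {i : Fin 3}

theorem ka_rf_rf (i : Fin 3) (x : Pt) : rf i (rf i x) = x := funext fun j => by
  simp only [ld_rf_apply]; split_ifs <;> ring

theorem rf_comm (i j : Fin 3) (x : Pt) : rf i (rf j x) = rf j (rf i x) := funext fun k => by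
  simp only [ld_rf_apply]; split_ifs <;> ring

theorem int_rf (i : Fin 3) (F : Pt → ℝ) : ∫ x, F (rf i x) = ∫ x, F x :=
  (mp_rf i).integral_comp (ldR i).toHomeomorph.measurableEmbedding F

theorem ae_rf (i : Fin 3) {p : Pt → Prop} (h : ∀ᵐ x, p x) : ∀ᵐ x, p (rf i x) :=
  (mp_rf i).quasiMeasurePreserving.ae h

theorem h1_rf (hu : H1 u g) (i : Fin 3) : H1 (fun x => u (rf i x)) (rg i g) := hu.rf i

theorem q1_rf (hV : ∀ x, V (rf i x) = V x) :
    q1 V (fun x => u (rf i x)) (rg i g) (fun x => u' (rf i x)) (rg i g') = q1 V u g u' g' := by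
  unfold q1
  rw [← int_rf i fun x => V x * (u x * u' x)]
  simp only [hV]
  congr 2
  refine Finset.sum_congr rfl fun k _ => ?_
  rw [← int_rf i fun x => g k x * g' k x]
  refine integral_congr_ae (Eventually.of_forall fun x => ?_)
  simp only [rg]
  split_ifs <;> ring

theorem par_orth (hV : ∀ x, V (rf i x) = V x) (hu : H1 u g) (hb : H1 b gb)
    (ev : ∀ᵐ x, u (rf i x) = u x) (od : ∀ᵐ x, b (rf i x) = -b x) : q1 V u g b gb = 0 := by
  have h := q1_rf (u := u) (g := g) (u' := b) (g' := gb) hV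
  rw [q1_congr (h1_rf hu i) hu ev, q1_comm, q1_congr (h1_rf hb i) (hb.cmul (-1))
    (od.mono fun x hx => by simp only [hx, neg_one_mul]), q1_cmul, q1_comm] at h
  linarith

theorem par_orth0 {w : Pt → ℝ} (hw : ∀ x, w (rf i x) = w x) (ev : ∀ᵐ x, u (rf i x) = u x)
    (od : ∀ᵐ x, b (rf i x) = -b x) : ∫ x, w x * (u x * b x) = 0 := by
  have h := int_rf i fun x => w x * (u x * b x)
  have h2 : ∫ x, w (rf i x) * (u (rf i x) * b (rf i x)) = -∫ x, w x * (u x * b x) := by
    rw [← integral_neg]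
    refine integral_congr_ae ?_
    filter_upwards [ev, od] with x h1 h2
    rw [hw, h1, h2]; ring
  linarith

theorem sg_sq (i : Fin 3) (x : Pt) : sg i x ^ 2 = 1 := by
  unfold sg; split_ifs <;> norm_num

theorem sg_rf {j : Fin 3} (h : j ≠ i) (x : Pt) : sg i (rf j x) = sg i x := by
  simp only [sg, ld_rf_apply, if_neg h.symm]

theorem sgn_h1 (hb : H1 b gb) (od : ∀ᵐ x, b (rf i x) = -b x) :
    H1 (fun x => sg i x * b x) fun k x => sg i x * gb k x := by
  have h := (hb.half (hb.hardy_odd od).1).lin hb 2 (-1)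
  have e : ∀ (w : Pt → ℝ) x, 2 * {x : Pt | 0 < x i}.indicator w x + -1 * w x = sg i x * w x :=
    fun w x => by
      simp only [sg, Set.indicator, Set.mem_ofPred_eq]
      split_ifs <;> ring
  simpa only [e] using h

theorem sgn_even (od : ∀ᵐ x, b (rf i x) = -b x) :
    ∀ᵐ x, sg i (rf i x) * b (rf i x) = sg i x * b x := by
  have hne : ∀ᵐ x : Pt, x i ≠ 0 := Measure.ae_eval_ne (fun _ => volume) i 0
  filter_upwards [od, hne] with x h1 h2
  rw [h1]
  simp only [sg, ld_rf_apply, if_true]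
  rcases lt_or_gt_of_ne h2 with h | h
  · rw [if_pos (by linarith), if_neg (by linarith)]; ring
  · rw [if_neg (by linarith), if_pos h]; ring

lemma kas_mul (i : Fin 3) (x : Pt) (a c : ℝ) : sg i x * a * (sg i x * c) = a * c := by
  linear_combination a * c * sg_sq i x

theorem sgn_q : q1 V (fun x => sg i x * b x) (fun k x => sg i x * gb k x) (fun x => sg i x * b x)
    (fun k x => sg i x * gb k x) = q1 V b gb b gb := by
  simp only [q1, kas_mul]

theorem odd_low (hV : FB V) (hs : ∀ x, V (rf i x) = V x) (hφ : MemLp φ 2) (hp : Perp V φ e)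
    (hb : H1 b gb) (od : ∀ᵐ x, b (rf i x) = -b x) : e * ∫ x, b x ^ 2 ≤ q1 V b gb b gb := by
  have hb' := sgn_h1 hb od
  have h1 := par_orth hs hb' hb (sgn_even od) od
  have h2 := par_orth0 (w := fun _ => 1) (u := fun x => sg i x * b x) (fun _ => rfl)
    (sgn_even od) od
  have h3 := hp _ _ (hb'.lin hb (-∫ x, φ x * b x) (∫ x, φ x * (sg i x * b x)))
    (by rw [ip_lin hφ hb'.1 hb.1]; ring)
  simp only [one_mul] at h2
  rw [q1_quad hV hb' hb, sq_quad1 hb'.1 hb.1, h1, h2, sgn_q] at h3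
  simp only [mul_pow, sg_sq, one_mul] at h3
  by_cases h0 : ∫ x, φ x * b x = 0
  · exact hp _ _ hb h0
  · have h4 : 0 < (-∫ x, φ x * b x) ^ 2 + (∫ x, φ x * (sg i x * b x)) ^ 2 :=
      add_pos_of_pos_of_nonneg (sq_pos_of_ne_zero (neg_ne_zero.2 h0)) (sq_nonneg _)
    refine le_of_mul_le_mul_left ?_ h4
    linarith

end Vale.Agent.P363
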