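import Vale.Agent.P363.KaG
import Vale.Agent.P363.KaS

/-!
Part K, file I: symmetrisation of the potential (step K1).
`low_rf`: the reflected function is in the class (`RH.rf`, `mp_rfN`), and the form of `v ∘ rf` at `h`
is the form of `v` at the reflected function (change of variables with `mp_rfN`, an involution).
`bil_avg`: `integral_add` with `FB.integrable_rh`.
`dens_sum`: `dens3_int` for `W` and `|W|`, `dens3 ≥ 0`, `hasSum_integral_of_summable_integral_norm`,
`tsum_mul_left`.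
`minimisers`: start from `repr_real`.  For each of the four potentials `W` (all form bounded) the
hypothesis of `dens_sum` follows from `FB.rh` and `FB.grad_le` for `v` (gradient bounded by
`4 (E + C) ∫ f ^ 2`).  By symmetry of `n` (`int_rf`) the four integrals `∫ W n` agree, so the sum over
`k` of `∑ m, (bil (avg v) f f - bil v f f)` is zero, and each term is nonnegative by `low_avg`.
-/

namespace Vale.Agent.P363

open MeasureTheory Vale.Agent.P370 Filter Topology
open scoped ContDiff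

variable {v : Pt → ℝ} {E : ℝ}

theorem inV_rf (h : InV v) (i : Fin 3) : InV fun x => v (rf i x) := by
  obtain ⟨v₁, v₂, h1, h2, e⟩ := h
  exact ⟨fun x => v₁ (rf i x), fun x => v₂ (rf i x), h1.comp_measurePreserving (mp_rf i),
    h2.comp_measurePreserving (mp_rf i), fun x => e _⟩

theorem meas_rf (i : Fin 3) : Measurable (rf i) := (mp_rf i).measurable

theorem avg_meas (h : Measurable v) : Measurable (avg v) :=
  (((h.add (h.comp (meas_rf 0))).add (h.comp (meas_rf 1))).add
    (h.comp ((meas_rf 0).comp (meas_rf 1)))).div_const 4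

lemma KaI_add {v' : Pt → ℝ} (h : InV v) (h' : InV v') : InV fun x => v x + v' x := by
  obtain ⟨v₁, v₂, h1, h2, e⟩ := h
  obtain ⟨w₁, w₂, k1, k2, e'⟩ := h'
  refine ⟨fun x => v₁ x + w₁ x, fun x => v₂ x + w₂ x, h1.add k1, h2.add k2, fun x => ?_⟩
  simp only [e, e']
  ring

lemma KaI_mul (h : InV v) (c : ℝ) : InV fun x => c * v x := by
  obtain ⟨v₁, v₂, h1, h2, e⟩ := h
  refine ⟨fun x => c * v₁ x, fun x => c * v₂ x, h1.const_mul c, h2.const_mul c, fun x => ?_⟩
  simp only [e]
  ring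

theorem avg_inV (h : InV v) : InV (avg v) := by
  have := KaI_mul (KaI_add (KaI_add (KaI_add h (inV_rf h 0)) (inV_rf h 1))
    (inV_rf (inV_rf h 0) 1)) (1 / 4)
  have e : avg v = fun x =>
      1 / 4 * (v x + v (rf 0 x) + v (rf 1 x) + v (rf 0 (rf 1 x))) := by
    funext x
    simp only [avg]
    ring
  rw [e]
  exact this

theorem avg_sym (v : Pt → ℝ) : Sym (avg v) := by
  intro i hi x
  have h : i = 0 ∨ i = 1 := by omega
  rcases h with rfl | rfl
  · simp only [avg, rf_comm 1 0 x, ka_rf_rf]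
    ring
  · simp only [avg, ka_rf_rf]
    ring

theorem low_rf (h : Low v E) (i : Fin 3) : Low (fun x => v (rf i x)) E := by
  intro f H hf ha
  have ha' : Asym fun x => f fun j => rf i (x j) :=
    (mp_rfN (N := 3) i).quasiMeasurePreserving.ae ha
  have k := h _ _ (hf.rf i) ha'
  have e0 := LG_int_rf (N := 3) i fun x => f x ^ 2
  have e1 : ∀ j k, ∫ x : Cf 3, ((if k = i then -1 else 1) * H j k fun j => rf i (x j)) *
      ((if k = i then -1 else 1) * H j k fun j => rf i (x j)) = ∫ x, H j k x * H j k x := by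
    intro j k
    rw [← LG_int_rf i fun x => H j k x * H j k x]
    refine integral_congr_ae (Eventually.of_forall fun x => ?_)
    simp only
    split_ifs <;> ring
  have e2 : ∀ j, ∫ x : Cf 3, v (x j) * ((f fun j => rf i (x j)) * f fun j => rf i (x j)) =
      ∫ x : Cf 3, v (rf i (x j)) * (f x * f x) := fun j => by
    rw [← LG_int_rf i fun x => v (rf i (x j)) * (f x * f x)]
    simp only [ka_rf_rf]
  simp only [bil, e0, e1, e2, zero_mul] at k ⊢
  exact k

theorem bil_avg (hm : Measurable v) (hv : InV v) {f : Cf 3 → ℝ} {G : Fin 3 → Fin 3 → Cf 3 → ℝ}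
    (hf : RH f G) : bil (avg v) 0 f G f G = (bil v 0 f G f G + bil (fun x => v (rf 0 x)) 0 f G f G +
      bil (fun x => v (rf 1 x)) 0 f G f G + bil (fun x => v (rf 0 (rf 1 x))) 0 f G f G) / 4 := by
  have i0 := (hv.fb hm).integrable_rh hf hf
  have i1 := ((inV_rf hv 0).fb (hm.comp (meas_rf 0))).integrable_rh hf hf
  have i2 := ((inV_rf hv 1).fb (hm.comp (meas_rf 1))).integrable_rh hf hf
  have i3 := ((inV_rf (inV_rf hv 0) 1).fb
    (hm.comp ((meas_rf 0).comp (meas_rf 1)))).integrable_rh hf hf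
  have e : ∀ i, ∫ x : Cf 3, avg v (x i) * (f x * f x) = ((∫ x : Cf 3, v (x i) * (f x * f x)) +
      (∫ x : Cf 3, v (rf 0 (x i)) * (f x * f x)) + (∫ x : Cf 3, v (rf 1 (x i)) * (f x * f x)) +
      ∫ x : Cf 3, v (rf 0 (rf 1 (x i))) * (f x * f x)) / 4 := fun i => by
    have j1 : Integrable fun x : Cf 3 =>
      v (x i) * (f x * f x) + v (rf 0 (x i)) * (f x * f x) := (i0 i).add (i1 i)
    have j2 : Integrable fun x : Cf 3 => v (x i) * (f x * f x) + v (rf 0 (x i)) * (f x * f x) +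
      v (rf 1 (x i)) * (f x * f x) := j1.add (i2 i)
    rw [← integral_add (i0 i) (i1 i), ← integral_add j1 (i2 i), ← integral_add j2 (i3 i),
      ← integral_div]
    refine integral_congr_ae (Eventually.of_forall fun x => ?_)
    simp only [avg]
    ring
  simp only [bil, e, zero_mul, Fin.sum_univ_three]
  ring

theorem low_avg (hm : Measurable v) (hv : InV v) (h : Low v E) : Low (avg v) E := by
  intro f H hf ha
  have h0 := h f H hf ha
  have h1 := low_rf h 0 f H hf ha
  have h2 := low_rf h 1 f H hf ha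
  have h3 := low_rf (low_rf h 0) 1 f H hf ha
  rw [bil_avg hm hv hf]
  linarith

lemma KaI_nonneg (f : Cf 3 → ℝ) (x : Pt) : 0 ≤ dens3 f x :=
  Finset.sum_nonneg fun _ _ => integral_nonneg fun _ => sq_nonneg _

theorem dens_sum {M : Type} [Fintype M] {f : ℕ → M → Cf 3 → ℝ} {n W : Pt → ℝ}
    (hf : ∀ k m, MemLp (f k m) 2) (hn : ∀ᵐ x, n x = ∑' k, ∑ m, dens3 (f k m) x)
    (hW : Measurable W) (hi : ∀ k m i, Integrable fun x : Cf 3 => W (x i) * f k m x ^ 2)
    (hs : Summable fun k => ∑ m, ∑ i, ∫ x : Cf 3, |W (x i)| * f k m x ^ 2) :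
    HasSum (fun k => ∑ m, ∑ i, ∫ x : Cf 3, W (x i) * f k m x ^ 2) (∫ x, W x * n x) := by
  have h1 := fun k m => dens3_int hW (hf k m) (hi k m)
  have h2 := fun k m => dens3_int (w := fun x => |W x|) hW.abs (hf k m) fun i => by
    simpa only [abs_mul, abs_pow, sq_abs] using (hi k m i).abs
  have hI : ∀ k, Integrable fun x => ∑ m, W x * dens3 (f k m) x := fun k =>
    integrable_finsetSum _ fun m _ => (h1 k m).1
  have hN : ∀ k, ∫ x, ‖∑ m, W x * dens3 (f k m) x‖ =
      ∑ m, ∑ i, ∫ x : Cf 3, |W (x i)| * f k m x ^ 2 := fun k => by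
    simp only [← fun m => (h2 k m).2]
    rw [← integral_finsetSum _ fun m _ => (h2 k m).1]
    refine integral_congr_ae (Eventually.of_forall fun x => ?_)
    simp only [← Finset.mul_sum, Real.norm_eq_abs, abs_mul,
      abs_of_nonneg (Finset.sum_nonneg fun m _ => KaI_nonneg (f k m) x)]
  have H := hasSum_integral_of_summable_integral_norm hI (by simpa only [hN] using hs)
  have e1 : ∀ k, ∫ x, ∑ m, W x * dens3 (f k m) x =
      ∑ m, ∑ i, ∫ x : Cf 3, W (x i) * f k m x ^ 2 := fun k => by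
    rw [integral_finsetSum _ fun m _ => (h1 k m).1]
    simp only [fun m => (h1 k m).2]
  have e2 : ∫ x, ∑' k, ∑ m, W x * dens3 (f k m) x = ∫ x, W x * n x := by
    refine integral_congr_ae ?_
    filter_upwards [hn] with x hx
    simp only [← Finset.mul_sum, tsum_mul_left, hx]
  simpa only [e1, e2] using H

lemma KaI_bil (W : Pt → ℝ) (f : Cf 3 → ℝ) (G : Fin 3 → Fin 3 → Cf 3 → ℝ) : bil W 0 f G f G =
    1 / 2 * (∑ i, ∑ k, ∫ x, G i k x ^ 2) + ∑ i, ∫ x : Cf 3, W (x i) * f x ^ 2 := by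
  simp only [bil, zero_mul, add_zero, sq]

theorem minimisers {n : Pt → ℝ} (hs : ∀ i : Fin 3, i ≠ 2 → ∀ᵐ x, n (rf i x) = n x)
    (h : Repr 2 n) :
    ∃ (V : Pt → ℝ) (E : ℝ) (f : ℕ → (Fin 3 → Fin 2) × Bool → Cf 3 → ℝ)
      (G : ℕ → (Fin 3 → Fin 2) × Bool → Fin 3 → Fin 3 → Cf 3 → ℝ),
      Measurable V ∧ InV V ∧ Sym V ∧ Low V E ∧
      (∀ k m, RH (f k m) (G k m) ∧ Asym (f k m) ∧
        bil V 0 (f k m) (G k m) (f k m) (G k m) = E * ∫ x, f k m x ^ 2) ∧
      ∀ w, Wgt w →
        HasSum (fun k => ∑ m, ∑ i, ∫ x : Cf 3, w (x i) * f k m x ^ 2) (∫ x, w x * n x) := by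
  obtain ⟨v, E, f, G, hm, hv, hL, hf, hsum, hn⟩ := repr_real h
  obtain ⟨C', -, hC'⟩ := (hv.fb hm).grad_le (N := 3) (lam := 0) le_rfl
  have key : ∀ W, FB W → HasSum (fun k => ∑ m, ∑ i, ∫ x : Cf 3, W (x i) * f k m x ^ 2)
      (∫ x, W x * n x) := fun W hW => by
    obtain ⟨C, -, hC⟩ := hW.rh one_pos
    refine dens_sum (fun k m => (hf k m).1.1) hn hW.1
      (fun k m i => (hC 3 _ _ i (hf k m).1).1) ?_
    refine Summable.of_nonneg_of_le (fun k => Finset.sum_nonneg fun m _ =>
      Finset.sum_nonneg fun i _ => integral_nonneg fun x =>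
        mul_nonneg (abs_nonneg _) (sq_nonneg _)) (fun k => ?_)
      (hsum.mul_left (4 * (E + C') + 3 * C))
    rw [Finset.mul_sum]
    refine Finset.sum_le_sum fun m _ => ?_
    have a := hC' _ _ (hf k m).1
    have a0 := (hC 3 _ _ 0 (hf k m).1).2
    have a1 := (hC 3 _ _ 1 (hf k m).1).2
    have a2 := (hC 3 _ _ 2 (hf k m).1).2
    rw [(hf k m).2.2, Fin.sum_univ_three] at a
    rw [Fin.sum_univ_three]
    linarith
  have sy : ∀ (W : Pt → ℝ) (i : Fin 3), i ≠ 2 → ∫ x, W (rf i x) * n x = ∫ x, W x * n x :=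
    fun W i hi => by
    rw [← int_rf i fun x => W x * n x]
    refine integral_congr_ae ?_
    filter_upwards [hs i hi] with x hx
    rw [hx]
  have s0 := key _ (hv.fb hm)
  have s1 := key _ ((inV_rf hv 0).fb (hm.comp (meas_rf 0)))
  have s2 := key _ ((inV_rf hv 1).fb (hm.comp (meas_rf 1)))
  have s3 := key _ ((inV_rf (inV_rf hv 0) 1).fb (hm.comp ((meas_rf 0).comp (meas_rf 1))))
  have y0 := sy v 0 (by decide)
  have y1 := sy v 1 (by decide)
  have y2 := sy (fun x => v (rf 0 x)) 1 (by decide)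
  rw [y2, y0] at s3
  rw [y0] at s1
  rw [y1] at s2
  have nn : ∀ k m, 0 ≤ bil (avg v) 0 (f k m) (G k m) (f k m) (G k m) - E * ∫ x, f k m x ^ 2 :=
    fun k m => sub_nonneg.2 (low_avg hm hv hL _ _ (hf k m).1 (hf k m).2.1)
  have S : HasSum (fun k => ∑ m,
      (bil (avg v) 0 (f k m) (G k m) (f k m) (G k m) - E * ∫ x, f k m x ^ 2)) 0 := by
    have t := ((((s0.add s1).add s2).add s3).div_const 4).sub s0
    have e : ((∫ x, v x * n x) + (∫ x, v x * n x) + (∫ x, v x * n x) + ∫ x, v x * n x) / 4 -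
        ∫ x, v x * n x = 0 := by ring
    rw [e] at t
    refine (congrArg (fun F => HasSum F 0) (funext fun k => ?_)).mp t
    rw [← Finset.sum_add_distrib, ← Finset.sum_add_distrib, ← Finset.sum_add_distrib,
      Finset.sum_div, ← Finset.sum_sub_distrib]
    refine Finset.sum_congr rfl fun m _ => ?_
    rw [bil_avg hm hv (hf k m).1, ← (hf k m).2.2]
    simp only [KaI_bil]
    ring
  have Z := (hasSum_zero_iff_of_nonneg fun k => Finset.sum_nonneg fun m _ => nn k m).1 S
  refine ⟨avg v, E, f, G, avg_meas hm, avg_inV hv, avg_sym v, low_avg hm hv hL,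
    fun k m => ⟨(hf k m).1, (hf k m).2.1, sub_eq_zero.1 ?_⟩, fun w hw => key w ?_⟩
  · exact (Finset.sum_eq_zero_iff_of_nonneg fun m _ => nn k m).1 (congrFun Z k) m
      (Finset.mem_univ m)
  · obtain ⟨B, hB⟩ := hw.2.1
    refine InV.fb ⟨fun _ => 0, w, MemLp.zero', memLp_top_of_bound hw.1.aestronglyMeasurable B
      (Eventually.of_forall hB), fun x => (zero_add _).symm⟩ hw.1

end Vale.Agent.P363
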