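import Vale.Agent.P363.KaH
import Vale.Agent.P363.KaI

/-! Part K, steps K1 to K4: the occupied orbitals of a representable symmetric density. -/

namespace Vale.Agent.P363

open MeasureTheory Vale.Agent.P370
open scoped ContDiff

/-- A symmetric representable density is a sum of squares of solutions of one-body equations,
each of them even in one of the first two coordinates (after integration against bounded
symmetric weights). -/
theorem orbitals {n : Pt → ℝ} (hs : ∀ i : Fin 3, i ≠ 2 → ∀ᵐ x, n (rf i x) = n x)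
    (_hi : Integrable n) (h : Repr 2 n) :
    ∃ (ι : Type) (v : Pt → ℝ) (C : ℝ) (u : ι → Pt → ℝ) (g : ι → Fin 3 → Pt → ℝ) (e : ι → ℝ)
      (j : ι → Fin 3), Measurable v ∧ InV v ∧
      (∀ m, H1 (u m) (g m) ∧ Sol (fun x => v x - e m) 0 (u m) (g m) ∧ |e m| ≤ C ∧ j m ≠ 2 ∧
        ∀ᵐ x, u m (rf (j m) x) = u m x) ∧
      ∀ om : Pt → ℝ, Measurable om → (∃ B, ∀ x, |om x| ≤ B) → (∀ x, 0 ≤ om x) →
        (∀ i : Fin 3, i ≠ 2 → ∀ x, om (rf i x) = om x) →
        HasSum (fun m => ∫ x, om x * u m x ^ 2) (∫ x, om x * n x) := by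
  obtain ⟨V, E, f, G, hm, hV, hsym, hL, hf, hsum⟩ := minimisers hs h
  have fb := hV.fb hm
  obtain ⟨e, hb, hδ⟩ := exists_bot fb
  have h1 : Occ (PG V (|e| + |E - 2 * e|)) fun w => ∫ x, w x * n x :=
    Occ.sum (M := fun k w => ∑ m, ∑ i, ∫ x : Cf 3, w (x i) * f k m x ^ 2)
      (fun k => Occ.sum (fun m => occ_min fb hsym hL hb hδ (hf k m).1 (hf k m).2.1 (hf k m).2.2)
        fun _ _ => hasSum_fintype _) hsum
  obtain ⟨ι, u, hu, hs'⟩ := h1.bind fun u hu => good_split fb hsym hu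
  choose g e' j hh using hu
  exact ⟨ι, V, _, u, g, e', j, hm, hV, hh, fun om a b c d => hs' om ⟨a, b, c, d⟩⟩

end Vale.Agent.P363
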