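import Vale.Agent.P363.KaD

/-!
Part K, file A: contractions and the identity of Parseval (pure measure theory).
Transport everything to `Pt × Cf 2` with `ka_mp_cons` (a measurable equivalence, the inverse of
`MeasurableEquiv.piFinSuccAbove _ 0`, `volume_preserving_piFinSuccAbove`,
`Fin.insertNth_zero`), then `integral_prod`, `Integrable.prod_right_ae`.
`exists_pars`: `exists_hilbertBasis ℝ (Lp ℝ 2 volume)`; countable because the balls of radius
`1 / 2` around the basis vectors are disjoint (`Set.PairwiseDisjoint.countable_of_isOpen`,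
`Lp.SecondCountableTopology`, `isSeparable_of_sigmaFinite`); `HilbertBasis.hasSum_inner_mul_inner`,
`L2.inner_def`.
`ct_memLp`, `cs_memLp`: Cauchy-Schwarz on almost every slice.
`pars_sum`: for almost every `x` the slice is square integrable, so the sum over `j` of
`ρ x * ct f (w j) x ^ 2` is `ρ x * ∫ y, f (cons x y) ^ 2`; finite sums of the norms are bounded by
`|ρ x| * ∫ y, f (cons x y) ^ 2`, which is integrable; `hasSum_integral_of_summable_integral_norm`
(measurability from `ct_memLp`).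
`pars_q`: `pars_sum` for each `G 0 k` with `ρ = 1` and for `f` with `ρ = V` (`FB.rh`).
-/

namespace Vale.Agent.P363

open MeasureTheory Vale.Agent.P370 Filter Topology
open scoped ContDiff

variable {f : Cf 3 → ℝ} {G : Fin 3 → Fin 3 → Cf 3 → ℝ} {V φ : Pt → ℝ} {a : Cf 2 → ℝ}

section gen

variable {X Y : Type} [MeasurableSpace X] [MeasurableSpace Y] {μ : Measure X} {ν : Measure Y}

lemma KaA_cs {p q : X → ℝ} (hp : MemLp p 2 μ) (hq : MemLp q 2 μ) :
    (∫ x, p x * q x ∂μ) ^ 2 ≤ (∫ x, p x ^ 2 ∂μ) * ∫ x, q x ^ 2 ∂μ := by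
  have i1 := hp.integrable_sq
  have i2 := hq.integrable_sq
  have i3 : Integrable (fun x => p x * q x) μ := hp.integrable_mul hq
  have h := discrim_le_zero (a := ∫ x, p x ^ 2 ∂μ) (b := -2 * ∫ x, p x * q x ∂μ)
    (c := ∫ x, q x ^ 2 ∂μ) fun t => by
      have e : ∫ x, (t * p x - q x) ^ 2 ∂μ =
          ∫ x, (t * t * p x ^ 2 + -2 * t * (p x * q x) + q x ^ 2) ∂μ :=
        integral_congr_ae (Eventually.of_forall fun x => by ring)
      have h0 : 0 ≤ ∫ x, (t * p x - q x) ^ 2 ∂μ := integral_nonneg fun x => sq_nonneg _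
      rw [e, integral_add ((i1.const_mul _).fun_add (i3.const_mul _)) i2,
        integral_add (i1.const_mul _) (i3.const_mul _), integral_const_mul,
        integral_const_mul] at h0
      linarith
  rw [discrim] at h
  linarith

variable [SFinite μ] [SFinite ν]

lemma KaA_ten {p : X → ℝ} {q : Y → ℝ} (hp : MemLp p 2 μ) (hq : MemLp q 2 ν) :
    MemLp (fun z : X × Y => p z.1 * q z.2) 2 (μ.prod ν) := by
  refine (memLp_two_iff_integrable_sq (hp.1.comp_fst.mul hq.1.comp_snd)).2 ?_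
  simpa only [Pi.mul_apply, mul_pow] using hp.integrable_sq.mul_prod hq.integrable_sq

lemma KaA_slice {F : X × Y → ℝ} (h : MemLp F 2 (μ.prod ν)) :
    ∀ᵐ x ∂μ, MemLp (fun y => F (x, y)) 2 ν := by
  filter_upwards [h.integrable_sq.prod_right_ae, h.1.prodMk_left] with x h1 h2
  exact (memLp_two_iff_integrable_sq h2).2 h1

lemma KaA_swap {F : X × Y → ℝ} (h : MemLp F 2 (μ.prod ν)) :
    MemLp (fun z : Y × X => F (z.2, z.1)) 2 (ν.prod μ) :=
  h.comp_measurePreserving Measure.measurePreserving_swap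

lemma KaA_ct {F : X × Y → ℝ} {q : Y → ℝ} (h : MemLp F 2 (μ.prod ν)) (hq : MemLp q 2 ν) :
    MemLp (fun x => ∫ y, F (x, y) * q y ∂ν) 2 μ := by
  have m : AEStronglyMeasurable (fun x => ∫ y, F (x, y) * q y ∂ν) μ :=
    (h.1.mul hq.1.comp_snd).integral_prod_right'
  refine (memLp_two_iff_integrable_sq m).2 ?_
  refine (h.integrable_sq.integral_prod_left.mul_const (∫ y, q y ^ 2 ∂ν)).mono' (m.pow 2) ?_
  filter_upwards [KaA_slice h] with x hx
  rw [Real.norm_eq_abs, abs_of_nonneg (sq_nonneg _)]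
  exact KaA_cs hx hq

end gen

theorem ka_mp_cons (n : ℕ) : MeasurePreserving
    (fun p : Pt × Cf n => (Fin.cons p.1 p.2 : Cf (n + 1))) (volume.prod volume) volume := by
  simpa only [Fin.insertNth_zero'] using spin_mp_ins (n := n) 0

lemma KaA_emb (n : ℕ) : MeasurableEmbedding
    fun p : Pt × Cf n => (Fin.cons p.1 p.2 : Cf (n + 1)) := by
  simpa only [Fin.insertNth_zero'] using spin_emb_ins (n := n) 0

lemma KaA_mem {n : ℕ} {F : Cf (n + 1) → ℝ} (h : MemLp F 2) :
    MemLp (fun p : Pt × Cf n => F (Fin.cons p.1 p.2)) 2 (volume.prod volume) :=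
  h.comp_measurePreserving (ka_mp_cons n)

theorem integrable_cons {n : ℕ} {F : Cf (n + 1) → ℝ} (h : Integrable F) :
    Integrable (fun p : Pt × Cf n => F (Fin.cons p.1 p.2)) (volume.prod volume) :=
  (ka_mp_cons n).integrable_comp_of_integrable h

theorem integral_cons {n : ℕ} {F : Cf (n + 1) → ℝ} (h : Integrable F) :
    ∫ x, F x = ∫ x : Pt, ∫ y : Cf n, F (Fin.cons x y) := by
  rw [← (ka_mp_cons n).integral_comp (KaA_emb n), integral_prod _ (integrable_cons h)]

theorem integral_cons' {n : ℕ} {F : Cf (n + 1) → ℝ} (h : Integrable F) :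
    ∫ x, F x = ∫ y : Cf n, ∫ x : Pt, F (Fin.cons x y) := by
  rw [← (ka_mp_cons n).integral_comp (KaA_emb n), integral_prod_symm _ (integrable_cons h)]

theorem slice_memLp {n : ℕ} {F : Cf (n + 1) → ℝ} (h : MemLp F 2) :
    (∀ᵐ x : Pt, MemLp (fun y : Cf n => F (Fin.cons x y)) 2) ∧
      ∀ᵐ y : Cf n, MemLp (fun x : Pt => F (Fin.cons x y)) 2 :=
  ⟨KaA_slice (KaA_mem h), KaA_slice (KaA_swap (KaA_mem h))⟩

theorem tensor_memLp {n : ℕ} {b : Cf n → ℝ} (hφ : MemLp φ 2) (hb : MemLp b 2) :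
    MemLp (fun x : Cf (n + 1) => φ (x 0) * b (Fin.tail x)) 2 := by
  rw [← (ka_mp_cons n).map_eq, (KaA_emb n).memLp_map_measure_iff]
  exact KaA_ten hφ hb

theorem exists_pars : ∃ (J : Type) (_ : Countable J) (w : J → Cf 2 → ℝ), Pars w := by
  obtain ⟨J, b, -⟩ := exists_hilbertBasis ℝ (Lp ℝ 2 (volume : Measure (Cf 2)))
  have : Fact ((2 : ENNReal) ≠ ⊤) := ⟨by simp⟩
  have : SecondCountableTopology (Lp ℝ 2 (volume : Measure (Cf 2))) := Lp.SecondCountableTopology
  refine ⟨J, Pairwise.countable_of_isOpen_disjoint (s := fun i : J => Metric.ball (b i) (1 / 2))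
    (fun i j hij => Metric.ball_disjoint_ball ?_) (fun _ => Metric.isOpen_ball)
    (fun _ => Metric.nonempty_ball.2 (by norm_num)), fun j => b j, fun j => Lp.memLp _,
    fun a ha => ?_⟩
  · have h := norm_sub_sq_real (b i) (b j)
    rw [b.orthonormal.1 i, b.orthonormal.1 j, b.orthonormal.2 hij] at h
    rw [dist_eq_norm]
    nlinarith [norm_nonneg (b i - b j)]
  · have h := b.hasSum_inner_mul_inner (ha.toLp a) (ha.toLp a)
    have e1 : ∀ j, inner ℝ (ha.toLp a) (b j) * inner ℝ (b j) (ha.toLp a) =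
        (∫ y, a y * b j y) ^ 2 := fun j => by
      rw [real_inner_comm (ha.toLp a), ← sq, L2.inner_def]
      congr 1
      refine integral_congr_ae ?_
      filter_upwards [ha.coeFn_toLp] with y hy
      simp [hy, mul_comm]
    have e2 : inner ℝ (ha.toLp a) (ha.toLp a) = ∫ y, a y ^ 2 := by
      rw [L2.inner_def]
      refine integral_congr_ae ?_
      filter_upwards [ha.coeFn_toLp] with y hy
      simp [hy]
    simpa only [e1, e2] using h

theorem ct_memLp (hf : MemLp f 2) (ha : MemLp a 2) : MemLp (ct f a) 2 :=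
  KaA_ct (KaA_mem hf) ha

theorem cs_memLp (hf : MemLp f 2) (hφ : MemLp φ 2) : MemLp (cs f φ) 2 := by
  have := KaA_ct (KaA_swap (KaA_mem hf)) hφ
  simp only [mul_comm _ (φ _)] at this
  exact this

lemma KaA_int (hf : MemLp f 2) (ha : MemLp a 2) (hφ : MemLp φ 2) :
    ∫ x : Cf 3, f x * (φ (x 0) * a (Fin.tail x)) = ∫ y, cs f φ y * a y := by
  refine (integral_cons' (n := 2) (hf.integrable_mul (tensor_memLp hφ ha))).trans ?_
  refine integral_congr_ae (ae_of_all _ fun y => ?_)
  simp only [cs, ← integral_mul_const, Pi.mul_apply, Fin.cons_zero, Fin.tail_cons]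
  exact integral_congr_ae (ae_of_all _ fun x => by simp only; ring)

theorem ct_cs (hf : MemLp f 2) (ha : MemLp a 2) (hφ : MemLp φ 2) :
    ∫ x, φ x * ct f a x = ∫ y, cs f φ y * a y := by
  rw [← KaA_int hf ha hφ]
  refine Eq.trans ?_ (integral_cons (n := 2) (hf.integrable_mul (tensor_memLp hφ ha))).symm
  refine integral_congr_ae (ae_of_all _ fun x => ?_)
  simp only [ct, ← integral_const_mul, Pi.mul_apply, Fin.cons_zero, Fin.tail_cons]
  exact integral_congr_ae (ae_of_all _ fun y => by simp only; ring)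

theorem cs_int (hf : MemLp f 2) (ha : MemLp a 2) (hφ : MemLp φ 2) :
    ∫ x : Cf 3, f x * (φ (x 0) * a (Fin.tail x)) = ∫ y, cs f φ y * a y :=
  KaA_int hf ha hφ

theorem pars_sum {J : Type} [Countable J] {w : J → Cf 2 → ℝ} (hw : Pars w) (hf : MemLp f 2)
    {ρ : Pt → ℝ} (hρ : Measurable ρ) (hi : Integrable fun x : Cf 3 => ρ (x 0) * f x ^ 2) :
    HasSum (fun j => ∫ x, ρ x * ct f (w j) x ^ 2) (∫ x : Cf 3, ρ (x 0) * f x ^ 2) := by
  have hs : ∀ᵐ x : Pt, HasSum (fun j => ct f (w j) x ^ 2) (∫ y : Cf 2, f (Fin.cons x y) ^ 2) := by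
    filter_upwards [(slice_memLp hf).1] with x hx
    exact hw.2 _ hx
  have i0 : Integrable fun x : Pt => ρ x * ∫ y : Cf 2, f (Fin.cons x y) ^ 2 := by
    simpa only [Fin.cons_zero, integral_const_mul] using (integrable_cons hi).integral_prod_left
  have bd : ∀ S : Finset J, ∀ᵐ x : Pt, ∑ j ∈ S, ‖ρ x * ct f (w j) x ^ 2‖ ≤
      ‖ρ x * ∫ y : Cf 2, f (Fin.cons x y) ^ 2‖ := fun S => by
    filter_upwards [hs] with x hx
    simp only [norm_mul, ← Finset.mul_sum, Real.norm_eq_abs, abs_pow, sq_abs]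
    exact mul_le_mul_of_nonneg_left
      ((sum_le_hasSum S (fun _ _ => sq_nonneg _) hx).trans (le_abs_self _)) (abs_nonneg _)
  have i1 : ∀ j, Integrable fun x : Pt => ρ x * ct f (w j) x ^ 2 := fun j =>
    i0.norm.mono' (hρ.aestronglyMeasurable.mul ((ct_memLp hf (hw.1 j)).1.pow 2))
      (by simpa only [Finset.sum_singleton] using bd {j})
  have h := hasSum_integral_of_summable_integral_norm i1 (summable_of_sum_le
    (c := ∫ x : Pt, ‖ρ x * ∫ y : Cf 2, f (Fin.cons x y) ^ 2‖)
    (fun j => integral_nonneg fun _ => norm_nonneg _) fun S => by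
      rw [← integral_finsetSum _ fun j _ => (i1 j).norm]
      exact integral_mono_ae (integrable_finsetSum _ fun j _ => (i1 j).norm) i0.norm (bd S))
  suffices e : ∫ x : Pt, ∑' j, ρ x * ct f (w j) x ^ 2 = ∫ x : Cf 3, ρ (x 0) * f x ^ 2 from e ▸ h
  refine Eq.trans (integral_congr_ae ?_) (integral_cons (n := 2) hi).symm
  filter_upwards [hs] with x hx
  simp only [Fin.cons_zero, integral_const_mul, (hx.mul_left (ρ x)).tsum_eq]

theorem pars_q {J : Type} [Countable J] {w : J → Cf 2 → ℝ} (hw : Pars w) (hV : FB V)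
    (hf : RH f G) :
    HasSum (fun j => q1 V (ct f (w j)) (fun k => ct (G 0 k) (w j)) (ct f (w j))
      fun k => ct (G 0 k) (w j)) (Qs V f G) := by
  obtain ⟨C, -, hC⟩ := hV.rh one_pos
  have h1 := pars_sum hw hf.1 hV.1 (hC 3 f G 0 hf).1
  have h2 : ∀ k, HasSum (fun j => ∫ x, ct (G 0 k) (w j) x ^ 2) (∫ x, G 0 k x ^ 2) := fun k => by
    simpa only [one_mul] using pars_sum hw (hf.2 0 k).1 (ρ := fun _ => 1) measurable_const
      (by simpa only [one_mul] using (hf.2 0 k).1.integrable_sq)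
  simpa only [q1, Qs, ← sq] using
    ((hasSum_sum fun k (_ : k ∈ Finset.univ) => h2 k).mul_left (1 / 2)).add h1

end Vale.Agent.P363
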