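import Vale.Agent.P363.KaA

/-!
Part K, file B: consequences of antisymmetry (pure measure theory).
Write `β = cs f φ`, `p x = φ (x 0) * β (tail x)`, `p' x = -p (x ∘ swap 0 1)`; `mp_prm`, `int_prm` of
P370/DensA say that permutations preserve the volume.
`cross_zero`: by `cs_int` the left side is the integral of `f x * (φ (x 0) * (φ (x 1) * κ (x 2)))`,
which changes sign under the exchange of the first two positions.
`cross_w`: `integral_cons'`; for fixed `y` the integrand at `cons x y` is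
`β y * φ (y 0) * (w x * φ x * β ![x, y 1])`, so the integral is that of `cross_zero` with
`κ z = ∫ x, w x * φ x * β ![x, z]`, square integrable by Cauchy-Schwarz (as in `cs_memLp`, one
dimension lower; `volume_preserving_finTwoArrow` or `ka_mp_cons 1`).
`cs_le`, `cs_eq`: `∫ f p = ∫ f p' = ∫ p ^ 2 = ∫ p' ^ 2 = ∫ β ^ 2`, `∫ p p' = 0`, so
`∫ (f - p - p') ^ 2 = ∫ f ^ 2 - 2 ∫ β ^ 2`.  In the case of equality `rs f φ = p'` almost everywhere
and `f ^ 2 = p ^ 2 + 2 p p' + p' ^ 2`.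
`bil_slots`: `RH.perm` and `WD.unique` (`rh_iff`, `WD.smul`) give
`G 0 k (x ∘ swap 0 1) = -G 1 k x` almost everywhere.
-/

namespace Vale.Agent.P363

open MeasureTheory Vale.Agent.P370 Filter Topology
open scoped ContDiff

variable {f : Cf 3 → ℝ} {G : Fin 3 → Fin 3 → Cf 3 → ℝ} {V φ : Pt → ℝ} {a : Cf 2 → ℝ}

theorem rs_memLp (hf : MemLp f 2) (hφ : MemLp φ 2) : MemLp (rs f φ) 2 :=
  hf.sub (tensor_memLp (n := 2) hφ (cs_memLp hf hφ))

theorem ct_rs (hf : MemLp f 2) (hφ : MemLp φ 2) (ha : MemLp a 2) :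
    ∀ᵐ x, ct (rs f φ) a x = ct f a x - (∫ y, cs f φ y * a y) * φ x := by
  filter_upwards [(slice_memLp hf).1] with x hx
  have i1 : Integrable fun y : Cf 2 => f (Fin.cons x y) * a y := hx.integrable_mul ha
  have i2 : Integrable fun y : Cf 2 => cs f φ y * a y := (cs_memLp hf hφ).integrable_mul ha
  simp only [ct, rs, Fin.cons_zero, Fin.tail_cons]
  rw [← integral_mul_const, ← integral_sub i1 (i2.mul_const _)]
  exact integral_congr_ae (ae_of_all _ fun y => by simp only; ring)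

theorem cross_zero (hf : MemLp f 2) (ha : Asym f) (hφ : MemLp φ 2) {κ : Pt → ℝ}
    (hκ : MemLp κ 2) : ∫ y : Cf 2, cs f φ y * (φ (y 0) * κ (y 1)) = 0 := by
  have m : MemLp (fun y : Cf 2 => φ (y 0) * κ (y 1)) 2 :=
    (KaA_ten hφ hκ).comp_measurePreserving (volume_preserving_finTwoArrow Pt)
  rw [← cs_int hf m hφ]
  have h := int_prm (Equiv.swap (0 : Fin 3) 1)
    fun x : Cf 3 => f x * (φ (x 0) * (φ (x 1) * κ (x 2)))
  have h2 : ∫ x : Cf 3, f (x ∘ Equiv.swap 0 1) * (φ (x 1) * (φ (x 0) * κ (x 2))) =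
      -∫ x : Cf 3, f x * (φ (x 0) * (φ (x 1) * κ (x 2))) := by
    rw [← integral_neg]
    refine integral_congr_ae ?_
    filter_upwards [ha] with x hx
    rw [hx]
    ring
  have h3 := h2.symm.trans h
  change ∫ x : Cf 3, f x * (φ (x 0) * (φ (x 1) * κ (x 2))) = 0
  linarith

lemma KaB_p (hf : MemLp f 2) (hφ : MemLp φ 2) :
    MemLp (fun x : Cf 3 => φ (x 0) * cs f φ (Fin.tail x)) 2 :=
  tensor_memLp (n := 2) hφ (cs_memLp hf hφ)

lemma KaB_p' (hf : MemLp f 2) (hφ : MemLp φ 2) :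
    MemLp (fun x : Cf 3 => φ (x 1) * cs f φ (Fin.tail (x ∘ Equiv.swap 0 1))) 2 :=
  (KaB_p hf hφ).comp_measurePreserving (mp_prm (Equiv.swap 0 1))

lemma KaB_w {p q : Cf 3 → ℝ} (hp : MemLp p 2) (hq : MemLp q 2) {w : Pt → ℝ} (hw : Measurable w)
    {B : ℝ} (hB : ∀ x, |w x| ≤ B) : Integrable fun x : Cf 3 => w (x 0) * (p x * q x) :=
  (hp.integrable_mul hq).bdd_mul (c := B) (hw.comp (measurable_pi_apply 0)).aestronglyMeasurable
    (ae_of_all _ fun _ => hB _)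

theorem cross_w (hf : MemLp f 2) (ha : Asym f) (hφ : MemLp φ 2) {w : Pt → ℝ} (hw : Measurable w)
    {B : ℝ} (hB : ∀ x, |w x| ≤ B) :
    ∫ x : Cf 3, w (x 0) * ((φ (x 0) * cs f φ (Fin.tail x)) *
      (φ (x 1) * cs f φ (Fin.tail (x ∘ Equiv.swap 0 1)))) = 0 := by
  have hβ := cs_memLp hf hφ
  have hβ' : MemLp (fun p : Pt × Pt => cs f φ ![p.1, p.2]) 2 (volume.prod volume) :=
    hβ.comp_measurePreserving (volume_preserving_finTwoArrow Pt).symm
  have hκ := KaA_ct (KaA_swap hβ') (LB_mem hφ hw.aestronglyMeasurable hB)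
  rw [← cross_zero hf ha hφ hκ]
  refine (integral_cons' (n := 2) (KaB_w (KaB_p hf hφ) (KaB_p' hf hφ) hw hB)).trans
    (integral_congr_ae (ae_of_all _ fun y => ?_))
  simp only [← integral_const_mul]
  refine integral_congr_ae (ae_of_all _ fun x => ?_)
  have e : Fin.tail ((Fin.cons x y : Cf 3) ∘ Equiv.swap 0 1) = ![x, y 1] := by
    funext i
    fin_cases i <;> rfl
  simp only [e, Fin.cons_zero, Fin.tail_cons, Fin.cons_one]
  ring

lemma KaB_psq (f : Cf 3 → ℝ) (φ w : Pt → ℝ) :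
    ∫ x : Cf 3, w (x 0) * (φ (x 0) * cs f φ (Fin.tail x)) ^ 2 =
      (∫ y, cs f φ y ^ 2) * ∫ x, w x * φ x ^ 2 := by
  rw [← (ka_mp_cons 2).integral_comp (KaA_emb 2), mul_comm, ← integral_prod_mul]
  refine integral_congr_ae (ae_of_all _ fun p => ?_)
  simp only [Fin.cons_zero, Fin.tail_cons]
  ring

lemma KaB_exp {p q : Cf 3 → ℝ} (hf : MemLp f 2) (hp : MemLp p 2) (hq : MemLp q 2) :
    ∫ x, (f x - p x + q x) ^ 2 = (∫ x, f x ^ 2) + (∫ x, p x ^ 2) + (∫ x, q x ^ 2) -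
      2 * (∫ x, f x * p x) + 2 * (∫ x, f x * q x) - 2 * ∫ x, p x * q x := by
  have i1 := hf.integrable_sq.fun_add hp.integrable_sq
  have i2 := i1.fun_add hq.integrable_sq
  have j1 : Integrable fun x => 2 * (f x * p x) := (hf.integrable_mul hp).const_mul 2
  have j2 : Integrable fun x => 2 * (f x * q x) := (hf.integrable_mul hq).const_mul 2
  have j3 : Integrable fun x => 2 * (p x * q x) := (hp.integrable_mul hq).const_mul 2
  have i3 : Integrable fun x => f x ^ 2 + p x ^ 2 + q x ^ 2 - 2 * (f x * p x) := i2.sub j1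
  simp only [← integral_const_mul]
  rw [← integral_add hf.integrable_sq hp.integrable_sq, ← integral_add i1 hq.integrable_sq,
    ← integral_sub i2 j1, ← integral_add i3 j2, ← integral_sub (i3.fun_add j2) j3]
  exact integral_congr_ae (ae_of_all _ fun x => by simp only; ring)

lemma KaB_key (hf : MemLp f 2) (ha : Asym f) (hφ : MemLp φ 2) (h1 : ∫ x, φ x ^ 2 = 1) :
    ∫ x : Cf 3, (rs f φ x + φ (x 1) * cs f φ (Fin.tail (x ∘ Equiv.swap 0 1))) ^ 2 =
      (∫ x, f x ^ 2) - 2 * ∫ y, cs f φ y ^ 2 := by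
  have hp := KaB_p hf hφ
  have hp' := KaB_p' hf hφ
  have a1 := cs_int hf (cs_memLp hf hφ) hφ
  have a3 := KaB_psq f φ fun _ => 1
  have a5 := cross_w hf ha hφ (w := fun _ => 1) measurable_const (B := 1) (by simp)
  have a4 : ∫ x : Cf 3, (φ (x 1) * cs f φ (Fin.tail (x ∘ Equiv.swap 0 1))) ^ 2 = _ :=
    int_prm (Equiv.swap (0 : Fin 3) 1) fun x : Cf 3 => (φ (x 0) * cs f φ (Fin.tail x)) ^ 2
  have a2 : ∫ x : Cf 3, f (x ∘ Equiv.swap 0 1) *
      (φ (x 1) * cs f φ (Fin.tail (x ∘ Equiv.swap 0 1))) = _ :=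
    int_prm (Equiv.swap (0 : Fin 3) 1) fun x : Cf 3 => f x * (φ (x 0) * cs f φ (Fin.tail x))
  have a6 : ∫ x : Cf 3, f (x ∘ Equiv.swap 0 1) *
      (φ (x 1) * cs f φ (Fin.tail (x ∘ Equiv.swap 0 1))) =
      -∫ x : Cf 3, f x * (φ (x 1) * cs f φ (Fin.tail (x ∘ Equiv.swap 0 1))) := by
    rw [← integral_neg]
    refine integral_congr_ae ?_
    filter_upwards [ha] with x hx
    rw [hx, neg_mul]
  simp only [one_mul, h1, mul_one, ← sq] at a1 a3 a5
  simp only [rs]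
  rw [KaB_exp hf hp hp']
  linarith

theorem cs_le (hf : MemLp f 2) (ha : Asym f) (hφ : MemLp φ 2) (h1 : ∫ x, φ x ^ 2 = 1) :
    2 * ∫ y, cs f φ y ^ 2 ≤ ∫ x, f x ^ 2 := by
  have h := KaB_key hf ha hφ h1
  have : 0 ≤ ∫ x : Cf 3, (rs f φ x + φ (x 1) * cs f φ (Fin.tail (x ∘ Equiv.swap 0 1))) ^ 2 :=
    integral_nonneg fun _ => sq_nonneg _
  linarith

theorem cs_eq (hf : MemLp f 2) (ha : Asym f) (hφ : MemLp φ 2) (h1 : ∫ x, φ x ^ 2 = 1)
    (he : 2 * ∫ y, cs f φ y ^ 2 = ∫ x, f x ^ 2) {w : Pt → ℝ} (hw : Measurable w) {B : ℝ}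
    (hB : ∀ x, |w x| ≤ B) :
    ∫ x : Cf 3, w (x 0) * f x ^ 2 = (∫ y, cs f φ y ^ 2) * (∫ x, w x * φ x ^ 2) +
      ∫ x : Cf 3, w (x 0) * rs f φ x ^ 2 := by
  have hp := KaB_p hf hφ
  have hp' := KaB_p' hf hφ
  have hr := rs_memLp hf hφ
  have h := KaB_key hf ha hφ h1
  rw [he, sub_self] at h
  have h0 := (integral_eq_zero_iff_of_nonneg (fun _ => sq_nonneg _) (hr.add hp').integrable_sq).1 h
  have i1 := KaB_w hp hp hw hB
  have i2 := (KaB_w hp hp' hw hB).const_mul 2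
  have i3 := KaB_w hr hr hw hB
  simp only [← sq] at i1 i3
  have e : ∫ x : Cf 3, w (x 0) * f x ^ 2 =
      ∫ x : Cf 3, (w (x 0) * (φ (x 0) * cs f φ (Fin.tail x)) ^ 2 + w (x 0) * rs f φ x ^ 2 -
        2 * (w (x 0) * ((φ (x 0) * cs f φ (Fin.tail x)) *
          (φ (x 1) * cs f φ (Fin.tail (x ∘ Equiv.swap 0 1)))))) := by
    refine integral_congr_ae ?_
    filter_upwards [h0] with x hx
    have h2 : rs f φ x + φ (x 1) * cs f φ (Fin.tail (x ∘ Equiv.swap 0 1)) = 0 :=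
      pow_eq_zero_iff two_ne_zero |>.1 hx
    have h3 : f x = rs f φ x + φ (x 0) * cs f φ (Fin.tail x) := by simp only [rs, sub_add_cancel]
    rw [h3]
    linear_combination 2 * w (x 0) * (φ (x 0) * cs f φ (Fin.tail x)) * h2
  rw [e, integral_sub (i1.fun_add i3) i2, integral_add i1 i3, integral_const_mul,
    cross_w hf ha hφ hw hB, KaB_psq]
  ring

theorem sw_rh (hf : RH f G) : RH (sw f) (swG G) := hf.perm (Equiv.swap 0 2)

theorem sw_sq (f : Cf 3 → ℝ) : ∫ x, sw f x ^ 2 = ∫ x, f x ^ 2 :=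
  int_prm (Equiv.swap (0 : Fin 3) 2) fun x => f x ^ 2

lemma KaB_marg (ha : Asym f) (w : Pt → ℝ) :
    ∑ i, ∫ x : Cf 3, w (x i) * f x ^ 2 =
      2 * (∫ x : Cf 3, w (x 0) * f x ^ 2) + ∫ x : Cf 3, w (x 0) * sw f x ^ 2 := by
  have e1 : ∫ x : Cf 3, w (x 1) * f x ^ 2 = ∫ x : Cf 3, w (x 0) * f x ^ 2 := by
    rw [← int_prm (Equiv.swap (0 : Fin 3) 1) fun x => w (x 0) * f x ^ 2]
    refine integral_congr_ae ?_
    filter_upwards [ha] with x hx
    rw [hx, neg_sq]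
    rfl
  have e2 : ∫ x : Cf 3, w (x 0) * sw f x ^ 2 = ∫ x : Cf 3, w (x 2) * f x ^ 2 :=
    int_prm (Equiv.swap (0 : Fin 3) 2) fun x => w (x 2) * f x ^ 2
  rw [Fin.sum_univ_three, e1, e2]
  ring

theorem bil_slots (hf : RH f G) (ha : Asym f) :
    bil V 0 f G f G = 2 * Qs V f G + Qs V (sw f) (swG G) := by
  have e1 : ∀ k, ∫ x, G 1 k x ^ 2 = ∫ x, G 0 k x ^ 2 := fun k => by
    rw [← int_prm (Equiv.swap (0 : Fin 3) 1) fun x => G 0 k x ^ 2]
    refine integral_congr_ae ?_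
    filter_upwards [(rh_iff.1 (hf.perm (Equiv.swap 0 1))).unique ((rh_iff.1 hf).smul (-1))
      (by filter_upwards [ha] with x hx; rw [hx, neg_one_mul]) (1, k)] with x hx
    have : G 0 k (x ∘ Equiv.swap 0 1) = -1 * G 1 k x := hx
    rw [this]
    ring
  have e2 : ∀ k, ∫ x, swG G 0 k x ^ 2 = ∫ x, G 2 k x ^ 2 := fun k =>
    int_prm (Equiv.swap (0 : Fin 3) 2) fun x => G 2 k x ^ 2
  simp only [bil, Qs, ← sq, KaB_marg ha V, zero_mul, add_zero, e2]
  rw [Fin.sum_univ_three]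
  simp only [e1]
  ring

theorem marg_slots (ha : Asym f) (w : Pt → ℝ) :
    ∑ i, ∫ x : Cf 3, w (x i) * f x ^ 2 =
      2 * (∫ x : Cf 3, w (x 0) * f x ^ 2) + ∫ x : Cf 3, w (x 0) * sw f x ^ 2 :=
  KaB_marg ha w

end Vale.Agent.P363
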