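import Vale.Agent.P363.KaD

/-!
Part K, file C: algebra of the one-body form.
Products of square integrable functions are integrable (`MemLp.integrable_mul`), the potential term
by `FB.integrable`.  `q1_var`: the polynomial `2 t (q (u, b) - e ⟨u, b⟩) + t ^ 2 (q b - e |b| ^ 2)` is
nonnegative for all `t`.  `exists_bot`: `e` is the infimum of `q u` over normalised `u`; the set is
bounded below by `FB.h1` with `θ = 1 / 2` and not empty (normalise a `ContDiffBump`, `C1c.h1`); for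
`∫ u ^ 2 = 0` use `q1_congr` with the zero function.
`split_low`: `u = c φ + u'` with `c = ∫ φ u`, `p = q - e ⟨·, ·⟩` is nonnegative, and
`0 ≤ p (c φ + t u')` gives `2 c p (φ, u') ≥ -(c ^ 2 / t) p φ - t p u'`.
-/

namespace Vale.Agent.P363

open MeasureTheory Vale.Agent.P370 Filter Topology
open scoped ContDiff

variable {V φ u u' u'' b : Pt → ℝ} {g g' g'' gb gφ : Fin 3 → Pt → ℝ} {e e' : ℝ}

theorem H1.lin (hu : H1 u g) (hu' : H1 u' g') (s t : ℝ) :
    H1 (fun x => s * u x + t * u' x) fun k x => s * g k x + t * g' k x :=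
  h1_iff.2 (((h1_iff.1 hu).smul s).add ((h1_iff.1 hu').smul t))

theorem H1.cmul (hu : H1 u g) (s : ℝ) : H1 (fun x => s * u x) fun k x => s * g k x :=
  h1_iff.2 ((h1_iff.1 hu).smul s)

theorem H1.congr0 (hu : H1 u g) (h : u =ᵐ[volume] u') : H1 u' g :=
  h1_iff.2 ((h1_iff.1 hu).congr h fun _ => EventuallyEq.rfl)

theorem q1_comm : q1 V u g u' g' = q1 V u' g' u g := by
  simp only [q1, mul_comm (g _ _), mul_comm (u _)]

lemma KaC_ip (hu : MemLp u 2) (hu' : MemLp u' 2) (hu'' : MemLp u'' 2) (s t : ℝ) :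
    ∫ x, u x * (s * u' x + t * u'' x) = s * (∫ x, u x * u' x) + t * ∫ x, u x * u'' x := by
  rw [← integral_const_mul, ← integral_const_mul, ← integral_add
    ((LC_imul hu hu').const_mul s) ((LC_imul hu hu'').const_mul t)]
  exact integral_congr_ae (ae_of_all _ fun x => by simp only; ring)

theorem q1_lin (hV : FB V) (hu : H1 u g) (hu' : H1 u' g') (hu'' : H1 u'' g'') (s t : ℝ) :
    q1 V u g (fun x => s * u' x + t * u'' x) (fun k x => s * g' k x + t * g'' k x) =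
      s * q1 V u g u' g' + t * q1 V u g u'' g'' := by
  have e : ∫ x, V x * (u x * (s * u' x + t * u'' x)) =
      s * (∫ x, V x * (u x * u' x)) + t * ∫ x, V x * (u x * u'' x) := by
    rw [← integral_const_mul, ← integral_const_mul, ← integral_add
      ((hV.integrable hu hu').const_mul s) ((hV.integrable hu hu'').const_mul t)]
    exact integral_congr_ae (ae_of_all _ fun x => by simp only; ring)
  simp only [q1, e, fun k => KaC_ip (hu.2 k).1 (hu'.2 k).1 (hu''.2 k).1 s t,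
    Finset.sum_add_distrib, ← Finset.mul_sum]
  ring

theorem q1_cmul (s : ℝ) :
    q1 V (fun x => s * u x) (fun k x => s * g k x) u' g' = s * q1 V u g u' g' := by
  have e : ∀ x, V x * (s * u x * u' x) = s * (V x * (u x * u' x)) := fun x => by ring
  simp only [q1, e]
  simp only [mul_assoc s, integral_const_mul, ← Finset.mul_sum]
  ring

theorem q1_congr (hu : H1 u g) (hu' : H1 u' g') (h : u =ᵐ[volume] u') :
    q1 V u g b gb = q1 V u' g' b gb := by
  have e1 : ∀ k, ∫ x, g k x * gb k x = ∫ x, g' k x * gb k x := fun k => by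
    refine integral_congr_ae ?_
    filter_upwards [(h1_iff.1 hu).unique (h1_iff.1 hu') h k] with x hx
    rw [hx]
  have e2 : ∫ x, V x * (u x * b x) = ∫ x, V x * (u' x * b x) := by
    refine integral_congr_ae ?_
    filter_upwards [h] with x hx
    rw [hx]
  simp only [q1, e1, e2]

theorem ip_lin (hu : MemLp u 2) (hu' : MemLp u' 2) (hu'' : MemLp u'' 2) (s t : ℝ) :
    ∫ x, u x * (s * u' x + t * u'' x) = s * (∫ x, u x * u' x) + t * ∫ x, u x * u'' x :=
  KaC_ip hu hu' hu'' s t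

theorem q1_quad (hV : FB V) (hu : H1 u g) (hu' : H1 u' g') (s t : ℝ) :
    q1 V (fun x => s * u x + t * u' x) (fun k x => s * g k x + t * g' k x)
      (fun x => s * u x + t * u' x) (fun k x => s * g k x + t * g' k x) =
      s ^ 2 * q1 V u g u g + 2 * s * t * q1 V u g u' g' + t ^ 2 * q1 V u' g' u' g' := by
  rw [q1_lin hV (hu.lin hu' s t) hu hu', q1_comm (u' := u), q1_lin hV hu hu hu',
    q1_comm (u := fun x => s * u x + t * u' x), q1_lin hV hu' hu hu', q1_comm (u := u') (u' := u)]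
  ring

theorem sq_quad (hu : MemLp u 2) (hu' : MemLp u' 2) {w : Pt → ℝ} (hw : Measurable w) {B : ℝ}
    (hB : ∀ x, |w x| ≤ B) (s t : ℝ) :
    ∫ x, w x * (s * u x + t * u' x) ^ 2 = s ^ 2 * (∫ x, w x * u x ^ 2) +
      2 * s * t * (∫ x, w x * (u x * u' x)) + t ^ 2 * ∫ x, w x * u' x ^ 2 := by
  have i : ∀ {a c : Pt → ℝ}, MemLp a 2 → MemLp c 2 → Integrable fun x => w x * (a x * c x) :=
    fun ha hc => (LC_imul ha hc).bdd_mul (c := B) hw.aestronglyMeasurable (ae_of_all _ hB)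
  have i1 := (i hu hu).const_mul (s ^ 2)
  have i2 := (i hu hu').const_mul (2 * s * t)
  have i3 := (i hu' hu').const_mul (t ^ 2)
  have i4 : Integrable fun x => s ^ 2 * (w x * (u x * u x)) + 2 * s * t * (w x * (u x * u' x)) :=
    i1.add i2
  simp only [sq (u _), sq (u' _)]
  rw [← integral_const_mul, ← integral_const_mul, ← integral_const_mul, ← integral_add i1 i2,
    ← integral_add i4 i3]
  exact integral_congr_ae (ae_of_all _ fun x => by simp only; ring)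

theorem sq_quad1 (hu : MemLp u 2) (hu' : MemLp u' 2) (s t : ℝ) :
    ∫ x, (s * u x + t * u' x) ^ 2 = s ^ 2 * (∫ x, u x ^ 2) +
      2 * s * t * (∫ x, u x * u' x) + t ^ 2 * ∫ x, u' x ^ 2 := by
  simpa using sq_quad hu hu' (w := fun _ => 1) measurable_const (B := 1) (by simp) s t

/-- First variation. -/
theorem q1_var (hV : FB V) (hu : H1 u g) (hb : H1 b gb)
    (h : ∀ t : ℝ, e * ∫ x, (1 * u x + t * b x) ^ 2 ≤
      q1 V (fun x => 1 * u x + t * b x) (fun k x => 1 * g k x + t * gb k x)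
        (fun x => 1 * u x + t * b x) fun k x => 1 * g k x + t * gb k x)
    (he : q1 V u g u g = e * ∫ x, u x ^ 2) : q1 V u g b gb = e * ∫ x, u x * b x := by
  have key := discrim_le_zero (a := q1 V b gb b gb - e * ∫ x, b x ^ 2)
    (b := 2 * (q1 V u g b gb - e * ∫ x, u x * b x)) (c := 0) fun t => by
    have := h t
    rw [q1_quad hV hu hb, sq_quad1 hu.1 hb.1, he] at this
    linarith
  unfold discrim at key
  nlinarith [sq_nonneg (q1 V u g b gb - e * ∫ x, u x * b x)]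

lemma KaC_shift (hV : FB V) (hu : H1 u g) (hb : H1 b gb) :
    q1 (fun x => V x - e) u g b gb = q1 V u g b gb - e * ∫ x, u x * b x := by
  simp only [q1, sub_mul]
  rw [integral_sub (hV.integrable hu hb) ((LC_imul hu.1 hb.1).const_mul e), integral_const_mul]
  ring

theorem sol_of (hV : FB V) (hu : H1 u g)
    (h : ∀ b gb, H1 b gb → q1 V u g b gb = e * ∫ x, u x * b x) :
    Sol (fun x => V x - e) 0 u g := fun ζ hζ => by
  rw [KaC_shift hV hu (C1c.h1 hζ), h _ _ (C1c.h1 hζ)]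
  simp

theorem of_sol (hV : FB V) (hu : H1 u g) (h : Sol (fun x => V x - e) 0 u g) (hb : H1 b gb) :
    q1 V u g b gb = e * ∫ x, u x * b x := by
  have hq : FB fun x => V x - e := by simpa only [sub_eq_add_neg] using hV.add_const (-e)
  have := h.h1 hq hu MemLp.zero hb
  rw [KaC_shift hV hu hb] at this
  simp only [Pi.zero_apply, zero_mul, integral_zero] at this
  linarith

lemma KaC_nrm (hu : H1 u g) (h0 : ∫ x, u x ^ 2 ≠ 0) : ∃ φ gφ, H1 φ gφ ∧ ∫ x, φ x ^ 2 = 1 ∧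
    q1 V φ gφ φ gφ * ∫ x, u x ^ 2 = q1 V u g u g := by
  have hp : 0 < ∫ x, u x ^ 2 := (LC_s0 u).lt_of_ne' h0
  have e : (√(∫ x, u x ^ 2))⁻¹ ^ 2 * ∫ x, u x ^ 2 = 1 := by
    rw [inv_pow, Real.sq_sqrt hp.le, inv_mul_cancel₀ h0]
  refine ⟨_, _, hu.cmul (√(∫ x, u x ^ 2))⁻¹, ?_, ?_⟩
  · simp only [mul_pow, integral_const_mul, e]
  · rw [q1_cmul, q1_comm, q1_cmul]
    linear_combination q1 V u g u g * e

theorem exists_bot (hV : FB V) : ∃ e, Bot V e ∧
    ∀ δ : ℝ, 0 < δ → ∃ u g, H1 u g ∧ ∫ x, u x ^ 2 = 1 ∧ q1 V u g u g ≤ e + δ := by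
  obtain ⟨C, -, hC⟩ := hV.h1 (θ := 1 / 2) (by norm_num)
  set S : Set ℝ := {r | ∃ u g, H1 u g ∧ ∫ x, u x ^ 2 = 1 ∧ q1 V u g u g = r} with hS
  have hb : BddBelow S := ⟨-C, by
    rintro r ⟨u, g, hu, h1, rfl⟩
    obtain ⟨i, j⟩ := hC u g hu
    have k : |∫ x, V x * u x ^ 2| ≤ ∫ x, |V x| * u x ^ 2 := by
      refine abs_integral_le_integral_abs.trans_eq (integral_congr_ae (ae_of_all _ fun x => ?_))
      simp only [abs_mul, abs_pow, sq_abs]
    simp only [q1, ← sq]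
    rw [h1] at j
    linarith [(abs_le.1 k).1]⟩
  have hn : S.Nonempty := by
    let χ : ContDiffBump (0 : Pt) := ⟨1, 2, one_pos, one_lt_two⟩
    have hχ : C1c χ := ⟨χ.contDiff, χ.hasCompactSupport⟩
    have h0 : ∫ x, χ x ^ 2 ≠ 0 := by
      refine (Continuous.integral_pos_of_hasCompactSupport_nonneg_nonzero (x := 0)
        (χ.continuous.pow 2) ?_ (fun x => sq_nonneg _) ?_).ne'
      · simpa only [sq] using χ.hasCompactSupport.mul_right
      · rw [Pi.pow_apply, χ.one_of_mem_closedBall (Metric.mem_closedBall_self χ.rIn_pos.le)]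
        norm_num
    obtain ⟨φ, gφ, hφ, h1, -⟩ := KaC_nrm (V := V) (C1c.h1 hχ) h0
    exact ⟨_, φ, gφ, hφ, h1, rfl⟩
  refine ⟨sInf S, fun u g hu => ?_, fun δ hδ => ?_⟩
  · by_cases h0 : ∫ x, u x ^ 2 = 0
    · have e : u =ᵐ[volume] fun x => 0 * u x := by
        filter_upwards [(integral_eq_zero_iff_of_nonneg (fun x => sq_nonneg (u x))
          hu.1.integrable_sq).1 h0] with x hx
        simpa using hx
      rw [q1_congr hu (hu.cmul 0) e, q1_cmul, h0]
      simp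
    · obtain ⟨φ, gφ, hφ, h1, h2⟩ := KaC_nrm (V := V) hu h0
      rw [← h2]
      exact mul_le_mul_of_nonneg_right (csInf_le hb ⟨φ, gφ, hφ, h1, rfl⟩) (LC_s0 u)
  · obtain ⟨r, ⟨u, g, hu, h1, rfl⟩, hr⟩ := exists_lt_of_csInf_lt hn (lt_add_of_pos_right _ hδ)
    exact ⟨u, g, hu, h1, hr.le⟩

theorem min_eq (hV : FB V) (h : Bot V e) (hu : H1 u g) (he : q1 V u g u g = e * ∫ x, u x ^ 2)
    (hb : H1 b gb) : q1 V u g b gb = e * ∫ x, u x * b x :=
  q1_var hV hu hb (fun t => h _ _ (hu.lin hb 1 t)) he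

theorem good_min (hV : FB V) (h : Bot V e) (hu : H1 u g) (he : q1 V u g u g = e * ∫ x, u x ^ 2) :
    Good V e u g :=
  ⟨hu, sol_of hV hu fun _ _ hb => min_eq hV h hu he hb, fun b gb hb _ => h b gb hb⟩

theorem Good.cmul (h : Good V e u g) (s : ℝ) :
    Good V e (fun x => s * u x) fun k x => s * g k x :=
  ⟨h.1.cmul s, fun ζ hζ => by rw [q1_cmul, h.2.1 ζ hζ]; simp, h.2.2⟩

theorem normalise (hu : H1 u g) (h0 : ∫ x, u x ^ 2 ≠ 0) (he : q1 V u g u g = e * ∫ x, u x ^ 2) :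
    ∃ φ gφ, H1 φ gφ ∧ ∫ x, φ x ^ 2 = 1 ∧ q1 V φ gφ φ gφ = e := by
  obtain ⟨φ, gφ, hφ, h1, h2⟩ := KaC_nrm (V := V) hu h0
  exact ⟨φ, gφ, hφ, h1, mul_right_cancel₀ h0 (h2.trans he)⟩

theorem split_low (hV : FB V) (h : Bot V e) (hφ : H1 φ gφ) (h1 : ∫ x, φ x ^ 2 = 1) {δ t : ℝ}
    (hq : q1 V φ gφ φ gφ ≤ e + δ) (ht : 0 < t) (ht1 : t ≤ 1) (hp : Perp V φ e') (hu : H1 u g) :
    e * (∫ x, u x ^ 2) + (1 - t) * (e' - e) * ((∫ x, u x ^ 2) - (∫ x, φ x * u x) ^ 2) -
      δ / t * (∫ x, φ x * u x) ^ 2 ≤ q1 V u g u g := by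
  obtain ⟨c, hc⟩ : ∃ c, c = ∫ x, φ x * u x := ⟨_, rfl⟩
  have hc' : ∫ x, u x * φ x = c := by simp only [hc, mul_comm]
  have k0 := h φ gφ hφ
  have k1 := h _ _ (hu.lin hφ t (c * (1 - t)))
  have k2 := hp _ _ (hu.lin hφ 1 (-c)) (by
    rw [ip_lin hφ.1 hu.1 hφ.1, ← hc]
    simp only [← sq, h1]
    ring)
  rw [q1_quad hV hu hφ, sq_quad1 hu.1 hφ.1, hc', h1] at k1 k2
  rw [h1] at k0
  rw [← hc]
  have hd : δ / t * t = δ := div_mul_cancel₀ _ ht.ne'
  have k3 := mul_le_mul_of_nonneg_left k2 (mul_nonneg ht.le (sub_nonneg.2 ht1))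
  have k4 : 0 ≤ c ^ 2 * (δ - (1 - t) * (q1 V φ gφ φ gφ - e)) :=
    mul_nonneg (sq_nonneg _) (by nlinarith)
  refine le_of_mul_le_mul_left ?_ ht
  generalize δ / t = d at hd ⊢
  subst hd
  nlinarith

/-- Splitting along a normalised minimiser. -/
theorem split_exact (hV : FB V) (h : Bot V e) (hφ : H1 φ gφ) (h1 : ∫ x, φ x ^ 2 = 1)
    (hq : q1 V φ gφ φ gφ = e) (hu : H1 u g) {c : ℝ} (hc : c = ∫ x, φ x * u x) :
    ∫ x, φ x * (1 * u x + -c * φ x) = 0 ∧
      ∫ x, (1 * u x + -c * φ x) ^ 2 = (∫ x, u x ^ 2) - c ^ 2 ∧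
      q1 V (fun x => 1 * u x + -c * φ x) (fun k x => 1 * g k x + -c * gφ k x)
        (fun x => 1 * u x + -c * φ x) (fun k x => 1 * g k x + -c * gφ k x) =
        q1 V u g u g - e * c ^ 2 := by
  have hc' : ∫ x, u x * φ x = c := by simp only [hc, mul_comm]
  have k := min_eq hV h hφ (by rw [h1, hq, mul_one]) hu
  refine ⟨?_, ?_, ?_⟩
  · rw [ip_lin hφ.1 hu.1 hφ.1, ← hc]
    simp only [← sq, h1]
    ring
  · rw [sq_quad1 hu.1 hφ.1, hc', h1]
    ring
  · rw [q1_quad hV hu hφ, q1_comm (u := u) (u' := φ), k, hq, ← hc]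
    ring

end Vale.Agent.P363
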