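import Vale.Agent.P363.Spin

/-! Part K, steps K1 to K4: definitions, and sums of squares of orbitals. -/

namespace Vale.Agent.P363

open MeasureTheory Vale.Agent.P370
open scoped ContDiff

noncomputable section

/-- Symmetry under the two reflections. -/
def Sym (V : Pt → ℝ) : Prop := ∀ i : Fin 3, i ≠ 2 → ∀ x, V (rf i x) = V x

/-- Lower bound of the three-body form on the antisymmetric class. -/
def Low (V : Pt → ℝ) (E : ℝ) : Prop :=
  ∀ (h : Cf 3 → ℝ) (H : Fin 3 → Fin 3 → Cf 3 → ℝ), RH h H → Asym h →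
    E * ∫ x, h x ^ 2 ≤ bil V 0 h H h H

/-- Lower bound of the one-body form. -/
def Bot (V : Pt → ℝ) (e : ℝ) : Prop := ∀ u g, H1 u g → e * ∫ x, u x ^ 2 ≤ q1 V u g u g

/-- Lower bound of the one-body form on the orthogonal complement of `φ`. -/
def Perp (V φ : Pt → ℝ) (e : ℝ) : Prop :=
  ∀ u g, H1 u g → ∫ x, φ x * u x = 0 → e * ∫ x, u x ^ 2 ≤ q1 V u g u g

/-- Contraction with a function of the last two positions. -/
def ct (f : Cf 3 → ℝ) (w : Cf 2 → ℝ) (x : Pt) : ℝ := ∫ y : Cf 2, f (Fin.cons x y) * w y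

/-- Contraction with a function of the first position. -/
def cs (f : Cf 3 → ℝ) (φ : Pt → ℝ) (y : Cf 2) : ℝ := ∫ x, φ x * f (Fin.cons x y)

/-- The part of `f` orthogonal to `φ` in the first position. -/
def rs (f : Cf 3 → ℝ) (φ : Pt → ℝ) (x : Cf 3) : ℝ := f x - φ (x 0) * cs f φ (Fin.tail x)

/-- The energy of the first position. -/
def Qs (V : Pt → ℝ) (f : Cf 3 → ℝ) (G : Fin 3 → Fin 3 → Cf 3 → ℝ) : ℝ :=
  1 / 2 * (∑ k, ∫ x, G 0 k x ^ 2) + ∫ x : Cf 3, V (x 0) * f x ^ 2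

/-- Exchange of the first and the last position. -/
def sw (f : Cf 3 → ℝ) (x : Cf 3) : ℝ := f (x ∘ Equiv.swap 0 2)

/-- Gradient after the exchange. -/
def swG (G : Fin 3 → Fin 3 → Cf 3 → ℝ) (i k : Fin 3) (x : Cf 3) : ℝ :=
  G ((Equiv.swap 0 2).symm i) k (x ∘ Equiv.swap 0 2)

/-- Families with the identity of Parseval. -/
def Pars {J : Type} (w : J → Cf 2 → ℝ) : Prop :=
  (∀ j, MemLp (w j) 2) ∧
    ∀ a : Cf 2 → ℝ, MemLp a 2 → HasSum (fun j => (∫ y, a y * w j y) ^ 2) (∫ y, a y ^ 2)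

/-- Solutions at a level that bounds the form from below on odd functions. -/
def Good (V : Pt → ℝ) (e : ℝ) (u : Pt → ℝ) (g : Fin 3 → Pt → ℝ) : Prop :=
  H1 u g ∧ Sol (fun x => V x - e) 0 u g ∧
    ∀ b gb, H1 b gb → (∀ᵐ x, b (rf 1 x) = -b x) → e * ∫ x, b x ^ 2 ≤ q1 V b gb b gb

/-- Good orbitals with bounded level. -/
def PG (V : Pt → ℝ) (C : ℝ) (u : Pt → ℝ) : Prop := ∃ g e, Good V e u g ∧ |e| ≤ C

/-- Even orbitals with bounded level. -/
def PE (V : Pt → ℝ) (C : ℝ) (u : Pt → ℝ) : Prop :=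
  ∃ g e, ∃ j : Fin 3, H1 u g ∧ Sol (fun x => V x - e) 0 u g ∧ |e| ≤ C ∧ j ≠ 2 ∧
    ∀ᵐ x, u (rf j x) = u x

/-- Bounded nonnegative symmetric weights. -/
def Wgt (w : Pt → ℝ) : Prop :=
  Measurable w ∧ (∃ B, ∀ x, |w x| ≤ B) ∧ (∀ x, 0 ≤ w x) ∧ Sym w

/-- The functional `L` on weights is a sum of squares of functions with the property `P`. -/
def Occ (P : (Pt → ℝ) → Prop) (L : (Pt → ℝ) → ℝ) : Prop :=
  ∃ (ι : Type) (u : ι → Pt → ℝ), (∀ m, P (u m)) ∧
    ∀ w, Wgt w → HasSum (fun m => ∫ x, w x * u m x ^ 2) (L w)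

/-- Sign of a coordinate. -/
def sg (i : Fin 3) (x : Pt) : ℝ := if 0 < x i then 1 else -1

/-- Gradient after a reflection. -/
def rg (i : Fin 3) (g : Fin 3 → Pt → ℝ) (k : Fin 3) (x : Pt) : ℝ :=
  (if k = i then -1 else 1) * g k (rf i x)

/-- Average over the group generated by the two reflections. -/
def avg (v : Pt → ℝ) (x : Pt) : ℝ := (v x + v (rf 0 x) + v (rf 1 x) + v (rf 0 (rf 1 x))) / 4

variable {P P' : (Pt → ℝ) → Prop} {L L' : (Pt → ℝ) → ℝ}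

theorem Occ.congr (h : Occ P L) (e : ∀ w, Wgt w → L w = L' w) : Occ P L' := by
  obtain ⟨ι, u, hu, hs⟩ := h
  exact ⟨ι, u, hu, fun w hw => e w hw ▸ hs w hw⟩

theorem Occ.single {u : Pt → ℝ} (h : P u) : Occ P fun w => ∫ x, w x * u x ^ 2 :=
  ⟨Unit, fun _ => u, fun _ => h, fun w _ => by simp⟩

theorem Occ.zero : Occ P fun _ => 0 :=
  ⟨Empty, fun m => m.elim, fun m => m.elim, fun _ _ => hasSum_empty⟩

theorem Occ.add (h : Occ P L) (h' : Occ P L') : Occ P fun w => L w + L' w := by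
  obtain ⟨ι, u, hu, hs⟩ := h
  obtain ⟨ι', u', hu', hs'⟩ := h'
  refine ⟨ι ⊕ ι', Sum.elim u u', fun m => ?_, fun w hw => HasSum.sum (hs w hw) (hs' w hw)⟩
  cases m with
  | inl m => exact hu m
  | inr m => exact hu' m

theorem Occ.sum {κ : Type} {M : κ → (Pt → ℝ) → ℝ} (h : ∀ k, Occ P (M k))
    (hL : ∀ w, Wgt w → HasSum (fun k => M k w) (L w)) : Occ P L := by
  choose ι u hu hs using h
  refine ⟨Σ k, ι k, fun m => u m.1 m.2, fun m => hu m.1 m.2, fun w hw => ?_⟩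
  refine HasSum.sigma_of_hasSum (hL w hw) (fun k => hs k w hw) ?_
  rw [summable_sigma_of_nonneg fun m =>
    integral_nonneg fun x => mul_nonneg (hw.2.2.1 x) (sq_nonneg _)]
  refine ⟨fun k => (hs k w hw).summable, ?_⟩
  simp only [fun k => (hs k w hw).tsum_eq]
  exact (hL w hw).summable

theorem Occ.bind (h : Occ P L) (h' : ∀ u, P u → Occ P' fun w => ∫ x, w x * u x ^ 2) :
    Occ P' L := by
  obtain ⟨ι, u, hu, hs⟩ := h
  exact Occ.sum (fun m => h' (u m) (hu m)) hs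

end

end Vale.Agent.P363
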