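import Vale.Agent.P363.KaC

/-!
Part K, file E: product trial states.
`prod_rh`: `H1.tensor` three times, starting from the constant `1` on `Cf 0` (the volume there is a
Dirac mass, `dirn` has no instance), then `WD.congr`/`funext` with `fin_cases`; or directly by
induction on the number of factors.  `prod_ip`, `prod_bil`: `integral_fintype_prod_volume_eq_prod`
(no integrability needed) after writing each integrand as a product over `Fin 3`
(`Fin.prod_univ_three`, `Fin.sum_univ_three`).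
`trial`: `χ = φ ⊗ v ⊗ φ - v ⊗ φ ⊗ φ` is in the class, `∫ χ ^ 2 = 2 |v| ^ 2`, and
`bil χ χ = 2 (2 q φ |v| ^ 2 + q v)` because `⟨φ, v⟩ = 0` (`bil_lin`, `bil_comm`, `WD.add`, `WD.smul`
through `rh_iff`).
-/

namespace Vale.Agent.P363

open MeasureTheory Vale.Agent.P370 Filter Topology
open scoped ContDiff

variable {V φ : Pt → ℝ} {gφ : Fin 3 → Pt → ℝ} {E : ℝ}

/-- Product of three functions. -/
def p3 (a b c : Pt → ℝ) (x : Cf 3) : ℝ := a (x 0) * b (x 1) * c (x 2)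

/-- Its gradient. -/
def g3 (a b c : Pt → ℝ) (ga gb gc : Fin 3 → Pt → ℝ) (i k : Fin 3) : Cf 3 → ℝ :=
  ![p3 (ga k) b c, p3 a (gb k) c, p3 a b (gc k)] i

variable {a b c a' b' c' : Pt → ℝ} {ga gb gc ga' gb' gc' : Fin 3 → Pt → ℝ}

theorem prod_rh (ha : H1 a ga) (hb : H1 b gb) (hc : H1 c gc) :
    RH (p3 a b c) (g3 a b c ga gb gc) := by
  have : IsFiniteMeasure (volume : Measure (Cf 0)) := ⟨by simp [volume_pi]⟩
  have h0 : RH (fun _ : Cf 0 => (1 : ℝ)) fun i => i.elim0 := ⟨memLp_const _, fun i => i.elim0⟩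
  have h3 := ha.tensor (hb.tensor (hc.tensor h0))
  have e1 : p3 a b c = fun x : Cf 3 =>
      a (x 0) * (b (Fin.tail x 0) * (c (Fin.tail (Fin.tail x) 0) * 1)) := by
    funext x
    simp only [p3, mul_one, mul_assoc]
    rfl
  refine ⟨e1 ▸ h3.1, fun i k => ?_⟩
  have h4 := h3.2 i k
  rw [← e1] at h4
  have e2 : ∀ G G' : Cf 3 → ℝ, G = G' → (MemLp G 2 ∧ ∀ φ : Cf 3 → ℝ, ContDiff ℝ ∞ φ →
      HasCompactSupport φ → ∫ x, p3 a b c x * fderiv ℝ φ x (dirn i k) = -∫ x, G x * φ x) →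
      MemLp G' 2 ∧ ∀ φ : Cf 3 → ℝ, ContDiff ℝ ∞ φ → HasCompactSupport φ →
        ∫ x, p3 a b c x * fderiv ℝ φ x (dirn i k) = -∫ x, G' x * φ x := fun _ _ e h => e ▸ h
  refine e2 _ _ ?_ h4
  funext x
  fin_cases i
  · change ga k (x 0) * (b (x 1) * (c (x 2) * 1)) = ga k (x 0) * b (x 1) * c (x 2)
    ring
  · change a (x 0) * (gb k (x 1) * (c (x 2) * 1)) = a (x 0) * gb k (x 1) * c (x 2)
    ring
  · change a (x 0) * (b (x 1) * (gc k (x 2) * 1)) = a (x 0) * b (x 1) * gc k (x 2)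
    ring

theorem prod_int (a b c : Pt → ℝ) :
    ∫ x, p3 a b c x = (∫ x, a x) * (∫ x, b x) * ∫ x, c x := by
  have h := integral_fintype_prod_volume_eq_prod (E := fun _ : Fin 3 => Pt) ![a, b, c]
  simp only [Fin.prod_univ_three] at h
  exact h

theorem prod_ip : ∫ x, p3 a b c x * p3 a' b' c' x =
    (∫ x, a x * a' x) * (∫ x, b x * b' x) * ∫ x, c x * c' x := by
  rw [← prod_int]
  congr 1
  funext x
  simp only [p3]
  ring

theorem KaE_pot : (∫ x : Cf 3, V (x 0) * (p3 a b c x * p3 a' b' c' x) =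
      (∫ x, V x * (a x * a' x)) * (∫ x, b x * b' x) * ∫ x, c x * c' x) ∧
    (∫ x : Cf 3, V (x 1) * (p3 a b c x * p3 a' b' c' x) =
      (∫ x, a x * a' x) * (∫ x, V x * (b x * b' x)) * ∫ x, c x * c' x) ∧
    ∫ x : Cf 3, V (x 2) * (p3 a b c x * p3 a' b' c' x) =
      (∫ x, a x * a' x) * (∫ x, b x * b' x) * ∫ x, V x * (c x * c' x) := by
  refine ⟨?_, ?_, ?_⟩ <;>
  · rw [← prod_int]
    congr 1
    funext x
    simp only [p3]
    ring

theorem prod_bil : bil V 0 (p3 a b c) (g3 a b c ga gb gc) (p3 a' b' c') (g3 a' b' c' ga' gb' gc') =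
    q1 V a ga a' ga' * (∫ x, b x * b' x) * (∫ x, c x * c' x) +
      (∫ x, a x * a' x) * q1 V b gb b' gb' * (∫ x, c x * c' x) +
      (∫ x, a x * a' x) * (∫ x, b x * b' x) * q1 V c gc c' gc' := by
  obtain ⟨h0, h1, h2⟩ := KaE_pot (V := V) (a := a) (b := b) (c := c) (a' := a') (b' := b')
    (c' := c')
  have e0 : ∀ k, ∫ x, g3 a b c ga gb gc 0 k x * g3 a' b' c' ga' gb' gc' 0 k x = _ := fun k =>
    prod_ip (a := ga k) (a' := ga' k)
  have e1 : ∀ k, ∫ x, g3 a b c ga gb gc 1 k x * g3 a' b' c' ga' gb' gc' 1 k x = _ := fun k =>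
    prod_ip (b := gb k) (b' := gb' k)
  have e2 : ∀ k, ∫ x, g3 a b c ga gb gc 2 k x * g3 a' b' c' ga' gb' gc' 2 k x = _ := fun k =>
    prod_ip (c := gc k) (c' := gc' k)
  simp only [bil, q1, Fin.sum_univ_three, h0, h1, h2, e0, e1, e2]
  ring

theorem trial (hV : FB V) (hL : Low V E) (hφ : H1 φ gφ) (h1 : ∫ x, φ x ^ 2 = 1) :
    Perp V φ (E - 2 * q1 V φ gφ φ gφ) := by
  intro v g hv h0
  have hA := prod_rh hφ hv hφ
  have hB := prod_rh hv hφ hφ
  have hχ : RH (fun x => 1 * p3 φ v φ x + -1 * p3 v φ φ x)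
      fun i k x => 1 * g3 φ v φ gφ g gφ i k x + -1 * g3 v φ φ g gφ gφ i k x :=
    rh_iff.2 (((rh_iff.1 hA).smul 1).add ((rh_iff.1 hB).smul (-1)))
  have hs : Asym fun x => 1 * p3 φ v φ x + -1 * p3 v φ φ x := Eventually.of_forall fun x => by
    have e2 : Equiv.swap (0 : Fin 3) 1 2 = 2 := by decide
    simp only [p3, Function.comp_apply, Equiv.swap_apply_left, Equiv.swap_apply_right, e2]
    ring
  have h2 := hL _ _ hχ hs
  have h0' : ∫ x, v x * φ x = 0 := by simpa only [mul_comm] using h0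
  have h1' : ∫ x, φ x * φ x = 1 := by simpa only [sq] using h1
  have h3 : ∫ x, (1 * p3 φ v φ x + -1 * p3 v φ φ x) ^ 2 = 2 * ∫ x, v x * v x := by
    have i1 : Integrable fun x => p3 φ v φ x * p3 φ v φ x := hA.1.integrable_mul hA.1
    have i2 : Integrable fun x => p3 v φ φ x * p3 v φ φ x := hB.1.integrable_mul hB.1
    have i3 : Integrable fun x => p3 φ v φ x * p3 v φ φ x := hA.1.integrable_mul hB.1
    have i4 : Integrable fun x => p3 φ v φ x * p3 φ v φ x + p3 v φ φ x * p3 v φ φ x := i1.add i2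
    have e : ∀ x, (1 * p3 φ v φ x + -1 * p3 v φ φ x) ^ 2 = p3 φ v φ x * p3 φ v φ x +
        p3 v φ φ x * p3 v φ φ x - 2 * (p3 φ v φ x * p3 v φ φ x) := fun x => by ring
    simp only [e]
    rw [integral_sub i4 (i3.const_mul _), integral_add i1 i2, integral_const_mul, prod_ip, prod_ip,
      prod_ip, h0, h1']
    ring
  rw [h3, bil_lin hV hχ hA hB, bil_comm, bil_lin hV hA hA hB, bil_comm (f' := p3 v φ φ)
    (f := fun x => 1 * p3 φ v φ x + -1 * p3 v φ φ x), bil_lin hV hB hA hB, prod_bil, prod_bil,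
    prod_bil, prod_bil, h0, h0', h1'] at h2
  simp only [sq]
  linarith

end Vale.Agent.P363
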