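import Vale.Agent.P363.KaS

/-!
Part K, file F: excited orbitals and the splitting in symmetry classes.
`good_exc`: for `b` in `H¹` write `b = c φ + b'` (`split_exact`); `q (u, φ) = e ⟨φ, u⟩ = 0` by
`min_eq`, `q (u, b') = e' ⟨u, b'⟩` by `q1_var` inside the orthogonal complement; `sol_of`, `odd_low`.
`eqn_rf`: `q (u ∘ rf, b) = q (u, b ∘ rf)` by `q1_rf` (`rg i (rg i gb) = gb`, `ka_rf_rf`).
`eqn_par`: the even and odd parts `(1 / 2) u ± (1 / 2) u ∘ rf` solve the same equation, and the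
weighted square integral splits (`sq_quad`, `par_orth0`, `int_rf`).
`eqn_sgn`: `u' = sg 0 * u` is odd in the second coordinate and `q u' = q u = e |u| ^ 2`, so it
minimises among such functions: for a test `b` split `b` in even and odd parts with respect to
`rf 1`; the even part is orthogonal (`par_orth`, `par_orth0`), the odd part by `q1_var`.
`good_split`: split along `rf 0`, then the odd part along `rf 1`, replace the odd-odd part by
`eqn_sgn`; `Occ.single`, `Occ.add`, `Occ.congr`.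
-/

namespace Vale.Agent.P363

open MeasureTheory Vale.Agent.P370 Filter Topology
open scoped ContDiff

variable {V φ u : Pt → ℝ} {g gφ : Fin 3 → Pt → ℝ} {e e' C : ℝ} {i : Fin 3}

theorem good_exc (hV : FB V) (hs : Sym V) (h : Bot V e) (hφ : H1 φ gφ) (h1 : ∫ x, φ x ^ 2 = 1)
    (hq : q1 V φ gφ φ gφ = e) (hp : Perp V φ e') (hu : H1 u g) (ho : ∫ x, φ x * u x = 0)
    (he : q1 V u g u g = e' * ∫ x, u x ^ 2) : Good V e' u g := by
  refine ⟨hu, sol_of hV hu fun b gb hb => ?_,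
    fun b gb hb od => odd_low hV (hs 1 (by decide)) hφ.1 hp hb od⟩
  have hb' := hb.lin hφ 1 (-∫ x, φ x * b x)
  have h2 := (split_exact hV h hφ h1 hq hb rfl).1
  have h3 := q1_var hV hu hb' (fun t => hp _ _ (hu.lin hb' 1 t)
    (by rw [ip_lin hφ.1 hu.1 hb'.1, ho, h2]; ring)) he
  have h4 := min_eq hV h hφ (by rw [hq, h1, mul_one]) hu
  have h5 : ∫ x, u x * φ x = 0 := by simpa only [mul_comm] using ho
  rw [q1_lin hV hu hb hφ, ip_lin hu.1 hb.1 hφ.1, q1_comm (u' := φ), h4, ho, h5] at h3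
  linarith

/-- The weak equation against all of `H¹`. -/
def Eqn (V : Pt → ℝ) (e : ℝ) (u : Pt → ℝ) (g : Fin 3 → Pt → ℝ) : Prop :=
  H1 u g ∧ ∀ b gb, H1 b gb → q1 V u g b gb = e * ∫ x, u x * b x

theorem eqn_rf (hs : ∀ x, V (rf i x) = V x) (h : Eqn V e u g) :
    Eqn V e (fun x => u (rf i x)) (rg i g) := by
  refine ⟨h1_rf h.1 i, fun b gb hb => ?_⟩
  have h1 := q1_rf (u := u) (g := g) (u' := fun x => b (rf i x)) (g' := rg i gb) hs
  have h2 : rg i (rg i gb) = gb := funext fun k => funext fun x => by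
    simp only [rg, ka_rf_rf]; split_ifs <;> ring
  simp only [ka_rf_rf, h2] at h1
  rw [h1, h.2 _ _ (h1_rf hb i), ← int_rf i]
  simp only [ka_rf_rf]

lemma kaf_lin {u' : Pt → ℝ} {g' : Fin 3 → Pt → ℝ} (hV : FB V) (h : Eqn V e u g)
    (h' : Eqn V e u' g') (s t : ℝ) :
    Eqn V e (fun x => s * u x + t * u' x) fun k x => s * g k x + t * g' k x := by
  refine ⟨h.1.lin h'.1 s t, fun b gb hb => ?_⟩
  have h1 := ip_lin hb.1 h.1.1 h'.1.1 s t
  simp only [mul_comm (b _)] at h1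
  rw [q1_comm, q1_lin hV hb h.1 h'.1, q1_comm (u := b), q1_comm (u := b), h.2 _ _ hb, h'.2 _ _ hb,
    h1]
  ring

theorem eqn_par (hV : FB V) (hs : ∀ x, V (rf i x) = V x) (h : Eqn V e u g) :
    ∃ a ga b gb, Eqn V e a ga ∧ Eqn V e b gb ∧ (∀ x, a (rf i x) = a x) ∧ (∀ x, b (rf i x) = -b x) ∧
      (∀ j, (∀ x, u (rf j x) = -u x) → ∀ x, b (rf j x) = -b x) ∧
      ∀ w, Wgt w → i ≠ 2 →
        ∫ x, w x * u x ^ 2 = (∫ x, w x * a x ^ 2) + ∫ x, w x * b x ^ 2 := by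
  have ha := kaf_lin hV h (eqn_rf hs h) (1 / 2) (1 / 2)
  have hb := kaf_lin hV h (eqn_rf hs h) (1 / 2) (-(1 / 2))
  have e1 : ∀ x, 1 / 2 * u (rf i x) + 1 / 2 * u (rf i (rf i x)) =
      1 / 2 * u x + 1 / 2 * u (rf i x) := fun x => by rw [ka_rf_rf]; ring
  have e2 : ∀ x, 1 / 2 * u (rf i x) + -(1 / 2) * u (rf i (rf i x)) =
      -(1 / 2 * u x + -(1 / 2) * u (rf i x)) := fun x => by rw [ka_rf_rf]; ring
  refine ⟨_, _, _, _, ha, hb, e1, e2, fun j hj x => ?_, fun w hw hi => ?_⟩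
  · rw [rf_comm i j, hj, hj]; ring
  · obtain ⟨B, hB⟩ := hw.2.1
    have h1 := sq_quad ha.1.1 hb.1.1 hw.1 hB 1 1
    rw [par_orth0 (hw.2.2.2 i hi) (Eventually.of_forall e1) (Eventually.of_forall e2)] at h1
    refine Eq.trans (integral_congr_ae (Eventually.of_forall fun x => ?_)) (h1.trans (by ring))
    simp only
    ring

theorem eqn_sgn (hV : FB V) (hs : Sym V) (h : Eqn V e u g) (o0 : ∀ x, u (rf 0 x) = -u x)
    (o1 : ∀ x, u (rf 1 x) = -u x)
    (hl : ∀ b gb, H1 b gb → (∀ᵐ x, b (rf 1 x) = -b x) → e * ∫ x, b x ^ 2 ≤ q1 V b gb b gb) :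
    Eqn V e (fun x => sg 0 x * u x) fun k x => sg 0 x * g k x := by
  have hu := sgn_h1 h.1 (Eventually.of_forall o0)
  have od : ∀ x, sg 0 (rf 1 x) * u (rf 1 x) = -(sg 0 x * u x) := fun x => by
    rw [sg_rf (by decide), o1]; ring
  refine ⟨hu, fun b gb hb => ?_⟩
  have hr := h1_rf hb 1
  have ha := hb.lin hr (1 / 2) (1 / 2)
  have hc := hb.lin hr (1 / 2) (-(1 / 2))
  have e1 : ∀ᵐ x, 1 / 2 * b (rf 1 x) + 1 / 2 * b (rf 1 (rf 1 x)) =
      1 / 2 * b x + 1 / 2 * b (rf 1 x) := Eventually.of_forall fun x => by rw [ka_rf_rf]; ring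
  have h1 := par_orth (hs 1 (by decide)) ha hu e1 (Eventually.of_forall od)
  have h2 := par_orth0 (w := fun _ => 1) (u := fun x => 1 / 2 * b x + 1 / 2 * b (rf 1 x))
    (b := fun x => sg 0 x * u x) (fun _ => rfl) e1 (Eventually.of_forall od)
  have h3 := q1_var hV hu hc (fun t => hl _ _ (hu.lin hc 1 t) (Eventually.of_forall fun x => by
    simp only [od, ka_rf_rf]; ring)) (by
      rw [sgn_q, h.2 _ _ h.1]
      simp only [mul_pow, sg_sq, one_mul, ← sq])
  simp only [one_mul, mul_comm _ (sg 0 _ * u _)] at h2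
  rw [q1_comm, q1_lin hV hu hb hr] at h1
  rw [ip_lin hu.1 hb.1 hr.1] at h2 h3
  rw [q1_lin hV hu hb hr] at h3
  linear_combination h1 + h3 - e * h2

theorem good_split (hV : FB V) (hs : Sym V) (h : PG V C u) :
    Occ (PE V C) fun w => ∫ x, w x * u x ^ 2 := by
  obtain ⟨g, e, ⟨hu, hsol, hl⟩, hC⟩ := h
  obtain ⟨a, ga, b, gb, ha, hb, a0, b0, -, hw⟩ :=
    eqn_par hV (hs 0 (by decide)) (⟨hu, fun b gb hb => of_sol hV hu hsol hb⟩ : Eqn V e u g)
  obtain ⟨a', ga', b', gb', ha', hb', a1, b1, b2, hw'⟩ := eqn_par hV (hs 1 (by decide)) hb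
  have hc := eqn_sgn hV hs hb' (b2 0 b0) b1 hl
  have pe : ∀ {v gv} (j : Fin 3), Eqn V e v gv → j ≠ 2 → (∀ᵐ x, v (rf j x) = v x) → PE V C v :=
    fun j hv hj ev => ⟨_, e, j, hv.1, sol_of hV hv.1 hv.2, hC, hj, ev⟩
  refine ((Occ.single (pe 0 ha (by decide) (Eventually.of_forall a0))).add
    ((Occ.single (pe 1 ha' (by decide) (Eventually.of_forall a1))).add
      (Occ.single (pe 0 hc (by decide) (sgn_even (Eventually.of_forall (b2 0 b0))))))).congr
    fun w hw0 => ?_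
  rw [hw w hw0 (by decide), hw' w hw0 (by decide)]
  simp only [mul_pow, sg_sq, one_mul]

end Vale.Agent.P363
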