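import Vale.Agent.P363.KaD

/-!
Part K, file G: from representability to real minimisers (steps K1 and K2 without symmetry).
`inV_mk`: take `AEStronglyMeasurable.mk` of both parts.  `formS_congr`:
`Measure.quasiMeasurePreserving_eval`.  `formS v = formB v 0` by `simp`.
`low_of_ground`: for `h` in the class with `N = ∫ h ^ 2 > 0` apply `spin_lift` to `h / √N`
(`WD.smul` through `rh_iff`; `bil_cmul`); for `N = 0` use `bil_congr` with the zero function.
`repr_real`: `E = formS v (Φ 0) (G 0)`; all ground states have this energy.  `spin_split` each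
`Φ k`: the sum over `m` of `bil - E ∫ f ^ 2` is zero with nonnegative terms.  Scale the components by
`√(p k)`; `dens3` scales by `p k` (`integral_const_mul`); `ae_all_iff`.
-/

namespace Vale.Agent.P363

open MeasureTheory Vale.Agent.P370 Filter Topology
open scoped ContDiff

variable {v v' : Pt → ℝ}

theorem inV_mk (h : InV v) : ∃ v', Measurable v' ∧ InV v' ∧ v =ᵐ[volume] v' := by
  obtain ⟨v₁, v₂, h1, h2, e⟩ := h
  refine ⟨fun x => h1.1.mk v₁ x + h2.1.mk v₂ x,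
    h1.1.measurable_mk.add h2.1.measurable_mk,
    ⟨h1.1.mk v₁, h2.1.mk v₂, h1.ae_eq h1.1.ae_eq_mk, h2.ae_eq h2.1.ae_eq_mk, fun _ => rfl⟩, ?_⟩
  filter_upwards [h1.1.ae_eq_mk, h2.1.ae_eq_mk] with x hx hy
  rw [e x, hx, hy]

theorem formS_congr {N : ℕ} (h : v =ᵐ[volume] v') (Ψ : Wave N) (G : Grad N) :
    formS v Ψ G = formS v' Ψ G := by
  have e : ∀ s i, ∫ x : Fin N → Pt, v (x i) * ‖Ψ s x‖ ^ 2 =
      ∫ x : Fin N → Pt, v' (x i) * ‖Ψ s x‖ ^ 2 := fun s i => by
    refine integral_congr_ae ?_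
    have h' : ∀ᵐ x : Fin N → Pt, v (x i) = v' (x i) :=
      (Measure.quasiMeasurePreserving_eval (fun _ : Fin N => (volume : Measure Pt)) i).ae h
    filter_upwards [h'] with x hx
    rw [hx]
  simp only [formS, e]

theorem RH.cmul {N : ℕ} {f : Cf N → ℝ} {G : Fin N → Fin 3 → Cf N → ℝ} (h : RH f G) (s : ℝ) :
    RH (fun x => s * f x) fun i k x => s * G i k x := spin_smul h s

theorem bil_cmul {N : ℕ} {f : Cf N → ℝ} {G : Fin N → Fin 3 → Cf N → ℝ} (lam s : ℝ) :
    bil v lam (fun x => s * f x) (fun i k x => s * G i k x) (fun x => s * f x)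
      (fun i k x => s * G i k x) = s ^ 2 * bil v lam f G f G := spin_bil_smul v lam s f G

lemma KaG_formB {N : ℕ} (Ψ : Wave N) (G : Grad N) : formB v 0 Ψ G = formS v Ψ G := by
  simp [formB, formS]

lemma KaG_sq (f : Cf 3 → ℝ) (s : ℝ) : ∫ x, (s * f x) ^ 2 = s ^ 2 * ∫ x, f x ^ 2 := by
  simp only [mul_pow, integral_const_mul]

lemma KaG_asym {f : Cf 3 → ℝ} (h : Asym f) (s : ℝ) : Asym fun x => s * f x := by
  filter_upwards [h] with x hx
  rw [hx, mul_neg]

lemma KaG_dens (f : Cf 3 → ℝ) (s : ℝ) (x : Pt) :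
    dens3 (fun x => s * f x) x = s ^ 2 * dens3 f x := by
  simp only [dens3, mul_pow, integral_const_mul, Finset.mul_sum]

theorem low_of_ground (hv : FB v) {E : ℝ}
    (h : ∀ (Φ : Wave 3) (H : Grad 3), Dom Φ H → normSq Φ = 1 → E ≤ formS v Φ H) : Low v E := by
  intro f H hf ha
  have h0 : 0 ≤ ∫ x, f x ^ 2 := integral_nonneg fun x => sq_nonneg _
  rcases h0.eq_or_lt with hN | hN
  · have hz : f =ᵐ[volume] fun x => 0 * f x := by
      have := (integral_eq_zero_iff_of_nonneg (fun x => sq_nonneg (f x))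
        hf.1.integrable_sq).1 hN.symm
      filter_upwards [this] with x hx
      simpa using hx
    rw [← hN, bil_congr hf (hf.cmul 0) hz]
    simp [bil]
  · set N := ∫ x, f x ^ 2 with hNd
    have hs : (√N)⁻¹ ^ 2 = N⁻¹ := by rw [inv_pow, Real.sq_sqrt h0]
    obtain ⟨Ψ, G, hD, hn, hB, -⟩ := spin_lift (hf.cmul (√N)⁻¹) (KaG_asym ha _)
    rw [KaG_sq, hs, ← hNd, inv_mul_cancel₀ hN.ne'] at hn
    have := h Ψ G hD hn
    rw [← KaG_formB, hB v 0 hv, bil_cmul, hs, ← div_eq_inv_mul, le_div_iff₀ hN] at this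
    exact this

theorem repr_real {n : Pt → ℝ} (h : Repr 2 n) :
    ∃ (v : Pt → ℝ) (E : ℝ) (f : ℕ → (Fin 3 → Fin 2) × Bool → Cf 3 → ℝ)
      (G : ℕ → (Fin 3 → Fin 2) × Bool → Fin 3 → Fin 3 → Cf 3 → ℝ), Measurable v ∧ InV v ∧ Low v E ∧
      (∀ k m, RH (f k m) (G k m) ∧ Asym (f k m) ∧
        bil v 0 (f k m) (G k m) (f k m) (G k m) = E * ∫ x, f k m x ^ 2) ∧
      (Summable fun k => ∑ m, ∫ x, f k m x ^ 2) ∧
      ∀ᵐ x, n x = ∑' k, ∑ m, dens3 (f k m) x := by
  obtain ⟨v₀, hv₀, p, Φ, hp, hs, hg, hn⟩ := h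
  obtain ⟨v, hm, hv, e⟩ := inV_mk hv₀
  have hF : FB v := hv.fb hm
  choose G hD h1 hmin using hg
  simp only [formS_congr e] at hmin
  have hL : Low v (formS v (Φ 0) (G 0)) := low_of_ground hF (hmin 0)
  have hE : ∀ k, formS v (Φ k) (G k) = formS v (Φ 0) (G 0) := fun k =>
    le_antisymm (hmin k _ _ (hD 0) (h1 0)) (hmin 0 _ _ (hD k) (h1 k))
  generalize formS v (Φ 0) (G 0) = E at hL hE
  choose f H hf hN hB hd using fun k => spin_split (hD k)
  have hz : ∀ k m, bil v 0 (f k m) (H k m) (f k m) (H k m) = E * ∫ x, f k m x ^ 2 := fun k m => by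
    have h0 : ∑ m, (bil v 0 (f k m) (H k m) (f k m) (H k m) - E * ∫ x, f k m x ^ 2) = 0 := by
      rw [Finset.sum_sub_distrib, ← Finset.mul_sum, ← hB k v 0 hF, ← hN k, h1 k, KaG_formB, hE k]
      ring
    exact sub_eq_zero.1 ((Finset.sum_eq_zero_iff_of_nonneg fun m _ =>
      sub_nonneg.2 (hL _ _ (hf k m).1 (hf k m).2)).1 h0 m (Finset.mem_univ m))
  have hq : ∀ k, √(p k) ^ 2 = p k := fun k => Real.sq_sqrt (hp k)
  refine ⟨v, E, fun k m x => √(p k) * f k m x, fun k m i j x => √(p k) * H k m i j x, hm, hv, hL,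
    fun k m => ⟨(hf k m).1.cmul _, KaG_asym (hf k m).2 _, ?_⟩, ?_, ?_⟩
  · rw [bil_cmul, KaG_sq, hz]
    ring
  · simp only [KaG_sq, hq, ← Finset.mul_sum, ← hN, h1, mul_one]
    exact hs.summable
  · filter_upwards [hn, ae_all_iff.2 hd] with x hx hy
    simp only [KaG_dens, hq, ← Finset.mul_sum, ← hy]
    exact hx

end Vale.Agent.P363
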