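import Vale.Agent.P363.KaB
import Vale.Agent.P363.KaE
import Vale.Agent.P363.KaF

/-!
Part K, file H: the orbitals of one minimiser.
-/

namespace Vale.Agent.P363

open MeasureTheory Vale.Agent.P370 Filter Topology
open scoped ContDiff

variable {V φ : Pt → ℝ} {gφ : Fin 3 → Pt → ℝ} {e E C : ℝ} {f : Cf 3 → ℝ}
  {G : Fin 3 → Fin 3 → Cf 3 → ℝ} {J : Type} [Countable J] {w : J → Cf 2 → ℝ}

omit [Countable J] in
theorem kaH_h1 (hw : Pars w) (hf : RH f G) (j : J) :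
    H1 (ct f (w j)) fun k => ct (G 0 k) (w j) := hf.contract (hw.1 j)

theorem kaH_sq (hw : Pars w) (hf : MemLp f 2) :
    HasSum (fun j => ∫ x, ct f (w j) x ^ 2) (∫ x, f x ^ 2) := by
  simpa using pars_sum hw hf (ρ := fun _ => 1) measurable_const (by simpa using hf.integrable_sq)

theorem kaH_w (hw : Pars w) (hf : MemLp f 2) {om : Pt → ℝ} (hom : Wgt om) :
    HasSum (fun j => ∫ x, om x * ct f (w j) x ^ 2) (∫ x : Cf 3, om (x 0) * f x ^ 2) := by
  obtain ⟨B, hB⟩ := hom.2.1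
  exact pars_sum hw hf hom.1 (hf.integrable_sq.bdd_mul (c := B)
    (hom.1.comp (measurable_pi_apply 0)).aestronglyMeasurable (ae_of_all _ fun x => hB _))

omit [Countable J] in
theorem kaH_c (hw : Pars w) (hf : MemLp f 2) (hφ : MemLp φ 2) :
    HasSum (fun j => (∫ x, φ x * ct f (w j) x) ^ 2) (∫ y, cs f φ y ^ 2) := by
  simp only [fun j => ct_cs hf (hw.1 j) hφ]
  exact hw.2 _ (cs_memLp hf hφ)

theorem kaH_low (hw : Pars w) (hV : FB V) (hb : Bot V e) (hf : RH f G) :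
    e * ∫ x, f x ^ 2 ≤ Qs V f G :=
  hasSum_le (fun j => hb _ _ (kaH_h1 hw hf j)) ((kaH_sq hw hf.1).mul_left e) (pars_q hw hV hf)

theorem kaH_min (hw : Pars w) (hV : FB V) (hb : Bot V e) (hf : RH f G)
    (h : Qs V f G ≤ e * ∫ x, f x ^ 2) (j : J) :
    q1 V (ct f (w j)) (fun k => ct (G 0 k) (w j)) (ct f (w j)) (fun k => ct (G 0 k) (w j)) =
      e * ∫ x, ct f (w j) x ^ 2 := by
  have := le_hasSum ((pars_q hw hV hf).sub ((kaH_sq hw hf.1).mul_left e)) j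
    fun i _ => sub_nonneg.2 (hb _ _ (kaH_h1 hw hf i))
  have := hb _ _ (kaH_h1 hw hf j)
  linarith

theorem kaH_glob (hw : Pars w) (hV : FB V) (hb : Bot V e) (hf : RH f G)
    (h : Qs V f G ≤ e * ∫ x, f x ^ 2) (hC : |e| ≤ C) :
    Occ (PG V C) fun om => ∫ x : Cf 3, om (x 0) * f x ^ 2 :=
  ⟨J, fun j => ct f (w j),
    fun j => ⟨_, e, good_min hV hb (kaH_h1 hw hf j) (kaH_min hw hV hb hf h j), hC⟩,
    fun _ hom => kaH_w hw hf.1 hom⟩

theorem kaH_ground (hw : Pars w) (hV : FB V) (hb : Bot V e) (hf : RH f G)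
    (h : Qs V f G ≤ e * ∫ x, f x ^ 2) (h0 : ∫ x, f x ^ 2 ≠ 0) :
    ∃ φ gφ, H1 φ gφ ∧ ∫ x, φ x ^ 2 = 1 ∧ q1 V φ gφ φ gφ = e := by
  by_contra hc
  have hz : ∀ j, ∫ x, ct f (w j) x ^ 2 = 0 := fun j => by
    by_contra h1
    exact hc (normalise (kaH_h1 hw hf j) h1 (kaH_min hw hV hb hf h j))
  have := kaH_sq hw hf.1
  simp only [hz] at this
  exact h0 (this.unique hasSum_zero)

theorem kaH_step (hw : Pars w) (hV : FB V) (hL : Low V E) (hb : Bot V e)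
    (hδ : ∀ δ : ℝ, 0 < δ → ∃ u g, H1 u g ∧ ∫ x, u x ^ 2 = 1 ∧ q1 V u g u g ≤ e + δ)
    (hf : RH f G) (ha : Asym f) (hD : 0 ≤ E - 3 * e) :
    e * (∫ x, f x ^ 2) + (E - 3 * e) * (∫ x, f x ^ 2) / 2 ≤ Qs V f G := by
  have hN : 0 ≤ ∫ x, f x ^ 2 := integral_nonneg fun x => sq_nonneg _
  have key : ∀ t : ℝ, 0 < t → t ≤ 1 → e * (∫ x, f x ^ 2) + (E - 3 * e) * (∫ x, f x ^ 2) / 2 -
      t * ((E - 3 * e) * (∫ x, f x ^ 2) / 2 + 3 * ∫ x, f x ^ 2) ≤ Qs V f G := by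
    intro t ht ht1
    obtain ⟨φ, gφ, hφ, h1, hq⟩ := hδ (t ^ 2) (by positivity)
    have hp := trial hV hL hφ h1
    have hs := hasSum_le (fun j => split_low hV hb hφ h1 hq ht ht1 hp (kaH_h1 hw hf j))
      ((((kaH_sq hw hf.1).mul_left e).add
        (((kaH_sq hw hf.1).sub (kaH_c hw hf.1 hφ.1)).mul_left _)).sub
          ((kaH_c hw hf.1 hφ.1).mul_left _)) (pars_q hw hV hf)
    have hB := cs_le hf.1 ha hφ.1 h1
    have hB0 : 0 ≤ ∫ y, cs f φ y ^ 2 := integral_nonneg fun x => sq_nonneg _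
    have e1 : t ^ 2 / t = t := by field_simp
    rw [e1] at hs
    generalize ∫ x, f x ^ 2 = N at *
    generalize ∫ y, cs f φ y ^ 2 = B at *
    generalize q1 V φ gφ φ gφ = Q at *
    have a1 : (1 - t) * ((E - 3 * e) - 2 * t ^ 2) * (N - B) ≤ (1 - t) * (E - 2 * Q - e) * (N - B) :=
      mul_le_mul_of_nonneg_right (mul_le_mul_of_nonneg_left (by linarith) (by linarith))
        (by linarith)
    have a2 : (1 - t) * (E - 3 * e) * (N / 2) ≤ (1 - t) * (E - 3 * e) * (N - B) :=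
      mul_le_mul_of_nonneg_left (by linarith) (mul_nonneg (by linarith) hD)
    have a3 : (1 - t) * t * (N - B) ≤ 1 * 1 * N :=
      mul_le_mul (mul_le_mul (by linarith) ht1 ht.le zero_le_one) (by linarith) (by linarith)
        (by norm_num)
    have a4 : t * ((1 - t) * t * (N - B)) ≤ t * (1 * 1 * N) := mul_le_mul_of_nonneg_left a3 ht.le
    have a5 : t * B ≤ t * N := mul_le_mul_of_nonneg_left (by linarith) ht.le
    nlinarith
  refine le_of_forall_pos_le_add fun ε hε => ?_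
  have hK : 0 ≤ (E - 3 * e) * (∫ x, f x ^ 2) / 2 + 3 * ∫ x, f x ^ 2 := by positivity
  generalize (E - 3 * e) * (∫ x, f x ^ 2) / 2 + 3 * ∫ x, f x ^ 2 = K at key hK
  have h := key (min 1 (ε / (K + 1))) (lt_min one_pos (by positivity)) (min_le_left _ _)
  have h2 : min 1 (ε / (K + 1)) * K ≤ ε / (K + 1) * (K + 1) :=
    mul_le_mul (min_le_right _ _) (by linarith) hK (by positivity)
  rw [div_mul_cancel₀ _ (by positivity)] at h2
  linarith

theorem kaH_exc (hw : Pars w) (hV : FB V) (hs : Sym V) (hb : Bot V e) (hφ : H1 φ gφ)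
    (h1 : ∫ x, φ x ^ 2 = 1) (hq : q1 V φ gφ φ gφ = e) (hp : Perp V φ (E - 2 * e)) (hf : RH f G)
    (ha : Asym f) (hD : 0 < E - 3 * e) (hQ : 2 * Qs V f G ≤ (E - e) * ∫ x, f x ^ 2)
    (hC : |e| ≤ C) (hC' : |E - 2 * e| ≤ C) :
    Occ (PG V C) fun om => ∫ x : Cf 3, om (x 0) * f x ^ 2 := by
  have sp := fun j => split_exact hV hb hφ h1 hq (kaH_h1 hw hf j) rfl
  have hh := fun j => (kaH_h1 hw hf j).lin hφ 1 (-∫ x, φ x * ct f (w j) x)
  have pos := fun j => hp _ _ (hh j) (sp j).1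
  have hsum := ((pars_q hw hV hf).sub ((kaH_c hw hf.1 hφ.1).mul_left e)).sub
    (((kaH_sq hw hf.1).sub (kaH_c hw hf.1 hφ.1)).mul_left (E - 2 * e))
  simp only [← fun j => (sp j).2.1, ← fun j => (sp j).2.2] at hsum
  have hB := cs_le hf.1 ha hφ.1 h1
  have hB0 : 0 ≤ ∫ y, cs f φ y ^ 2 := integral_nonneg fun x => sq_nonneg _
  have h0 := hsum.nonneg fun j => sub_nonneg.2 (pos j)
  have hle : Qs V f G - e * (∫ y, cs f φ y ^ 2) -
      (E - 2 * e) * ((∫ x, f x ^ 2) - ∫ y, cs f φ y ^ 2) ≤ 0 := by nlinarith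
  have heq : 2 * ∫ y, cs f φ y ^ 2 = ∫ x, f x ^ 2 := by
    refine le_antisymm hB (le_of_mul_le_mul_left ?_ hD)
    nlinarith
  have o1 : Occ (PG V C) fun om => ∫ x : Cf 3, om (x 0) * rs f φ x ^ 2 := by
    refine ⟨J, fun j x => 1 * ct f (w j) x + -(∫ x, φ x * ct f (w j) x) * φ x, fun j =>
      ⟨_, _, good_exc hV hs hb hφ h1 hq hp (hh j) (sp j).1 ?_, hC'⟩, fun om hom => ?_⟩
    · have := le_hasSum hsum j fun i _ => sub_nonneg.2 (pos i)
      have := pos j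
      linarith
    · convert kaH_w hw (rs_memLp hf.1 hφ.1) hom using 2 with j
      refine integral_congr_ae ?_
      filter_upwards [ct_rs hf.1 hφ.1 (hw.1 j)] with x hx
      rw [hx, ct_cs hf.1 (hw.1 j) hφ.1]
      ring
  have o2 : Occ (PG V C) fun om => ∫ x, om x * (√(∫ y, cs f φ y ^ 2) * φ x) ^ 2 :=
    Occ.single ⟨_, e, (good_min hV hb hφ (by rw [hq, h1, mul_one])).cmul _, hC⟩
  refine (o2.add o1).congr fun om hom => ?_
  obtain ⟨B, hoB⟩ := hom.2.1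
  rw [cs_eq hf.1 ha hφ.1 h1 heq hom.1 hoB, ← integral_const_mul]
  congr 2
  funext x
  rw [mul_pow, Real.sq_sqrt hB0]
  ring

theorem occ_min (hV : FB V) (hs : Sym V) (hL : Low V E) (hb : Bot V e)
    (hδ : ∀ δ : ℝ, 0 < δ → ∃ u g, H1 u g ∧ ∫ x, u x ^ 2 = 1 ∧ q1 V u g u g ≤ e + δ)
    (hf : RH f G) (ha : Asym f) (he : bil V 0 f G f G = E * ∫ x, f x ^ 2) :
    Occ (PG V (|e| + |E - 2 * e|)) fun w => ∑ i, ∫ x : Cf 3, w (x i) * f x ^ 2 := by
  obtain ⟨J, hJ, w, hw⟩ := exists_pars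
  have hC : |e| ≤ |e| + |E - 2 * e| := le_add_of_nonneg_right (abs_nonneg _)
  have hC' : |E - 2 * e| ≤ |e| + |E - 2 * e| := le_add_of_nonneg_left (abs_nonneg _)
  have hN : 0 ≤ ∫ x, f x ^ 2 := integral_nonneg fun x => sq_nonneg _
  have l0 := kaH_low hw hV hb hf
  have l2 := kaH_low hw hV hb (sw_rh hf)
  rw [bil_slots hf ha] at he
  have key : Occ (PG V (|e| + |E - 2 * e|)) (fun om => ∫ x : Cf 3, om (x 0) * f x ^ 2) ∧
      Qs V (sw f) (swG G) ≤ e * ∫ x, sw f x ^ 2 := by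
    rw [sw_sq] at l2 ⊢
    rcases le_or_gt ((E - 3 * e) * ∫ x, f x ^ 2) 0 with h | h
    · exact ⟨kaH_glob hw hV hb hf (by linarith) hC, by linarith⟩
    · have hD : 0 < E - 3 * e := by
        by_contra hc
        exact absurd h (not_lt.2 (mul_nonpos_of_nonpos_of_nonneg (not_lt.1 hc) hN))
      have hN' : ∫ x, f x ^ 2 ≠ 0 := fun hz => by simp [hz] at h
      have h2 : Qs V (sw f) (swG G) ≤ e * ∫ x, f x ^ 2 := by
        have := kaH_step hw hV hL hb hδ hf ha hD.le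
        linarith
      obtain ⟨φ, gφ, hφ, h1, hq⟩ := kaH_ground hw hV hb (sw_rh hf) (by rwa [sw_sq])
        (by rwa [sw_sq])
      have hp := trial hV hL hφ h1
      rw [hq] at hp
      exact ⟨kaH_exc hw hV hs hb hφ h1 hq hp hf ha hD (by linarith) hC hC', h2⟩
  refine ((key.1.add key.1).add (kaH_glob hw hV hb (sw_rh hf) key.2 hC)).congr fun om _ => ?_
  rw [marg_slots ha]
  ring

end Vale.Agent.P363
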