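import Vale.Agent.P363.LD

/-! Part K, second half: norms and approximately harmonic functions. -/

namespace Vale.Agent.P363

open MeasureTheory Vale.Agent.P370 Metric

/-- The `L²` norm. -/
noncomputable def n2 (f : Pt → ℝ) : ℝ := √(∫ x, f x ^ 2)

/-- The `L²` norm of a vector field. -/
noncomputable def dn (γ : Fin 3 → Pt → ℝ) : ℝ := √(∑ k, ∫ x, γ k x ^ 2)

/-- The `L²` norm on a cube. -/
noncomputable def bn (p : Pt) (ρ : ℝ) (f : Pt → ℝ) : ℝ := √(∫ x in ball p ρ, f x ^ 2)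

/-- The field `G` is almost divergence free in the cube. -/
def AH (p : Pt) (ρ η : ℝ) (G : Fin 3 → Pt → ℝ) : Prop :=
  ∀ ζ γ, H1 ζ γ → (∀ x, x ∉ ball p ρ → ζ x = 0) → |∑ k, ∫ x, G k x * γ k x| ≤ η * dn γ

variable {f f' : Pt → ℝ} {G G' : Fin 3 → Pt → ℝ} {p : Pt} {ρ ρ' η η' : ℝ}

theorem n2_nonneg (f : Pt → ℝ) : 0 ≤ n2 f := Real.sqrt_nonneg _

theorem dn_nonneg (G : Fin 3 → Pt → ℝ) : 0 ≤ dn G := Real.sqrt_nonneg _

theorem bn_nonneg (p : Pt) (ρ : ℝ) (f : Pt → ℝ) : 0 ≤ bn p ρ f := Real.sqrt_nonneg _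

theorem n2_sq (f : Pt → ℝ) : n2 f ^ 2 = ∫ x, f x ^ 2 :=
  Real.sq_sqrt (integral_nonneg fun _ => sq_nonneg _)

theorem dn_sq (G : Fin 3 → Pt → ℝ) : dn G ^ 2 = ∑ k, ∫ x, G k x ^ 2 :=
  Real.sq_sqrt (Finset.sum_nonneg fun _ _ => integral_nonneg fun _ => sq_nonneg _)

theorem bn_sq (p : Pt) (ρ : ℝ) (f : Pt → ℝ) : bn p ρ f ^ 2 = ∫ x in ball p ρ, f x ^ 2 :=
  Real.sq_sqrt (integral_nonneg fun _ => sq_nonneg _)

theorem bn_eq (p : Pt) (ρ : ℝ) (f : Pt → ℝ) : bn p ρ f = n2 ((ball p ρ).indicator f) := by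
  rw [bn, n2, ← integral_indicator measurableSet_ball]
  congr 2
  funext x
  by_cases h : x ∈ ball p ρ <;> simp [h]

theorem kb_int (hf : MemLp f 2) (hf' : MemLp f' 2) : Integrable fun x => f x * f' x :=
  hf.integrable_mul hf'

theorem kb_sq (hf : MemLp f 2) : Integrable fun x => f x ^ 2 := hf.integrable_sq

theorem n2_mono (hf' : MemLp f' 2) (h : ∀ᵐ x, |f x| ≤ |f' x|) : n2 f ≤ n2 f' :=
  Real.sqrt_le_sqrt (integral_mono_of_nonneg (.of_forall fun _ => sq_nonneg _) (kb_sq hf')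
    (h.mono fun _ hx => sq_le_sq.2 hx))

theorem n2_congr (h : f =ᵐ[volume] f') : n2 f = n2 f' := by
  rw [n2, n2, integral_congr_ae (h.mono fun x hx => by rw [hx])]

theorem n2_smul (c : ℝ) (f : Pt → ℝ) : n2 (fun x => c * f x) = |c| * n2 f := by
  simp only [n2, mul_pow]
  rw [integral_const_mul, Real.sqrt_mul (sq_nonneg _), Real.sqrt_sq_eq_abs]

theorem kb_exp (hf : MemLp f 2) (hf' : MemLp f' 2) (t : ℝ) : ∫ x, (t * f x + f' x) ^ 2 =
    t ^ 2 * (∫ x, f x ^ 2) + 2 * t * (∫ x, f x * f' x) + ∫ x, f' x ^ 2 := by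
  have e1 : (fun x => (t * f x + f' x) ^ 2) =
      fun x => (t ^ 2 * f x ^ 2 + 2 * t * (f x * f' x)) + f' x ^ 2 := by
    funext x
    ring
  have i1 := (kb_sq hf).const_mul (t ^ 2)
  have i2 := (kb_int hf hf').const_mul (2 * t)
  have i3 : Integrable fun x => t ^ 2 * f x ^ 2 + 2 * t * (f x * f' x) := i1.add i2
  rw [e1, integral_add i3 (kb_sq hf'), integral_add i1 i2, integral_const_mul, integral_const_mul]

theorem kb_exp1 (hf : MemLp f 2) (hf' : MemLp f' 2) : ∫ x, (f x + f' x) ^ 2 =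
    (∫ x, f x ^ 2) + 2 * (∫ x, f x * f' x) + ∫ x, f' x ^ 2 := by
  simpa using kb_exp hf hf' 1

/-- Cauchy-Schwarz. -/
theorem kb_cs (hf : MemLp f 2) (hf' : MemLp f' 2) : |∫ x, f x * f' x| ≤ n2 f * n2 f' := by
  have h : ∀ t : ℝ, 0 ≤ (∫ x, f x ^ 2) * (t * t) + (2 * ∫ x, f x * f' x) * t + ∫ x, f' x ^ 2 := by
    intro t
    have e : (∫ x, f x ^ 2) * (t * t) + (2 * ∫ x, f x * f' x) * t + ∫ x, f' x ^ 2 =
        ∫ x, (t * f x + f' x) ^ 2 := by
      rw [kb_exp hf hf']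
      ring
    rw [e]
    exact integral_nonneg fun _ => sq_nonneg _
  have h1 := discrim_le_zero h
  rw [discrim] at h1
  refine abs_le_of_sq_le_sq ?_ (mul_nonneg (n2_nonneg _) (n2_nonneg _))
  rw [mul_pow, n2_sq, n2_sq]
  linarith

theorem n2_add (hf : MemLp f 2) (hf' : MemLp f' 2) : n2 (fun x => f x + f' x) ≤ n2 f + n2 f' := by
  refine abs_le_of_sq_le_sq' ?_ (add_nonneg (n2_nonneg _) (n2_nonneg _)) |>.2
  rw [n2_sq, kb_exp1 hf hf', add_sq, n2_sq, n2_sq]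
  have := (abs_le.1 (kb_cs hf hf')).2
  linarith

theorem dn_eq (G : Fin 3 → Pt → ℝ) : dn G = √(∑ k, n2 (G k) ^ 2) := by
  simp only [n2_sq, dn]

theorem n2_le_dn (G : Fin 3 → Pt → ℝ) (k : Fin 3) : n2 (G k) ≤ dn G :=
  Real.sqrt_le_sqrt (Finset.single_le_sum (f := fun k => ∫ x, G k x ^ 2)
    (fun _ _ => integral_nonneg fun _ => sq_nonneg _) (Finset.mem_univ k))

theorem dn_mono (h : ∀ k, n2 (G k) ≤ n2 (G' k)) : dn G ≤ dn G' := by
  rw [dn_eq, dn_eq]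
  exact Real.sqrt_le_sqrt (Finset.sum_le_sum fun k _ => pow_le_pow_left₀ (n2_nonneg _) (h k) 2)

theorem dn_le {B : ℝ} (h : ∀ k, n2 (G k) ≤ B) : dn G ≤ 2 * B := by
  have h0 : 0 ≤ B := (n2_nonneg _).trans (h 0)
  rw [dn_eq, Real.sqrt_le_left (by positivity), Fin.sum_univ_three]
  have a := fun k => pow_le_pow_left₀ (n2_nonneg _) (h k) 2
  nlinarith [a 0, a 1, a 2]

theorem kb_cs3 (hG : ∀ k, MemLp (G k) 2) (hG' : ∀ k, MemLp (G' k) 2) :
    |∑ k, ∫ x, G k x * G' k x| ≤ dn G * dn G' := by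
  refine (Finset.abs_sum_le_sum_abs _ _).trans
    ((Finset.sum_le_sum fun k _ => kb_cs (hG k) (hG' k)).trans ?_)
  rw [dn_eq, dn_eq]
  exact Real.sum_mul_le_sqrt_mul_sqrt _ _ _

theorem dn_add (hG : ∀ k, MemLp (G k) 2) (hG' : ∀ k, MemLp (G' k) 2) :
    dn (fun k x => G k x + G' k x) ≤ dn G + dn G' := by
  refine abs_le_of_sq_le_sq' ?_ (add_nonneg (dn_nonneg _) (dn_nonneg _)) |>.2
  have e1 : ∀ k, ∫ x, (G k x + G' k x) ^ 2 =
      (∫ x, G k x ^ 2) + 2 * (∫ x, G k x * G' k x) + ∫ x, G' k x ^ 2 :=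
    fun k => kb_exp1 (hG k) (hG' k)
  rw [dn_sq, add_sq, dn_sq, dn_sq]
  simp only [e1, Finset.sum_add_distrib, ← Finset.mul_sum]
  have := (abs_le.1 (kb_cs3 hG hG')).2
  linarith

theorem bn_mono (hf : MemLp f 2) (h : ρ ≤ ρ') : bn p ρ f ≤ bn p ρ' f :=
  Real.sqrt_le_sqrt (setIntegral_mono_set (kb_sq hf).integrableOn
    (.of_forall fun _ => sq_nonneg _) (ball_subset_ball h).eventuallyLE)

theorem bn_le_n2 (hf : MemLp f 2) : bn p ρ f ≤ n2 f :=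
  Real.sqrt_le_sqrt (setIntegral_le_integral (kb_sq hf) (.of_forall fun _ => sq_nonneg _))

theorem bn_congr (h : ∀ x ∈ ball p ρ, f x = f' x) : bn p ρ f = bn p ρ f' := by
  rw [bn, bn, setIntegral_congr_fun measurableSet_ball fun x hx => by rw [h x hx]]

theorem AH.mono (h : AH p ρ η G) (h1 : ρ' ≤ ρ) (h2 : η ≤ η') : AH p ρ' η' G := fun ζ γ a b =>
  (h ζ γ a fun x hx => b x fun c => hx (ball_subset_ball h1 c)).trans
    (mul_le_mul_of_nonneg_right h2 (dn_nonneg _))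

theorem AH.add (h : AH p ρ η G) (h' : AH p ρ η' G') (hG : ∀ k, MemLp (G k) 2)
    (hG' : ∀ k, MemLp (G' k) 2) : AH p ρ (η + η') fun k x => G k x + G' k x := fun ζ γ a b => by
  have e : ∀ k, ∫ x, (G k x + G' k x) * γ k x = (∫ x, G k x * γ k x) + ∫ x, G' k x * γ k x :=
    fun k => by
      simp only [add_mul]
      exact integral_add (kb_int (hG k) (a.2 k).1) (kb_int (hG' k) (a.2 k).1)
  simp only [e]
  rw [Finset.sum_add_distrib, add_mul]
  exact (abs_add_le _ _).trans (add_le_add (h ζ γ a b) (h' ζ γ a b))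

theorem kb_ek (k : Fin 3) : ‖ek k‖ ≤ 1 := by
  simp [ek, Pi.norm_single]

theorem H1.kmul {u b : Pt → ℝ} {g : Fin 3 → Pt → ℝ} (h : H1 u g) (hb : ContDiff ℝ 1 b) {C : ℝ}
    (h0 : ∀ x, |b x| ≤ C) (h1 : ∀ x k, |pd k b x| ≤ C) :
    H1 (fun x => b x * u x) fun k x => b x * g k x + pd k b x * u x :=
  WD.mul (h1_iff.1 h) kb_ek hb h0 h1

theorem rf_rf (i : Fin 3) (x : Pt) : rf i (rf i x) = x := by
  simp [rf]

theorem rf_ball {i : Fin 3} (hp : p i = 0) (x : Pt) : rf i x ∈ ball p ρ ↔ x ∈ ball p ρ := by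
  have h : ∀ x : Pt, dist (rf i x) p ≤ dist x p := fun x => by
    refine (dist_pi_le_iff dist_nonneg).2 fun k => ?_
    by_cases hk : k = i
    · subst hk
      have := dist_le_pi_dist x p k
      simpa [rf, hp] using this
    · simpa [rf, hk] using dist_le_pi_dist x p k
  have h2 := h (rf i x)
  rw [rf_rf] at h2
  rw [mem_ball, mem_ball, le_antisymm (h x) h2]

end Vale.Agent.P363
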