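import Vale.Agent.P363.Kb0

/-! Part K-b: uniform smallness of the potential on small cubes. -/

namespace Vale.Agent.P363

open MeasureTheory Vale.Agent.P370 Metric

/-- `MemLp.eLpNorm_indicator_le` for the first part; the rest is a.e. bounded by `M + |C|`, and
the cube has volume `(2 ρ) ^ 3` (`Real.volume_pi_ball`, `eLpNorm_indicator_const_le`,
`eLpNorm_add_le`). -/
theorem kb_small {v : Pt → ℝ} (hv : InV v) (C : ℝ) {δ : ℝ} (hδ : 0 < δ) : ∃ ρ₀ : ℝ, 0 < ρ₀ ∧
    ∀ (p : Pt) (ρ e : ℝ), ρ ≤ ρ₀ → |e| ≤ C →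
      MemLp ((ball p ρ).indicator fun x => v x - e) (3 / 2) ∧
        (eLpNorm ((ball p ρ).indicator fun x => v x - e) (3 / 2) volume).toReal ≤ δ := by
  obtain ⟨v₁, v₂, h1, h2, hv⟩ := hv
  have p1 : (1 : ENNReal) ≤ 3 / 2 := by
    rw [ENNReal.le_div_iff_mul_le (by simp) (by simp)]
    norm_num
  have p2 : (3 / 2 : ENNReal) ≠ ⊤ := ENNReal.div_ne_top (by simp) (by simp)
  obtain ⟨M, hM⟩ : ∃ M : NNReal, ∀ᵐ x, ‖v₂ x‖₊ ≤ M :=
    eLpNormEssSup_lt_top_iff_isBoundedUnder.1 (by simpa using h2.2)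
  obtain ⟨d, hd, a1⟩ := h1.eLpNorm_indicator_le p1 p2 (half_pos hδ)
  obtain ⟨η, hη, a2⟩ := exists_eLpNorm_indicator_le (μ := (volume : Measure Pt)) p2
    ((M : ℝ) + |C|) (ε := ENNReal.ofReal (δ / 2)) (by simpa using hδ)
  obtain ⟨t, t0, t1, t2, t3⟩ : ∃ t : ℝ, 0 < t ∧ t ≤ 1 ∧ t ≤ d ∧ t ≤ η :=
    ⟨min 1 (min d η), lt_min one_pos (lt_min hd hη), min_le_left _ _,
      (min_le_right _ _).trans (min_le_left _ _), (min_le_right _ _).trans (min_le_right _ _)⟩
  refine ⟨t / 2, half_pos t0, fun p ρ e hρ he => ?_⟩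
  have vol : volume (ball p ρ) ≤ ENNReal.ofReal t := by
    refine (measure_mono (ball_subset_ball hρ)).trans ?_
    rw [Real.volume_pi_ball p (half_pos t0), Fintype.card_fin]
    refine ENNReal.ofReal_le_ofReal ?_
    rw [mul_div_cancel₀ t two_ne_zero]
    exact pow_le_of_le_one t0.le t1 three_ne_zero
  have b1 := a1 _ measurableSet_ball (vol.trans (ENNReal.ofReal_le_ofReal t2))
  have b2 := a2 (ball p ρ) (vol.trans (by
    rw [← ENNReal.ofReal_coe_nnreal]
    exact ENNReal.ofReal_le_ofReal t3))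
  have b3 : eLpNorm ((ball p ρ).indicator fun x => v₂ x - e) (3 / 2) volume
      ≤ ENNReal.ofReal (δ / 2) := by
    refine (eLpNorm_mono_ae_real (hM.mono fun x hx => ?_)).trans b2
    by_cases hb : x ∈ ball p ρ
    · rw [Set.indicator_of_mem hb, Set.indicator_of_mem hb]
      exact (norm_sub_le _ _).trans (add_le_add hx (he.trans (le_abs_self C)))
    · rw [Set.indicator_of_notMem hb, Set.indicator_of_notMem hb, norm_zero]
  have m1 : AEStronglyMeasurable ((ball p ρ).indicator v₁) volume :=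
    h1.1.indicator measurableSet_ball
  have m2 : AEStronglyMeasurable ((ball p ρ).indicator fun x => v₂ x - e) volume :=
    (h2.1.sub aestronglyMeasurable_const).indicator measurableSet_ball
  have e1 : ((ball p ρ).indicator fun x => v x - e)
      = (ball p ρ).indicator v₁ + (ball p ρ).indicator fun x => v₂ x - e := by
    funext x
    by_cases hb : x ∈ ball p ρ
    · simp only [Pi.add_apply, Set.indicator_of_mem hb, hv, add_sub_assoc]
    · simp only [Pi.add_apply, Set.indicator_of_notMem hb, add_zero]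
  have b4 : eLpNorm ((ball p ρ).indicator fun x => v x - e) (3 / 2) volume
      ≤ ENNReal.ofReal δ := by
    rw [e1]
    refine (eLpNorm_add_le m1 m2 p1).trans ((add_le_add b1 b3).trans (le_of_eq ?_))
    rw [← ENNReal.ofReal_add (half_pos hδ).le (half_pos hδ).le, add_halves]
  exact ⟨⟨e1 ▸ m1.add m2, b4.trans_lt ENNReal.ofReal_lt_top⟩,
    ENNReal.toReal_le_of_le_ofReal hδ.le b4⟩

end Vale.Agent.P363
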