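import Vale.Agent.P363.Kb0

/-! Part K-b: cutoff functions for cubes and the odd logarithmic cutoff. -/

namespace Vale.Agent.P363

open MeasureTheory Vale.Agent.P370 Metric

/-- Bounded by one, with gradient bounded by `C`. -/
def KbCutP (C : ℝ) (w : Pt → ℝ) : Prop :=
  ContDiff ℝ 1 w ∧ (∀ x, |w x| ≤ 1) ∧ ∀ x k, |pd k w x| ≤ C

theorem KbCutP.mul {C C' : ℝ} {u v : Pt → ℝ} (h : KbCutP C u) (h' : KbCutP C' v) :
    KbCutP (C + C') fun x => u x * v x := by
  refine ⟨h.1.mul h'.1, fun x => ?_, fun x k => ?_⟩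
  · rw [abs_mul]
    exact mul_le_one₀ (h.2.1 x) (abs_nonneg _) (h'.2.1 x)
  · have e : pd k (fun x => u x * v x) x = v x * pd k u x + u x * pd k v x := by
      rw [pd, fderiv_fun_mul (h.1.differentiable one_ne_zero x) (h'.1.differentiable one_ne_zero x)]
      simp [pd, add_comm]
    rw [e]
    refine (abs_add_le _ _).trans (add_le_add ?_ ?_) <;> rw [abs_mul]
    · exact (mul_le_of_le_one_left (abs_nonneg _) (h'.2.1 x)).trans (h.2.2 x k)
    · exact (mul_le_of_le_one_left (abs_nonneg _) (h.2.1 x)).trans (h'.2.2 x k)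

theorem KbCut_st (y : ℝ) : HasDerivAt Real.smoothTransition (deriv Real.smoothTransition y) y :=
  ((Real.smoothTransition.contDiff (n := 1)).differentiable (by simp) y).hasDerivAt

theorem KbCut_base {M : ℝ} (hd : ∀ r, |deriv Real.smoothTransition r| ≤ M) (c s : ℝ) (k : Fin 3) :
    KbCutP (M * |s|) fun y => Real.smoothTransition (c + s * y k) := by
  refine ⟨(Real.smoothTransition.contDiff (n := 1)).comp (by fun_prop), fun x => ld_st_abs _,
    fun x j => ?_⟩
  have h := (KbCut_st (c + s * x k)).comp_hasFDerivAt x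
    (((hasFDerivAt_apply (𝕜 := ℝ) k x).const_mul s).const_add c)
  have e : pd j (fun y => Real.smoothTransition (c + s * y k)) x =
      deriv Real.smoothTransition (c + s * x k) * (s * ek j k) := by
    rw [pd]
    exact (congrArg (fun L : Pt →L[ℝ] ℝ => L (ek j)) h.fderiv).trans (by simp)
  rw [e, abs_mul, abs_mul]
  exact mul_le_mul (hd _) (mul_le_of_le_one_right (abs_nonneg _)
    ((norm_le_pi_norm (ek j) k).trans (kb_ek j))) (by positivity) ((abs_nonneg _).trans (hd 0))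

theorem KbCut_loc {O : Set Pt} (hO : IsOpen O) {x : Pt} (hx : x ∈ O) {w : Pt → ℝ} {c : ℝ}
    (h : ∀ y ∈ O, w y = c) : w x = c ∧ ∀ k, pd k w x = 0 := by
  refine ⟨h x hx, fun k => ?_⟩
  have e : w =ᶠ[nhds x] fun _ => c := Filter.eventually_of_mem (hO.mem_nhds hx) h
  simp [pd, e.fderiv_eq]

/-- `w x = ∏ k, bmp (2 ρ / a) (2 / a * (x k - p k))` (`bmp` of P370/Geom, facts in P370/MassA):
one on the cube of radius `ρ`, zero outside the closed cube of radius `ρ + a / 2`. -/
theorem kb_cut : ∃ C : ℝ, 1 ≤ C ∧ ∀ (p : Pt) (ρ a : ℝ), 0 ≤ ρ → 0 < a → ∃ w : Pt → ℝ,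
    ContDiff ℝ 1 w ∧ (∀ x, |w x| ≤ 1) ∧ (∀ x k, |pd k w x| ≤ C / a) ∧
      (∀ x ∈ ball p ρ, w x = 1 ∧ ∀ k, pd k w x = 0) ∧
      ∀ x, x ∉ ball p (ρ + a) → w x = 0 ∧ ∀ k, pd k w x = 0 := by
  obtain ⟨M, hM, hd, -⟩ := ld_st
  refine ⟨12 * M, by linarith, fun p ρ a hρ ha => ?_⟩
  have h2 : 0 < 2 / a := by positivity
  have h3 : 2 / a * (a / 2) = 1 := by field_simp
  have u := fun k => (KbCut_base hd (1 + 2 / a * (ρ + p k)) (-(2 / a)) k).mul
    (KbCut_base hd (1 + 2 / a * (ρ - p k)) (2 / a) k)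
  obtain ⟨w, ⟨w1, w2, w3⟩, e⟩ : ∃ w, KbCutP _ w ∧ ∀ y, w y = ∏ k,
      Real.smoothTransition (1 + 2 / a * (ρ + p k) + -(2 / a) * y k) *
        Real.smoothTransition (1 + 2 / a * (ρ - p k) + 2 / a * y k) :=
    ⟨_, ((u 0).mul (u 1)).mul (u 2), fun y => by rw [Fin.prod_univ_three]⟩
  refine ⟨w, w1, w2, fun x k => (w3 x k).trans_eq ?_, fun x hx => KbCut_loc isOpen_ball hx ?_,
    fun x hx => KbCut_loc (O := {y | ρ + a / 2 < dist y p})
      (isOpen_lt continuous_const (continuous_id.dist continuous_const)) ?_ ?_⟩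
  · rw [abs_neg, abs_of_pos h2]
    ring
  · intro y hy
    refine (e y).trans (Finset.prod_eq_one fun k _ => ?_)
    have := abs_lt.1 ((dist_le_pi_dist y p k).trans_lt hy)
    rw [Real.smoothTransition.one_of_one_le (by nlinarith),
      Real.smoothTransition.one_of_one_le (by nlinarith), one_mul]
  · have := not_lt.1 (mt mem_ball.2 hx)
    show ρ + a / 2 < dist x p
    linarith
  · intro y hy
    obtain ⟨k, hk⟩ := not_forall.1 fun c => not_le.2 hy ((dist_pi_le_iff (by positivity)).2 c)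
    refine (e y).trans (Finset.prod_eq_zero (Finset.mem_univ k) ?_)
    rcases lt_abs.1 (not_le.1 hk) with h | h
    · rw [Real.smoothTransition.zero_of_nonpos (by nlinarith), zero_mul]
    · rw [Real.smoothTransition.zero_of_nonpos (x := 1 + 2 / a * (ρ - p k) + 2 / a * y k)
        (by nlinarith), mul_zero]

/-- `σ t = S (c * arsinh (t / τ))`, `S y = st y - st (-y)` (`st = Real.smoothTransition`,
`|S'| ≤ B`), `c = η / B`, `τ = 1 / sinh (1 / c)`, `K = 1 / τ ^ 2`;
`σ' t = S' (..) * c / √(τ ^ 2 + t ^ 2)`. -/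
theorem kb_sig {η : ℝ} (hη : 0 < η) : ∃ (K : ℝ) (σ : ℝ → ℝ), 0 < K ∧ ContDiff ℝ 1 σ ∧
    (∀ t, σ (-t) = -σ t) ∧ (∀ t, |σ t| ≤ 1) ∧ (∀ t ≤ -1, σ t = -1) ∧
    (∃ B, ∀ t, |deriv σ t| ≤ B) ∧ ∀ t, t ≠ 0 → deriv σ t ^ 2 ≤ η ^ 2 * min (1 / t ^ 2) K := by
  obtain ⟨M, hM, hd, -⟩ := ld_st
  obtain ⟨c, hc⟩ : ∃ c, c = η / (2 * M) := ⟨_, rfl⟩
  have c0 : 0 < c := by rw [hc]; positivity
  have c1 : 2 * M * c = η := by rw [hc]; field_simp
  obtain ⟨s, hs⟩ : ∃ s, s = Real.sinh (1 / c) := ⟨_, rfl⟩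
  have s0 : 0 < s := by rw [hs]; exact Real.sinh_pos_iff.2 (by positivity)
  have hy : ContDiff ℝ 1 fun t => c * Real.arsinh (s * t) :=
    contDiff_const.mul (Real.contDiff_arsinh.comp (contDiff_const.mul contDiff_id))
  have key : ∀ t, deriv (fun t => Real.smoothTransition (c * Real.arsinh (s * t)) -
      Real.smoothTransition (-(c * Real.arsinh (s * t)))) t ^ 2 ≤
      η ^ 2 * (s ^ 2 / (1 + (s * t) ^ 2)) := fun t => by
    have h1 : HasDerivAt (fun t => c * Real.arsinh (s * t))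
        (c * ((√(1 + (s * t) ^ 2))⁻¹ * (s * 1))) t :=
      ((Real.hasDerivAt_arsinh (s * t)).comp t ((hasDerivAt_id t).const_mul s)).const_mul c
    have h2 := (((KbCut_st _).comp t h1).sub ((KbCut_st _).comp t h1.neg)).deriv
    refine (congrArg (· ^ 2) h2).trans_le ?_
    have a1 := abs_le.1 (hd (c * Real.arsinh (s * t)))
    have a2 := abs_le.1 (hd (-(c * Real.arsinh (s * t))))
    have a3 : (deriv Real.smoothTransition (c * Real.arsinh (s * t)) +
        deriv Real.smoothTransition (-(c * Real.arsinh (s * t)))) ^ 2 ≤ (2 * M) ^ 2 :=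
      sq_le_sq' (by linarith) (by linarith)
    calc _ = (deriv Real.smoothTransition (c * Real.arsinh (s * t)) +
          deriv Real.smoothTransition (-(c * Real.arsinh (s * t)))) ^ 2 *
          (c ^ 2 * (s ^ 2 / √(1 + (s * t) ^ 2) ^ 2)) := by
          simp only [Pi.neg_apply]
          ring
      _ ≤ (2 * M) ^ 2 * (c ^ 2 * (s ^ 2 / √(1 + (s * t) ^ 2) ^ 2)) := by gcongr
      _ = _ := by rw [Real.sq_sqrt (by positivity), ← c1]; ring
  have k2 : ∀ t, s ^ 2 / (1 + (s * t) ^ 2) ≤ s ^ 2 := fun t =>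
    div_le_self (sq_nonneg _) (le_add_of_nonneg_right (sq_nonneg _))
  refine ⟨s ^ 2, fun t => Real.smoothTransition (c * Real.arsinh (s * t)) -
    Real.smoothTransition (-(c * Real.arsinh (s * t))), by positivity,
    ((Real.smoothTransition.contDiff (n := 1)).comp hy).sub
      ((Real.smoothTransition.contDiff (n := 1)).comp hy.neg), fun t => ?_, fun t => ?_,
    fun t ht => ?_, ⟨η * s, fun t => abs_le_of_sq_le_sq ?_ (by positivity)⟩, fun t ht => ?_⟩
  · simp only [mul_neg, Real.arsinh_neg, neg_neg, neg_sub]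
  · rw [abs_le]
    constructor <;> linarith [Real.smoothTransition.nonneg (c * Real.arsinh (s * t)),
      Real.smoothTransition.le_one (c * Real.arsinh (s * t)),
      Real.smoothTransition.nonneg (-(c * Real.arsinh (s * t))),
      Real.smoothTransition.le_one (-(c * Real.arsinh (s * t)))]
  · have h1 : Real.arsinh (s * t) ≤ -(1 / c) := by
      rw [← Real.arsinh_sinh (-(1 / c)), Real.arsinh_le_arsinh, Real.sinh_neg, ← hs]
      nlinarith
    have h2 : c * Real.arsinh (s * t) ≤ -1 :=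
      (mul_le_mul_of_nonneg_left h1 c0.le).trans_eq (by field_simp)
    simp only
    rw [Real.smoothTransition.zero_of_nonpos (by linarith),
      Real.smoothTransition.one_of_one_le (by linarith), zero_sub]
  · rw [mul_pow]
    exact (key t).trans (mul_le_mul_of_nonneg_left (k2 t) (sq_nonneg _))
  · refine (key t).trans (mul_le_mul_of_nonneg_left (le_min ?_ (k2 t)) (sq_nonneg _))
    rw [div_le_div_iff₀ (by positivity) (by positivity)]
    nlinarith

end Vale.Agent.P363
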