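import Vale.Agent.P363.KbCut

/-! Part K-b: local energy of a solution with a small potential. -/

namespace Vale.Agent.P363

open MeasureTheory Vale.Agent.P370 Metric

theorem kben_sob {V u : Pt → ℝ} {g : Fin 3 → Pt → ℝ} {C δ : ℝ} (hC : 0 ≤ C)
    (h : ∫ x, |V x| * u x ^ 2 ≤ C * (eLpNorm V (3 / 2) volume).toReal * ∑ k, ∫ x, g k x ^ 2)
    (hδ : (eLpNorm V (3 / 2) volume).toReal ≤ δ) : ∫ x, |V x| * u x ^ 2 ≤ C * δ * dn g ^ 2 := by
  rw [dn_sq]
  exact h.trans (mul_le_mul_of_nonneg_right (mul_le_mul_of_nonneg_left hδ hC) (LC_G0 g))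

theorem kben_gsq {w u : Pt → ℝ} {p : Pt} {r B : ℝ} (hu : MemLp u 2) (h1 : ∀ x k, |pd k w x| ≤ B)
    (h0 : ∀ x, x ∉ ball p r → ∀ k, pd k w x = 0) :
    ∫ x, gsq w x * u x ^ 2 ≤ 3 * B ^ 2 * bn p r u ^ 2 := by
  rw [bn_sq, ← integral_indicator measurableSet_ball, ← integral_const_mul]
  refine integral_mono_of_nonneg
    (.of_forall fun x => mul_nonneg (Finset.sum_nonneg fun _ _ => sq_nonneg _) (sq_nonneg _))
    (((kb_sq hu).indicator measurableSet_ball).const_mul _) (.of_forall fun x => ?_)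
  by_cases hx : x ∈ ball p r
  · simp only [Set.indicator_of_mem hx]
    refine mul_le_mul_of_nonneg_right ?_ (sq_nonneg _)
    have a : ∀ k, pd k w x ^ 2 ≤ B ^ 2 := fun k => by
      rw [← sq_abs]
      exact pow_le_pow_left₀ (abs_nonneg _) (h1 x k) 2
    rw [gsq, Fin.sum_univ_three]
    linarith [a 0, a 1, a 2]
  · simp [Set.indicator_of_notMem hx, gsq, h0 x hx]

theorem kben_bil {V U ζ f : Pt → ℝ} (hm : Measurable V) (hU : MemLp U 2) (hζ : MemLp ζ 2)
    (i : Integrable fun x => V x * U x ^ 2) (i' : Integrable fun x => V x * ζ x ^ 2)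
    (hf : ∀ x, |f x| ≤ |V x| * (|U x| * |ζ x|)) {A B : ℝ} (hA : 0 ≤ A) (hB : 0 ≤ B)
    (e : ∫ x, |V x| * U x ^ 2 ≤ A ^ 2) (e' : ∫ x, |V x| * ζ x ^ 2 ≤ B ^ 2) :
    |∫ x, f x| ≤ A * B := by
  obtain ⟨j, hj⟩ := LC_bil (V := fun x => |V x|) (u := fun x => |U x|) (u' := fun x => |ζ x|)
    hm.abs hU.1.norm hζ.1.norm (by simpa only [sq_abs] using LC_iabs i)
    (by simpa only [sq_abs] using LC_iabs i')
  simp only [abs_abs, sq_abs] at hj
  have h1 : |∫ x, f x| ≤ ∫ x, |V x| * (|U x| * |ζ x|) :=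
    norm_integral_le_of_norm_le (f := f) j (.of_forall hf)
  refine h1.trans (abs_le_of_sq_le_sq' (hj.trans ?_) (mul_nonneg hA hB)).2
  rw [mul_pow]
  exact mul_le_mul e e' (integral_nonneg fun x => mul_nonneg (abs_nonneg _) (sq_nonneg _))
    (sq_nonneg _)

/-- `χ` from `kb_cut`, `U = χ u`, `V = indicator W`.  `Sol.h1` with the test `χ² u` and
`q1_weight`: `q1 W U U = ½ ∫ gsq χ u²`; `|∫ W U²| = |∫ V U²| ≤ C_S δ |∇ U|²` (`sobolev`), so
`dn (∇ U) ≤ C / a * bn`.  On the small cube `∇ U = g`.  Second part: the integrand is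
`V U b ζ`, bounded by `|V| |U| |ζ|`; Cauchy-Schwarz for `√|V| U` and `√|V| ζ` (`kb_cs`; or
`2 |U ζ| ≤ t U² + ζ² / t`), `sobolev` twice. -/
theorem kb_energy : ∃ C : ℝ, 1 ≤ C ∧ ∀ (u : Pt → ℝ) (g : Fin 3 → Pt → ℝ) (W : Pt → ℝ) (p : Pt)
    (ρ a δ : ℝ), H1 u g → FB W → Sol W 0 u g → 0 ≤ ρ → 0 < a →
      MemLp ((ball p (ρ + a)).indicator W) (3 / 2) →
      (eLpNorm ((ball p (ρ + a)).indicator W) (3 / 2) volume).toReal ≤ δ → C * δ ≤ 1 →
      (∀ k, bn p ρ (g k) ≤ C / a * bn p (ρ + a) u) ∧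
        ∀ (ζ : Pt → ℝ) (γ : Fin 3 → Pt → ℝ) (b : Pt → ℝ), H1 ζ γ →
          (∀ x, x ∉ ball p ρ → ζ x = 0) → (∀ x, |b x| ≤ 1) →
          |∫ x, W x * (u x * (b x * ζ x))| ≤ C * δ * (C / a * bn p (ρ + a) u) * dn γ := by
  obtain ⟨S, hS, HS⟩ := sobolev
  obtain ⟨K, hK, HK⟩ := kb_cut
  refine ⟨4 * S * K, by nlinarith, fun u g W p ρ a δ hu hW hs hρ ha hV hδ hC => ?_⟩
  obtain ⟨w, hw, w0, w1, w2, w3⟩ := HK p ρ a hρ ha
  have δ0 : 0 ≤ δ := ENNReal.toReal_nonneg.trans hδ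
  have S0 : 0 ≤ S := by linarith
  have Ka : 0 ≤ K / a := by positivity
  set V := (ball p (ρ + a)).indicator W with hVdef
  have b0 : ∀ x, |w x| ≤ 1 + K / a := fun x => (w0 x).trans (by linarith)
  have b1 : ∀ x k, |pd k w x| ≤ 1 + K / a := fun x k => (w1 x k).trans (by linarith)
  have hU := hu.kmul hw b0 b1
  have hT : H1 (fun x => w x ^ 2 * u x)
      fun k x => w x ^ 2 * g k x + 2 * w x * pd k w x * u x := by
    have := hU.kmul hw b0 b1
    convert this using 2 with x k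
    · ring
    · funext x
      ring
  have e1 := hs.h1 hW hu MemLp.zero hT
  rw [q1_weight hW hu hw b0 b1] at e1
  simp only [Pi.zero_apply, zero_mul, integral_zero] at e1
  have e2 := kben_gsq (p := p) (r := ρ + a) hu.1 w1 fun x hx => (w3 x hx).2
  obtain ⟨i1, s1⟩ := HS V _ _ hU hV
  have s2 := kben_sob S0 s1 hδ
  set G : Fin 3 → Pt → ℝ := fun k x => w x * g k x + pd k w x * u x with hG
  have e3 : q1 W (fun x => w x * u x) G (fun x => w x * u x) G =
      1 / 2 * dn G ^ 2 + ∫ x, V x * (w x * u x) ^ 2 := by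
    rw [q1, dn_sq]
    simp only [← sq]
    congr 2
    funext x
    by_cases hx : x ∈ ball p (ρ + a)
    · rw [hVdef, Set.indicator_of_mem hx]
    · simp [(w3 x hx).1]
  have e4 : |∫ x, V x * (w x * u x) ^ 2| ≤ ∫ x, |V x| * (w x * u x) ^ 2 := by
    refine abs_integral_le_integral_abs.trans (le_of_eq ?_)
    congr 1
    funext x
    rw [abs_mul, abs_of_nonneg (sq_nonneg (w x * u x))]
  have e5 : 4 * S * δ ≤ 1 := by nlinarith [mul_nonneg S0 δ0]
  have e6 : S * δ * dn G ^ 2 ≤ 1 / 4 * dn G ^ 2 :=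
    mul_le_mul_of_nonneg_right (by linarith) (sq_nonneg _)
  have n0 := bn_nonneg p (ρ + a) u
  have e7 : dn G ≤ 4 * (K / a) * bn p (ρ + a) u := by
    refine (abs_le_of_sq_le_sq' ?_ (by positivity)).2
    have := (abs_le.1 e4).1
    have h2 : 0 ≤ (K / a) ^ 2 * bn p (ρ + a) u ^ 2 := by positivity
    rw [mul_pow, mul_pow]
    linarith
  have e8 : dn G ≤ 4 * S * K / a * bn p (ρ + a) u := by
    refine e7.trans (mul_le_mul_of_nonneg_right ?_ n0)
    rw [mul_div_assoc]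
    nlinarith
  refine ⟨fun k => ?_, fun ζ γ b hζ h0 hb => ?_⟩
  · have : bn p ρ (g k) = bn p ρ (G k) :=
      bn_congr fun x hx => by simp [hG, (w2 x hx).1, (w2 x hx).2 k]
    rw [this]
    exact (bn_le_n2 (hU.2 k).1).trans ((n2_le_dn G k).trans e8)
  · obtain ⟨i2, s3⟩ := HS V _ _ hζ hV
    have s4 := kben_sob S0 s3 hδ
    have q0 : 0 ≤ S * δ := mul_nonneg S0 δ0
    have q1 : √(S * δ) ^ 2 = S * δ := Real.sq_sqrt q0
    have d1 := dn_nonneg G
    have d2 := dn_nonneg γ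
    have key := kben_bil (f := fun x => W x * (u x * (b x * ζ x)))
      (hW.1.indicator measurableSet_ball) hU.1 hζ.1 i1 i2 (A := √(S * δ) * dn G)
      (B := √(S * δ) * dn γ) (fun x => by
        by_cases hx : x ∈ ball p ρ
        · rw [Set.indicator_of_mem (ball_subset_ball (by linarith) hx), (w2 x hx).1, one_mul,
            abs_mul, abs_mul, abs_mul]
          exact mul_le_mul_of_nonneg_left (mul_le_mul_of_nonneg_left
            (mul_le_of_le_one_left (abs_nonneg _) (hb x)) (abs_nonneg _)) (abs_nonneg _)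
        · simp [h0 x hx]) (by positivity) (by positivity) (by rwa [mul_pow, q1])
      (by rwa [mul_pow, q1])
    refine key.trans ?_
    have e9 : √(S * δ) * dn G * (√(S * δ) * dn γ) = S * δ * dn G * dn γ := by
      rw [← q1, Real.sqrt_sq (Real.sqrt_nonneg _)]
      ring
    rw [e9]
    refine mul_le_mul_of_nonneg_right (mul_le_mul ?_ e8 d1 (by positivity)) d2
    nlinarith [mul_le_mul_of_nonneg_left hK q0]

end Vale.Agent.P363
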