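import Vale.Agent.P363.KbStep

/-! Part K-b: five finite differences. -/

namespace Vale.Agent.P363

open MeasureTheory Vale.Agent.P370 Metric

/-- `L = 2 s`, `D f = f - f (· - L e)`.  By induction on `j ≤ 5`: `D^j f` is `H1`, `AH` on the cube
of radius `(11 - 2 j) a` with `2 ^ j η`, vanishes for `x i ≤ -s`, equals `f` for `x i < s`, and
its norm `m j` on that cube satisfies `m (j + 1) ≤ 2 s 2 ^ j η + q m j`, `q = 2 s C₀ / a ≤ C₀`. -/
theorem kb_iter : ∃ C : ℝ, 1 ≤ C ∧ ∀ (f : Pt → ℝ) (G : Fin 3 → Pt → ℝ) (p : Pt) (i : Fin 3)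
    (s a η : ℝ), H1 f G → 0 < s → 2 * s ≤ a → 0 ≤ η → p i = 0 → AH p (11 * a) η G →
      (∀ x, x i ≤ -s → f x = 0) →
      bn p s f ≤ (C * s / a) ^ 5 * bn p (11 * a) f + C * s * η := by
  obtain ⟨C, hC, step⟩ := kb_step
  have c4 : 1 ≤ 4 * C := by linarith
  refine ⟨(4 * C) ^ 5, one_le_pow₀ c4, fun f G p i s a η h hs hsa hη hp hA h0 => ?_⟩
  have ha : 0 < a := by linarith
  have hL : |2 * s| = 2 * s := abs_of_pos (by linarith)
  have hq0 : 0 ≤ 2 * s * (C / a) := by positivity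
  have hq : 2 * s * (C / a) ≤ C := by
    rw [← mul_div_assoc, div_le_iff₀ ha, mul_comm C a]
    exact mul_le_mul_of_nonneg_right hsa (by linarith)
  have m0 := bn_nonneg p (11 * a) f
  have key : ∀ j : ℕ, j ≤ 5 → ∃ (g : Pt → ℝ) (Γ : Fin 3 → Pt → ℝ), H1 g Γ ∧
      AH p ((11 - 2 * j) * a) (2 ^ j * η) Γ ∧ (∀ x, x i ≤ -s → g x = 0) ∧
      (∀ x, x i < s → g x = f x) ∧ bn p ((11 - 2 * j) * a) g ≤
        (2 * s * (C / a)) ^ j * bn p (11 * a) f + (4 * C) ^ j * (s * η) := by
    intro j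
    induction j with
    | zero =>
      intro _
      refine ⟨f, G, h, by simpa using hA, h0, fun _ _ => rfl, ?_⟩
      have : 0 ≤ s * η := by positivity
      simpa using this
    | succ j ih =>
      intro hj
      obtain ⟨g, Γ, g1, g2, g3, g4, g5⟩ := ih (by omega)
      have j4 : (j : ℝ) ≤ 4 := by exact_mod_cast (by omega : j ≤ 4)
      have hx : ∀ x : Pt, (x - (2 * s) • ek i) i = x i - 2 * s := fun x => by simp [ek]
      have e1 : (11 - 2 * ((j + 1 : ℕ) : ℝ)) * a = (11 - 2 * j) * a - 2 * a := by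
        push_cast
        ring
      obtain ⟨d1, d2⟩ := kb_diff (i := i) g1 g2 (hL.le.trans hsa)
      refine ⟨_, _, d1, d2.mono (by rw [e1]; linarith) (le_of_eq (by ring)), fun x hx0 => ?_,
        fun x hx0 => ?_, ?_⟩
      · rw [g3 x hx0, g3 _ (by rw [hx]; linarith), sub_zero]
      · rw [g4 x hx0, g3 _ (by rw [hx]; linarith), sub_zero]
      · rw [e1]
        refine (step g Γ p _ _ a (2 * s) i g1 g2 (by positivity) ha (hL.le.trans hsa)
          (by nlinarith)).trans ?_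
        have k1 := mul_le_mul_of_nonneg_left g5 hq0
        have k2 : (2 : ℝ) ^ j ≤ (4 * C) ^ j := pow_le_pow_left₀ zero_le_two (by linarith) j
        have k3 : 0 ≤ (4 * C) ^ j * (s * η) := by positivity
        have k4 := mul_le_mul_of_nonneg_right hq k3
        have k5 := mul_le_mul_of_nonneg_right k2 (by positivity : 0 ≤ s * η)
        have k6 := mul_le_mul_of_nonneg_right hC k3
        rw [hL, pow_succ, pow_succ]
        linarith
  obtain ⟨g, Γ, g1, -, -, g4, g5⟩ := key 5 le_rfl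
  have e2 : bn p s f = bn p s g := bn_congr fun x hx => (g4 x (by
    have := (dist_le_pi_dist x p i).trans_lt hx
    rw [hp, Real.dist_eq, sub_zero] at this
    exact (le_abs_self _).trans_lt this)).symm
  rw [e2]
  refine (bn_mono g1.1 (by push_cast; linarith)).trans (g5.trans ?_)
  rw [mul_assoc ((4 * C) ^ 5)]
  refine add_le_add (mul_le_mul_of_nonneg_right (pow_le_pow_left₀ hq0 ?_ 5) m0) le_rfl
  have k7 : 4 * C ≤ (4 * C) ^ 5 := le_self_pow₀ c4 (by norm_num)
  rw [← mul_div_assoc]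
  refine div_le_div_of_nonneg_right ?_ ha.le
  nlinarith

end Vale.Agent.P363
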