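import Vale.Agent.P363.Kb0

/-! Part K-b: an even solution times an odd cutoff is almost harmonic. -/

namespace Vale.Agent.P363

open MeasureTheory Vale.Agent.P370 Metric

variable {u W b : Pt → ℝ} {g : Fin 3 → Pt → ℝ} {p : Pt} {ρ ρ' η B E E' E'' : ℝ} {i : Fin 3}

/-- `Sol.h1`. -/
theorem kb_even (hu : H1 u g) (hW : FB W) (hs : Sol W 0 u g)
    (h : ∀ ζ γ, H1 ζ γ → (∀ x, x ∉ ball p ρ → ζ x = 0) →
      |∫ x, W x * (u x * ζ x)| ≤ E' * dn γ) : AH p ρ (2 * E') g := by
  intro ζ γ a c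
  have e := hs.h1 hW hu MemLp.zero a
  simp only [q1, Pi.zero_apply, zero_mul, integral_zero] at e
  have h1 := abs_le.1 (h ζ γ a c)
  rw [abs_le]
  constructor <;> linarith [h1.1, h1.2]

theorem kbodd_cv (F : Pt → ℝ) (i : Fin 3) : ∫ x, F (rf i x) = ∫ x, F x :=
  (mp_rf i).integral_comp (ldR i).toHomeomorph.measurableEmbedding F

/-- It is enough to test an odd function `v` with odd functions: `WD.unique` and `H1.rf` give
`G k (rf i x) = -(± G k x)`, so the pairing with the reflected test is minus the pairing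
(`mp_rf`); the odd part `(ζ - ζ ∘ rf i) / 2` vanishes off the cube (`rf_ball`) and its gradient
has a smaller norm (`dn_add`). -/
theorem kb_oddtest {v : Pt → ℝ} {G : Fin 3 → Pt → ℝ} (hv : H1 v G) (hp : p i = 0) (hη : 0 ≤ η)
    (ho : ∀ᵐ x, v (rf i x) = -v x)
    (h : ∀ ζ γ, H1 ζ γ → (∀ x, x ∉ ball p ρ → ζ x = 0) → (∀ x, ζ (rf i x) = -ζ x) →
      |∑ k, ∫ x, G k x * γ k x| ≤ η * dn γ) : AH p ρ η G := by
  intro ζ γ a c
  have hG : ∀ k, (fun x => (if k = i then -1 else 1) * G k (rf i x)) =ᵐ[volume]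
      fun x => -1 * G k x := fun k =>
    WD.unique (h1_iff.1 (hv.rf i)) (WD.smul (h1_iff.1 hv) (-1))
      (ho.mono fun x hx => by simp only [hx]; ring) k
  have hw : H1 (fun x => 1 / 2 * (ζ x - ζ (rf i x))) fun k x =>
      1 / 2 * (γ k x - (if k = i then -1 else 1) * γ k (rf i x)) :=
    (WD.sub (h1_iff.1 a) (h1_iff.1 (a.rf i))).smul _
  have h1 := h _ _ hw (fun x hx => by
    rw [c x hx, c (rf i x) fun hc => hx ((rf_ball hp x).1 hc), sub_self, mul_zero])
    (fun x => by rw [rf_rf]; ring)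
  have e : ∀ k, ∫ x, G k x * (1 / 2 * (γ k x - (if k = i then -1 else 1) * γ k (rf i x))) =
      ∫ x, G k x * γ k x := fun k => by
    have i1 := kb_int (hv.2 k).1 (a.2 k).1
    have i2 := kb_int (hv.2 k).1 ((a.rf i).2 k).1
    have e1 : (fun x => G k x * (1 / 2 * (γ k x - (if k = i then -1 else 1) * γ k (rf i x)))) =
        fun x => 1 / 2 * (G k x * γ k x -
          G k x * ((if k = i then -1 else 1) * γ k (rf i x))) := by
      funext x
      ring
    have e2 : ∫ x, G k x * ((if k = i then -1 else 1) * γ k (rf i x)) =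
        -∫ x, G k x * γ k x := by
      rw [← kbodd_cv _ i, ← integral_neg]
      refine integral_congr_ae ((hG k).mono fun x hx => ?_)
      simp only [rf_rf] at hx ⊢
      linear_combination γ k x * hx
    rw [e1, integral_const_mul, integral_sub i1 i2, e2]
    ring
  simp only [e] at h1
  refine h1.trans (mul_le_mul_of_nonneg_left (dn_mono fun k => ?_) hη)
  exact Real.sqrt_le_sqrt (ld_avg (a.2 k).1 i (by split_ifs <;> norm_num))

theorem kbodd_bm {c f : Pt → ℝ} {C : ℝ} (hc : Continuous c) (h : ∀ x, |c x| ≤ C) (hf : MemLp f 2) :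
    MemLp (fun x => c x * f x) 2 :=
  (hf.const_mul C).mono (hc.aestronglyMeasurable.mul hf.1) (.of_forall fun x => by
    rw [Real.norm_eq_abs, Real.norm_eq_abs, abs_mul, abs_mul]
    exact mul_le_mul_of_nonneg_right ((h x).trans (le_abs_self _)) (abs_nonneg _))

theorem kbodd_pd (hb : ContDiff ℝ 1 b) (k : Fin 3) : Continuous (pd k b) :=
  (hb.continuous_fderiv one_ne_zero).clm_apply continuous_const

theorem kbodd_hardy {ζ c : Pt → ℝ} {γ : Fin 3 → Pt → ℝ} (a : H1 ζ γ)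
    (ho : ∀ x, ζ (rf i x) = -ζ x) (hη : 0 ≤ η) (hc : ∀ x, |x i * c x| ≤ η) :
    n2 (fun x => c x * ζ x) ≤ 2 * η * n2 (γ i) := by
  obtain ⟨h1, h2⟩ := a.hardy_odd (i := i) (.of_forall ho)
  have h0 := n2_nonneg (γ i)
  refine abs_le_of_sq_le_sq' ?_ (by positivity) |>.2
  rw [mul_pow, n2_sq, n2_sq]
  have h3 : ∫ x, (c x * ζ x) ^ 2 ≤ ∫ x, η ^ 2 * (ζ x ^ 2 / x i ^ 2) := by
    refine integral_mono_of_nonneg (.of_forall fun _ => sq_nonneg _) (h1.const_mul _) ?_
    have hz : ∀ᵐ x : Pt, x i ≠ 0 := Measure.ae_eval_ne (fun _ => volume) i 0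
    refine hz.mono fun x hx => ?_
    have e : (c x * ζ x) ^ 2 = (x i * c x) ^ 2 * (ζ x ^ 2 / x i ^ 2) := by
      field_simp
    have h4 : (x i * c x) ^ 2 ≤ η ^ 2 := sq_le_sq.2 ((hc x).trans (le_abs_self _))
    change (c x * ζ x) ^ 2 ≤ _
    rw [e]
    exact mul_le_mul_of_nonneg_right h4 (by positivity)
  rw [integral_const_mul] at h3
  nlinarith [mul_le_mul_of_nonneg_left h2 (sq_nonneg η)]

/-- For an odd test `ζ`: `∑ (b g + ∂b u) γ = ∑ g (b γ + ∂b ζ) - g i ∂ᵢb ζ + ∂ᵢb u γ i`.  First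
term: `Sol.h1` with the test `b ζ` (`H1.kmul`).  Second: `|∂ᵢb ζ| ≤ η |ζ / x i|` for `x i ≠ 0`
(a null plane), `H1.hardy_odd`, `kb_cs` with the indicator of the cube.  Third: `γ i = 0` a.e.
outside the closed cube (`WD.zero_on`), which lies in the cube of radius `ρ'`. -/
theorem kb_odd (hu : H1 u g) (hW : FB W) (hs : Sol W 0 u g) (he : ∀ᵐ x, u (rf i x) = u x)
    (hp : p i = 0) (hρ : ρ < ρ') (hη : 0 ≤ η) (hE' : 0 ≤ E') (hb : ContDiff ℝ 1 b)
    (b0 : ∀ x, |b x| ≤ 1) (b1 : ∀ x k, |pd k b x| ≤ B) (b2 : ∀ x, b (rf i x) = -b x)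
    (b3 : ∀ x k, k ≠ i → pd k b x = 0) (b4 : ∀ x, |x i * pd i b x| ≤ η)
    (h1 : bn p ρ (g i) ≤ E)
    (h2 : ∀ ζ γ, H1 ζ γ → (∀ x, x ∉ ball p ρ → ζ x = 0) →
      |∫ x, W x * (u x * (b x * ζ x))| ≤ E' * dn γ)
    (h3 : bn p ρ' (fun x => pd i b x * u x) ≤ E'') :
    AH p ρ (2 * E' + 2 * η * E + E'') fun k x => b x * g k x + pd k b x * u x := by
  have hE : 0 ≤ E := (bn_nonneg _ _ _).trans h1
  have hE'' : 0 ≤ E'' := (bn_nonneg _ _ _).trans h3
  have c0 : ∀ x, |b x| ≤ max 1 B := fun x => (b0 x).trans (le_max_left _ _)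
  have c1 : ∀ x k, |pd k b x| ≤ max 1 B := fun x k => (b1 x k).trans (le_max_right _ _)
  refine kb_oddtest (hu.kmul hb c0 c1) hp (by positivity)
    (he.mono fun x hx => by simp only [hx, b2]; ring) fun ζ γ a c ho => ?_
  have m1 : ∀ k, MemLp (fun x => pd k b x * ζ x) 2 := fun k =>
    kbodd_bm (kbodd_pd hb k) (fun x => b1 x k) a.1
  have m2 : ∀ k, MemLp (fun x => pd k b x * u x) 2 := fun k =>
    kbodd_bm (kbodd_pd hb k) (fun x => b1 x k) hu.1
  have ht := a.kmul hb c0 c1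
  have e : ∀ k, ∫ x, (b x * g k x + pd k b x * u x) * γ k x =
      (∫ x, g k x * (b x * γ k x + pd k b x * ζ x)) - (∫ x, g k x * (pd k b x * ζ x)) +
        ∫ x, pd k b x * u x * γ k x := fun k => by
    have i1 : Integrable fun x => g k x * (b x * γ k x + pd k b x * ζ x) :=
      kb_int (hu.2 k).1 (ht.2 k).1
    have i2 := kb_int (hu.2 k).1 (m1 k)
    have i3 := kb_int (m2 k) (a.2 k).1
    have i4 : Integrable fun x => g k x * (b x * γ k x + pd k b x * ζ x) -
      g k x * (pd k b x * ζ x) := i1.sub i2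
    rw [← integral_sub i1 i2, ← integral_add i4 i3]
    refine integral_congr_ae (.of_forall fun x => ?_)
    ring
  have s2 : ∑ k, ∫ x, g k x * (pd k b x * ζ x) = ∫ x, g i x * (pd i b x * ζ x) :=
    Finset.sum_eq_single i (fun k _ hk => by simp [b3 _ k hk]) (by simp)
  have s3 : ∑ k, ∫ x, pd k b x * u x * γ k x = ∫ x, pd i b x * u x * γ i x :=
    Finset.sum_eq_single i (fun k _ hk => by simp [b3 _ k hk]) (by simp)
  have d0 := dn_nonneg γ
  have d1 := n2_le_dn γ i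
  have t1 := hs.h1 hW hu MemLp.zero ht
  simp only [q1, Pi.zero_apply, zero_mul, integral_zero] at t1
  have t1' := abs_le.1 (h2 ζ γ a c)
  have t2 : |∫ x, g i x * (pd i b x * ζ x)| ≤ 2 * η * E * dn γ := by
    have e2 : ∫ x, g i x * (pd i b x * ζ x) =
        ∫ x, (ball p ρ).indicator (g i) x * (pd i b x * ζ x) := by
      refine integral_congr_ae (.of_forall fun x => ?_)
      by_cases hx : x ∈ ball p ρ
      · simp [hx]
      · simp [hx, c x hx]
    rw [e2]
    refine (kb_cs ((hu.2 i).1.indicator measurableSet_ball) (m1 i)).trans ?_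
    rw [← bn_eq]
    have h4 := (kbodd_hardy a ho hη b4).trans (mul_le_mul_of_nonneg_left d1 (by positivity))
    calc _ ≤ E * (2 * η * dn γ) := mul_le_mul h1 h4 (n2_nonneg _) hE
      _ = _ := by ring
  have t3 : |∫ x, pd i b x * u x * γ i x| ≤ E'' * dn γ := by
    have z := WD.zero_on (h1_iff.1 a) (O := (closedBall p ρ)ᶜ) isClosed_closedBall.isOpen_compl
      (.of_forall fun x hx => c x fun hc => hx (ball_subset_closedBall hc)) i
    have e3 : ∫ x, pd i b x * u x * γ i x =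
        ∫ x, (ball p ρ').indicator (fun x => pd i b x * u x) x * γ i x := by
      refine integral_congr_ae (z.mono fun x hz => ?_)
      by_cases hx : x ∈ ball p ρ'
      · simp [hx]
      · simp [hz fun hc => hx (closedBall_subset_ball hρ hc)]
    rw [e3]
    refine (kb_cs ((m2 i).indicator measurableSet_ball) (a.2 i).1).trans ?_
    rw [← bn_eq]
    exact mul_le_mul h3 d1 (n2_nonneg _) hE''
  simp only [e]
  rw [Finset.sum_add_distrib, Finset.sum_sub_distrib, s2, s3, abs_le]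
  have t2' := abs_le.1 t2
  have t3' := abs_le.1 t3
  constructor <;> linarith [t1'.1, t1'.2, t2'.1, t2'.2, t3'.1, t3'.2]

end Vale.Agent.P363
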