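import Vale.Agent.P363.Kb0

/-! Part K-b: the pigeonhole argument K6. -/

namespace Vale.Agent.P363

open MeasureTheory Vale.Agent.P370 Metric

/-- The three-cube inequality for a density. -/
def Three (n : Pt → ℝ) : Prop :=
  ∃ C₁ : ℝ, 0 < C₁ ∧ ∀ R ε : ℝ, 24 ≤ R → 0 < ε → ∃ K ρ₀ : ℝ, 0 < K ∧ 0 < ρ₀ ∧
    ∀ (p : Pt) (s : ℝ), p 0 = 0 → p 1 = 0 → 0 < s → R * s ≤ ρ₀ →
      ∫ x in ball p s, n x ≤ C₁ / R ^ 10 * (∫ x in ball p (R * s), n x) +
        ε * ((∫ x in ball p (R * s), n x) + (∫ x in ball p (R * s), min (s ^ 2 / x 0 ^ 2) K * n x) +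
          ∫ x in ball p (R * s), min (s ^ 2 / x 1 ^ 2) K * n x)

theorem kbpig_min {n : Pt → ℝ} (hi : Integrable n) (h0 : ∀ᵐ x, 0 ≤ n x) (S : Set Pt) {s s' K : ℝ}
    (hK : 0 < K) (hs : s ^ 2 ≤ s' ^ 2) (k : Fin 3) :
    ∫ x in S, min (s ^ 2 / x k ^ 2) K * n x ≤ ∫ x in S, min (s' ^ 2 / x k ^ 2) K * n x := by
  have w0 : ∀ (t : ℝ) (x : Pt), 0 ≤ min (t ^ 2 / x k ^ 2) K := fun t x =>
    le_min (by positivity) hK.le
  have h1 : Integrable fun x : Pt => min (s' ^ 2 / x k ^ 2) K * n x :=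
    hi.bdd_mul (c := K) (Measurable.aestronglyMeasurable (by fun_prop))
      (.of_forall fun x => by
        rw [Real.norm_eq_abs, abs_of_nonneg (w0 _ x)]
        exact min_le_right _ _)
  refine integral_mono_of_nonneg ?_ h1.integrableOn ?_
  · filter_upwards [ae_restrict_of_ae h0] with x hx using mul_nonneg (w0 _ x) hx
  · filter_upwards [ae_restrict_of_ae h0] with x hx
    exact mul_le_mul_of_nonneg_right
      (min_le_min_right _ (div_le_div_of_nonneg_right hs (sq_nonneg _))) hx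

theorem kb_pig {n : Pt → ℝ} (h : Nodal n) (hi : Integrable n) (h0 : ∀ᵐ x, 0 ≤ n x) :
    ¬Three n := by
  rintro ⟨C₁, c1, hT⟩
  obtain ⟨-, -, r₀, C, c, r0, c0, hN⟩ := h
  obtain ⟨J, hJ⟩ := pow_unbounded_of_one_lt (max 24 (4 * C₁)) (one_lt_two (α := ℝ))
  obtain ⟨R, hR⟩ : ∃ R : ℝ, R = 2 ^ J := ⟨_, rfl⟩
  rw [← hR, max_lt_iff] at hJ
  have R0 : 0 < R := by linarith [hJ.1]
  obtain ⟨D, hD⟩ : ∃ D : ℝ, D = R ^ 8 + 2 * (|C| * (2 * R) ^ 8 + 1) := ⟨_, rfl⟩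
  have D0 : 0 < D := by rw [hD]; positivity
  obtain ⟨K, ρ₀, k0, q0, hT⟩ := hT R (1 / (4 * D)) hJ.1.le (by positivity)
  obtain ⟨I₁, hI₁⟩ := pow_unbounded_of_one_lt (R * r₀ / ρ₀) (one_lt_two (α := ℝ))
  obtain ⟨I, hI⟩ := pow_unbounded_of_one_lt ((2 ^ (I₁ + J + 1)) ^ 8 * |C| / (c * r₀ ^ 7))
    (one_lt_two (α := ℝ))
  obtain ⟨p, θ, p0, p1, θ0, hA0, hs⟩ := hN (r₀ / 2 ^ I) K (c * (r₀ / 2 ^ I) ^ 7) (by positivity) k0
    (by positivity)
  obtain ⟨A, hA⟩ : ∃ A : ℕ → ℝ, ∀ k, A k = ∫ x in ball p (r₀ / 2 ^ k), n x := ⟨_, fun _ => rfl⟩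
  have anti : ∀ k l : ℕ, k ≤ l → r₀ / 2 ^ l ≤ r₀ / 2 ^ k := fun k l hkl =>
    div_le_div_of_nonneg_left r0.le (by positivity) (pow_le_pow_right₀ one_le_two hkl)
  have le0 : ∀ k : ℕ, r₀ / 2 ^ k ≤ r₀ := fun k => by simpa using anti 0 k (Nat.zero_le k)
  have low : ∀ k ≤ I, c * (r₀ / 2 ^ k) ^ 7 * θ ≤ A k := fun k hk => by
    rw [hA]
    exact (hs _ (anti k I hk) (le0 k)).1
  have up : ∀ k, A k ≤ |C| * θ := fun k => by
    rw [hA]
    refine le_trans (setIntegral_mono_set hi.integrableOn (ae_restrict_of_ae h0)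
      (ball_subset_ball (le0 k)).eventuallyLE) (hA0.trans ?_)
    exact mul_le_mul_of_nonneg_right (le_abs_self C) θ0.le
  obtain ⟨i, hiI, hmax⟩ := Finset.exists_max_image (Finset.range (I + 1))
    (fun k => ((2 : ℝ) ^ k) ^ 8 * A k) ⟨0, by simp⟩
  have iI : i ≤ I := Nat.lt_succ_iff.1 (Finset.mem_range.1 hiI)
  have Ai : 0 < A i := lt_of_lt_of_le (by positivity) (low i iI)
  have big : I₁ + J + 1 < i := by
    by_contra hc
    have a1 := hmax I (by simp)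
    have a2 : ((2 : ℝ) ^ i) ^ 8 * A i ≤ (2 ^ (I₁ + J + 1)) ^ 8 * (|C| * θ) :=
      mul_le_mul (pow_le_pow_left₀ (by positivity)
        (pow_le_pow_right₀ one_le_two (not_lt.1 hc)) 8) (up i) Ai.le (by positivity)
    have a3 := mul_le_mul_of_nonneg_left (low I le_rfl) (by positivity : 0 ≤ ((2 : ℝ) ^ I) ^ 8)
    have a4 : ((2 : ℝ) ^ I) ^ 8 * (c * (r₀ / 2 ^ I) ^ 7 * θ) = 2 ^ I * (c * r₀ ^ 7) * θ := by
      field_simp
    rw [div_lt_iff₀ (by positivity)] at hI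
    have a5 := mul_lt_mul_of_pos_right hI θ0
    rw [a4] at a3
    linarith
  obtain ⟨m, rfl⟩ : ∃ m, i = m + J + 1 := ⟨i - J - 1, by omega⟩
  have cmp : ∀ k l : ℕ, k + l = m + J + 1 → A k ≤ (2 ^ l) ^ 8 * A (m + J + 1) := fun k l hkl => by
    have a1 := hmax k (Finset.mem_range.2 (by omega))
    rw [← hkl, pow_add, mul_pow, mul_assoc, hkl] at a1
    exact le_of_mul_le_mul_left a1 (by positivity)
  have e1 : R * (r₀ / 2 ^ (m + J + 1)) = r₀ / 2 ^ (m + 1) := by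
    rw [hR, pow_succ, pow_add, pow_succ]
    field_simp
  have e2 : r₀ / 2 ^ m / 2 = r₀ / 2 ^ (m + 1) := by rw [pow_succ, div_div]
  have a1 := hT p (r₀ / 2 ^ (m + J + 1)) p0 p1 (by positivity) (by
    rw [div_lt_iff₀ q0] at hI₁
    rw [← mul_div_assoc, div_le_iff₀ (by positivity), mul_comm ρ₀]
    exact hI₁.le.trans (mul_le_mul_of_nonneg_right
      (pow_le_pow_right₀ one_le_two (by omega)) q0.le))
  rw [e1, ← hA, ← hA] at a1
  have a2 := cmp (m + 1) J (by omega)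
  have a3 := cmp m (J + 1) (by omega)
  rw [← hR] at a2
  rw [pow_succ' (2 : ℝ) J, ← hR] at a3
  have a4 : c * (r₀ / 2 ^ I) ^ 7 * θ ≤ A (m + J + 1) :=
    le_trans (mul_le_mul_of_nonneg_right (mul_le_mul_of_nonneg_left
      (pow_le_pow_left₀ (by positivity) (anti _ _ iI) 7) c0.le) θ0.le) (low _ iI)
  have Am : 0 ≤ A m := le_trans (by positivity) (low m (by omega))
  have a5 : ∀ k : Fin 3, k ≠ 2 → ∫ x in ball p (r₀ / 2 ^ (m + 1)),
      min ((r₀ / 2 ^ (m + J + 1)) ^ 2 / x k ^ 2) K * n x ≤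
        (|C| * (2 * R) ^ 8 + 1) * A (m + J + 1) := fun k hk => by
    have b1 := (hs _ (anti m I (by omega)) (le0 m)).2 k hk
    rw [e2, ← hA] at b1
    refine (kbpig_min hi h0 _ k0 (pow_le_pow_left₀ (by positivity)
      (anti m (m + J + 1) (by omega)) 2) k).trans (b1.trans ?_)
    have b2 := mul_le_mul (le_abs_self C) a3 Am (abs_nonneg C)
    linarith
  have a6 := a5 0 (by decide)
  have a7 := a5 1 (by decide)
  generalize A (m + J + 1) = X at *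
  have a8 : C₁ / R ^ 10 * A (m + 1) ≤ X / 4 := by
    refine (mul_le_mul_of_nonneg_left a2 (by positivity)).trans ?_
    have b1 : C₁ / R ^ 10 * (R ^ 8 * X) = C₁ / R ^ 2 * X := by field_simp
    have b2 : C₁ / R ^ 2 ≤ 1 / 4 := by
      rw [div_le_iff₀ (by positivity)]
      nlinarith [hJ.1, hJ.2]
    rw [b1]
    have := mul_le_mul_of_nonneg_right b2 Ai.le
    linarith
  have a9 : 1 / (4 * D) * (D * X) = X / 4 := by field_simp
  have a10 := mul_le_mul_of_nonneg_left (add_le_add (add_le_add a2 a6) a7)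
    (by positivity : 0 ≤ 1 / (4 * D))
  have a11 : R ^ 8 * X + (|C| * (2 * R) ^ 8 + 1) * X + (|C| * (2 * R) ^ 8 + 1) * X = D * X := by
    rw [hD]
    ring
  rw [a11, a9] at a10
  linarith

end Vale.Agent.P363
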