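import Vale.Agent.P363.KbIt
import Vale.Agent.P363.KbEn
import Vale.Agent.P363.KbOdd

/-! Part K-b: the quantitative lemma K5. -/

namespace Vale.Agent.P363

open MeasureTheory Vale.Agent.P370 Metric

theorem kbq_int (i : Fin 3) {F : Pt → ℝ} (hF : AEStronglyMeasurable F volume) :
    ∫ x, F (rf i x) = ∫ x, F x := by
  have h := integral_map (μ := volume) (mp_rf i).measurable.aemeasurable (f := F)
    (by rwa [(mp_rf i).map_eq])
  rw [(mp_rf i).map_eq] at h
  exact h.symm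

theorem kbq_mem {u b : Pt → ℝ} (hu : MemLp u 2) (hb : Continuous b) (b0 : ∀ x, |b x| ≤ 1) :
    MemLp (fun x => b x * u x) 2 :=
  hu.of_le (hb.aestronglyMeasurable.mul hu.1) (.of_forall fun x => by
    rw [norm_mul]
    exact mul_le_of_le_one_left (norm_nonneg _) (b0 x))

theorem kbq_refl {u b : Pt → ℝ} {p : Pt} {i : Fin 3} (s : ℝ) (hu : MemLp u 2)
    (he : ∀ᵐ x, u (rf i x) = u x) (hp : p i = 0) (hb : Continuous b) (b0 : ∀ x, |b x| ≤ 1)
    (b2 : ∀ x, b (rf i x) = -b x) : bn p s u ≤ bn p s fun x => u x + b x * u x := by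
  have h1 : MemLp (fun x => u x + b x * u x) 2 := hu.add (kbq_mem hu hb b0)
  have h2 : MemLp (fun x => u x - b x * u x) 2 := hu.sub (kbq_mem hu hb b0)
  have e : ∫ x in ball p s, (u x - b x * u x) ^ 2 = ∫ x in ball p s, (u x + b x * u x) ^ 2 := by
    rw [← integral_indicator measurableSet_ball, ← integral_indicator measurableSet_ball,
      ← kbq_int i ((kb_sq h1).indicator measurableSet_ball).1]
    refine integral_congr_ae (he.mono fun x hx => ?_)
    by_cases h : x ∈ ball p s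
    · simp only [Set.indicator_of_mem h, Set.indicator_of_mem ((rf_ball hp x).2 h), hx, b2]
      ring
    · simp only [Set.indicator_of_notMem h,
        Set.indicator_of_notMem fun c => h ((rf_ball hp x).1 c)]
  have h3 : ∫ x in ball p s, 2 * u x ^ 2 ≤
      ∫ x in ball p s, ((u x - b x * u x) ^ 2 + (u x + b x * u x) ^ 2) :=
    integral_mono ((kb_sq hu).const_mul 2).integrableOn
      ((kb_sq h2).add (kb_sq h1)).integrableOn fun x => by
        dsimp only
        nlinarith [sq_nonneg (b x * u x)]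
  rw [integral_const_mul, integral_add (kb_sq h2).integrableOn (kb_sq h1).integrableOn, e] at h3
  exact Real.sqrt_le_sqrt (by linarith)

theorem kbq_pd {σ : ℝ → ℝ} (hσ : ContDiff ℝ 1 σ) (i k : Fin 3) (s : ℝ) (x : Pt) :
    pd k (fun y : Pt => σ (y i / s)) x = deriv σ (x i / s) * (ek k i / s) := by
  have h1 : HasFDerivAt (fun y : Pt => y i / s)
      (s⁻¹ • (ContinuousLinearMap.proj i : Pt →L[ℝ] ℝ)) x := by
    simp only [div_eq_inv_mul]
    exact (ContinuousLinearMap.proj (R := ℝ) (φ := fun _ : Fin 3 => ℝ) i).hasFDerivAt.const_mul s⁻¹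
  have h2 := ((hσ.differentiable one_ne_zero (x i / s)).hasDerivAt).comp_hasFDerivAt x h1
  rw [pd, show (fun y : Pt => σ (y i / s)) = σ ∘ fun y : Pt => y i / s from rfl, h2.fderiv]
  simp [div_eq_inv_mul]

theorem kbq_two {u b : Pt → ℝ} {p : Pt} {ρ ρ' : ℝ} (hu : MemLp u 2) (b0 : ∀ x, |b x| ≤ 1)
    (h : ρ ≤ ρ') : bn p ρ (fun x => u x + b x * u x) ≤ 2 * bn p ρ' u := by
  refine le_trans ?_ (mul_le_mul_of_nonneg_left (bn_mono hu h) zero_le_two)
  refine abs_le_of_sq_le_sq' ?_ (mul_nonneg zero_le_two (bn_nonneg _ _ _)) |>.2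
  rw [mul_pow, bn_sq, bn_sq, ← integral_const_mul]
  refine integral_mono_of_nonneg (.of_forall fun x => sq_nonneg _)
    ((kb_sq hu).const_mul _).integrableOn (.of_forall fun x => ?_)
  have h1 := abs_le.1 (b0 x)
  have h2 : (1 + b x) ^ 2 ≤ 2 ^ 2 := by nlinarith [h1.1, h1.2]
  have h3 := mul_le_mul_of_nonneg_right h2 (sq_nonneg (u x))
  dsimp only
  linarith

theorem kb_quant : ∃ C₁ : ℝ, 0 < C₁ ∧ ∀ R ε : ℝ, 24 ≤ R → 0 < ε → ∃ K δ : ℝ, 0 < K ∧ 0 < δ ∧
    ∀ (u : Pt → ℝ) (g : Fin 3 → Pt → ℝ) (W : Pt → ℝ) (p : Pt) (i : Fin 3) (s : ℝ),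
      H1 u g → FB W → Sol W 0 u g → (∀ᵐ x, u (rf i x) = u x) → p i = 0 → 0 < s →
      MemLp ((ball p (R * s)).indicator W) (3 / 2) →
      (eLpNorm ((ball p (R * s)).indicator W) (3 / 2) volume).toReal ≤ δ →
      ∫ x in ball p s, u x ^ 2 ≤ C₁ / R ^ 10 * (∫ x in ball p (R * s), u x ^ 2) +
        ε * ((∫ x in ball p (R * s), u x ^ 2) +
          ∫ x in ball p (R * s), min (s ^ 2 / x i ^ 2) K * u x ^ 2) := by
  obtain ⟨C, c1, hC⟩ := kb_iter
  obtain ⟨D, d1, hD⟩ := kb_energy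
  refine ⟨8 * (12 * C) ^ 10, by positivity, fun R ε hR hε => ?_⟩
  obtain ⟨t, t0, t1, t2⟩ : ∃ t : ℝ, 0 < t ∧ t ≤ 1 ∧ 144 * C ^ 2 * D ^ 2 * t ≤ ε := by
    refine ⟨min 1 (ε / (144 * C ^ 2 * D ^ 2)), by positivity, min_le_left _ _, ?_⟩
    rw [mul_comm, ← le_div_iff₀ (by positivity)]
    exact min_le_right _ _
  obtain ⟨K, σ, k0, s1, s2, s3, s4, ⟨B, s5⟩, s6⟩ := kb_sig t0
  refine ⟨K, t / D, k0, by positivity, fun u g W p i s hu hW hs he hp s0 m1 m2 => ?_⟩
  obtain ⟨a, ha⟩ : ∃ a, R * s = 12 * a := ⟨R * s / 12, by ring⟩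
  have as : 2 * s ≤ a := by nlinarith
  have a0 : 0 < a := by linarith
  have e1 : 11 * a + a = R * s := by linarith
  have e2 : D * (t / D) = t := by field_simp
  obtain ⟨h1, h2⟩ := hD u g W p (11 * a) a (t / D) hu hW hs (by positivity) a0 (by rwa [e1])
    (by rwa [e1]) (by rwa [e2])
  rw [e1] at h1
  rw [e1, e2] at h2
  have hb : ContDiff ℝ 1 fun y : Pt => σ (y i / s) :=
    s1.comp ((contDiff_apply ℝ ℝ i).div_const s)
  have b0 : ∀ x : Pt, |σ (x i / s)| ≤ 1 := fun x => s3 _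
  have b1 : ∀ (x : Pt) k, |pd k (fun y : Pt => σ (y i / s)) x| ≤ B / s := fun x k => by
    rw [kbq_pd s1, abs_mul, abs_div, abs_of_pos s0, ← mul_one_div B s]
    refine mul_le_mul (s5 _) (div_le_div_of_nonneg_right ?_ s0.le) (by positivity)
      ((abs_nonneg _).trans (s5 0))
    exact (norm_le_pi_norm (ek k) i).trans (kb_ek k)
  have b2 : ∀ x : Pt, σ (rf i x i / s) = -σ (x i / s) := fun x => by
    rw [← s2]
    simp [rf, neg_div]
  have b5 : ∀ x : Pt, pd i (fun y : Pt => σ (y i / s)) x = deriv σ (x i / s) / s := fun x => by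
    rw [kbq_pd s1]
    simp [ek, div_eq_mul_inv]
  obtain ⟨m', hm'⟩ : ∃ m', m' = √(∫ x in ball p (R * s), min (s ^ 2 / x i ^ 2) K * u x ^ 2) :=
    ⟨_, rfl⟩
  have w0 : ∀ x : Pt, 0 ≤ min (s ^ 2 / x i ^ 2) K := fun x => le_min (by positivity) k0.le
  have w1 : 0 ≤ ∫ x in ball p (R * s), min (s ^ 2 / x i ^ 2) K * u x ^ 2 :=
    integral_nonneg fun x => mul_nonneg (w0 x) (sq_nonneg _)
  have m0 : 0 ≤ m' := hm' ▸ Real.sqrt_nonneg _
  have msq : m' ^ 2 = ∫ x in ball p (R * s), min (s ^ 2 / x i ^ 2) K * u x ^ 2 := by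
    rw [hm', Real.sq_sqrt w1]
  have h3 : bn p (R * s) (fun x => pd i (fun y : Pt => σ (y i / s)) x * u x) ≤ t / s * m' := by
    refine abs_le_of_sq_le_sq' ?_ (by positivity) |>.2
    rw [mul_pow, bn_sq, msq, ← integral_const_mul]
    have i1 : Integrable fun x : Pt => min (s ^ 2 / x i ^ 2) K * u x ^ 2 :=
      (kb_sq hu.1).bdd_mul (c := K) (Measurable.aestronglyMeasurable (by fun_prop))
        (.of_forall fun x => by
          rw [Real.norm_eq_abs, abs_of_nonneg (w0 x)]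
          exact min_le_right _ _)
    refine integral_mono_of_nonneg (.of_forall fun x => sq_nonneg _)
      (i1.const_mul _).integrableOn ?_
    have n0 : ∀ᵐ x : Pt, x i ≠ 0 := Measure.ae_eval_ne (fun _ : Fin 3 => (volume : Measure ℝ)) i 0
    filter_upwards [ae_restrict_of_ae n0] with x hx
    have := s6 (x i / s) (div_ne_zero hx s0.ne')
    rw [div_pow, one_div_div] at this
    rw [b5, mul_pow, ← mul_assoc, div_pow, div_pow, div_mul_eq_mul_div (t ^ 2)]
    exact mul_le_mul_of_nonneg_right (div_le_div_of_nonneg_right this (sq_nonneg s))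
      (sq_nonneg _)
  have n0 := bn_nonneg p (R * s) u
  have A1 := kb_even hu hW hs fun ζ γ z1 z2 => by
    simpa only [one_mul] using h2 ζ γ (fun _ => 1) z1 z2 (by simp)
  have A2 := kb_odd (ρ' := R * s) hu hW hs he hp (by linarith) t0.le (by positivity) hb b0 b1 b2
    (fun x k hk => by simp [kbq_pd s1, ek, Pi.single_apply, hk.symm])
    (fun x => by
      rw [b5]
      refine abs_le_of_sq_le_sq ?_ t0.le
      by_cases hx : x i = 0
      · simp [hx, sq_nonneg]
      · have hy := div_ne_zero hx s0.ne'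
        have c2 := (s6 _ hy).trans (mul_le_mul_of_nonneg_left (min_le_left _ _) (sq_nonneg t))
        rw [mul_one_div, le_div_iff₀ (by positivity)] at c2
        have c3 : x i * (deriv σ (x i / s) / s) = deriv σ (x i / s) * (x i / s) := by ring
        rwa [c3, mul_pow])
    (h1 i) (fun ζ γ z1 z2 => h2 ζ γ _ z1 z2 b0) h3
  have hm := hu.kmul hb (C := max 1 (B / s)) (fun x => (b0 x).trans (le_max_left _ _))
    fun x k => (b1 x k).trans (le_max_right _ _)
  have A3 := A1.add A2 (fun k => (hu.2 k).1) fun k => (hm.2 k).1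
  have A4 := hC _ _ p i s a _ (WD.add (h1_iff.1 hu) (h1_iff.1 hm)) s0 as (by positivity) hp A3
    fun x hx => by
      rw [s4 (x i / s) (by rw [div_le_iff₀ s0]; linarith)]
      ring
  have A5 := kbq_refl s hu.1 he hp hb.continuous b0 b2
  have A6 := kbq_two (p := p) (ρ := 11 * a) (ρ' := R * s) hu.1 b0 (by linarith)
  rw [← bn_sq, ← bn_sq, ← msq]
  generalize bn p (R * s) u = m at *
  have e3 : C * s / a = 12 * C / R := by
    have R0 : R ≠ 0 := by positivity
    field_simp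
    linarith
  have A7 : C * s * (2 * (t * (D / a * m)) + (2 * (t * (D / a * m)) + 2 * t * (D / a * m) +
      t / s * m')) ≤ 6 * C * D * t * (m + m') := by
    have e4 : C * s * (2 * (t * (D / a * m)) + (2 * (t * (D / a * m)) + 2 * t * (D / a * m) +
        t / s * m')) = 6 * C * D * t * (s / a * m) + C * t * (1 * m') := by
      field_simp
      ring
    have c2 : s / a * m ≤ m := mul_le_of_le_one_left n0 (div_le_one_of_le₀ (by linarith) a0.le)
    have c3 := mul_le_mul_of_nonneg_left c2 (by positivity : 0 ≤ 6 * C * D * t)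
    have c4 : C * t * (1 * m') ≤ C * t * (6 * D * m') :=
      mul_le_mul_of_nonneg_left (mul_le_mul_of_nonneg_right (by linarith) m0) (by positivity)
    rw [e4]
    linarith
  have A8 : bn p s u ≤ (12 * C / R) ^ 5 * (2 * m) + 6 * C * D * t * (m + m') := by
    rw [e3] at A4
    exact A5.trans (A4.trans (add_le_add
      (mul_le_mul_of_nonneg_left A6 (by positivity)) A7))
  have A9 := pow_le_pow_left₀ (bn_nonneg p s u) A8 2
  have e5 : 8 * (12 * C) ^ 10 / R ^ 10 * m ^ 2 = 2 * ((12 * C / R) ^ 5 * (2 * m)) ^ 2 := by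
    ring
  have c5 : (m + m') ^ 2 ≤ 2 * (m ^ 2 + m' ^ 2) := by nlinarith [sq_nonneg (m - m')]
  have c6 : 144 * C ^ 2 * D ^ 2 * t * t ≤ ε := (mul_le_of_le_one_right (by positivity) t1).trans t2
  have c7 : 2 * (6 * C * D * t * (m + m')) ^ 2 ≤ ε * (m ^ 2 + m' ^ 2) := by
    have c8 := mul_le_mul_of_nonneg_left c5 (by positivity : 0 ≤ 72 * C ^ 2 * D ^ 2 * t * t)
    have c9 := mul_le_mul_of_nonneg_right c6 (by positivity : 0 ≤ m ^ 2 + m' ^ 2)
    linarith
  rw [e5]
  generalize (12 * C / R) ^ 5 * (2 * m) = X at *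
  generalize 6 * C * D * t * (m + m') = Y at *
  nlinarith [sq_nonneg (X - Y)]

end Vale.Agent.P363
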