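import Vale.Agent.P363.Kb0

/-! Part K-b: translation estimate. -/

namespace Vale.Agent.P363

open MeasureTheory Vale.Agent.P370 Metric

theorem kbtr_n2 (f : Pt → ℝ) (c : Pt) : n2 (fun x => f (x - c)) = n2 f := by
  unfold n2
  rw [integral_sub_right_eq_self (fun x => f x ^ 2) c]

theorem kbtr_mem {f : Pt → ℝ} (hf : MemLp f 2) (c : Pt) : MemLp (fun x => f (x - c)) 2 :=
  hf.comp_measurePreserving (measurePreserving_sub_right volume c)

theorem kbtr_c1 {u : Pt → ℝ} (hu : ContDiff ℝ 1 u) (hc : HasCompactSupport u) (e : Pt) (L : ℝ) :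
    n2 (fun x => u x - u (x - L • e)) ≤ |L| * n2 (fun x => fderiv ℝ u x e) := by
  have hd : Continuous fun x => fderiv ℝ u x e :=
    (hu.continuous_fderiv one_ne_zero).clm_apply continuous_const
  have hdc : HasCompactSupport fun x => fderiv ℝ u x e := hc.fderiv_apply ℝ e
  obtain ⟨C, hC⟩ := hd.bounded_above_of_compact_support hdc
  have hu2 : MemLp u 2 := hu.continuous.memLp_of_hasCompactSupport hc
  have hu1 : Integrable u := hu.continuous.integrable_of_hasCompactSupport hc
  have hd2 : MemLp (fun x => fderiv ℝ u x e) 2 := hd.memLp_of_hasCompactSupport hdc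
  set D : Pt → ℝ := fun x => u x - u (x - L • e) with hD
  have hD2 : MemLp D 2 := hu2.sub (kbtr_mem hu2 _)
  have hD1 : Integrable D := hu1.sub (hu1.comp_sub_right _)
  have h1 : ∀ t : ℝ, HasDerivAt (fun t : ℝ => ∫ x, D x * u (x - t • e))
      (∫ x, -(D x * fderiv ℝ u (x - t • e) e)) t := by
    intro t
    refine (hasDerivAt_integral_of_dominated_loc_of_deriv_le (s := Set.univ)
      (F := fun (t : ℝ) x => D x * u (x - t • e))
      (F' := fun (t : ℝ) x => -(D x * fderiv ℝ u (x - t • e) e)) (bound := fun x => ‖D x‖ * C)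
      Filter.univ_mem (Filter.Eventually.of_forall fun s => (kb_int hD2 (kbtr_mem hu2 _)).1)
      (kb_int hD2 (kbtr_mem hu2 _)) (kb_int hD2 (kbtr_mem hd2 _)).neg.1
      (Filter.Eventually.of_forall fun x s _ => ?_) (hD1.norm.mul_const C)
      (Filter.Eventually.of_forall fun x s _ => ?_)).2
    · rw [norm_neg, norm_mul]
      exact mul_le_mul_of_nonneg_left (hC _) (norm_nonneg _)
    · have h2 : HasDerivAt (fun s : ℝ => x - s • e) (-e) s := by
        simpa using ((hasDerivAt_id s).smul_const e).const_sub x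
      have h3 := ((hu.differentiable one_ne_zero (x - s • e)).hasFDerivAt.comp_hasDerivAt s
        h2).const_mul (D x)
      rw [map_neg, mul_neg] at h3
      exact h3
  have h2 := convex_univ.norm_image_sub_le_of_norm_hasDerivWithin_le
    (C := n2 D * n2 fun x => fderiv ℝ u x e) (fun t _ => (h1 t).hasDerivWithinAt)
    (fun t _ => by
      rw [integral_neg, norm_neg, Real.norm_eq_abs, ← kbtr_n2 (fun x => fderiv ℝ u x e) (t • e)]
      exact kb_cs hD2 (kbtr_mem hd2 _)) (Set.mem_univ L) (Set.mem_univ 0)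
  rw [← integral_sub (kb_int hD2 (kbtr_mem hu2 _)) (kb_int hD2 (kbtr_mem hu2 _))] at h2
  simp only [zero_smul, sub_zero, zero_sub, norm_neg, Real.norm_eq_abs, ← mul_sub] at h2
  have h3 : n2 D ^ 2 ≤ n2 D * (|L| * n2 fun x => fderiv ℝ u x e) := by
    rw [n2_sq]
    simp only [sq]
    exact ((le_abs_self _).trans h2).trans_eq (by ring)
  rcases (n2_nonneg D).eq_or_lt with h4 | h4
  · rw [← h4]
    exact mul_nonneg (abs_nonneg _) (n2_nonneg _)
  · rw [sq] at h3
    exact le_of_mul_le_mul_left h3 h4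

/-- For `C1c` functions: `F x - F (x - L e) = L ∫₀¹ ∂F (x - t L e) dt`, Jensen (or Cauchy-Schwarz
in `t`), Fubini, translation invariance.  Then `WD.seq` and `n2_add` (or duality: pair with the
difference itself and use `kb_cs`). -/
theorem kb_trans {F : Pt → ℝ} {G : Fin 3 → Pt → ℝ} (h : H1 F G) (i : Fin 3) (L : ℝ) :
    n2 (fun x => F x - F (x - L • ek i)) ≤ |L| * n2 (G i) := by
  obtain ⟨u, hu, l1, l2⟩ := (h1_iff.1 h).seq kb_ek
  have t1 : Filter.Tendsto (fun m => n2 fun x => u m x - F x) Filter.atTop (nhds 0) := by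
    simpa only [Real.sqrt_zero, n2] using Filter.Tendsto.sqrt l1
  have t2 : Filter.Tendsto (fun m => n2 fun x => fderiv ℝ (u m) x (ek i) - G i x) Filter.atTop
      (nhds 0) := by
    simpa only [Real.sqrt_zero, n2] using Filter.Tendsto.sqrt (l2 i)
  have t3 := (t1.const_mul 2).add ((t2.add_const (n2 (G i))).const_mul |L|)
  rw [mul_zero, zero_add, zero_add] at t3
  refine ge_of_tendsto' t3 fun m => ?_
  obtain ⟨hu2, hd2⟩ := wd_c1 (μ := volume) (v := ek) (hu m).1 (hu m).2
  have hs : MemLp (fun x => u m x - F x) 2 := hu2.sub h.1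
  have hs' := kbtr_mem hs (L • ek i)
  have a1 := kbtr_c1 (hu m).1 (hu m).2 (ek i) L
  have a2 := n2_add ((hd2 i).1.sub (h.2 i).1) (h.2 i).1
  simp only [Pi.sub_apply, sub_add_cancel] at a2
  have a3 := n2_add (hs.const_mul (-1)) hs'
  rw [n2_smul, kbtr_n2 (fun x => u m x - F x)] at a3
  have a4 := n2_add ((hs.const_mul (-1)).add hs') (hu2.sub (kbtr_mem hu2 (L • ek i)))
  have e : (fun x => F x - F (x - L • ek i)) = fun x => -1 * (u m x - F x) +
      (u m (x - L • ek i) - F (x - L • ek i)) + (u m x - u m (x - L • ek i)) := by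
    funext x
    ring
  have a5 := mul_le_mul_of_nonneg_left a2 (abs_nonneg L)
  rw [e]
  refine a4.trans (add_le_add (a3.trans_eq ?_) (a1.trans a5))
  norm_num
  ring

end Vale.Agent.P363
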