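import Vale.Agent.P363.KbCut
import Vale.Agent.P363.KbTr

/-! Part K-b: one finite difference of an approximately harmonic function. -/

namespace Vale.Agent.P363

open MeasureTheory Vale.Agent.P370 Metric

variable {f : Pt → ℝ} {G : Fin 3 → Pt → ℝ} {p : Pt} {ρ η a L : ℝ} {i : Fin 3}

theorem KbStep_mul {g b : Pt → ℝ} {C : ℝ} (hg : MemLp g 2) (hb : Continuous b)
    (h : ∀ x, |b x| ≤ C) : MemLp (fun x => b x * g x) 2 :=
  hg.of_le_mul (c := C) (hb.aestronglyMeasurable.mul hg.1) (.of_forall fun x => by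
    rw [norm_mul]
    exact mul_le_mul_of_nonneg_right (h x) (norm_nonneg _))

theorem KbStep_h1 (h : H1 f G) (v : Pt) :
    H1 (fun x => f x - f (x - v)) fun k x => G k x - G k (x - v) :=
  h1_iff.2 ((h1_iff.1 h).sub (by simpa only [sub_eq_add_neg] using (h1_iff.1 h).translate (-v)))

theorem KbStep_norm (hL : |L| ≤ a) (i : Fin 3) : ‖L • ek i‖ ≤ a := by
  rw [norm_smul]
  exact (mul_le_of_le_one_right (norm_nonneg _) (kb_ek i)).trans hL

/-- Caccioppoli.  With `X = dn (∇ (w f))`, `Y = dn (f ∇ w) ≤ 2 B bn` (`dn_le`): test with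
`w (w f)` (`H1.kmul` twice); pointwise `G · ∇ (w w f) = |∇ (w f)|² - f² |∇ w|²`, and
`dn (∇ (w w f)) ≤ X + Y`, so `X² - Y² ≤ η (X + Y)`. -/
theorem kb_cacc (h : H1 f G) (hA : AH p ρ η G) (hη : 0 ≤ η) {w : Pt → ℝ} {B : ℝ}
    (hw : ContDiff ℝ 1 w) (h0 : ∀ x, |w x| ≤ 1) (h1 : ∀ x k, |pd k w x| ≤ B)
    (h2 : ∀ x, x ∉ ball p ρ → w x = 0 ∧ ∀ k, pd k w x = 0) :
    dn (fun k x => w x * G k x + pd k w x * f x) ≤ η + 2 * B * bn p ρ f := by
  have B0 : 0 ≤ B := (abs_nonneg _).trans (h1 0 0)
  have a0 : ∀ x, |w x| ≤ max 1 B := fun x => (h0 x).trans (le_max_left _ _)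
  have a1 : ∀ x k, |pd k w x| ≤ max 1 B := fun x k => (h1 x k).trans (le_max_right _ _)
  have k1 := h.kmul hw a0 a1
  have k2 := hA _ _ (k1.kmul hw a0 a1) fun x hx => by rw [(h2 x hx).1, zero_mul]
  have cp : ∀ k, Continuous (pd k w) := fun k =>
    (hw.continuous_fderiv one_ne_zero).clm_apply continuous_const
  have m1 : ∀ k, MemLp (fun x => pd k w x * f x) 2 := fun k =>
    KbStep_mul h.1 (cp k) fun x => h1 x k
  have e : ∀ k, ∫ x, G k x * (w x * (w x * G k x + pd k w x * f x) + pd k w x * (w x * f x)) =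
      (∫ x, (w x * G k x + pd k w x * f x) ^ 2) - ∫ x, (pd k w x * f x) ^ 2 := fun k => by
    rw [← integral_sub (kb_sq (k1.2 k).1) (kb_sq (m1 k))]
    exact integral_congr_ae (.of_forall fun x => by ring)
  simp only [e] at k2
  rw [Finset.sum_sub_distrib, ← dn_sq fun k x => w x * G k x + pd k w x * f x,
    ← dn_sq fun k x => pd k w x * f x] at k2
  have k3 := (dn_add (fun k => KbStep_mul (k1.2 k).1 hw.continuous h0)
    fun k => KbStep_mul k1.1 (cp k) fun x => h1 x k).trans (add_le_add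
      (dn_mono (G' := fun k x => w x * G k x + pd k w x * f x) fun k =>
        n2_mono (k1.2 k).1 (.of_forall fun x => by
          rw [abs_mul]
          exact mul_le_of_le_one_left (abs_nonneg _) (h0 x)))
      (dn_mono (G' := fun k x => pd k w x * f x) fun k => n2_mono (m1 k) (.of_forall fun x => by
        rw [mul_left_comm, abs_mul]
        exact mul_le_of_le_one_left (abs_nonneg _) (h0 x))))
  have k4 : dn (fun k x => pd k w x * f x) ≤ 2 * (B * bn p ρ f) := dn_le fun k => by
    refine (n2_mono (f' := fun x => B * (ball p ρ).indicator f x)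
      ((h.1.indicator measurableSet_ball).const_mul B) (.of_forall fun x => ?_)).trans_eq ?_
    · by_cases hx : x ∈ ball p ρ
      · rw [Set.indicator_of_mem hx, abs_mul, abs_mul, abs_of_nonneg B0]
        exact mul_le_mul_of_nonneg_right (h1 x k) (abs_nonneg _)
      · rw [(h2 x hx).2 k, zero_mul, abs_zero]
        exact abs_nonneg _
    · rw [n2_smul, abs_of_nonneg B0, bn_eq]
  have k5 := (le_abs_self _).trans (k2.trans (mul_le_mul_of_nonneg_left k3 hη))
  have k6 := dn_nonneg fun k x => pd k w x * f x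
  by_contra! c
  nlinarith

/-- `WD.translate`, `WD.sub`; move the translation to the test function
(`integral_add_right_eq_self`). -/
theorem kb_diff (h : H1 f G) (hA : AH p ρ η G) (hL : |L| ≤ a) :
    H1 (fun x => f x - f (x - L • ek i)) (fun k x => G k x - G k (x - L • ek i)) ∧
      AH p (ρ - a) (2 * η) fun k x => G k x - G k (x - L • ek i) := by
  refine ⟨KbStep_h1 h _, fun ζ γ hζ h0 => ?_⟩
  have hv := KbStep_norm hL i
  generalize L • ek i = v at hv
  have t1 : WD volume ek (fun x => f (x - v)) fun k x => G k (x - v) := by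
    simpa only [sub_eq_add_neg] using (h1_iff.1 h).translate (-v)
  have k1 := hA ζ γ hζ fun x hx => h0 x fun c =>
    hx (ball_subset_ball (by linarith [norm_nonneg v]) c)
  have k2 := hA _ _ (h1_iff.2 ((h1_iff.1 hζ).translate v)) fun x hx => h0 _ fun c => hx (by
    have := dist_triangle x (x + v) p
    rw [dist_self_add_right] at this
    rw [mem_ball] at c ⊢
    linarith)
  have e1 : dn (fun k x => γ k (x + v)) = dn γ := by
    simp only [dn, fun k => integral_add_right_eq_self (μ := volume) (fun x => γ k x ^ 2) v]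
  have e2 : ∀ k, ∫ x, (G k x - G k (x - v)) * γ k x =
      (∫ x, G k x * γ k x) - ∫ x, G k x * γ k (x + v) := fun k => by
    simp only [sub_mul]
    rw [integral_sub (kb_int (h.2 k).1 (hζ.2 k).1) (kb_int ((h1_iff.2 t1).2 k).1 (hζ.2 k).1),
      ← integral_add_right_eq_self (fun x => G k (x - v) * γ k x) v]
    simp only [add_sub_cancel_right]
  simp only [e2]
  rw [e1] at k2
  rw [Finset.sum_sub_distrib]
  refine (abs_sub _ _).trans ?_
  linarith

/-- `kb_cut` with radii `ρ - a`, `ρ`; on the cube of radius `ρ - 2 a` the difference of `f` is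
the difference of `w f`; `kb_trans`, `n2_le_dn`, `kb_cacc`. -/
theorem kb_step : ∃ C : ℝ, 1 ≤ C ∧ ∀ (f : Pt → ℝ) (G : Fin 3 → Pt → ℝ) (p : Pt) (ρ η a L : ℝ)
    (i : Fin 3), H1 f G → AH p ρ η G → 0 ≤ η → 0 < a → |L| ≤ a → 2 * a ≤ ρ →
      bn p (ρ - 2 * a) (fun x => f x - f (x - L • ek i)) ≤ |L| * (η + C / a * bn p ρ f) := by
  obtain ⟨C, hC, H⟩ := kb_cut
  refine ⟨2 * C, by linarith, fun f G p ρ η a L i h hA hη ha hL hρ => ?_⟩
  obtain ⟨w, w1, w2, w3, w4, w5⟩ := H p (ρ - a) a (by linarith) ha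
  rw [sub_add_cancel] at w5
  have k1 := h.kmul w1 (C := max 1 (C / a)) (fun x => (w2 x).trans (le_max_left _ _))
    fun x k => (w3 x k).trans (le_max_right _ _)
  have hv := KbStep_norm hL i
  rw [bn_congr (f' := fun x => w x * f x - w (x - L • ek i) * f (x - L • ek i)) fun x hx => ?_]
  · refine (bn_le_n2 (KbStep_h1 k1 _).1).trans ((kb_trans k1 i L).trans
      (mul_le_mul_of_nonneg_left ?_ (abs_nonneg _)))
    refine (n2_le_dn (fun k x => w x * G k x + pd k w x * f x) i).trans
      ((kb_cacc h hA hη w1 w2 w3 w5).trans_eq ?_)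
    rw [mul_div_assoc]
  · have := dist_triangle (x - L • ek i) x p
    rw [dist_self_sub_left] at this
    rw [mem_ball] at hx
    rw [(w4 x (mem_ball.2 (by linarith))).1, (w4 _ (mem_ball.2 (by linarith))).1, one_mul, one_mul]

end Vale.Agent.P363
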