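import Vale.Agent.P363.Basic

/-! Library: weak derivatives on a general space (definition only). -/

namespace Vale.Agent.P363

open MeasureTheory Vale.Agent.P370 Filter Topology
open scoped ContDiff

/-- Square integrable functions with square integrable weak derivatives in the directions `v`. -/
def WD {E ι : Type} [NormedAddCommGroup E] [NormedSpace ℝ E] [MeasurableSpace E] (μ : Measure E)
    (v : ι → E) (f : E → ℝ) (G : ι → E → ℝ) : Prop :=
  MemLp f 2 μ ∧ ∀ j, MemLp (G j) 2 μ ∧ ∀ φ : E → ℝ, ContDiff ℝ ∞ φ → HasCompactSupport φ →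
    ∫ x, f x * fderiv ℝ φ x (v j) ∂μ = -∫ x, G j x * φ x ∂μ

/-- Convergence in `L²`. -/
def L2T {E : Type} [MeasurableSpace E] (μ : Measure E) (f : ℕ → E → ℝ) (g : E → ℝ) : Prop :=
  Tendsto (fun j => ∫ x, (f j x - g x) ^ 2 ∂μ) atTop (𝓝 0)

theorem h1_iff {u : Pt → ℝ} {g : Fin 3 → Pt → ℝ} : H1 u g ↔ WD volume ek u g := Iff.rfl

theorem rh_iff {N : ℕ} {f : Cf N → ℝ} {G : Fin N → Fin 3 → Cf N → ℝ} :
    RH f G ↔ WD volume (fun j : Fin N × Fin 3 => (dirn j.1 j.2 : Cf N)) f fun j => G j.1 j.2 :=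
  ⟨fun h => ⟨h.1, fun j => h.2 j.1 j.2⟩, fun h => ⟨h.1, fun i k => h.2 (i, k)⟩⟩

end Vale.Agent.P363
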