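import Vale.Agent.P363.L0

/-! Library LA: linear theory of weak derivatives (use `ml_approx` of P370/Moll). -/

namespace Vale.Agent.P363

open MeasureTheory Vale.Agent.P370 Filter Topology
open scoped ContDiff

section Hilbert

variable {X : Type} [MeasurableSpace X] {μ : Measure X} {u w : X → ℝ}

theorem LA_inner (hu : MemLp u 2 μ) (hw : MemLp w 2 μ) :
    inner ℝ (hu.toLp u) (hw.toLp w) = ∫ x, u x * w x ∂μ := by
  rw [L2.inner_def]
  refine integral_congr_ae ?_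
  filter_upwards [hu.coeFn_toLp, hw.coeFn_toLp] with x h1 h2
  rw [h1, h2, real_inner_comm, Real.inner_apply, mul_comm]

theorem LA_norm (hu : MemLp u 2 μ) : ‖hu.toLp u‖ ^ 2 = ∫ x, u x ^ 2 ∂μ := by
  rw [← real_inner_self_eq_norm_sq, LA_inner]
  simp only [sq]

theorem LA_dist (hu : MemLp u 2 μ) (hw : MemLp w 2 μ) :
    dist (hu.toLp u) (hw.toLp w) = √(∫ x, (u x - w x) ^ 2 ∂μ) := by
  rw [dist_eq_norm, ← MemLp.toLp_sub, ← Real.sqrt_sq (norm_nonneg _), LA_norm]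
  rfl

theorem LA_tend {u : ℕ → X → ℝ} (hu : ∀ m, MemLp (u m) 2 μ) (hw : MemLp w 2 μ) :
    L2T μ u w ↔ Tendsto (fun m => (hu m).toLp (u m)) atTop (𝓝 (hw.toLp w)) := by
  rw [tendsto_iff_dist_tendsto_zero]
  simp only [LA_dist]
  refine ⟨fun h => by simpa using h.sqrt, fun h => ?_⟩
  have h2 := h.pow 2
  rw [zero_pow two_ne_zero] at h2
  exact h2.congr fun m => Real.sq_sqrt (integral_nonneg fun x => sq_nonneg _)

theorem LA_mul {u w : ℕ → X → ℝ} {f f' : X → ℝ} (hu : ∀ m, MemLp (u m) 2 μ)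
    (hw : ∀ m, MemLp (w m) 2 μ) (hf : MemLp f 2 μ) (hf' : MemLp f' 2 μ) (h : L2T μ u f)
    (h' : L2T μ w f') :
    Tendsto (fun m => ∫ x, u m x * w m x ∂μ) atTop (𝓝 (∫ x, f x * f' x ∂μ)) := by
  simpa only [LA_inner] using ((LA_tend hu hf).1 h).inner (𝕜 := ℝ) ((LA_tend hw hf').1 h')

theorem LA_const (f : X → ℝ) : L2T μ (fun _ => f) f := by
  simp [L2T]

/-- weak convergence from convergence on a dense set -/
theorem LA_weak {Y : Type} [NormedAddCommGroup Y] [InnerProductSpace ℝ Y] [CompleteSpace Y]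
    {D : Set Y} (hD : Dense D) {x : ℕ → Y} {K : ℝ} (hK : ∀ m, ‖x m‖ ≤ K)
    (h : ∀ d ∈ D, ∃ a, Tendsto (fun m => inner ℝ (x m) d) atTop (𝓝 a)) :
    ∃ y, ∀ w, Tendsto (fun m => inner ℝ (x m) w) atTop (𝓝 (inner ℝ y w)) := by
  have hK0 : 0 ≤ K := (norm_nonneg _).trans (hK 0)
  have h1 : ∀ w, ∃ a, Tendsto (fun m => inner ℝ (x m) w) atTop (𝓝 a) := fun w => by
    refine cauchySeq_tendsto_of_complete (Metric.cauchySeq_iff.2 fun ε hε => ?_)
    obtain ⟨d, hd, hw⟩ := hD.exists_dist_lt w (show 0 < ε / 3 / (K + 1) by positivity)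
    obtain ⟨a, ha⟩ := h d hd
    obtain ⟨M, hM⟩ := Metric.cauchySeq_iff.1 ha.cauchySeq (ε / 3) (by positivity)
    have h2 : ∀ m, dist (inner ℝ (x m) w) (inner ℝ (x m) d) < ε / 3 := fun m => by
      rw [Real.dist_eq, ← inner_sub_right]
      rw [dist_eq_norm, lt_div_iff₀ (by positivity)] at hw
      have h3 := abs_real_inner_le_norm (x m) (w - d)
      have h4 := mul_le_mul_of_nonneg_right (hK m) (norm_nonneg (w - d))
      linarith [norm_nonneg (w - d)]
    refine ⟨M, fun m hm m' hm' => ?_⟩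
    have h5 := dist_triangle4 (inner ℝ (x m) w) (inner ℝ (x m) d) (inner ℝ (x m') d)
      (inner ℝ (x m') w)
    rw [dist_comm (inner ℝ (x m') d)] at h5
    linarith [h2 m, h2 m', hM m hm m' hm']
  choose L hL using h1
  refine ⟨(InnerProductSpace.toDual ℝ Y).symm
    (continuousLinearMapOfTendsto (fun m => innerSL ℝ (x m)) (f := L) (tendsto_pi_nhds.2 hL)),
    fun w => ?_⟩
  rw [InnerProductSpace.toDual_symm_apply]
  exact hL w

end Hilbert

variable {E ι : Type} [NormedAddCommGroup E] [NormedSpace ℝ E] [FiniteDimensional ℝ E]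
  [MeasurableSpace E] [BorelSpace E] {μ : Measure E} [μ.IsAddHaarMeasure] [Fintype ι]
  {v : ι → E} {f f' : E → ℝ} {G G' : ι → E → ℝ}

omit [FiniteDimensional ℝ E] in
theorem LA_d {φ : E → ℝ} (hφ : ContDiff ℝ 1 φ) (hc : HasCompactSupport φ) (y : E) :
    MemLp (fun x => fderiv ℝ φ x y) 2 μ :=
  ((hφ.continuous_fderiv one_ne_zero).clm_apply continuous_const).memLp_of_hasCompactSupport
    (hc.fderiv_apply ℝ y)

omit [FiniteDimensional ℝ E] [MeasurableSpace E] [BorelSpace E] in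
theorem LA_one {φ : E → ℝ} (hφ : ContDiff ℝ ∞ φ) : ContDiff ℝ 1 φ :=
  hφ.of_le (by exact_mod_cast le_top)

/-- `C¹` functions that are square integrable together with their derivatives. -/
theorem wd_c1' (hf : ContDiff ℝ 1 f) (h0 : MemLp f 2 μ)
    (h1 : ∀ j, MemLp (fun x => fderiv ℝ f x (v j)) 2 μ) :
    WD μ v f fun j x => fderiv ℝ f x (v j) := by
  refine ⟨h0, fun j => ⟨h1 j, fun φ p1 p2 => ?_⟩⟩
  have p3 : MemLp φ 2 μ := p1.continuous.memLp_of_hasCompactSupport p2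
  exact integral_mul_fderiv_eq_neg_fderiv_mul_of_integrable ((h1 j).integrable_mul p3)
    (h0.integrable_mul (LA_d (LA_one p1) p2 _)) (h0.integrable_mul p3)
    (fun x _ => hf.differentiable one_ne_zero x)
    fun x _ => (LA_one p1).differentiable one_ne_zero x

theorem wd_c1 (hf : ContDiff ℝ 1 f) (hc : HasCompactSupport f) :
    WD μ v f fun j x => fderiv ℝ f x (v j) :=
  wd_c1' hf (hf.continuous.memLp_of_hasCompactSupport hc) fun _ => LA_d hf hc _

theorem WD.add (h : WD μ v f G) (h' : WD μ v f' G') :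
    WD μ v (fun x => f x + f' x) fun j x => G j x + G' j x := by
  refine ⟨h.1.add h'.1, fun j => ⟨(h.2 j).1.add (h'.2 j).1, fun φ p1 p2 => ?_⟩⟩
  have p3 : MemLp φ 2 μ := p1.continuous.memLp_of_hasCompactSupport p2
  have p4 := LA_d (μ := μ) (LA_one p1) p2 (v j)
  have a1 := integral_add (h.1.integrable_mul p4) (h'.1.integrable_mul p4)
  have a2 := integral_add ((h.2 j).1.integrable_mul p3) ((h'.2 j).1.integrable_mul p3)
  simp only [Pi.mul_apply] at a1 a2
  simp only [add_mul]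
  rw [a1, a2, (h.2 j).2 φ p1 p2, (h'.2 j).2 φ p1 p2, neg_add]

theorem WD.smul (h : WD μ v f G) (c : ℝ) :
    WD μ v (fun x => c * f x) fun j x => c * G j x := by
  refine ⟨h.1.const_mul c, fun j => ⟨(h.2 j).1.const_mul c, fun φ p1 p2 => ?_⟩⟩
  simp only [mul_assoc]
  rw [integral_const_mul, integral_const_mul, (h.2 j).2 φ p1 p2, mul_neg]

theorem WD.sub (h : WD μ v f G) (h' : WD μ v f' G') :
    WD μ v (fun x => f x - f' x) fun j x => G j x - G' j x := by
  simpa only [neg_mul, one_mul, ← sub_eq_add_neg] using h.add (h'.smul (-1))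

theorem WD.congr (h : WD μ v f G) (e : f =ᵐ[μ] f') (e' : ∀ j, G j =ᵐ[μ] G' j) :
    WD μ v f' G' := by
  refine ⟨h.1.ae_eq e, fun j => ⟨(h.2 j).1.ae_eq (e' j), fun φ p1 p2 => ?_⟩⟩
  rw [← integral_congr_ae (e.fun_mul (.refl _ fun x => fderiv ℝ φ x (v j))),
    ← integral_congr_ae ((e' j).fun_mul (.refl _ φ))]
  exact (h.2 j).2 φ p1 p2

theorem WD.unique (h : WD μ v f G) (h' : WD μ v f' G') (e : f =ᵐ[μ] f') (j : ι) :
    G j =ᵐ[μ] G' j := by
  refine ae_eq_of_integral_contDiff_smul_eq ((h.2 j).1.locallyIntegrable one_le_two)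
    ((h'.2 j).1.locallyIntegrable one_le_two) fun φ p1 p2 => ?_
  have h1 := ((h.congr e fun _ => .rfl).2 j).2 φ p1 p2
  rw [(h'.2 j).2 φ p1 p2, neg_inj] at h1
  simpa only [smul_eq_mul, mul_comm] using h1.symm

/-- On an open set where the function vanishes, so does the gradient. -/
theorem WD.zero_on (h : WD μ v f G) {O : Set E} (hO : IsOpen O) (e : ∀ᵐ x ∂μ, x ∈ O → f x = 0)
    (j : ι) : ∀ᵐ x ∂μ, x ∈ O → G j x = 0 := by
  refine hO.ae_eq_zero_of_integral_contDiff_smul_eq_zero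
    (((h.2 j).1.locallyIntegrable one_le_two).locallyIntegrableOn O) fun φ p1 p2 p3 => ?_
  have h1 := (h.2 j).2 φ p1 p2
  rw [integral_eq_zero_of_ae, eq_comm, neg_eq_zero] at h1
  · simpa only [smul_eq_mul, mul_comm] using h1
  · filter_upwards [e] with x hx
    by_cases hxO : x ∈ O
    · simp [hx hxO]
    · have : fderiv ℝ φ x = 0 := by
        by_contra hne
        exact hxO (p3 (support_fderiv_subset ℝ hne))
      simp [this]

theorem LA_approx (h : WD μ v f G) (hv : ∀ j, ‖v j‖ ≤ 1) {η : ℝ} (hη : 0 < η) :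
    ∃ g : E → ℝ, (ContDiff ℝ 1 g ∧ HasCompactSupport g) ∧ ∫ x, (g x - f x) ^ 2 ∂μ ≤ (3 * η) ^ 2 ∧
      ∀ j, ∫ x, (fderiv ℝ g x (v j) - G j x) ^ 2 ∂μ ≤ (3 * η) ^ 2 := by
  obtain ⟨g, g1, g2, g3, g4⟩ := ml_approx (μ := μ) hv (f := fun x => (f x : ℂ))
    (G := fun j x => (G j x : ℂ)) h.1.ofReal (fun j => (h.2 j).1.ofReal) (fun j φ p1 p2 => by
      simp only [← Complex.ofReal_mul, integral_complex_ofReal]
      rw [(h.2 j).2 φ p1 p2, Complex.ofReal_neg]) hη
  have key : ∀ {a : E → ℂ} {b : E → ℝ}, MemLp a 2 μ → MemLp b 2 μ →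
      ∫ x, ((a x).re - b x) ^ 2 ∂μ ≤ ∫ x, ‖a x - b x‖ ^ 2 ∂μ := fun {a b} ha hb => by
    refine integral_mono_of_nonneg (.of_forall fun x => sq_nonneg _)
      ((ha.sub hb.ofReal).integrable_norm_pow two_ne_zero) (.of_forall fun x => ?_)
    have := Complex.abs_re_le_norm (a x - b x)
    rw [Complex.sub_re, Complex.ofReal_re] at this
    exact sq_le_sq.2 (this.trans (le_abs_self _))
  refine ⟨fun x => (g x).re, ⟨Complex.reCLM.contDiff.comp g1,
    g2.comp_left (g := Complex.re) rfl⟩,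
    (key (g1.continuous.memLp_of_hasCompactSupport g2) h.1).trans g3, fun j => ?_⟩
  have e : ∀ x, fderiv ℝ (fun x => (g x).re) x (v j) = (fderiv ℝ g x (v j)).re := fun x =>
    congrArg (fun L : E →L[ℝ] ℝ => L (v j))
      (Complex.reCLM.hasFDerivAt.comp x (g1.differentiable one_ne_zero x).hasFDerivAt).fderiv
  simp only [e]
  exact (key (((g1.continuous_fderiv one_ne_zero).clm_apply
    continuous_const).memLp_of_hasCompactSupport (g2.fderiv_apply ℝ _)) (h.2 j).1).trans (g4 j)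

theorem WD.seq (h : WD μ v f G) (hv : ∀ j, ‖v j‖ ≤ 1) : ∃ u : ℕ → E → ℝ,
    (∀ m, ContDiff ℝ 1 (u m) ∧ HasCompactSupport (u m)) ∧ L2T μ u f ∧
      ∀ j, L2T μ (fun m x => fderiv ℝ (u m) x (v j)) (G j) := by
  choose u u1 u2 u3 using fun m : ℕ => LA_approx h hv (Nat.one_div_pos_of_nat (n := m))
  have ht : Tendsto (fun m : ℕ => (3 * (1 / ((m : ℝ) + 1))) ^ 2) atTop (𝓝 0) := by
    simpa using (tendsto_one_div_add_atTop_nhds_zero_nat.const_mul (3 : ℝ)).pow 2
  exact ⟨u, u1, squeeze_zero (fun m => integral_nonneg fun x => sq_nonneg _) u2 ht,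
    fun j => squeeze_zero (fun m => integral_nonneg fun x => sq_nonneg _) (fun m => u3 m j) ht⟩

theorem L2T.integral_mul {u w : ℕ → E → ℝ} (hu : ∀ m, MemLp (u m) 2 μ) (hw : ∀ m, MemLp (w m) 2 μ)
    (hf : MemLp f 2 μ) (hf' : MemLp f' 2 μ) (h : L2T μ u f) (h' : L2T μ w f') {b : E → ℝ}
    (hb : AEStronglyMeasurable b μ) {C : ℝ} (hC : ∀ x, |b x| ≤ C) :
    Tendsto (fun m => ∫ x, b x * (u m x * w m x) ∂μ) atTop (𝓝 (∫ x, b x * (f x * f' x) ∂μ)) := by
  have hm : ∀ {a : E → ℝ}, MemLp a 2 μ → MemLp (fun x => b x * a x) 2 μ := fun {a} ha =>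
    ha.of_le_mul (c := C) (hb.mul ha.1) (.of_forall fun x => by
      rw [norm_mul]
      exact mul_le_mul_of_nonneg_right (hC x) (norm_nonneg _))
  have h2 : L2T μ (fun m x => b x * u m x) fun x => b x * f x := by
    have h3 := Tendsto.const_mul (C ^ 2) h
    rw [mul_zero] at h3
    refine squeeze_zero (fun m => integral_nonneg fun x => sq_nonneg _) (fun m => ?_) h3
    rw [← integral_const_mul]
    refine integral_mono_of_nonneg (.of_forall fun x => sq_nonneg _)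
      (((hu m).sub hf).integrable_sq.const_mul _) (.of_forall fun x => ?_)
    simp only [← mul_sub, mul_pow]
    exact mul_le_mul_of_nonneg_right (sq_le_sq.2 ((hC x).trans (le_abs_self _))) (sq_nonneg _)
  simpa only [mul_assoc] using LA_mul (fun m => hm (hu m)) hw (hm hf) hf' h2 h'

/-- Integration by parts between two Sobolev functions. -/
theorem WD.ibp (h : WD μ v f G) (h' : WD μ v f' G') (hv : ∀ j, ‖v j‖ ≤ 1) (j : ι) :
    ∫ x, f x * G' j x ∂μ = -∫ x, G j x * f' x ∂μ := by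
  obtain ⟨u, u1, u2, u3⟩ := h.seq hv
  obtain ⟨w, w1, w2, w3⟩ := h'.seq hv
  have a1 : ∀ m, MemLp (u m) 2 μ := fun m =>
    (u1 m).1.continuous.memLp_of_hasCompactSupport (u1 m).2
  have a2 : ∀ m, MemLp (w m) 2 μ := fun m =>
    (w1 m).1.continuous.memLp_of_hasCompactSupport (w1 m).2
  have a3 := fun m => LA_d (μ := μ) (u1 m).1 (u1 m).2 (v j)
  have a4 := fun m => LA_d (μ := μ) (w1 m).1 (w1 m).2 (v j)
  refine tendsto_nhds_unique (LA_mul a1 a4 h.1 (h'.2 j).1 u2 (w3 j))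
    ((LA_mul a3 a2 (h.2 j).1 h'.1 (u3 j) w2).neg.congr fun m => ?_)
  exact (integral_mul_fderiv_eq_neg_fderiv_mul_of_integrable ((a3 m).integrable_mul (a2 m))
    ((a1 m).integrable_mul (a4 m)) ((a1 m).integrable_mul (a2 m))
    (fun x _ => (u1 m).1.differentiable one_ne_zero x)
    fun x _ => (w1 m).1.differentiable one_ne_zero x).symm

theorem WD.limit {u : ℕ → E → ℝ} {H : ℕ → ι → E → ℝ} (h : ∀ m, WD μ v (u m) (H m))
    (hf : MemLp f 2 μ) (hG : ∀ j, MemLp (G j) 2 μ) (l : L2T μ u f)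
    (l' : ∀ j, L2T μ (fun m => H m j) (G j)) : WD μ v f G := by
  refine ⟨hf, fun j => ⟨hG j, fun φ p1 p2 => ?_⟩⟩
  have p3 : MemLp φ 2 μ := p1.continuous.memLp_of_hasCompactSupport p2
  have p4 := LA_d (μ := μ) (LA_one p1) p2 (v j)
  exact tendsto_nhds_unique (LA_mul (fun m => (h m).1) (fun _ => p4) hf p4 l (LA_const _))
    ((LA_mul (fun m => ((h m).2 j).1) (fun _ => p3) (hG j) p3 (l' j) (LA_const _)).neg.congr
      fun m => (((h m).2 j).2 φ p1 p2).symm)

/-- Cauchy sequences converge. -/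
theorem l2_complete {u : ℕ → E → ℝ} (hu : ∀ m, MemLp (u m) 2 μ)
    (h : ∀ ε : ℝ, 0 < ε → ∃ M, ∀ m ≥ M, ∀ m' ≥ M, ∫ x, (u m x - u m' x) ^ 2 ∂μ ≤ ε) :
    ∃ f, Measurable f ∧ MemLp f 2 μ ∧ L2T μ u f := by
  obtain ⟨F, hF⟩ := cauchySeq_tendsto_of_complete (u := fun m => (hu m).toLp (u m))
    (Metric.cauchySeq_iff.2 fun ε hε => by
      obtain ⟨M, hM⟩ := h ((ε / 2) ^ 2) (by positivity)
      refine ⟨M, fun m hm m' hm' => ?_⟩
      rw [LA_dist]
      exact (Real.sqrt_le_iff.2 ⟨by positivity, hM m hm m' hm'⟩).trans_lt (half_lt_self hε))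
  refine ⟨F, (Lp.stronglyMeasurable F).measurable, Lp.memLp F, (LA_tend hu (Lp.memLp F)).2 ?_⟩
  rwa [Lp.toLp_coeFn]

/-- A limit of functions with bounded gradients is a Sobolev function (Riesz representation in
`Lp ℝ 2 μ`; the gradients converge weakly). -/
theorem WD.of_bdd {u : ℕ → E → ℝ} {H : ℕ → ι → E → ℝ} (h : ∀ m, WD μ v (u m) (H m))
    (hf : MemLp f 2 μ) (l : L2T μ u f) {C : ℝ} (hC : ∀ m, ∑ j, ∫ x, H m j x ^ 2 ∂μ ≤ C) :
    ∃ G, WD μ v f G ∧ ∑ j, ∫ x, G j x ^ 2 ∂μ ≤ C ∧ ∀ j w, MemLp w 2 μ →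
      Tendsto (fun m => ∫ x, H m j x * w x ∂μ) atTop (𝓝 (∫ x, G j x * w x ∂μ)) := by
  have hH := fun m j => ((h m).2 j).1
  have t1 : ∀ j (φ : E → ℝ), ContDiff ℝ ∞ φ → HasCompactSupport φ →
      Tendsto (fun m => ∫ x, H m j x * φ x ∂μ) atTop (𝓝 (-∫ x, f x * fderiv ℝ φ x (v j) ∂μ)) :=
    fun j φ p1 p2 => by
      have p4 := LA_d (μ := μ) (LA_one p1) p2 (v j)
      refine (LA_mul (fun m => (h m).1) (fun _ => p4) hf p4 l (LA_const _)).neg.congr fun m => ?_
      rw [((h m).2 j).2 φ p1 p2, neg_neg]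
  have t2 : ∀ j, ∃ y : Lp ℝ 2 μ, ∀ w, Tendsto (fun m => inner ℝ ((hH m j).toLp (H m j)) w) atTop
      (𝓝 (inner ℝ y w)) := fun j => by
    refine LA_weak (Lp.dense_hasCompactSupport_contDiff (by simp)) (K := √C) (fun m => ?_) ?_
    · refine Real.le_sqrt_of_sq_le (le_trans ?_ (hC m))
      rw [LA_norm]
      exact Finset.single_le_sum (f := fun j => ∫ x, H m j x ^ 2 ∂μ)
        (fun j _ => integral_nonneg fun x => sq_nonneg _) (Finset.mem_univ j)
    · rintro d ⟨φ, e, p2, p1⟩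
      have p3 : MemLp φ 2 μ := p1.continuous.memLp_of_hasCompactSupport p2
      have e' : d = p3.toLp φ := Lp.ext (e.trans p3.coeFn_toLp.symm)
      simp only [e', LA_inner]
      exact ⟨_, t1 j φ p1 p2⟩
  choose y hy using t2
  have t3 : ∀ j w, MemLp w 2 μ →
      Tendsto (fun m => ∫ x, H m j x * w x ∂μ) atTop (𝓝 (∫ x, y j x * w x ∂μ)) := fun j w hw => by
    have := hy j (hw.toLp w)
    rw [← Lp.toLp_coeFn (y j) (Lp.memLp _)] at this
    simpa only [LA_inner] using this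
  refine ⟨fun j => y j, ⟨hf, fun j => ⟨Lp.memLp _, fun φ p1 p2 => ?_⟩⟩, ?_, t3⟩
  · rw [tendsto_nhds_unique (t3 j φ (p1.continuous.memLp_of_hasCompactSupport p2)) (t1 j φ p1 p2),
      neg_neg]
  · have t4 := (tendsto_finsetSum Finset.univ fun j _ => hy j (y j)).const_mul 2
    have t5 : ∀ j, ∫ x, y j x ^ 2 ∂μ = ‖y j‖ ^ 2 := fun j => by
      rw [← LA_norm (Lp.memLp (y j)), Lp.toLp_coeFn]
    have t6 := le_of_tendsto' t4 (b := C + ∑ j, ‖y j‖ ^ 2) fun m => by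
      refine le_trans ?_ (add_le_add (hC m) le_rfl)
      rw [← Finset.sum_add_distrib, Finset.mul_sum]
      refine Finset.sum_le_sum fun j _ => ?_
      rw [← LA_norm (hH m j)]
      nlinarith [real_inner_le_norm ((hH m j).toLp (H m j)) (y j),
        sq_nonneg (‖(hH m j).toLp (H m j)‖ - ‖y j‖)]
    simp only [real_inner_self_eq_norm_sq] at t6
    simp only [t5]
    linarith

end Vale.Agent.P363
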