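import Vale.Agent.P363.LA

/-! Library LB: products, chain rule, positive parts. -/

namespace Vale.Agent.P363

open MeasureTheory Vale.Agent.P370 Filter Topology
open scoped ContDiff

variable {E ι : Type} [NormedAddCommGroup E] [NormedSpace ℝ E] [FiniteDimensional ℝ E]
  [MeasurableSpace E] [BorelSpace E] {μ : Measure E} [μ.IsAddHaarMeasure] [Fintype ι]
  {v : ι → E} {f f' : E → ℝ} {G G' : ι → E → ℝ}

section Aux

variable {X : Type} [MeasurableSpace X] {ν : Measure X} {g b : X → ℝ}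

theorem LB_mem (hg : MemLp g 2 ν) (hb : AEStronglyMeasurable b ν) {C : ℝ} (h : ∀ x, |b x| ≤ C) :
    MemLp (fun x => b x * g x) 2 ν :=
  hg.of_le_mul (c := C) (hb.mul hg.1) (ae_of_all _ fun x => by
    rw [norm_mul]
    exact mul_le_mul_of_nonneg_right (h x) (norm_nonneg _))

theorem LB_sq {w p q : ℕ → X → ℝ} (hp : ∀ m, MemLp (p m) 2 ν) (hq : ∀ m, MemLp (q m) 2 ν)
    (lp : Tendsto (fun m => ∫ x, p m x ^ 2 ∂ν) atTop (𝓝 0))
    (lq : Tendsto (fun m => ∫ x, q m x ^ 2 ∂ν) atTop (𝓝 0)) (C : ℝ)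
    (h : ∀ m x, |w m x| ≤ C * |p m x| + C * |q m x|) :
    Tendsto (fun m => ∫ x, w m x ^ 2 ∂ν) atTop (𝓝 0) := by
  have l := (lp.add lq).const_mul (2 * C ^ 2)
  rw [add_zero, mul_zero] at l
  refine squeeze_zero (fun m => integral_nonneg fun x => sq_nonneg _) (fun m => ?_) l
  rw [← integral_add (hp m).integrable_sq (hq m).integrable_sq, ← integral_const_mul]
  refine integral_mono_of_nonneg (ae_of_all _ fun x => sq_nonneg _)
    (((hp m).integrable_sq.add (hq m).integrable_sq).const_mul _) (ae_of_all _ fun x => ?_)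
  have e := pow_le_pow_left₀ (abs_nonneg _) (h m x) 2
  rw [sq_abs] at e
  show w m x ^ 2 ≤ 2 * C ^ 2 * (p m x ^ 2 + q m x ^ 2)
  rw [← sq_abs (p m x), ← sq_abs (q m x)]
  nlinarith [sq_nonneg (C * |p m x| - C * |q m x|)]

theorem LB_dom {c : ℕ → X → ℝ} (hc : ∀ m, AEStronglyMeasurable (c m) ν) (hg : MemLp g 2 ν) (C : ℝ)
    (hb : ∀ m x, |c m x| ≤ C * |g x|) (hl : ∀ᵐ x ∂ν, Tendsto (fun m => c m x) atTop (𝓝 0)) :
    Tendsto (fun m => ∫ x, c m x ^ 2 ∂ν) atTop (𝓝 0) := by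
  have l := tendsto_integral_of_dominated_convergence (F := fun m x => c m x ^ 2) (f := fun _ => 0)
    (fun x => C ^ 2 * g x ^ 2) (fun m => (hc m).pow 2) (hg.integrable_sq.const_mul _)
    (fun m => ae_of_all _ fun x => by
      have e := pow_le_pow_left₀ (abs_nonneg _) (hb m x) 2
      rwa [mul_pow, sq_abs (g x), ← Real.norm_eq_abs, ← norm_pow] at e)
    (hl.mono fun x hx => by simpa using hx.pow 2)
  rwa [integral_zero] at l

theorem LB_ae {u : ℕ → X → ℝ} (hu : ∀ m, MemLp (u m) 2 ν) (hg : MemLp g 2 ν) (l : L2T ν u g) :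
    ∃ φ : ℕ → ℕ, StrictMono φ ∧ ∀ᵐ x ∂ν, Tendsto (fun m => u (φ m) x) atTop (𝓝 (g x)) := by
  refine (tendstoInMeasure_of_tendsto_eLpNorm two_ne_zero (fun m => (hu m).1) hg.1
    ?_).exists_seq_tendsto_ae
  have h1 := ENNReal.tendsto_ofReal (l.rpow_const (p := (2 : ℝ)⁻¹) (Or.inr (by norm_num)))
  rw [Real.zero_rpow (by norm_num), ENNReal.ofReal_zero] at h1
  refine h1.congr fun m => ?_
  rw [((hu m).sub hg).eLpNorm_eq_integral_rpow_norm two_ne_zero ENNReal.ofNat_ne_top]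
  simp

theorem LB_lip {F : ℝ → ℝ} (hF : ContDiff ℝ 1 F) {C : ℝ} (h1 : ∀ t, |deriv F t| ≤ C) (a c : ℝ) :
    |F a - F c| ≤ C * |a - c| :=
  convex_univ.norm_image_sub_le_of_norm_deriv_le
    (fun t _ => hF.differentiable one_ne_zero t) (fun t _ => h1 t) trivial trivial

theorem LB_F : ∃ (F : ℕ → ℝ → ℝ) (C : ℝ), (∀ n, ContDiff ℝ 1 (F n) ∧ F n 0 = 0 ∧
    (∀ t, 0 ≤ F n t ∧ F n t ≤ |t|) ∧ ∀ t, |deriv (F n) t| ≤ C) ∧
    ∀ t, ∀ᶠ n in atTop, F n t = max t 0 ∧ deriv (F n) t = if 0 < t then 1 else 0 := by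
  set P : ℝ → ℝ := fun t => t * Real.smoothTransition t with hP
  have hs : ContDiff ℝ 1 Real.smoothTransition := Real.smoothTransition.contDiff
  have h1 : ContDiff ℝ 1 P := contDiff_id.mul hs
  have h2 : ∀ t, t ≤ 0 → deriv P t = 0 := fun t ht => by
    rcases ht.eq_or_lt with rfl | ht
    · rw [((hasDerivAt_id' (0 : ℝ)).fun_mul (hs.differentiable one_ne_zero 0).hasDerivAt).deriv]
      simp
    · rw [← deriv_const t (0 : ℝ)]
      refine EventuallyEq.deriv_eq ?_
      filter_upwards [gt_mem_nhds ht] with s hs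
      rw [hP]
      simp only [Real.smoothTransition.zero_of_nonpos hs.le, mul_zero]
  have h3 : ∀ t, 1 < t → deriv P t = 1 := fun t ht => by
    rw [← deriv_id t]
    refine EventuallyEq.deriv_eq ?_
    filter_upwards [lt_mem_nhds ht] with s hs
    rw [hP]
    simp only [Real.smoothTransition.one_of_one_le hs.le, mul_one, id]
  obtain ⟨C, hC⟩ := isCompact_Icc.exists_bound_of_continuousOn
    (h1.continuous_deriv le_rfl).continuousOn (s := Set.Icc (0 : ℝ) 1)
  have h4 : ∀ t, |deriv P t| ≤ |C| + 1 := fun t => by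
    have e := abs_nonneg C
    rcases le_total t 0 with h | h
    · rw [h2 t h, abs_zero]
      linarith
    rcases le_or_gt t 1 with h' | h'
    · linarith [(hC t ⟨h, h'⟩).trans (le_abs_self C), Real.norm_eq_abs (deriv P t)]
    · rw [h3 t h', abs_one]
      linarith
  have hn : ∀ n : ℕ, (0 : ℝ) < n + 1 := fun n => by positivity
  have h5 : ∀ (n : ℕ) t, deriv (fun t => P ((n + 1) * t) / (n + 1)) t = deriv P ((n + 1) * t) :=
    fun n t => by
      rw [deriv_div_const, deriv_comp_mul_left, smul_eq_mul, mul_div_cancel_left₀ _ (hn n).ne']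
  have h6 : ∀ (n : ℕ) t, P ((n + 1) * t) / (n + 1) = t * Real.smoothTransition ((n + 1) * t) :=
    fun n t => by
      rw [hP, div_eq_iff (hn n).ne']
      ring
  refine ⟨fun n t => P ((n + 1) * t) / (n + 1), |C| + 1, fun n =>
    ⟨(h1.comp (contDiff_const.mul contDiff_id)).div_const _, by simp [hP], fun t => ?_,
      fun t => h5 n t ▸ h4 _⟩, fun t => ?_⟩
  · simp only [h6]
    rcases le_total t 0 with h | h
    · rw [Real.smoothTransition.zero_of_nonpos (mul_nonpos_of_nonneg_of_nonpos (hn n).le h),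
        mul_zero]
      exact ⟨le_rfl, abs_nonneg _⟩
    · exact ⟨mul_nonneg h (Real.smoothTransition.nonneg _),
        (mul_le_of_le_one_right h (Real.smoothTransition.le_one _)).trans (le_abs_self _)⟩
  · simp only [h5]
    simp only [h6]
    rcases le_or_gt t 0 with h | h
    · refine Eventually.of_forall fun n => ?_
      have e := mul_nonpos_of_nonneg_of_nonpos (hn n).le h
      rw [Real.smoothTransition.zero_of_nonpos e, mul_zero, h2 _ e, if_neg h.not_gt, max_eq_right h]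
      exact ⟨rfl, rfl⟩
    · filter_upwards [(tendsto_natCast_atTop_atTop.atTop_mul_const h).eventually_gt_atTop 1]
        with n e
      have e' : 1 < ((n : ℝ) + 1) * t := by linarith
      rw [Real.smoothTransition.one_of_one_le e'.le, mul_one, h3 _ e', if_pos h, max_eq_left h.le]
      exact ⟨rfl, rfl⟩

theorem LB_ind {k : X → ℝ} (hk : AEStronglyMeasurable k ν) :
    AEStronglyMeasurable (fun x => if 0 < k x then (1 : ℝ) else 0) ν :=
  ((Measurable.ite measurableSet_Ioi measurable_const measurable_const :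
    Measurable fun t : ℝ => if 0 < t then (1 : ℝ) else 0).comp_aemeasurable
      hk.aemeasurable).aestronglyMeasurable

end Aux

theorem LB_c1 {u : E → ℝ} (hu : ContDiff ℝ 1 u ∧ HasCompactSupport u) (w : E) :
    MemLp u 2 μ ∧ MemLp (fun x => fderiv ℝ u x w) 2 μ :=
  ⟨(wd_c1 (v := fun _ : Unit => w) hu.1 hu.2).1, ((wd_c1 (v := fun _ : Unit => w) hu.1 hu.2).2 ()).1⟩

theorem WD.mul (h : WD μ v f G) (hv : ∀ j, ‖v j‖ ≤ 1) {b : E → ℝ} (hb : ContDiff ℝ 1 b) {C : ℝ}
    (h0 : ∀ x, |b x| ≤ C) (h1 : ∀ x j, |fderiv ℝ b x (v j)| ≤ C) :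
    WD μ v (fun x => b x * f x) fun j x => b x * G j x + fderiv ℝ b x (v j) * f x := by
  obtain ⟨u, hu, l, l'⟩ := h.seq hv
  have hp : ∀ m, MemLp (fun x => u m x - f x) 2 μ := fun m => (LB_c1 (hu m) 0).1.sub h.1
  refine WD.limit (u := fun m x => b x * u m x)
    (H := fun m j x => b x * fderiv ℝ (u m) x (v j) + fderiv ℝ b x (v j) * u m x)
    (fun m => (wd_c1 (hb.mul (hu m).1) (hu m).2.mul_left).congr (ae_eq_refl _) fun j =>
      ae_of_all _ fun x => ?_) (LB_mem h.1 hb.continuous.aestronglyMeasurable h0)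
    (fun j => (LB_mem (h.2 j).1 hb.continuous.aestronglyMeasurable h0).add (LB_mem h.1
      ((hb.continuous_fderiv one_ne_zero).clm_apply continuous_const).aestronglyMeasurable
      fun x => h1 x j)) (LB_sq hp hp l l C fun m x => ?_)
    fun j => LB_sq (fun m => (LB_c1 (hu m) (v j)).2.sub (h.2 j).1) hp (l' j) l C fun m x => ?_
  · show fderiv ℝ (fun x => b x * u m x) x (v j) = _
    rw [fderiv_fun_mul (hb.differentiable one_ne_zero x) ((hu m).1.differentiable one_ne_zero x)]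
    simp [mul_comm]
  · rw [← mul_sub, abs_mul]
    have e := mul_le_mul_of_nonneg_right (h0 x) (abs_nonneg (u m x - f x))
    linarith [mul_nonneg (abs_nonneg (b x)) (abs_nonneg (u m x - f x))]
  · rw [add_sub_add_comm, ← mul_sub, ← mul_sub]
    refine (abs_add_le _ _).trans (add_le_add ?_ ?_)
    · rw [abs_mul]
      exact mul_le_mul_of_nonneg_right (h0 x) (abs_nonneg _)
    · rw [abs_mul]
      exact mul_le_mul_of_nonneg_right (h1 x j) (abs_nonneg _)

theorem LB_comp (h : WD μ v f G) (hv : ∀ j, ‖v j‖ ≤ 1) {F : ℝ → ℝ} (hF : ContDiff ℝ 1 F)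
    (h0 : F 0 = 0) {C : ℝ} (h1 : ∀ t, |deriv F t| ≤ C) : ∃ u : ℕ → E → ℝ,
    (∀ m, ContDiff ℝ 1 (fun x => F (u m x)) ∧ HasCompactSupport fun x => F (u m x)) ∧
      L2T μ (fun m x => F (u m x)) (fun x => F (f x)) ∧ ∀ j, L2T μ
        (fun m x => fderiv ℝ (fun x => F (u m x)) x (v j)) fun x => deriv F (f x) * G j x := by
  obtain ⟨u, hu, l, l'⟩ := h.seq hv
  obtain ⟨φ, hφ, hae⟩ := LB_ae (fun m => (LB_c1 (hu m) 0).1) h.1 l
  have hc := hF.continuous_deriv le_rfl
  have hC : 0 ≤ C := (abs_nonneg _).trans (h1 0)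
  have hp : ∀ m, MemLp (fun x => u (φ m) x - f x) 2 μ := fun m => (LB_c1 (hu _) 0).1.sub h.1
  have hb : ∀ a c, |deriv F a - deriv F c| ≤ 2 * C := fun a c => by
    linarith [abs_sub (deriv F a) (deriv F c), h1 a, h1 c]
  have hm : ∀ m, AEStronglyMeasurable (fun x => deriv F (u (φ m) x) - deriv F (f x)) μ := fun m =>
    (hc.comp (hu _).1.continuous).aestronglyMeasurable.sub (hc.comp_aestronglyMeasurable h.1.1)
  refine ⟨fun m => u (φ m), fun m => ⟨hF.comp (hu _).1, (hu _).2.comp_left h0⟩,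
    LB_sq hp hp (l.comp hφ.tendsto_atTop) (l.comp hφ.tendsto_atTop) C fun m x => ?_, fun j =>
    LB_sq (fun m => (LB_c1 (hu (φ m)) (v j)).2.sub (h.2 j).1)
      (fun m => LB_mem (h.2 j).1 (hm m) fun x => hb _ _) ((l' j).comp hφ.tendsto_atTop)
      (LB_dom (fun m => (hm m).mul (h.2 j).1.1) (h.2 j).1 (2 * C) (fun m x => ?_)
        (hae.mono fun x hx => ?_)) (C + 1) fun m x => ?_⟩
  · linarith [LB_lip hF h1 (u (φ m) x) (f x), mul_nonneg hC (abs_nonneg (u (φ m) x - f x))]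
  · rw [abs_mul]
    exact mul_le_mul_of_nonneg_right (hb _ _) (abs_nonneg _)
  · simpa using (((hc.tendsto _).comp hx).sub_const (deriv F (f x))).mul_const (G j x)
  · have e : fderiv ℝ (fun x => F (u (φ m) x)) x (v j) =
        deriv F (u (φ m) x) * fderiv ℝ (u (φ m)) x (v j) :=
      DFunLike.congr_fun ((hF.differentiable one_ne_zero _).hasDerivAt.comp_hasFDerivAt x
        ((hu (φ m)).1.differentiable one_ne_zero x).hasFDerivAt).fderiv (v j)
    have e1 := abs_add_le (deriv F (u (φ m) x) * (fderiv ℝ (u (φ m)) x (v j) - G j x))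
      ((deriv F (u (φ m) x) - deriv F (f x)) * G j x)
    have e2 := mul_le_mul_of_nonneg_right (h1 (u (φ m) x))
      (abs_nonneg (fderiv ℝ (u (φ m)) x (v j) - G j x))
    rw [abs_mul, mul_sub, sub_mul _ _ (G j x), sub_add_sub_cancel, ← sub_mul] at e1
    rw [← e] at e1
    refine e1.trans ?_
    show _ ≤ (C + 1) * |fderiv ℝ (u (φ m)) x (v j) - G j x| + _
    nlinarith [abs_nonneg (fderiv ℝ (u (φ m)) x (v j) - G j x),
      abs_nonneg ((deriv F (u (φ m) x) - deriv F (f x)) * G j x)]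

/-- Chain rule (approximate, pass to an a.e. convergent subsequence). -/
theorem WD.comp (h : WD μ v f G) (hv : ∀ j, ‖v j‖ ≤ 1) {F : ℝ → ℝ} (hF : ContDiff ℝ 1 F)
    (h0 : F 0 = 0) {C : ℝ} (h1 : ∀ t, |deriv F t| ≤ C) :
    WD μ v (fun x => F (f x)) fun j x => deriv F (f x) * G j x := by
  obtain ⟨u, hu, l, l'⟩ := LB_comp h hv hF h0 h1
  refine WD.limit (fun m => wd_c1 (hu m).1 (hu m).2)
    (h.1.of_le_mul (c := C) (hF.continuous.comp_aestronglyMeasurable h.1.1) (ae_of_all _ fun x => ?_))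
    (fun j => LB_mem (h.2 j).1 ((hF.continuous_deriv le_rfl).comp_aestronglyMeasurable h.1.1)
      fun x => h1 _) l l'
  simpa [h0] using LB_lip hF h1 (f x) 0

theorem LB_pos (h : WD μ v f G) {F : ℕ → ℝ → ℝ} {C : ℝ} (h1 : ∀ n, ContDiff ℝ 1 (F n) ∧ F n 0 = 0 ∧
    (∀ t, 0 ≤ F n t ∧ F n t ≤ |t|) ∧ ∀ t, |deriv (F n) t| ≤ C)
    (h2 : ∀ t, ∀ᶠ n in atTop, F n t = max t 0 ∧ deriv (F n) t = if 0 < t then 1 else 0) :
    L2T μ (fun n x => F n (f x)) (fun x => max (f x) 0) ∧ ∀ j,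
      MemLp (fun x => if 0 < f x then G j x else 0) 2 μ ∧
      L2T μ (fun n x => deriv (F n) (f x) * G j x) fun x => if 0 < f x then G j x else 0 := by
  have e : ∀ j, (fun x => if 0 < f x then G j x else 0) =
      fun x => (if 0 < f x then 1 else 0) * G j x := fun j => funext fun x => by simp
  have hm : ∀ j, MemLp (fun x => if 0 < f x then G j x else 0) 2 μ := fun j => by
    rw [e]
    exact LB_mem (h.2 j).1 (LB_ind h.1.1) (C := 1) fun x => by split_ifs <;> simp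
  refine ⟨LB_dom (fun n => ((h1 n).1.continuous.comp_aestronglyMeasurable h.1.1).sub
    h.1.pos_part.1) h.1 1 (fun n x => ?_) (ae_of_all _ fun x => tendsto_const_nhds.congr'
      ((h2 (f x)).mono fun n hn => by simp only [hn.1, sub_self])), fun j => ⟨hm j,
    LB_dom (fun n => ((((h1 n).1.continuous_deriv le_rfl).comp_aestronglyMeasurable h.1.1).mul
      (h.2 j).1.1).sub (hm j).1) (h.2 j).1 (C + 1) (fun n x => ?_)
      (ae_of_all _ fun x => tendsto_const_nhds.congr' ((h2 (f x)).mono fun n hn => by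
        simp only [hn.2, ite_mul, one_mul, zero_mul, sub_self]))⟩⟩
  · have e1 := (h1 n).2.2.1 (f x)
    have e2 : max (f x) 0 ≤ |f x| := max_le (le_abs_self _) (abs_nonneg _)
    rw [one_mul, abs_le]
    constructor <;> linarith [le_max_right (f x) 0]
  · have e1 := mul_le_mul_of_nonneg_right ((h1 n).2.2.2 (f x)) (abs_nonneg (G j x))
    refine (abs_sub _ _).trans ?_
    rw [abs_mul, add_mul, one_mul]
    refine add_le_add e1 ?_
    by_cases e2 : 0 < f x <;> simp [e2]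

/-- Positive part. -/
theorem WD.pos (h : WD μ v f G) (hv : ∀ j, ‖v j‖ ≤ 1) :
    WD μ v (fun x => max (f x) 0) fun j x => if 0 < f x then G j x else 0 := by
  obtain ⟨F, C, h1, h2⟩ := LB_F
  obtain ⟨l, l'⟩ := LB_pos h h1 h2
  exact WD.limit (fun n => h.comp hv (h1 n).1 (h1 n).2.1 (h1 n).2.2.2) h.1.pos_part
    (fun j => (l' j).1) l fun j => (l' j).2

theorem WD.abs (h : WD μ v f G) (hv : ∀ j, ‖v j‖ ≤ 1) :
    WD μ v (fun x => |f x|) fun j x => SignType.sign (f x) * G j x := by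
  refine ((h.pos hv).add ((h.smul (-1)).pos hv)).congr (ae_of_all _ fun x => ?_)
    fun j => ae_of_all _ fun x => ?_
  · simpa using max_zero_add_max_neg_zero_eq_abs_self (f x)
  · rcases lt_trichotomy (f x) 0 with e | e | e
    · simp [e, e.not_gt]
    · simp [e]
    · simp [e, e.not_gt]

/-- Nonnegative approximants of nonnegative functions. -/
theorem WD.seq_nonneg (h : WD μ v f G) (hv : ∀ j, ‖v j‖ ≤ 1) (h0 : ∀ᵐ x ∂μ, 0 ≤ f x) :
    ∃ u : ℕ → E → ℝ, (∀ m, ContDiff ℝ 1 (u m) ∧ HasCompactSupport (u m) ∧ ∀ x, 0 ≤ u m x) ∧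
      L2T μ u f ∧ ∀ j, L2T μ (fun m x => fderiv ℝ (u m) x (v j)) (G j) := by
  obtain ⟨F, C, h1, h2⟩ := LB_F
  obtain ⟨l, l'⟩ := LB_pos h h1 h2
  have hw := fun n => h.comp hv (h1 n).1 (h1 n).2.1 (h1 n).2.2.2
  have hε : Tendsto (fun n : ℕ => 1 / ((n : ℝ) + 1)) atTop (𝓝 0) :=
    tendsto_one_div_add_atTop_nhds_zero_nat
  have key : ∀ n : ℕ, ∃ w : E → ℝ, (ContDiff ℝ 1 w ∧ HasCompactSupport w ∧ ∀ x, 0 ≤ w x) ∧
      ∫ x, (w x - F n (f x)) ^ 2 ∂μ < 1 / ((n : ℝ) + 1) ∧ ∀ j,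
        ∫ x, (fderiv ℝ w x (v j) - deriv (F n) (f x) * G j x) ^ 2 ∂μ < 1 / ((n : ℝ) + 1) := by
    intro n
    obtain ⟨u, hu, k, k'⟩ := LB_comp h hv (h1 n).1 (h1 n).2.1 (h1 n).2.2.2
    obtain ⟨m, hm⟩ := ((k.eventually (gt_mem_nhds Nat.one_div_pos_of_nat)).and
      (eventually_all.2 fun j => (k' j).eventually (gt_mem_nhds Nat.one_div_pos_of_nat))).exists
    exact ⟨_, ⟨(hu m).1, (hu m).2, fun x => ((h1 n).2.2.1 _).1⟩, hm⟩
  choose w hw1 hw2 hw3 using key
  have e0 : f =ᵐ[μ] fun x => max (f x) 0 := h0.mono fun x hx => (max_eq_left hx).symm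
  have tri : ∀ a c d : ℝ, |a - d| ≤ 1 * |a - c| + 1 * |c - d| := fun a c d => by
    linarith [abs_sub_le a c d]
  refine ⟨w, hw1, (LB_sq (fun n => (LB_c1 ⟨(hw1 n).1, (hw1 n).2.1⟩ 0).1.sub (hw n).1)
    (fun n => (hw n).1.sub h.1.pos_part) (squeeze_zero (fun n => integral_nonneg fun x =>
      sq_nonneg _) (fun n => (hw2 n).le) hε) l 1 fun n x => tri _ _ _).congr fun n =>
        integral_congr_ae (e0.mono fun x hx => by simp only [← hx]), fun j =>
    (LB_sq (fun n => (LB_c1 ⟨(hw1 n).1, (hw1 n).2.1⟩ (v j)).2.sub ((hw n).2 j).1)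
    (fun n => ((hw n).2 j).1.sub (l' j).1) (squeeze_zero (fun n => integral_nonneg fun x =>
      sq_nonneg _) (fun n => (hw3 n j).le) hε) (l' j).2 1 fun n x => tri _ _ _).congr fun n =>
        integral_congr_ae ((h.unique (h.pos hv) e0 j).mono fun x hx => by simp only [← hx])⟩

theorem LB_chg (h : WD μ v f G) (A : E ≃ₜ E) (hA : MeasurePreserving A μ μ)
    (hs : ContDiff ℝ ∞ A.symm) {σ : ι → ι} {e : ι → ℝ} (hd : ∀ φ : E → ℝ, ContDiff ℝ ∞ φ → ∀ x j,
      fderiv ℝ φ x (v j) = e j * fderiv ℝ (φ ∘ A.symm) (A x) (v (σ j))) :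
    WD μ v (fun x => f (A x)) fun j x => e j * G (σ j) (A x) := by
  refine ⟨h.1.comp_measurePreserving hA, fun j =>
    ⟨((h.2 (σ j)).1.comp_measurePreserving hA).const_mul _, fun φ h1 h2 => ?_⟩⟩
  have h3 := (h.2 (σ j)).2 _ (h1.comp hs) (h2.comp_homeomorph A.symm)
  rw [← hA.integral_comp A.measurableEmbedding,
    ← hA.integral_comp A.measurableEmbedding fun x => G (σ j) x * _] at h3
  simp only [Function.comp_apply, A.symm_apply_apply] at h3
  simp only [hd φ h1, mul_left_comm _ (e j), mul_assoc, integral_const_mul, h3, mul_neg]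

/-- Linear changes of variables that preserve the measure and permute the directions up to sign. -/
theorem WD.comp_equiv (h : WD μ v f G) (T : E ≃L[ℝ] E) (hT : MeasurePreserving T μ μ)
    {σ : ι → ι} {e : ι → ℝ} (hσ : ∀ j, T (v j) = e j • v (σ j)) :
    WD μ v (fun x => f (T x)) fun j x => e j * G (σ j) (T x) :=
  LB_chg h T.toHomeomorph hT T.symm.contDiff fun φ _ x j => by
    show _ = e j * fderiv ℝ (φ ∘ T.symm) (T x) (v (σ j))
    rw [← smul_eq_mul, ← map_smul, ← hσ, T.symm.comp_right_fderiv]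
    simp

theorem WD.translate (h : WD μ v f G) (c : E) :
    WD μ v (fun x => f (x + c)) fun j x => G j (x + c) := by
  have h1 := LB_chg h (Homeomorph.addRight c) (measurePreserving_add_right μ c)
    (contDiff_id.add contDiff_const) (σ := id) (e := fun _ => 1) fun φ _ x j => by
      show _ = 1 * fderiv ℝ (fun y => φ (y + -c)) (x + c) (v j)
      rw [fderiv_comp_add_right, one_mul, add_neg_cancel_right]
  simp only [one_mul] at h1
  exact h1

/-- Cutting along a set on whose neighbourhood the function vanishes: `χ` is a bounded `C¹`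
function that agrees with the indicator of `O` wherever `f` does not vanish near the point. -/
theorem WD.cut (h : WD μ v f G) (hv : ∀ j, ‖v j‖ ≤ 1) {O W : Set E} (hO : MeasurableSet O)
    (hW : IsOpen W) (e : ∀ᵐ x ∂μ, x ∈ W → f x = 0) {χ : E → ℝ} (hχ : ContDiff ℝ 1 χ) {C : ℝ}
    (h0 : ∀ x, |χ x| ≤ C) (h1 : ∀ x j, |fderiv ℝ χ x (v j)| ≤ C)
    (h2 : ∀ x, x ∉ W → χ x = O.indicator 1 x ∧ fderiv ℝ χ x = 0) :
    WD μ v (O.indicator f) fun j => O.indicator (G j) := by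
  refine (h.mul hv hχ h0 h1).congr (e.mono fun x hx => ?_) fun j => ?_
  · by_cases hx' : x ∈ W
    · by_cases ho : x ∈ O <;> simp [hx hx', ho]
    · by_cases ho : x ∈ O <;> simp [(h2 x hx').1, ho]
  · filter_upwards [e, h.zero_on hW e j] with x a1 a2
    by_cases hx' : x ∈ W
    · by_cases ho : x ∈ O <;> simp [a1 hx', a2 hx', ho]
    · by_cases ho : x ∈ O <;> simp [(h2 x hx').1, (h2 x hx').2, ho]

end Vale.Agent.P363
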