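import Vale.Agent.P363.LB

/-! Library LC: form bounded potentials and weak equations on `H¹`. -/

namespace Vale.Agent.P363

open MeasureTheory Vale.Agent.P370 Filter Topology
open scoped ContDiff

variable {V W q s τ u u' : Pt → ℝ} {g g' : Fin 3 → Pt → ℝ}

lemma LC_ek (j : Fin 3) : ‖ek j‖ ≤ 1 := (nw_norm_ek j).le

theorem C1c.h1 (h : C1c u) : H1 u (gr1 u) := h1_iff.2 (wd_c1 h.1 h.2)

lemma LC_isq {f : Pt → ℝ} (h : MemLp f 2) : Integrable fun x => f x ^ 2 := h.integrable_sq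

lemma LC_imul {f f' : Pt → ℝ} (h : MemLp f 2) (h' : MemLp f' 2) :
    Integrable fun x => f x * f' x := h.integrable_mul h'

lemma LC_gsq (h : C1c u) : ∫ x, gsq u x = ∑ k, ∫ x, gr1 u k x ^ 2 :=
  integral_finsetSum _ fun k _ => LC_isq ((C1c.h1 h).2 k).1

theorem q1_self (h : C1c u) (V : Pt → ℝ) : q1 V u (gr1 u) u (gr1 u) = qV V u := by
  simp only [q1, qV, LC_gsq h, sq]

lemma LC_g0 (ψ : Pt → ℝ) : 0 ≤ ∫ x, gsq ψ x :=
  integral_nonneg fun _ => Finset.sum_nonneg fun _ _ => sq_nonneg _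

lemma LC_s0 (ψ : Pt → ℝ) : 0 ≤ ∫ x, ψ x ^ 2 := integral_nonneg fun _ => sq_nonneg _

lemma LC_G0 (g : Fin 3 → Pt → ℝ) : 0 ≤ ∑ k, ∫ x, g k x ^ 2 :=
  Finset.sum_nonneg fun _ _ => LC_s0 _

lemma LC_iabs (h : Integrable fun x => V x * u x ^ 2) : Integrable fun x => |V x| * u x ^ 2 := by
  simpa only [abs_mul, abs_pow, sq_abs] using h.abs

theorem fb_of_bdd (hm : Measurable V) {C : ℝ} (h : ∀ x, |V x| ≤ C) : FB V := by
  refine ⟨hm, fun θ hθ => ⟨C, fun ψ hψ => ?_⟩⟩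
  have i0 := LC_isq (C1c.h1 hψ).1
  have i1 : Integrable fun x => V x * ψ x ^ 2 :=
    i0.bdd_mul (c := C) hm.aestronglyMeasurable (ae_of_all _ h)
  refine ⟨i1, ?_⟩
  have : ∫ x, |V x| * ψ x ^ 2 ≤ C * ∫ x, ψ x ^ 2 := by
    rw [← integral_const_mul]
    exact integral_mono (LC_iabs i1) (i0.const_mul C) fun x =>
      mul_le_mul_of_nonneg_right (h x) (sq_nonneg _)
  nlinarith [mul_nonneg hθ.le (LC_g0 ψ)]

theorem FB.add (h : FB V) (h' : FB W) : FB fun x => V x + W x := by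
  refine ⟨h.1.add h'.1, fun θ hθ => ?_⟩
  obtain ⟨C, hC⟩ := h.2 (θ / 2) (half_pos hθ)
  obtain ⟨C', hC'⟩ := h'.2 (θ / 2) (half_pos hθ)
  refine ⟨C + C', fun ψ hψ => ?_⟩
  obtain ⟨i1, e1⟩ := hC ψ hψ
  obtain ⟨i2, e2⟩ := hC' ψ hψ
  have i3 : Integrable fun x => (V x + W x) * ψ x ^ 2 := by
    simp only [add_mul]; exact i1.add i2
  refine ⟨i3, ?_⟩
  have : ∫ x, |V x + W x| * ψ x ^ 2 ≤ (∫ x, |V x| * ψ x ^ 2) + ∫ x, |W x| * ψ x ^ 2 := by
    rw [← integral_add (LC_iabs i1) (LC_iabs i2)]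
    refine integral_mono (LC_iabs i3) ((LC_iabs i1).add (LC_iabs i2)) fun x => ?_
    simp only [← add_mul]
    exact mul_le_mul_of_nonneg_right (abs_add_le _ _) (sq_nonneg _)
  linarith

theorem FB.add_const (h : FB V) (c : ℝ) : FB fun x => V x + c :=
  h.add (fb_of_bdd measurable_const (C := |c|) fun _ => le_rfl)

theorem FB.smul (h : FB V) (c : ℝ) : FB fun x => c * V x := by
  refine ⟨h.1.const_mul c, fun θ hθ => ?_⟩
  have hc : 0 < |c| + 1 := by positivity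
  obtain ⟨C, hC⟩ := h.2 (θ / (|c| + 1)) (div_pos hθ hc)
  refine ⟨|c| * C, fun ψ hψ => ?_⟩
  obtain ⟨i1, e1⟩ := hC ψ hψ
  refine ⟨by simpa only [mul_assoc] using i1.const_mul c, ?_⟩
  simp only [abs_mul, mul_assoc, integral_const_mul]
  have e2 := mul_le_mul_of_nonneg_left e1 (abs_nonneg c)
  have e3 : |c| * (θ / (|c| + 1)) ≤ θ := by
    rw [mul_div_assoc', div_le_iff₀ hc]; nlinarith
  nlinarith [mul_le_mul_of_nonneg_right e3 (LC_g0 ψ)]

lemma LC_fb_ker (c : Pt) : FB fun x => ker (x - c) := by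
  refine ⟨measurable_ker.comp (measurable_id.sub_const c), fun θ hθ =>
    ⟨3 / θ, fun ψ hψ => ?_⟩⟩
  have hcont : ContDiff ℝ 1 fun x => ψ x ^ 2 := hψ.1.pow 2
  have hcc : HasCompactSupport fun x => ψ x ^ 2 :=
    hψ.2.comp_left (g := fun t : ℝ => t ^ 2) (by simp)
  refine ⟨integrable_ker_mul_cc hcont.continuous hcc c, ?_⟩
  have i0 := LC_isq (C1c.h1 hψ).1
  have i1 := (hψ.integrable_gsq.const_mul θ).add (i0.const_mul (3 / θ))
  have key := nw_hardy_reg (f := fun x => ψ x ^ 2) ⟨hcont, hcc⟩ (fun _ => sq_nonneg _) i1 c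
    fun a y ha => by
      have hp : ∀ k, pd k (fun x => ψ x ^ 2) y = 2 * ψ y * pd k ψ y := fun k => by
        have := nw_pd_cut (θ := fun _ => 1) contDiff_const hψ.1 k y
        simpa [pd] using this
      have hk : ∀ k, pd k (fun x => ψ x ^ 2) y * a k ≤ θ * pd k ψ y ^ 2 + 1 / θ * ψ y ^ 2 :=
        fun k => by
        rw [hp]
        have h1 : a k ^ 2 ≤ 1 := by rw [← sq_abs]; exact pow_le_one₀ (abs_nonneg _) (ha k)
        have h2 : 2 * ψ y * pd k ψ y * a k * θ ≤ (θ * pd k ψ y ^ 2 + 1 / θ * ψ y ^ 2) * θ := by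
          have : (θ * pd k ψ y ^ 2 + 1 / θ * ψ y ^ 2) * θ = θ ^ 2 * pd k ψ y ^ 2 + ψ y ^ 2 := by
            field_simp
          rw [this]
          nlinarith [sq_nonneg (θ * pd k ψ y - ψ y * a k),
            mul_le_mul_of_nonneg_left h1 (sq_nonneg (ψ y))]
        exact le_of_mul_le_mul_right h2 hθ
      refine (Finset.sum_le_sum fun k _ => hk k).trans (le_of_eq ?_)
      simp only [Pi.add_apply, gsq, Fin.sum_univ_three]
      ring
  simp only [Pi.add_apply] at key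
  rw [integral_add (hψ.integrable_gsq.const_mul θ) (i0.const_mul _), integral_const_mul,
    integral_const_mul] at key
  have e : ∫ x, |ker (x - c)| * ψ x ^ 2 = ∫ x, ker (c - x) * ψ x ^ 2 := by
    simp only [abs_of_nonneg (ker_nonneg _), ker_sub_comm c]
  have e0 : 0 ≤ ∫ x, ker (c - x) * ψ x ^ 2 :=
    integral_nonneg fun x => mul_nonneg (ker_nonneg _) (sq_nonneg _)
  linarith

/-- From `hardy` of P370/Newton. -/
theorem fb_pot (nuc : List (Pt × ℝ)) : FB (pot nuc) := by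
  induction nuc with
  | nil => exact fb_of_bdd (C := 0) (by unfold pot; simp) fun x => by simp [pot]
  | cons p l ih =>
    have := ((LC_fb_ker p.1).smul (-p.2)).add ih
    have e : pot (p :: l) = fun x => -p.2 * ker (x - p.1) + pot l x := by
      funext x; simp only [pot, List.map_cons, List.sum_cons]; ring
    rw [e]; exact this

lemma LC_tsq {a : ℕ → Pt → ℝ} (ha : ∀ m, MemLp (a m) 2) (hu : MemLp u 2) (l : L2T volume a u) :
    Tendsto (fun m => ∫ x, a m x ^ 2) atTop (𝓝 (∫ x, u x ^ 2)) := by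
  simpa only [one_mul, sq] using L2T.integral_mul ha ha hu hu l l
    (b := fun _ => 1) aestronglyMeasurable_const (C := 1) fun _ => by simp

lemma LC_tmul {a b : ℕ → Pt → ℝ} (ha : ∀ m, MemLp (a m) 2) (hb : ∀ m, MemLp (b m) 2)
    (hu : MemLp u 2) (hu' : MemLp u' 2) (l : L2T volume a u) (l' : L2T volume b u') :
    Tendsto (fun m => ∫ x, a m x * b m x) atTop (𝓝 (∫ x, u x * u' x)) := by
  simpa only [one_mul] using L2T.integral_mul ha hb hu hu' l l'
    (b := fun _ => 1) aestronglyMeasurable_const (C := 1) fun _ => by simp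

lemma LC_seq (hu : H1 u g) : ∃ a : ℕ → Pt → ℝ, (∀ m, C1c (a m)) ∧ L2T volume a u ∧
    ∀ k, L2T volume (fun m => gr1 (a m) k) (g k) :=
  (h1_iff.1 hu).seq LC_ek

lemma LC_tgsq {a : ℕ → Pt → ℝ} (ha : ∀ m, C1c (a m)) (hu : H1 u g)
    (l : ∀ k, L2T volume (fun m => gr1 (a m) k) (g k)) :
    Tendsto (fun m => ∫ x, gsq (a m) x) atTop (𝓝 (∑ k, ∫ x, g k x ^ 2)) := by
  simp only [fun m => LC_gsq (ha m)]
  exact tendsto_finsetSum _ fun k _ =>
    LC_tsq (fun m => ((C1c.h1 (ha m)).2 k).1) (hu.2 k).1 (l k)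

/-- Extension of a form bound from the core. -/
lemma LC_ext (hm : Measurable V) {A B : ℝ} (h : ∀ ψ, C1c ψ → Integrable (fun x => V x * ψ x ^ 2) ∧
    ∫ x, |V x| * ψ x ^ 2 ≤ A * (∫ x, gsq ψ x) + B * ∫ x, ψ x ^ 2) (hu : H1 u g) :
    Integrable (fun x => V x * u x ^ 2) ∧
      ∫ x, |V x| * u x ^ 2 ≤ A * (∑ k, ∫ x, g k x ^ 2) + B * ∫ x, u x ^ 2 := by
  set S := A * (∑ k, ∫ x, g k x ^ 2) + B * ∫ x, u x ^ 2 with hS
  obtain ⟨a, ha, l1, l2⟩ := LC_seq hu
  have i0 := LC_isq hu.1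
  have w0 : ∀ (m : ℕ) x, 0 ≤ min |V x| m := fun m x => le_min (abs_nonneg _) (Nat.cast_nonneg m)
  have wm : ∀ m : ℕ, AEStronglyMeasurable (fun x => min |V x| (m : ℝ)) volume := fun m =>
    (hm.abs.min measurable_const).aestronglyMeasurable
  have wb : ∀ (m : ℕ) x, |min |V x| (m : ℝ)| ≤ m := fun m x => by
    rw [abs_of_nonneg (w0 m x)]; exact min_le_right _ _
  have im : ∀ m : ℕ, Integrable fun x => min |V x| m * u x ^ 2 := fun m =>
    i0.bdd_mul (c := m) (wm m) (ae_of_all _ (wb m))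
  have hm' : ∀ m : ℕ, ∫ x, min |V x| m * u x ^ 2 ≤ S := fun m => by
    have t1 := L2T.integral_mul (fun j => (C1c.h1 (ha j)).1) (fun j => (C1c.h1 (ha j)).1)
      hu.1 hu.1 l1 l1 (wm m) (wb m)
    simp only [← sq] at t1
    have t2 := ((LC_tgsq ha hu l2).const_mul A).add
      ((LC_tsq (fun j => (C1c.h1 (ha j)).1) hu.1 l1).const_mul B)
    refine le_of_tendsto_of_tendsto' t1 t2 fun j => le_trans ?_ (h _ (ha j)).2
    exact integral_mono ((LC_isq (C1c.h1 (ha j)).1).bdd_mul (c := m) (wm m) (ae_of_all _ (wb m)))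
      (LC_iabs (h _ (ha j)).1) fun x =>
        mul_le_mul_of_nonneg_right (min_le_left _ _) (sq_nonneg _)
  have hmono : ∀ x, Monotone fun m : ℕ => min |V x| m * u x ^ 2 := fun x a b hab =>
    mul_le_mul_of_nonneg_right (min_le_min le_rfl (Nat.cast_le.2 hab)) (sq_nonneg _)
  have hlim : ∀ x, Tendsto (fun m : ℕ => min |V x| m * u x ^ 2) atTop
      (𝓝 (|V x| * u x ^ 2)) := fun x => by
    refine tendsto_const_nhds.congr' ?_
    filter_upwards [eventually_ge_atTop ⌈|V x|⌉₊] with m hm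
    rw [min_eq_left ((Nat.le_ceil _).trans (Nat.cast_le.2 hm))]
  have hint : Integrable fun x => |V x| * u x ^ 2 := by
    refine ⟨hm.abs.aestronglyMeasurable.mul i0.1, ?_⟩
    rw [hasFiniteIntegral_iff_ofReal (ae_of_all _ fun x => mul_nonneg (abs_nonneg _) (sq_nonneg _))]
    have := lintegral_tendsto_of_tendsto_of_monotone (μ := volume)
      (f := fun (m : ℕ) x => ENNReal.ofReal (min |V x| m * u x ^ 2))
      (F := fun x => ENNReal.ofReal (|V x| * u x ^ 2))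
      (fun m => (im m).1.aemeasurable.ennreal_ofReal)
      (ae_of_all _ fun x a b hab => ENNReal.ofReal_le_ofReal (hmono x hab))
      (ae_of_all _ fun x => ENNReal.tendsto_ofReal (hlim x))
    refine lt_of_le_of_lt (le_of_tendsto' this fun m => ?_) (ENNReal.ofReal_lt_top (r := S))
    rw [← ofReal_integral_eq_lintegral_ofReal (im m)
      (ae_of_all _ fun x => mul_nonneg (w0 m x) (sq_nonneg _))]
    exact ENNReal.ofReal_le_ofReal (hm' m)
  refine ⟨hint.mono' (hm.aestronglyMeasurable.mul i0.1) (ae_of_all _ fun x => ?_),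
    le_of_tendsto' (integral_tendsto_of_tendsto_of_monotone im hint
      (ae_of_all _ hmono) (ae_of_all _ hlim)) hm'⟩
  rw [Real.norm_eq_abs, abs_mul, abs_of_nonneg (sq_nonneg (u x))]

theorem FB.h1 (h : FB V) {θ : ℝ} (hθ : 0 < θ) : ∃ C, 0 ≤ C ∧ ∀ u g, H1 u g →
    Integrable (fun x => V x * u x ^ 2) ∧
      ∫ x, |V x| * u x ^ 2 ≤ θ * (∑ k, ∫ x, g k x ^ 2) + C * ∫ x, u x ^ 2 := by
  obtain ⟨C, hC⟩ := h.2 θ hθ
  refine ⟨max C 0, le_max_right _ _, fun u g hu => LC_ext h.1 (fun ψ hψ => ⟨(hC ψ hψ).1, ?_⟩) hu⟩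
  have := mul_le_mul_of_nonneg_right (le_max_left C 0) (LC_s0 ψ)
  linarith [(hC ψ hψ).2]

lemma LC_bil (hm : Measurable V) (hu : AEStronglyMeasurable u volume)
    (hu' : AEStronglyMeasurable u' volume) (i : Integrable fun x => V x * u x ^ 2)
    (i' : Integrable fun x => V x * u' x ^ 2) : Integrable (fun x => V x * (u x * u' x)) ∧
      (∫ x, V x * (u x * u' x)) ^ 2 ≤ (∫ x, |V x| * u x ^ 2) * ∫ x, |V x| * u' x ^ 2 := by
  have j := LC_iabs i
  have j' := LC_iabs i'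
  have i1 : Integrable fun x => V x * (u x * u' x) := by
    refine (j.add j').mono' (hm.aestronglyMeasurable.mul (hu.mul hu')) (ae_of_all _ fun x => ?_)
    simp only [Real.norm_eq_abs, abs_mul, Pi.add_apply, ← mul_add]
    refine mul_le_mul_of_nonneg_left ?_ (abs_nonneg _)
    nlinarith [sq_nonneg (|u x| - |u' x|), sq_abs (u x), sq_abs (u' x),
      mul_nonneg (abs_nonneg (u x)) (abs_nonneg (u' x))]
  refine ⟨i1, ?_⟩
  have key := discrim_le_zero (a := ∫ x, |V x| * u x ^ 2) (b := 2 * ∫ x, V x * (u x * u' x))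
    (c := ∫ x, |V x| * u' x ^ 2) fun t => by
    have : 0 ≤ ∫ x, (t ^ 2 * (|V x| * u x ^ 2) + 2 * t * (V x * (u x * u' x)) +
        |V x| * u' x ^ 2) := integral_nonneg fun x => by
      rcases le_total 0 (V x) with h | h
      · simp only [abs_of_nonneg h, Pi.zero_apply]
        nlinarith [mul_nonneg h (sq_nonneg (t * u x + u' x))]
      · simp only [abs_of_nonpos h, Pi.zero_apply]
        nlinarith [mul_nonneg (neg_nonneg.2 h) (sq_nonneg (t * u x - u' x))]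
    have k : Integrable fun x => t ^ 2 * (|V x| * u x ^ 2) + 2 * t * (V x * (u x * u' x)) :=
      (j.const_mul _).add (i1.const_mul _)
    rw [integral_add k j',
      integral_add (j.const_mul _) (i1.const_mul _), integral_const_mul,
      integral_const_mul] at this
    linarith
  unfold discrim at key
  nlinarith

theorem FB.integrable (h : FB V) (hu : H1 u g) (hu' : H1 u' g') :
    Integrable fun x => V x * (u x * u' x) := by
  obtain ⟨C, -, hC⟩ := h.h1 one_pos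
  exact (LC_bil h.1 hu.1.1 hu'.1.1 (hC u g hu).1 (hC u' g' hu').1).1

theorem Small.h1 {ε : ℝ} (h : Small W ε) (hu : H1 u g) : Integrable (fun x => W x * u x ^ 2) ∧
    ∫ x, |W x| * u x ^ 2 ≤ ε * ((∑ k, ∫ x, g k x ^ 2) + ∫ x, u x ^ 2) := by
  simp only [mul_add]
  exact LC_ext h.1 (fun ψ hψ => by simpa only [mul_add] using h.2 ψ hψ) hu

theorem Small.bil {ε : ℝ} (h : Small W ε) (hu : H1 u g) (hu' : H1 u' g') :
    Integrable (fun x => W x * (u x * u' x)) ∧ (∫ x, W x * (u x * u' x)) ^ 2 ≤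
      ε ^ 2 * ((∑ k, ∫ x, g k x ^ 2) + ∫ x, u x ^ 2) *
        ((∑ k, ∫ x, g' k x ^ 2) + ∫ x, u' x ^ 2) := by
  obtain ⟨i, e⟩ := h.h1 hu
  obtain ⟨i', e'⟩ := h.h1 hu'
  obtain ⟨j, f⟩ := LC_bil h.1 hu.1.1 hu'.1.1 i i'
  refine ⟨j, f.trans ?_⟩
  have p : 0 ≤ ∫ x, |W x| * u x ^ 2 :=
    integral_nonneg fun x => mul_nonneg (abs_nonneg _) (sq_nonneg _)
  have p' : 0 ≤ ∫ x, |W x| * u' x ^ 2 :=
    integral_nonneg fun x => mul_nonneg (abs_nonneg _) (sq_nonneg _)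
  refine (mul_le_mul e e' p' (p.trans e)).trans (le_of_eq ?_)
  ring

lemma LC_sq0 {x y : ℕ → ℝ} (h : ∀ m, x m ^ 2 ≤ y m) (hy : Tendsto y atTop (𝓝 0)) :
    Tendsto x atTop (𝓝 0) := by
  have h1 : Tendsto (fun m => √(y m)) atTop (𝓝 0) := by
    simpa using hy.sqrt
  exact squeeze_zero_norm (fun m => Real.abs_le_sqrt (h m)) h1

lemma LC_tV (h : FB V) {a b : ℕ → Pt → ℝ} {ga gb : ℕ → Fin 3 → Pt → ℝ}
    (ha : ∀ m, H1 (a m) (ga m)) (hb : ∀ m, H1 (b m) (gb m)) (hu : H1 u g)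
    (l1 : L2T volume a u) (l2 : ∀ k, L2T volume (fun m => ga m k) (g k)) {S T : ℝ}
    (l3 : Tendsto (fun m => ∫ x, b m x ^ 2) atTop (𝓝 S))
    (l4 : Tendsto (fun m => ∑ k, ∫ x, gb m k x ^ 2) atTop (𝓝 T)) :
    Tendsto (fun m => ∫ x, V x * ((a m x - u x) * b m x)) atTop (𝓝 0) := by
  obtain ⟨C, -, hC⟩ := h.h1 one_pos
  have hd : ∀ m, H1 (fun x => a m x - u x) fun k x => ga m k x - g k x := fun m =>
    h1_iff.2 ((h1_iff.1 (ha m)).sub (h1_iff.1 hu))
  refine LC_sq0 (y := fun m => (1 * (∑ k, ∫ x, (ga m k x - g k x) ^ 2) +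
    C * ∫ x, (a m x - u x) ^ 2) * (1 * (∑ k, ∫ x, gb m k x ^ 2) + C * ∫ x, b m x ^ 2))
    (fun m => ?_) ?_
  · obtain ⟨i, e⟩ := hC _ _ (hd m)
    obtain ⟨i', e'⟩ := hC _ _ (hb m)
    have p : 0 ≤ ∫ x, |V x| * (a m x - u x) ^ 2 :=
      integral_nonneg fun x => mul_nonneg (abs_nonneg _) (sq_nonneg _)
    have p' : 0 ≤ ∫ x, |V x| * b m x ^ 2 :=
      integral_nonneg fun x => mul_nonneg (abs_nonneg _) (sq_nonneg _)
    exact (LC_bil h.1 (hd m).1.1 (hb m).1.1 i i').2.trans (mul_le_mul e e' p' (p.trans e))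
  · have t1 : Tendsto (fun m => ∑ k, ∫ x, (ga m k x - g k x) ^ 2) atTop (𝓝 (∑ _k : Fin 3, 0)) :=
      tendsto_finsetSum _ fun k _ => l2 k
    simpa using ((t1.const_mul 1).add (Tendsto.const_mul C l1)).mul
      ((l4.const_mul 1).add (l3.const_mul C))

/-- Continuity of the form along `H¹` convergent sequences. -/
theorem FB.tendsto (h : FB V) {a b : ℕ → Pt → ℝ} {ga gb : ℕ → Fin 3 → Pt → ℝ}
    (ha : ∀ m, H1 (a m) (ga m)) (hb : ∀ m, H1 (b m) (gb m)) (hu : H1 u g) (hu' : H1 u' g')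
    (l1 : L2T volume a u) (l2 : ∀ k, L2T volume (fun m => ga m k) (g k)) (l3 : L2T volume b u')
    (l4 : ∀ k, L2T volume (fun m => gb m k) (g' k)) :
    Tendsto (fun m => q1 V (a m) (ga m) (b m) (gb m)) atTop (𝓝 (q1 V u g u' g')) := by
  refine Tendsto.add (Tendsto.const_mul _ (tendsto_finsetSum _ fun k _ =>
    LC_tmul (fun m => ((ha m).2 k).1) (fun m => ((hb m).2 k).1) (hu.2 k).1 (hu'.2 k).1
      (l2 k) (l4 k))) ?_
  have t1 := LC_tV h ha hb hu l1 l2 (LC_tsq (fun m => (hb m).1) hu'.1 l3)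
    (tendsto_finsetSum _ fun k _ => LC_tsq (fun m => ((hb m).2 k).1) (hu'.2 k).1 (l4 k))
  have t2 := LC_tV h hb (b := fun _ => u) (gb := fun _ => g) (fun _ => hu) hu' l3 l4
    tendsto_const_nhds tendsto_const_nhds
  have t3 := (t1.add t2).add_const (∫ x, V x * (u x * u' x))
  rw [add_zero, zero_add] at t3
  refine t3.congr fun m => ?_
  have hd : H1 (fun x => a m x - u x) fun k x => ga m k x - g k x :=
    h1_iff.2 ((h1_iff.1 (ha m)).sub (h1_iff.1 hu))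
  have hd' : H1 (fun x => b m x - u' x) fun k x => gb m k x - g' k x :=
    h1_iff.2 ((h1_iff.1 (hb m)).sub (h1_iff.1 hu'))
  have i1 := h.integrable hd (hb m)
  have i2 := h.integrable hd' hu
  have i3 : Integrable fun x => V x * ((a m x - u x) * b m x) + V x * ((b m x - u' x) * u x) :=
    i1.add i2
  rw [← integral_add i1 i2, ← integral_add i3 (h.integrable hu hu')]
  exact integral_congr_ae (ae_of_all _ fun x => by simp only; ring)

lemma LC_l2c (u : Pt → ℝ) : L2T volume (fun _ => u) u := by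
  simp [L2T]

theorem Sol.h1 (h : Sol q s u g) (hq : FB q) (hu : H1 u g) (hs : MemLp s 2) (hu' : H1 u' g') :
    q1 q u g u' g' = ∫ x, s x * u' x := by
  obtain ⟨a, ha, l1, l2⟩ := LC_seq hu'
  have t1 := hq.tendsto (fun _ => hu) (fun m => C1c.h1 (ha m)) hu hu' (LC_l2c u)
    (fun k => LC_l2c (g k)) l1 l2
  have t2 := LC_tmul (fun _ => hs) (fun m => (C1c.h1 (ha m)).1) hs hu'.1 (LC_l2c s) l1
  exact tendsto_nhds_unique (t1.congr fun m => h _ (ha m)) t2

theorem Sub.h1 (h : Sub q τ u g) (hq : FB q) (hu : H1 u g) (hs : MemLp τ 2) (hu' : H1 u' g')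
    (h0 : ∀ᵐ x, 0 ≤ u' x) : q1 q u g u' g' ≤ ∫ x, τ x * u' x := by
  obtain ⟨a, ha, l1, l2⟩ := (h1_iff.1 hu').seq_nonneg LC_ek h0
  have hc : ∀ m, C1c (a m) := fun m => ⟨(ha m).1, (ha m).2.1⟩
  have t1 := hq.tendsto (fun _ => hu) (fun m => C1c.h1 (hc m)) hu hu' (LC_l2c u)
    (fun k => LC_l2c (g k)) l1 l2
  have t2 := LC_tmul (fun _ => hs) (fun m => (C1c.h1 (hc m)).1) hs hu'.1 (LC_l2c τ) l1
  exact le_of_tendsto_of_tendsto' t1 t2 fun m => h _ (hc m) (ha m).2.2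

/-- A lower bound with a bounded weight extends from the core. -/
theorem low_h1 (hV : FB V) {w : Pt → ℝ} (hw : Measurable w) {C c : ℝ} (hC : ∀ x, |w x| ≤ C)
    (h : ∀ ψ, C1c ψ → c * (∫ x, gsq ψ x) + ∫ x, w x * ψ x ^ 2 ≤ qV V ψ) (hu : H1 u g) :
    c * (∑ k, ∫ x, g k x ^ 2) + ∫ x, w x * u x ^ 2 ≤ q1 V u g u g := by
  obtain ⟨a, ha, l1, l2⟩ := LC_seq hu
  have t1 := hV.tendsto (fun m => C1c.h1 (ha m)) (fun m => C1c.h1 (ha m)) hu hu l1 l2 l1 l2
  have t2 := L2T.integral_mul (fun j => (C1c.h1 (ha j)).1) (fun j => (C1c.h1 (ha j)).1)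
    hu.1 hu.1 l1 l1 hw.aestronglyMeasurable hC
  simp only [← sq] at t2
  refine le_of_tendsto_of_tendsto' (((LC_tgsq ha hu l2).const_mul c).add t2) t1 fun m => ?_
  rw [q1_self (ha m)]
  exact h _ (ha m)

/-- Green identity against a `C²` function. -/
theorem H1.green (hu : H1 u g) {B : Pt → ℝ} (hB : ContDiff ℝ 2 B) (h1 : ∀ k, MemLp (pd k B) 2)
    (h2 : MemLp (lap B) 2) : ∑ k, ∫ x, pd k B x * g k x = -∫ x, lap B x * u x := by
  obtain ⟨a, ha, l1, l2⟩ := LC_seq hu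
  have t1 : Tendsto (fun m => ∑ k, ∫ x, pd k B x * gr1 (a m) k x) atTop
      (𝓝 (∑ k, ∫ x, pd k B x * g k x)) := tendsto_finsetSum _ fun k _ =>
    LC_tmul (fun _ => h1 k) (fun m => ((C1c.h1 (ha m)).2 k).1) (h1 k) (hu.2 k).1 (LC_l2c _) (l2 k)
  have t2 := (LC_tmul (fun _ => h2) (fun m => (C1c.h1 (ha m)).1) h2 hu.1 (LC_l2c _) l1).neg
  refine tendsto_nhds_unique (t1.congr fun m => ?_) t2
  have hp : ∀ k, ContDiff ℝ 1 (pd k B) := fun k => nw_contDiff_pd hB (by norm_num) k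
  have e : ∀ k, ∫ x, pd k B x * gr1 (a m) k x = -∫ x, pd k (pd k B) x * a m x := fun k => by
    have := integral_mul_pd (ha m) (hp k) k
    simp only [gr1, mul_comm (pd k B _), mul_comm (pd k (pd k B) _)]
    linarith
  simp only [e, Finset.sum_neg_distrib, lap, Finset.sum_mul]
  rw [integral_finsetSum _ fun k _ => ?_]
  exact ((nw_cont_pd (hp k) k).mul (ha m).1.continuous).integrable_of_hasCompactSupport
    (ha m).2.mul_left

/-- The weighted energy identity behind Caccioppoli, IMS and Agmon estimates. -/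
theorem q1_weight (hq : FB q) (hu : H1 u g) {w : Pt → ℝ} (hw : ContDiff ℝ 1 w) {C : ℝ}
    (h0 : ∀ x, |w x| ≤ C) (h1 : ∀ x k, |pd k w x| ≤ C) :
    q1 q u g (fun x => w x ^ 2 * u x) (fun k x => w x ^ 2 * g k x + 2 * w x * pd k w x * u x) =
      q1 q (fun x => w x * u x) (fun k x => w x * g k x + pd k w x * u x)
        (fun x => w x * u x) (fun k x => w x * g k x + pd k w x * u x) -
        1 / 2 * ∫ x, gsq w x * u x ^ 2 := by
  have _ := hq
  have hwu : H1 (fun x => w x * u x) fun k x => w x * g k x + pd k w x * u x :=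
    h1_iff.2 ((h1_iff.1 hu).mul LC_ek hw h0 h1)
  have i1 : ∀ k, Integrable fun x => (w x * g k x + pd k w x * u x) *
      (w x * g k x + pd k w x * u x) := fun k => LC_imul (hwu.2 k).1 (hwu.2 k).1
  have i2 : ∀ k, Integrable fun x => pd k w x ^ 2 * u x ^ 2 := fun k =>
    (LC_isq hu.1).bdd_mul (c := C ^ 2) ((nw_cont_pd hw k).pow 2).aestronglyMeasurable
      (ae_of_all _ fun x => by
        rw [Real.norm_eq_abs, abs_pow]; exact pow_le_pow_left₀ (abs_nonneg _) (h1 x k) 2)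
  have e1 : ∀ k, ∫ x, g k x * (w x ^ 2 * g k x + 2 * w x * pd k w x * u x) =
      (∫ x, (w x * g k x + pd k w x * u x) * (w x * g k x + pd k w x * u x)) -
        ∫ x, pd k w x ^ 2 * u x ^ 2 := fun k => by
    rw [← integral_sub (i1 k) (i2 k)]
    exact integral_congr_ae (ae_of_all _ fun x => by simp only; ring)
  have e2 : ∫ x, gsq w x * u x ^ 2 = ∑ k, ∫ x, pd k w x ^ 2 * u x ^ 2 := by
    simp only [gsq, Finset.sum_mul]
    exact integral_finsetSum _ fun k _ => i2 k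
  have e3 : ∫ x, q x * (u x * (w x ^ 2 * u x)) = ∫ x, q x * (w x * u x * (w x * u x)) :=
    integral_congr_ae (ae_of_all _ fun x => by simp only; ring)
  simp only [q1, e1, e2, e3, Finset.sum_sub_distrib]
  ring

end Vale.Agent.P363
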