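import Vale.Agent.P363.LDX1

/-! Library LD: Sobolev and Hardy inequalities, reflections, half spaces. -/

namespace Vale.Agent.P363

open MeasureTheory Vale.Agent.P370 Filter Topology
open scoped ContDiff

variable {V u : Pt → ℝ} {g : Fin 3 → Pt → ℝ}

lemma ld_eL {E : Type} [NormedAddCommGroup E] {f : Pt → E} (hf : MemLp f 2) :
    (eLpNorm f 2 volume).toReal ^ 2 = ∫ x, ‖f x‖ ^ 2 := by
  rw [hf.eLpNorm_eq_integral_rpow_norm two_ne_zero ENNReal.ofNat_ne_top,
    ENNReal.toReal_ofReal (by positivity), ENNReal.toReal_ofNat]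
  simp only [Real.rpow_two]
  exact_mod_cast Real.rpow_inv_natCast_pow (n := 2) (integral_nonneg fun _ => sq_nonneg _)
    two_ne_zero

lemma ld_norm (L : Pt →L[ℝ] ℝ) : ‖L‖ ^ 2 ≤ 3 * ∑ k, L (ek k) ^ 2 := by
  have h : ‖L‖ ≤ ∑ k, |L (ek k)| :=
    L.opNorm_le_bound (Finset.sum_nonneg fun _ _ => abs_nonneg _) fun y => by
      have e : y = ∑ k, y k • ek k := funext fun j => by
        simp [ek, Finset.sum_apply, Pi.single_apply]
      have e2 : L y = ∑ k, y k * L (ek k) := by
        conv_lhs => rw [e]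
        simp only [map_sum, map_smul, smul_eq_mul]
      rw [e2, Finset.sum_mul]
      refine (Finset.abs_sum_le_sum_abs _ _).trans (Finset.sum_le_sum fun k _ => ?_)
      rw [abs_mul, mul_comm]
      exact mul_le_mul_of_nonneg_left (norm_le_pi_norm y k) (abs_nonneg _)
  refine (pow_le_pow_left₀ (norm_nonneg _) h 2).trans ?_
  simp only [Fin.sum_univ_three]
  rw [← sq_abs (L (ek 0)), ← sq_abs (L (ek 1)), ← sq_abs (L (ek 2))]
  nlinarith [sq_nonneg (|L (ek 0)| - |L (ek 1)|), sq_nonneg (|L (ek 0)| - |L (ek 2)|),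
    sq_nonneg (|L (ek 1)| - |L (ek 2)|)]

lemma ld_gsq (h : C1c u) : ∫ x, gsq u x = ∑ k, ∫ x, gr1 u k x ^ 2 :=
  integral_finsetSum _ fun k _ => ((C1c.h1 h).2 k).1.integrable_sq

lemma ld_ht1 : ENNReal.HolderTriple 6 6 3 := ⟨by
  rw [← ENNReal.toReal_eq_toReal_iff' (by finiteness) (by finiteness),
    ENNReal.toReal_add (by finiteness) (by finiteness)]
  norm_num⟩

lemma ld_ht2 : ENNReal.HolderTriple (3 / 2) 3 1 := ⟨by
  have h : (3 / 2 : ENNReal) ≠ 0 := ENNReal.div_ne_zero.2 ⟨by norm_num, by norm_num⟩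
  rw [← ENNReal.toReal_eq_toReal_iff' (by finiteness) (by finiteness),
    ENNReal.toReal_add (by finiteness) (by finiteness)]
  norm_num⟩

lemma ld_sob : ∃ C : ℝ, 1 ≤ C ∧ ∀ (V u : Pt → ℝ), C1c u → MemLp V (3 / 2) →
    Integrable (fun x => |V x| * u x ^ 2) ∧ ∫ x, |V x| * u x ^ 2 ≤
      C * (eLpNorm V (3 / 2) volume).toReal * ∑ k, ∫ x, gr1 u k x ^ 2 := by
  obtain ⟨S, hS⟩ : ∃ S : NNReal, ∀ u : Pt → ℝ, C1c u →
      eLpNorm u 6 volume ≤ S * eLpNorm (fderiv ℝ u) 2 volume := ⟨_, fun u hu => by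
    have := eLpNorm_le_eLpNorm_fderiv_of_eq volume hu.1 hu.2 (p := 2) (p' := 6) one_le_two
      (by simp) (by simp; norm_num)
    simpa only [ENNReal.coe_ofNat] using this⟩
  refine ⟨max (3 * (S : ℝ) ^ 2) 1, le_max_right _ _, fun V u hu hV => ?_⟩
  have := ld_ht1
  have := ld_ht2
  have h6 : MemLp u 6 := hu.1.continuous.memLp_of_hasCompactSupport hu.2
  have hD : MemLp (fderiv ℝ u) 2 :=
    (hu.1.continuous_fderiv one_ne_zero).memLp_of_hasCompactSupport (hu.2.fderiv ℝ)
  have h3 : MemLp (u • u) 3 := h6.smul h6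
  have hi : Integrable (V • (u • u)) := memLp_one_iff_integrable.1 (h3.smul hV)
  have e : (fun x => |V x| * u x ^ 2) = fun x => ‖(V • (u • u)) x‖ := funext fun x => by
    simp [sq]
  rw [e]
  refine ⟨hi.norm, ?_⟩
  have h1 : eLpNorm (V • (u • u)) 1 volume ≤ eLpNorm V (3 / 2) volume *
      (S * eLpNorm (fderiv ℝ u) 2 volume * (S * eLpNorm (fderiv ℝ u) 2 volume)) :=
    (eLpNorm_smul_le_mul_eLpNorm (q := 3) h3.1 hV.1).trans (mul_le_mul_right
      ((eLpNorm_smul_le_mul_eLpNorm h6.1 h6.1).trans (mul_le_mul' (hS u hu) (hS u hu))) _)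
  have h2 := ENNReal.toReal_mono (by
    have := hV.2.ne
    have := hD.2.ne
    finiteness) h1
  rw [integral_norm_eq_lintegral_enorm hi.1, ← eLpNorm_one_eq_lintegral_enorm]
  refine h2.trans ?_
  have h4 : ∫ x, ‖fderiv ℝ u x‖ ^ 2 ≤ 3 * ∑ k, ∫ x, gr1 u k x ^ 2 := by
    rw [← ld_gsq hu, ← integral_const_mul]
    exact integral_mono (hD.integrable_norm_pow two_ne_zero) (hu.integrable_gsq.const_mul 3)
      fun x => ld_norm _
  rw [← ld_eL hD] at h4
  have h5 : 0 ≤ ∑ k, ∫ x, gr1 u k x ^ 2 :=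
    Finset.sum_nonneg fun _ _ => integral_nonneg fun _ => sq_nonneg _
  simp only [ENNReal.toReal_mul, ENNReal.coe_toReal]
  have h7 := mul_le_mul_of_nonneg_left h4 (sq_nonneg (S : ℝ))
  have h8 := mul_le_mul_of_nonneg_right (le_max_left (3 * (S : ℝ) ^ 2) 1) h5
  have h9 : 0 ≤ (eLpNorm V (3 / 2) volume).toReal := ENNReal.toReal_nonneg
  nlinarith [mul_le_mul_of_nonneg_left h7 h9, mul_le_mul_of_nonneg_left h8 h9]

/-- Sobolev and Hoelder (`eLpNorm_le_eLpNorm_fderiv_of_eq`). -/
theorem sobolev : ∃ C : ℝ, 1 ≤ C ∧ ∀ (V u : Pt → ℝ) (g : Fin 3 → Pt → ℝ), H1 u g → MemLp V (3 / 2) →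
    Integrable (fun x => V x * u x ^ 2) ∧
      ∫ x, |V x| * u x ^ 2 ≤ C * (eLpNorm V (3 / 2) volume).toReal * ∑ k, ∫ x, g k x ^ 2 := by
  obtain ⟨C, hC, H⟩ := ld_sob
  refine ⟨C, hC, fun V u g h hV => ?_⟩
  obtain ⟨a, ha, l, l'⟩ := WD.seq (h1_iff.1 h) ld_hv
  have h1 : ∀ m, H1 (a m) (gr1 (a m)) := fun m => C1c.h1 (ha m)
  have := ld_ext (w := fun x => |V x|) hV.1.norm (fun x => abs_nonneg _) (fun m => (h1 m).1) h.1 l
    (fun m => (H V _ (ha m) hV).1) (fun m => (H V _ (ha m) hV).2)
    ((tendsto_finsetSum _ fun k _ =>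
      ld_sq (fun m => ((h1 m).2 k).1) (h.2 k).1 (l' k)).const_mul _)
  refine ⟨this.1.mono' (hV.1.mul h.1.integrable_sq.1) (Eventually.of_forall fun x => ?_), this.2⟩
  rw [Real.norm_eq_abs, abs_mul, abs_sq]

/-- A measurable potential of the class is infinitesimally form bounded (truncate the first
part). -/
theorem InV.fb (h : InV V) (hm : Measurable V) : FB V := by
  obtain ⟨v₁, v₂, h1, h2, e⟩ := h
  obtain ⟨C, hC, H⟩ := ld_sob
  refine ⟨hm, fun θ hθ => ?_⟩
  have hθ' : 0 < θ / C := by positivity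
  obtain ⟨w, hw, hw1, hw2, hw3⟩ := h1.exists_hasCompactSupport_eLpNorm_sub_le (by finiteness)
    (ε := ENNReal.ofReal (θ / C)) (by simpa using hθ')
  obtain ⟨B, hB⟩ := hw.exists_bound_of_continuous hw2
  refine ⟨B + (eLpNorm v₂ ⊤ volume).toReal, fun ψ hψ => ?_⟩
  obtain ⟨i1, b1⟩ := H _ ψ hψ (h1.sub hw3)
  have i2 := (C1c.h1 hψ).1.integrable_sq
  have hb : ∀ᵐ x, |V x| * ψ x ^ 2 ≤ |(v₁ - w) x| * ψ x ^ 2 +
      (B + (eLpNorm v₂ ⊤ volume).toReal) * ψ x ^ 2 := by
    filter_upwards [ae_le_eLpNormEssSup (f := v₂) (μ := volume)] with x hx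
    have h3 : |v₂ x| ≤ (eLpNorm v₂ ⊤ volume).toReal := by
      have := ENNReal.toReal_mono h2.2.ne hx
      simpa using this
    rw [← add_mul]
    refine mul_le_mul_of_nonneg_right ?_ (sq_nonneg _)
    have h4 : V x = (v₁ - w) x + (w x + v₂ x) := by rw [e, Pi.sub_apply]; ring
    rw [h4]
    exact (abs_add_le _ _).trans (add_le_add_right ((abs_add_le _ _).trans
      (add_le_add (hB x) h3)) _)
  have i3 := i1.add (i2.const_mul (B + (eLpNorm v₂ ⊤ volume).toReal))
  refine ⟨i3.mono' (hm.aestronglyMeasurable.mul i2.1) (hb.mono fun x hx => ?_), ?_⟩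
  · rwa [Real.norm_eq_abs, abs_mul, abs_sq]
  refine (integral_mono_of_nonneg (Eventually.of_forall fun x => by positivity) i3 hb).trans ?_
  simp only [Pi.add_apply]
  rw [integral_add i1 (i2.const_mul _), integral_const_mul, ld_gsq hψ]
  refine add_le_add_left (b1.trans (mul_le_mul_of_nonneg_right ?_
    (Finset.sum_nonneg fun _ _ => integral_nonneg fun _ => sq_nonneg _))) _
  rw [mul_comm, ← le_div_iff₀ (by linarith)]
  exact ENNReal.toReal_le_of_le_ofReal hθ'.le hw1

/-- Hardy inequality in three dimensions (vector field `(x - c) / (|x - c| ^ 2 + ε)`). -/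
theorem H1.hardy (h : H1 u g) (c : Pt) : Integrable (fun x => P370.ker (x - c) ^ 2 * u x ^ 2) ∧
    ∫ x, P370.ker (x - c) ^ 2 * u x ^ 2 ≤ 4 * ∑ k, ∫ x, g k x ^ 2 := by
  have he : ∀ n : ℕ, (0 : ℝ) < 1 / ((n : ℝ) + 1) := fun n => by positivity
  refine ld_fatou (c := fun _ => 4 * ∑ k, ∫ x, g k x ^ 2)
    (fun n => (ld_hardy_reg h c (he n)).1)
    (fun n x => mul_nonneg (inv_pos.2 (nwQ_pos (he n) c x)).le (sq_nonneg _))
    (fun n => (ld_hardy_reg h c (he n)).2) tendsto_const_nhds ?_
  filter_upwards [nw_ae_ne c] with x hx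
  have h1 : 0 < nrm (c - x) := nrm_pos (sub_ne_zero.2 hx.symm)
  have h2 := (((tendsto_const_nhds (x := nrm (c - x) ^ 2)).add ld_seq).inv₀
    (by simpa using h1.ne')).mul_const (u x ^ 2)
  simp only [nwQ_eq]
  rw [add_zero, ← inv_pow] at h2
  rw [ker_sub_comm]
  exact h2

lemma ld_rf_apply (i j : Fin 3) (x : Pt) : rf i x j = if j = i then -x j else x j := by
  by_cases hj : j = i
  · subst hj; simp [rf]
  · simp [rf, hj]

theorem mp_rf (i : Fin 3) : MeasurePreserving (rf i) volume volume := by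
  have h : rf i = fun x j => (fun (j : Fin 3) (t : ℝ) => if j = i then -t else t) j (x j) :=
    funext fun x => funext fun j => ld_rf_apply i j x
  rw [h]
  refine volume_preserving_pi (f := fun (j : Fin 3) (t : ℝ) => if j = i then -t else t)
    fun j => ?_
  by_cases hj : j = i
  · simp only [hj, if_true]; exact Measure.measurePreserving_neg volume
  · simp only [hj, if_false]; exact MeasurePreserving.id volume

/-- The reflection as a linear equivalence. -/
noncomputable def ldR (i : Fin 3) : Pt ≃L[ℝ] Pt :=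
  (LinearEquiv.ofInvolutive
    ({ toFun := rf i
       map_add' := fun x y => funext fun j => by
         simp only [ld_rf_apply, Pi.add_apply]; split_ifs <;> ring
       map_smul' := fun c x => funext fun j => by
         simp only [ld_rf_apply, Pi.smul_apply, smul_eq_mul, RingHom.id_apply]
         split_ifs <;> ring } : Pt →ₗ[ℝ] Pt)
    fun x => funext fun j => by
      change rf i (rf i x) j = x j
      simp only [ld_rf_apply]; split_ifs <;> ring).toContinuousLinearEquiv

theorem H1.rf (h : H1 u g) (i : Fin 3) :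
    H1 (fun x => u (rf i x)) fun k x => (if k = i then -1 else 1) * g k (rf i x) :=
  WD.comp_equiv (h1_iff.1 h) (ldR i) (mp_rf i) (σ := id) (e := fun k => if k = i then -1 else 1)
    fun k => funext fun j => by
      change P363.rf i (ek k) j = _
      simp only [ld_rf_apply, ek, Pi.smul_apply, id, Pi.single_apply, smul_eq_mul]
      split_ifs <;> simp_all

/-- A `C¹` function with compact support that vanishes on a plane. -/
theorem C1c.hardy_plane (h : C1c u) {i : Fin 3} (h0 : ∀ x, x i = 0 → u x = 0) :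
    Integrable fun x => u x ^ 2 / x i ^ 2 := by
  obtain ⟨L, hL⟩ := h.1.lipschitzWith_of_hasCompactSupport h.2 one_ne_zero
  have hb : ∀ x, |u x| ≤ L * |x i| := fun x => by
    have h1 := hL.dist_le_mul x (Function.update x i 0)
    rw [h0 (Function.update x i 0) (by simp), Real.dist_eq, sub_zero] at h1
    refine h1.trans (mul_le_mul_of_nonneg_left ?_ L.2)
    refine (dist_pi_le_iff (abs_nonneg _)).2 fun j => ?_
    by_cases hj : j = i
    · subst hj; simp
    · simp [hj]
  have hi : Integrable ((tsupport u).indicator fun _ => (L : ℝ) ^ 2) :=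
    (integrable_indicator_iff (isClosed_tsupport u).measurableSet).2
      (integrableOn_const h.2.isCompact.measure_lt_top.ne)
  have hm : Measurable u := h.1.continuous.measurable
  refine hi.mono' (Measurable.aestronglyMeasurable (by fun_prop))
    (Eventually.of_forall fun x => ?_)
  rw [Real.norm_eq_abs, abs_of_nonneg (by positivity)]
  by_cases hx : x ∈ tsupport u
  · rw [Set.indicator_of_mem hx]
    refine div_le_of_le_mul₀ (sq_nonneg _) (sq_nonneg _) ?_
    rw [← mul_pow, ← sq_abs (u x), ← sq_abs (L * x i), abs_mul, NNReal.abs_eq]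
    exact pow_le_pow_left₀ (abs_nonneg _) (hb x) 2
  · rw [Set.indicator_of_notMem hx, image_eq_zero_of_notMem_tsupport hx]; simp

lemma ld_avg {a : Pt → ℝ} (ha : MemLp a 2) (i : Fin 3) {s : ℝ} (hs : s ^ 2 = 1) :
    ∫ x, (1 / 2 * (a x - s * a (rf i x))) ^ 2 ≤ ∫ x, a x ^ 2 := by
  have hb : MemLp (fun x => a (rf i x)) 2 := ha.comp_measurePreserving (mp_rf i)
  have e : ∫ x, a (rf i x) ^ 2 = ∫ x, a x ^ 2 :=
    (mp_rf i).integral_comp (ldR i).toHomeomorph.measurableEmbedding fun x => a x ^ 2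
  have := integral_mono ((ha.sub (hb.const_mul s)).const_mul (1 / 2)).integrable_sq
    ((ha.integrable_sq.add hb.integrable_sq).const_mul (1 / 2)) fun x => by
      simp only [Pi.add_apply, Pi.sub_apply]
      have : (s * a (rf i x)) ^ 2 = a (rf i x) ^ 2 := by rw [mul_pow, hs, one_mul]
      nlinarith [sq_nonneg (a x + s * a (rf i x))]
  simp only [Pi.add_apply, Pi.sub_apply] at this
  rw [integral_const_mul, integral_add ha.integrable_sq hb.integrable_sq, e] at this
  linarith

/-- Hardy inequality for odd functions (odd approximants vanish on the plane). -/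
theorem H1.hardy_odd (h : H1 u g) {i : Fin 3} (ho : ∀ᵐ x, u (P363.rf i x) = -u x) :
    Integrable (fun x => u x ^ 2 / x i ^ 2) ∧ ∫ x, u x ^ 2 / x i ^ 2 ≤ 4 * ∫ x, g i x ^ 2 := by
  obtain ⟨a, ha, l, l'⟩ := WD.seq (h1_iff.1 h) ld_hv
  have h1 : ∀ m, H1 (a m) (gr1 (a m)) := fun m => C1c.h1 (ha m)
  have hw : ∀ m, H1 (fun x => 1 / 2 * (a m x - a m (P363.rf i x))) fun k x =>
      1 / 2 * (gr1 (a m) k x - (if k = i then -1 else 1) * gr1 (a m) k (P363.rf i x)) := fun m =>
    (WD.sub (h1_iff.1 (h1 m)) (h1_iff.1 ((h1 m).rf i))).smul _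
  have hc : ∀ m, C1c fun x => 1 / 2 * (a m x - a m (P363.rf i x)) := fun m =>
    ⟨contDiff_const.mul ((ha m).1.sub ((ha m).1.comp (ldR i).contDiff)),
      ((ha m).2.sub ((ha m).2.comp_homeomorph (ldR i).toHomeomorph)).mul_left⟩
  have hp := fun m => C1c.hardy_plane (hc m) (i := i) fun x hx => by
    have : P363.rf i x = x := funext fun j => by
      rw [ld_rf_apply]; split_ifs with hj
      · rw [hj, hx, neg_zero]
      · rfl
    rw [this, sub_self, mul_zero]
  have e : ∀ (w : ℝ) (x : Pt), w ^ 2 / x i ^ 2 = (x i ^ 2)⁻¹ * w ^ 2 := fun w x => by ring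
  simp only [e]
  refine ld_ext (c := fun m => 4 * ∫ x, gr1 (a m) i x ^ 2)
    (Measurable.aestronglyMeasurable (by fun_prop)) (fun x => by positivity) (fun m => (hw m).1)
    h.1 ?_ (fun m => by simpa only [e] using hp m) (fun m => ?_)
    ((ld_sq (fun m => ((h1 m).2 i).1) (h.2 i).1 (l' i)).const_mul 4)
  · refine squeeze_zero (fun m => integral_nonneg fun x => sq_nonneg _) (fun m => ?_) l
    refine le_trans (le_of_eq (integral_congr_ae ?_)) (ld_avg ((h1 m).1.sub h.1) i (one_pow 2))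
    filter_upwards [ho] with x hx
    simp only [Pi.sub_apply, hx]
    ring
  · have := ld_line (hw m) (hp m)
    simp only [e, if_true] at this
    exact this.trans (mul_le_mul_of_nonneg_left (ld_avg ((h1 m).2 i).1 i (by norm_num))
      (by norm_num))

lemma ld_st : ∃ M : ℝ, 1 ≤ M ∧ (∀ r, |deriv Real.smoothTransition r| ≤ M) ∧
    ∀ r, r ≤ 0 ∨ 1 ≤ r → deriv Real.smoothTransition r = 0 := by
  have h0 : ∀ r, r ≤ 0 ∨ 1 ≤ r → deriv Real.smoothTransition r = 0 := by
    rintro r (hr | hr)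
    · refine IsLocalMin.deriv_eq_zero (Eventually.of_forall fun t => ?_)
      rw [Real.smoothTransition.zero_of_nonpos hr]; exact Real.smoothTransition.nonneg t
    · refine IsLocalMax.deriv_eq_zero (Eventually.of_forall fun t => ?_)
      rw [Real.smoothTransition.one_of_one_le hr]; exact Real.smoothTransition.le_one t
  obtain ⟨C, hC⟩ := (isCompact_Icc (a := (0 : ℝ)) (b := 1)).exists_bound_of_continuousOn
    ((Real.smoothTransition.contDiff (n := 1)).continuous_deriv le_rfl).continuousOn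
  refine ⟨max C 1, le_max_right _ _, fun r => ?_, h0⟩
  by_cases hr : r ∈ Set.Icc (0 : ℝ) 1
  · exact (hC r hr).trans (le_max_left _ _)
  · rw [h0 r (by
      by_contra hh
      push Not at hh
      exact hr ⟨hh.1.le, hh.2.le⟩), abs_zero]
    positivity

lemma ld_st_abs (r : ℝ) : |Real.smoothTransition r| ≤ 1 := by
  rw [abs_of_nonneg (Real.smoothTransition.nonneg r)]; exact Real.smoothTransition.le_one r

lemma ld_dom {a : ℕ → Pt → ℝ} {f B : Pt → ℝ} (ha : ∀ n, MemLp (a n) 2) (hf : MemLp f 2)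
    (hB : Integrable B) (hle : ∀ n x, (a n x - f x) ^ 2 ≤ B x)
    (hl : ∀ x, ∀ᶠ n in atTop, a n x = f x) : L2T volume a f := by
  have := tendsto_integral_of_dominated_convergence (F := fun n x => (a n x - f x) ^ 2)
    (f := fun _ => 0) B (fun n => ((ha n).sub hf).integrable_sq.1) hB
    (fun n => Eventually.of_forall fun x => by
      rw [Real.norm_eq_abs, abs_of_nonneg (sq_nonneg _)]; exact hle n x)
    (Eventually.of_forall fun x => tendsto_const_nhds.congr' ((hl x).mono fun n hn => by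
      simp [hn]))
  rwa [integral_zero] at this

/-- Functions that vanish on a plane in the sense of Hardy can be cut along it (multiply by
`st (x i / ε - 1)`, dominated convergence). -/
theorem H1.half (h : H1 u g) {i : Fin 3} (hi : Integrable fun x => u x ^ 2 / x i ^ 2) :
    H1 ({x : Pt | 0 < x i}.indicator u) fun k => {x : Pt | 0 < x i}.indicator (g k) := by
  obtain ⟨M, hM, hb, h0⟩ := ld_st
  have hd : ∀ (n : ℕ) (x : Pt) k, fderiv ℝ (fun y : Pt => Real.smoothTransition (n * y i)) x (ek k)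
      = if k = i then deriv Real.smoothTransition (n * x i) * n else 0 := fun n x k =>
    ld_pd (φ := fun t => Real.smoothTransition (n * t))
      ((((Real.smoothTransition.contDiff (n := 1)).differentiable one_ne_zero
        (n * x i)).hasDerivAt).comp (x i) (hasDerivAt_const_mul (n : ℝ))) k
  have hw := fun n : ℕ => WD.mul (h1_iff.1 h) ld_hv
    (b := fun y : Pt => Real.smoothTransition (n * y i))
    (Real.smoothTransition.contDiff.comp (contDiff_const.mul (contDiff_apply ℝ ℝ i)))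
    (C := 1 + M * n) (fun x => (ld_st_abs _).trans (le_add_of_nonneg_right (by positivity)))
    fun x k => by
      rw [hd]
      split_ifs
      · rw [abs_mul, Nat.abs_cast]
        linarith [mul_le_mul_of_nonneg_right (hb (n * x i)) n.cast_nonneg]
      · rw [abs_zero]; positivity
  have hS : MeasurableSet {x : Pt | 0 < x i} :=
    (isOpen_lt continuous_const (continuous_apply i)).measurableSet
  have hs : ∀ (n : ℕ) (x : Pt) (w : Pt → ℝ), (Real.smoothTransition (n * x i) * w x -
      {x : Pt | 0 < x i}.indicator w x) ^ 2 ≤ w x ^ 2 := fun n x w => by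
    have h1 := Real.smoothTransition.nonneg (n * x i)
    have h2 := Real.smoothTransition.le_one (n * x i)
    have h3 := sq_nonneg (w x)
    by_cases hx : x ∈ {x : Pt | 0 < x i}
    · rw [Set.indicator_of_mem hx]
      nlinarith [mul_nonneg h1 h3, mul_nonneg (mul_nonneg h1 h3) (sub_nonneg.2 h2)]
    · rw [Set.indicator_of_notMem hx]
      nlinarith [mul_nonneg (mul_nonneg h1 h3) (sub_nonneg.2 h2), mul_nonneg h3 (sub_nonneg.2 h2)]
  have hev : ∀ x : Pt, ∀ᶠ n : ℕ in atTop, (∀ w : Pt → ℝ, Real.smoothTransition (n * x i) * w x =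
      {x : Pt | 0 < x i}.indicator w x) ∧ deriv Real.smoothTransition (n * x i) = 0 := fun x => by
    by_cases hx : x ∈ {x : Pt | 0 < x i}
    · have hx' : 0 < x i := hx
      filter_upwards [((tendsto_natCast_atTop_atTop (R := ℝ)).atTop_mul_const
        hx').eventually_ge_atTop 1] with n hn
      exact ⟨fun w => by
        rw [Set.indicator_of_mem hx, Real.smoothTransition.one_of_one_le hn, one_mul],
        h0 _ (Or.inr hn)⟩
    · refine Eventually.of_forall fun n => ?_
      have hn : (n : ℝ) * x i ≤ 0 := mul_nonpos_of_nonneg_of_nonpos n.cast_nonneg (not_lt.1 hx)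
      exact ⟨fun w => by
        rw [Set.indicator_of_notMem hx, Real.smoothTransition.zero_of_nonpos hn, zero_mul],
        h0 _ (Or.inl hn)⟩
  refine WD.limit hw (h.1.indicator hS) (fun k => (h.2 k).1.indicator hS)
    (ld_dom (fun n => (hw n).1) (h.1.indicator hS) h.1.integrable_sq (fun n x => hs n x u)
      fun x => (hev x).mono fun n hn => hn.1 u) fun k => ?_
  refine ld_dom (fun n => ((hw n).2 k).1) ((h.2 k).1.indicator hS)
    (((h.2 k).1.integrable_sq.const_mul 2).add (hi.const_mul (2 * M ^ 2))) (fun n x => ?_)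
    fun x => (hev x).mono fun n hn => by simp only [hd, hn.1, hn.2]; simp
  have h1 : (fderiv ℝ (fun y : Pt => Real.smoothTransition (n * y i)) x (ek k) * u x) ^ 2 ≤
      M ^ 2 * (u x ^ 2 / x i ^ 2) := by
    rw [hd]
    by_cases hx : (n : ℝ) * x i ≤ 0 ∨ 1 ≤ (n : ℝ) * x i
    · rw [h0 _ hx]; simp only [zero_mul, ite_self, zero_pow two_ne_zero]; positivity
    · push Not at hx
      split_ifs
      · have h2 : x i ≠ 0 := fun e => by simp [e] at hx
        have h3 : (n : ℝ) ^ 2 * u x ^ 2 ≤ u x ^ 2 / x i ^ 2 := by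
          rw [le_div_iff₀ (by positivity)]
          have : ((n : ℝ) * x i) ^ 2 ≤ 1 := pow_le_one₀ hx.1.le hx.2.le
          nlinarith [mul_le_mul_of_nonneg_left this (sq_nonneg (u x))]
        rw [mul_assoc, mul_pow, mul_pow]
        exact mul_le_mul (sq_le_sq' (abs_le.1 (hb _)).1 (abs_le.1 (hb _)).2) h3 (by positivity)
          (by positivity)
      · simp only [zero_mul, zero_pow two_ne_zero]; positivity
  have h2 := hs n x (g k)
  simp only [Pi.add_apply]
  nlinarith [sq_nonneg (Real.smoothTransition (n * x i) * g k x -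
    {x : Pt | 0 < x i}.indicator (g k) x -
    fderiv ℝ (fun y : Pt => Real.smoothTransition (n * y i)) x (ek k) * u x)]

theorem H1.quad (h : H1 u g) (hi : ∀ i : Fin 3, i ≠ 2 → Integrable fun x => u x ^ 2 / x i ^ 2) :
    H1 (Qd.indicator u) fun k => Qd.indicator (g k) := by
  have h1 := h.half (hi 1 (by decide))
  have h2 := h1.half (i := 0) ((hi 0 (by decide)).mono'
    (h1.1.integrable_sq.1.aemeasurable.div
      (Measurable.aemeasurable (by fun_prop))).aestronglyMeasurable
    (Eventually.of_forall fun x => by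
      rw [Real.norm_eq_abs, abs_of_nonneg (by positivity)]
      refine div_le_div_of_nonneg_right ?_ (sq_nonneg _)
      by_cases hx : x ∈ {x : Pt | 0 < x 1}
      · rw [Set.indicator_of_mem hx]
      · rw [Set.indicator_of_notMem hx]; nlinarith [sq_nonneg (u x)]))
  simp only [Set.indicator_indicator] at h2
  exact h2

/-- Cutting across a shell on which the function vanishes. -/
theorem H1.ext (h : H1 u g) {r₁ r₂ : ℝ} (h0 : 0 < r₁) (hr : r₁ < r₂)
    (e : ∀ᵐ x, r₁ ≤ nrm x → nrm x ≤ r₂ → u x = 0) :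
    H1 ({x | r₁ ≤ nrm x}.indicator u) fun k => {x | r₁ ≤ nrm x}.indicator (g k) := by
  have hsq : ∀ x : Pt, ∑ k, x k ^ 2 = nrm x ^ 2 := fun x =>
    (Real.sq_sqrt (Finset.sum_nonneg fun _ _ => sq_nonneg _)).symm
  have hd : 0 < r₂ ^ 2 - r₁ ^ 2 := by nlinarith
  set χ : Pt → ℝ := fun x => Real.smoothTransition ((∑ k, x k ^ 2 - r₁ ^ 2) / (r₂ ^ 2 - r₁ ^ 2))
  have hχ : ContDiff ℝ 1 χ := Real.smoothTransition.contDiff.comp (by fun_prop)
  have z0 : ∀ x, nrm x ≤ r₁ → χ x = 0 ∧ fderiv ℝ χ x = 0 := fun x hx => by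
    have h1 : χ x = 0 := Real.smoothTransition.zero_of_nonpos (div_nonpos_of_nonpos_of_nonneg
      (by rw [hsq]; nlinarith [nrm_nonneg x]) hd.le)
    exact ⟨h1, IsLocalMin.fderiv_eq_zero (Eventually.of_forall fun t => by
      rw [h1]; exact Real.smoothTransition.nonneg _)⟩
  have z1 : ∀ x, r₂ ≤ nrm x → χ x = 1 ∧ fderiv ℝ χ x = 0 := fun x hx => by
    have h1 : χ x = 1 := Real.smoothTransition.one_of_one_le ((one_le_div hd).2
      (by rw [hsq]; nlinarith))
    exact ⟨h1, IsLocalMax.fderiv_eq_zero (Eventually.of_forall fun t => by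
      rw [h1]; exact Real.smoothTransition.le_one _)⟩
  obtain ⟨C, hC⟩ := (isCompact_closedBall (0 : Pt) r₂).exists_bound_of_continuousOn
    (hχ.continuous_fderiv one_ne_zero).continuousOn
  have hc := WD.cut (h1_iff.1 h) ld_hv (O := {x | r₁ < nrm x}) (W := {x | r₁ < nrm x ∧ nrm x < r₂})
    (isOpen_lt continuous_const continuous_nrm).measurableSet
    ((isOpen_lt continuous_const continuous_nrm).inter (isOpen_lt continuous_nrm continuous_const))
    (e.mono fun x hx hW => hx hW.1.le hW.2.le) hχ (C := max C 1)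
    (fun x => (ld_st_abs _).trans (le_max_right _ _)) (fun x k => by
      by_cases hx : r₂ ≤ nrm x
      · rw [(z1 x hx).2]; simp
      · have h1 := hC x (mem_closedBall_zero_iff.2 ((norm_le_nrm x).trans (not_le.1 hx).le))
        have h2 := (fderiv ℝ χ x).le_opNorm (ek k)
        rw [nw_norm_ek, mul_one] at h2
        exact (h2.trans h1).trans (le_max_left _ _))
    fun x hx => by
      by_cases h1 : r₁ < nrm x
      · rw [Set.indicator_of_mem (show x ∈ {x | r₁ < nrm x} from h1)]
        exact z1 x (not_lt.1 fun h2 => hx ⟨h1, h2⟩)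
      · rw [Set.indicator_of_notMem (show x ∉ {x | r₁ < nrm x} from h1)]
        exact z0 x (not_lt.1 h1)
  have hn : ∀ᵐ x : Pt, nrm x ≠ r₁ := by
    have := (PiLp.volume_preserving_toLp (Fin 3)).quasiMeasurePreserving.ae
      (measure_eq_zero_iff_ae_notMem.1
        (Measure.addHaar_sphere volume (0 : EuclideanSpace ℝ (Fin 3)) r₁))
    refine this.mono fun x hx => ?_
    rwa [mem_sphere_zero_iff_norm, ← nrm_eq] at hx
  have he : ∀ w : Pt → ℝ, {x | r₁ < nrm x}.indicator w =ᵐ[volume] {x | r₁ ≤ nrm x}.indicator w :=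
    fun w => hn.mono fun x hx => by
      simp only [Set.indicator, Set.mem_ofPred_eq, lt_iff_le_and_ne, hx.symm, ne_eq,
        not_false_eq_true, and_true]
  exact hc.congr (he u) fun k => he (g k)

end Vale.Agent.P363
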