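import Vale.Agent.P363.LC

/-! Tools for library LD: Fatou lemma, extension of weighted bounds, vector fields. -/

namespace Vale.Agent.P363

open MeasureTheory Vale.Agent.P370 Filter Topology
open scoped ContDiff

variable {V u : Pt → ℝ} {g : Fin 3 → Pt → ℝ}

lemma ld_fatou {F : ℕ → Pt → ℝ} {f : Pt → ℝ} {c : ℕ → ℝ} {C : ℝ} (hF : ∀ n, Integrable (F n))
    (h0 : ∀ n x, 0 ≤ F n x) (hc : ∀ n, ∫ x, F n x ≤ c n) (hC : Tendsto c atTop (𝓝 C))
    (hl : ∀ᵐ x, Tendsto (fun n => F n x) atTop (𝓝 (f x))) : Integrable f ∧ ∫ x, f x ≤ C := by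
  have hm : AEStronglyMeasurable f :=
    aestronglyMeasurable_of_tendsto_ae atTop (fun n => (hF n).1) hl
  have hf0 : 0 ≤ᵐ[volume] f := hl.mono fun x hx => ge_of_tendsto' hx fun n => h0 n x
  have hC0 : 0 ≤ C := ge_of_tendsto' hC fun n => (integral_nonneg (h0 n)).trans (hc n)
  have key : ∫⁻ x, ENNReal.ofReal (f x) ≤ ENNReal.ofReal C :=
    calc ∫⁻ x, ENNReal.ofReal (f x)
        = ∫⁻ x, liminf (fun n => ENNReal.ofReal (F n x)) atTop :=
          lintegral_congr_ae (hl.mono fun x hx =>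
            ((ENNReal.continuous_ofReal.tendsto _).comp hx).liminf_eq.symm)
      _ ≤ liminf (fun n => ∫⁻ x, ENNReal.ofReal (F n x)) atTop :=
          lintegral_liminf_le' fun n => (hF n).1.aemeasurable.ennreal_ofReal
      _ ≤ liminf (fun n => ENNReal.ofReal (c n)) atTop := by
          refine liminf_le_liminf (Eventually.of_forall fun n => ?_)
          rw [← ofReal_integral_eq_lintegral_ofReal (hF n) (Eventually.of_forall (h0 n))]
          exact ENNReal.ofReal_le_ofReal (hc n)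
      _ = ENNReal.ofReal C := ((ENNReal.continuous_ofReal.tendsto _).comp hC).liminf_eq
  refine ⟨⟨hm, (hasFiniteIntegral_iff_ofReal hf0).2 (key.trans_lt ENNReal.ofReal_lt_top)⟩, ?_⟩
  rw [integral_eq_lintegral_of_nonneg_ae hf0 hm]
  exact ENNReal.toReal_le_of_le_ofReal hC0 key

lemma ld_int {a b w : Pt → ℝ} (ha : MemLp a 2) (hb : MemLp b 2) (hw : AEStronglyMeasurable w)
    {C : ℝ} (hC : ∀ x, |w x| ≤ C) : Integrable fun x => w x * (a x * b x) :=
  (ha.integrable_mul hb).bdd_mul hw (Eventually.of_forall hC)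

lemma ld_int2 {a w : Pt → ℝ} (ha : MemLp a 2) (hw : AEStronglyMeasurable w)
    {C : ℝ} (hC : ∀ x, |w x| ≤ C) : Integrable fun x => w x * a x ^ 2 :=
  ha.integrable_sq.bdd_mul hw (Eventually.of_forall hC)

lemma ld_sq {a : ℕ → Pt → ℝ} (ha : ∀ m, MemLp (a m) 2) (hu : MemLp u 2) (l : L2T volume a u) :
    Tendsto (fun m => ∫ x, a m x ^ 2) atTop (𝓝 (∫ x, u x ^ 2)) := by
  have := L2T.integral_mul ha ha hu hu l l (b := fun _ => 1) aestronglyMeasurable_const
    (C := 1) (fun _ => by simp)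
  simpa only [one_mul, sq] using this

lemma ld_ext {w : Pt → ℝ} (hw : AEStronglyMeasurable w) (h0 : ∀ x, 0 ≤ w x) {a : ℕ → Pt → ℝ}
    (ha : ∀ m, MemLp (a m) 2) (hu : MemLp u 2) (l : L2T volume a u) {c : ℕ → ℝ} {C : ℝ}
    (hi : ∀ m, Integrable fun x => w x * a m x ^ 2) (hc : ∀ m, ∫ x, w x * a m x ^ 2 ≤ c m)
    (hC : Tendsto c atTop (𝓝 C)) :
    Integrable (fun x => w x * u x ^ 2) ∧ ∫ x, w x * u x ^ 2 ≤ C := by
  have hm : ∀ K : ℕ, AEStronglyMeasurable fun x => min (w x) K := fun K =>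
    (hw.aemeasurable.min aemeasurable_const).aestronglyMeasurable
  have hn : ∀ (K : ℕ) x, 0 ≤ min (w x) K := fun K x => le_min (h0 x) K.cast_nonneg
  have hb : ∀ (K : ℕ) x, |min (w x) K| ≤ K := fun K x => by
    rw [abs_of_nonneg (hn K x)]; exact min_le_right _ _
  refine ld_fatou (F := fun K x => min (w x) K * u x ^ 2) (c := fun _ => C)
    (fun K => ld_int2 hu (hm K) (hb K)) (fun K x => mul_nonneg (hn K x) (sq_nonneg _))
    (fun K => ?_) tendsto_const_nhds (Eventually.of_forall fun x => ?_)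
  · have := L2T.integral_mul ha ha hu hu l l (hm K) (hb K)
    simp only [← sq] at this
    refine le_of_tendsto_of_tendsto' this hC fun m => le_trans ?_ (hc m)
    exact integral_mono (ld_int2 (ha m) (hm K) (hb K)) (hi m) fun x =>
      mul_le_mul_of_nonneg_right (min_le_left _ _) (sq_nonneg _)
  · refine tendsto_const_nhds.congr' ?_
    filter_upwards [eventually_ge_atTop ⌈w x⌉₊] with K hK
    rw [min_eq_left (Nat.ceil_le.1 hK)]

lemma ld_hv (k : Fin 3) : ‖ek k‖ ≤ 1 := (nw_norm_ek k).le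

lemma ld_field (h : H1 u g) (k : Fin 3) {b : Pt → ℝ} (hb : ContDiff ℝ 1 b) {C : ℝ}
    (h0 : ∀ x, |b x| ≤ C) (h1 : ∀ x, |pd k b x| ≤ C) :
    Integrable (fun x => pd k b x * u x ^ 2 + 2 * (b x * (u x * g k x))) ∧
      ∫ x, (pd k b x * u x ^ 2 + 2 * (b x * (u x * g k x))) = 0 := by
  have h' : WD volume (fun _ : Unit => ek k) u (fun _ => g k) := ⟨h.1, fun _ => h.2 k⟩
  have hm := h'.mul (fun _ => ld_hv k) hb h0 fun x _ => h1 x
  have e := h'.ibp hm (fun _ => ld_hv k) ()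
  have i1 := ld_int2 h.1 (nw_cont_pd hb k).aestronglyMeasurable h1
  have i2 := ld_int h.1 (h.2 k).1 hb.continuous.aestronglyMeasurable h0
  refine ⟨i1.add (i2.const_mul 2), ?_⟩
  have e1 : ∫ x, u x * (b x * g k x + fderiv ℝ b x (ek k) * u x) =
      (∫ x, pd k b x * u x ^ 2) + ∫ x, b x * (u x * g k x) := by
    rw [← integral_add i1 i2]
    exact integral_congr_ae (Eventually.of_forall fun x => by simp only [pd]; ring)
  have e2 : ∫ x, g k x * (b x * u x) = ∫ x, b x * (u x * g k x) :=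
    integral_congr_ae (Eventually.of_forall fun x => by simp only; ring)
  rw [integral_add i1 (i2.const_mul 2), integral_const_mul]
  rw [e1, e2] at e
  linarith

lemma ld_hardy_reg (h : H1 u g) (c : Pt) {e : ℝ} (he : 0 < e) :
    Integrable (fun y => (nwQ e c y)⁻¹ * u y ^ 2) ∧
      ∫ y, (nwQ e c y)⁻¹ * u y ^ 2 ≤ 4 * ∑ k, ∫ x, g k x ^ 2 := by
  have hp := nwQ_pos he c
  have hs : ∀ y, ∑ k, (c k - y k) ^ 2 + e = nwQ e c y := fun y => rfl
  have hk : ∀ y k, (c k - y k) ^ 2 + e ≤ nwQ e c y := fun y k => by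
    rw [← hs]
    exact add_le_add_left (Finset.single_le_sum (f := fun k => (c k - y k) ^ 2)
      (fun _ _ => sq_nonneg _) (Finset.mem_univ k)) e
  have hq : ∀ y, (nwQ e c y)⁻¹ ≤ e⁻¹ := fun y =>
    inv_anti₀ he (by nlinarith [hk y 0, sq_nonneg (c 0 - y 0)])
  have hq0 : ∀ y, 0 < (nwQ e c y)⁻¹ := fun y => inv_pos.2 (hp y)
  have hq1 : ∀ y k, (c k - y k) ^ 2 * (nwQ e c y)⁻¹ ≤ 1 := fun y k => by
    rw [← div_eq_mul_inv, div_le_one (hp y)]; linarith [hk y k]
  have r1 : ∀ y, nwQ e c y ^ (-1 : ℝ) = (nwQ e c y)⁻¹ := fun y => Real.rpow_neg_one _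
  have r2 : ∀ y, nwQ e c y ^ ((-1 : ℝ) - 1) = (nwQ e c y)⁻¹ * (nwQ e c y)⁻¹ := fun y => by
    rw [Real.rpow_sub (hp y), r1, Real.rpow_one, div_eq_mul_inv]
  have hd : ∀ k, ContDiff ℝ 1 fun y : Pt => (c k - y k) * nwQ e c y ^ (-1 : ℝ) := fun k =>
    (contDiff_const.sub (contDiff_apply ℝ ℝ k)).mul
      ((nwQ_smooth e c).rpow_const_of_ne fun y => (hp y).ne')
  have hf := fun k => ld_field h k (hd k) (C := 1 + 3 * e⁻¹) (fun y => by
      rw [r1, abs_mul, abs_of_pos (hq0 y)]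
      have h1 : |c k - y k| ≤ 1 + (c k - y k) ^ 2 := by
        rw [← sq_abs]; nlinarith [sq_nonneg (|c k - y k| - 1)]
      have h2 := mul_le_mul_of_nonneg_right h1 (hq0 y).le
      nlinarith [hq y, hq0 y, hq1 y k])
    (fun y => by
      rw [nw_pd_field (hp y), r1, r2, abs_le]
      have h2 := mul_le_mul_of_nonneg_right (hq1 y k) (hq0 y).le
      have h3 := mul_nonneg (mul_nonneg (sq_nonneg (c k - y k)) (hq0 y).le) (hq0 y).le
      constructor <;> nlinarith [hq y, hq0 y])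
  have i0 : Integrable fun y => (nwQ e c y)⁻¹ * u y ^ 2 :=
    ld_int2 h.1 (((nwQ_smooth e c (n := 0)).continuous.inv₀ fun y =>
      (hp y).ne').aestronglyMeasurable) (C := e⁻¹) fun y => by rw [abs_of_pos (hq0 y)]; exact hq y
  refine ⟨i0, ?_⟩
  have ig : ∀ k, Integrable fun x => g k x ^ 2 := fun k => (h.2 k).1.integrable_sq
  have ik : ∀ k, Integrable fun y => 4 * g k y ^ 2 -
      2 * (pd k (fun y : Pt => (c k - y k) * nwQ e c y ^ (-1 : ℝ)) y * u y ^ 2 +
        2 * ((c k - y k) * nwQ e c y ^ (-1 : ℝ) * (u y * g k y))) := fun k =>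
    ((ig k).const_mul 4).sub ((hf k).1.const_mul 2)
  have key : ∫ y, (nwQ e c y)⁻¹ * u y ^ 2 ≤ ∫ y, ∑ k, (4 * g k y ^ 2 -
      2 * (pd k (fun y : Pt => (c k - y k) * nwQ e c y ^ (-1 : ℝ)) y * u y ^ 2 +
        2 * ((c k - y k) * nwQ e c y ^ (-1 : ℝ) * (u y * g k y)))) := by
    refine integral_mono i0 (integrable_finsetSum _ fun k _ => ik k) fun y => ?_
    have h1 := nw_div_field (hp y) (-1)
    have h2 := hs y
    simp only [Fin.sum_univ_three] at h1 h2 ⊢
    rw [r1, r2] at h1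
    rw [r1]
    have h3 : (nwQ e c y)⁻¹ * nwQ e c y = 1 := inv_mul_cancel₀ (hp y).ne'
    set q := (nwQ e c y)⁻¹
    have h4 : ((c 0 - y 0) ^ 2 + (c 1 - y 1) ^ 2 + (c 2 - y 2) ^ 2) * (q * q) + e * (q * q) = q := by
      rw [← add_mul, h2]; linear_combination q * h3
    have h5 : 0 ≤ e * (q * q) * u y ^ 2 :=
      mul_nonneg (mul_nonneg he.le (mul_self_nonneg q)) (sq_nonneg _)
    have h6 := congrArg (· * u y ^ 2) h1
    have h7 := congrArg (· * u y ^ 2) h4
    nlinarith [sq_nonneg ((c 0 - y 0) * q * u y - 2 * g 0 y),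
      sq_nonneg ((c 1 - y 1) * q * u y - 2 * g 1 y), sq_nonneg ((c 2 - y 2) * q * u y - 2 * g 2 y)]
  rw [integral_finsetSum _ fun k _ => ik k] at key
  refine key.trans (le_of_eq ?_)
  rw [Finset.mul_sum]
  refine Finset.sum_congr rfl fun k _ => ?_
  rw [integral_sub ((ig k).const_mul 4) ((hf k).1.const_mul 2), integral_const_mul,
    integral_const_mul, (hf k).2, mul_zero, sub_zero]

lemma ld_pd {φ : ℝ → ℝ} {d : ℝ} {i : Fin 3} {x : Pt} (h : HasDerivAt φ d (x i)) (k : Fin 3) :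
    pd k (fun y : Pt => φ (y i)) x = if k = i then d else 0 := by
  have h1 : HasFDerivAt (fun y : Pt => y i) (ContinuousLinearMap.proj i : Pt →L[ℝ] ℝ) x :=
    (ContinuousLinearMap.proj i : Pt →L[ℝ] ℝ).hasFDerivAt
  have h2 := HasDerivAt.comp_hasFDerivAt x h h1
  have h3 : pd k (fun y : Pt => φ (y i)) x = _ := congrArg (· (ek k)) h2.fderiv
  rw [h3]
  simp [ek, Pi.single_apply, eq_comm]

lemma ld_seq : Tendsto (fun n : ℕ => 1 / ((n : ℝ) + 1)) atTop (𝓝 0) :=
  tendsto_one_div_add_atTop_nhds_zero_nat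

/-- The one-dimensional Hardy inequality, given that its left side is finite. -/
lemma ld_line (h : H1 u g) {i : Fin 3} (hi : Integrable fun x => u x ^ 2 / x i ^ 2) :
    ∫ x, u x ^ 2 / x i ^ 2 ≤ 4 * ∫ x, g i x ^ 2 := by
  have ig : Integrable fun x => g i x ^ 2 := (h.2 i).1.integrable_sq
  have key : ∀ e : ℝ, 0 < e →
      ∫ x, (x i ^ 2 - 2 * e) / (x i ^ 2 + e) ^ 2 * u x ^ 2 ≤ 4 * ∫ x, g i x ^ 2 := by
    intro e he
    have hp : ∀ x : Pt, 0 < x i ^ 2 + e := fun x => by positivity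
    have hd : ContDiff ℝ 1 fun x : Pt => -x i / (x i ^ 2 + e) :=
      (contDiff_apply ℝ ℝ i).neg.div (((contDiff_apply ℝ ℝ i).pow 2).add contDiff_const)
        fun x => (hp x).ne'
    have hpd : ∀ x : Pt, pd i (fun x : Pt => -x i / (x i ^ 2 + e)) x =
        (x i ^ 2 - e) / (x i ^ 2 + e) ^ 2 := fun x => by
      have h1 : HasDerivAt (fun t : ℝ => -t / (t ^ 2 + e))
          ((-1 * (x i ^ 2 + e) - -x i * (2 * x i)) / (x i ^ 2 + e) ^ 2) (x i) :=
        (hasDerivAt_neg' (x i)).div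
          (by simpa using (hasDerivAt_pow 2 (x i)).add_const e) (hp x).ne'
      rw [ld_pd h1, if_pos rfl]
      ring
    have hb : ∀ (x : Pt) (a : ℝ), |a| ≤ 2 → |(x i ^ 2 - a * e) / (x i ^ 2 + e) ^ 2| ≤
        2 / (x i ^ 2 + e) := fun x a ha => by
      rw [abs_div, abs_of_pos (pow_pos (hp x) 2), div_le_div_iff₀ (pow_pos (hp x) 2) (hp x), sq
        (x i ^ 2 + e), ← mul_assoc]
      refine mul_le_mul_of_nonneg_right (abs_le.2 ?_) (hp x).le
      have := abs_le.1 ha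
      constructor <;> nlinarith [sq_nonneg (x i)]
    have hb' : ∀ x : Pt, 2 / (x i ^ 2 + e) ≤ 2 / e := fun x =>
      div_le_div_of_nonneg_left (by norm_num) he (by nlinarith [sq_nonneg (x i)])
    have hf := ld_field h i hd (C := 1 + 2 / e) (fun x => by
        rw [abs_div, abs_neg, abs_of_pos (hp x)]
        have h1 : |x i| ≤ (x i ^ 2 + e) + 2 := by
          rw [← sq_abs]; nlinarith [sq_nonneg (|x i| - 1)]
        have h2 := div_le_div_of_nonneg_right h1 (hp x).le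
        rw [add_div, div_self (hp x).ne'] at h2
        linarith [hb' x])
      (fun x => by
        have := hb x 1 (by norm_num)
        rw [one_mul] at this
        rw [hpd]; linarith [hb' x])
    have hm : Continuous fun x : Pt => (x i ^ 2 - 2 * e) / (x i ^ 2 + e) ^ 2 :=
      Continuous.div (by fun_prop) (by fun_prop) fun x => (pow_pos (hp x) 2).ne'
    have i0 := ld_int2 h.1 hm.aestronglyMeasurable (C := 2 / e) fun x =>
      (hb x 2 (by norm_num)).trans (hb' x)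
    have := integral_mono i0 ((ig.const_mul 4).add (hf.1.const_mul 2)) fun x => by
      simp only [Pi.add_apply, hpd]
      have h1 : (x i ^ 2 - 2 * e) / (x i ^ 2 + e) ^ 2 =
          2 * ((x i ^ 2 - e) / (x i ^ 2 + e) ^ 2) - (-x i / (x i ^ 2 + e)) ^ 2 := by
        field_simp [(hp x).ne']; ring
      rw [h1]
      nlinarith [sq_nonneg (-x i / (x i ^ 2 + e) * u x + 2 * g i x)]
    simp only [Pi.add_apply] at this
    rwa [integral_add (ig.const_mul 4) (hf.1.const_mul 2), integral_const_mul,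
      integral_const_mul, hf.2, mul_zero, add_zero] at this
  have hne : ∀ᵐ x : Pt, x i ≠ 0 := Measure.ae_eval_ne (fun _ => volume) i 0
  have lim : Tendsto (fun n : ℕ => ∫ x : Pt, (x i ^ 2 - 2 * (1 / ((n : ℝ) + 1))) /
      (x i ^ 2 + 1 / ((n : ℝ) + 1)) ^ 2 * u x ^ 2) atTop (𝓝 (∫ x, u x ^ 2 / x i ^ 2)) := by
    refine tendsto_integral_of_dominated_convergence (fun x => 2 * (u x ^ 2 / x i ^ 2))
      (fun n => ?_) (hi.const_mul 2) (fun n => ?_) ?_
    · exact (Measurable.aestronglyMeasurable (by fun_prop)).mul h.1.integrable_sq.1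
    · filter_upwards [hne] with x hx
      have he : (0 : ℝ) < 1 / ((n : ℝ) + 1) := by positivity
      generalize 1 / ((n : ℝ) + 1) = e at he
      have h2 : 0 < x i ^ 2 := by positivity
      have hp : 0 < x i ^ 2 + e := by positivity
      have h0 : 2 * (u x ^ 2 / x i ^ 2) = 2 / x i ^ 2 * u x ^ 2 := by ring
      rw [Real.norm_eq_abs, abs_mul, abs_of_nonneg (sq_nonneg (u x)), abs_div,
        abs_of_pos (pow_pos hp 2), h0]
      refine mul_le_mul_of_nonneg_right ?_ (sq_nonneg _)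
      rw [div_le_div_iff₀ (pow_pos hp 2) h2]
      have h3 : |x i ^ 2 - 2 * e| ≤ 2 * (x i ^ 2 + e) := abs_le.2 ⟨by linarith, by linarith⟩
      nlinarith [mul_le_mul_of_nonneg_right h3 h2.le, mul_pos hp he]
    · filter_upwards [hne] with x hx
      have h2 : 0 < x i ^ 2 := by positivity
      have h3 := (((tendsto_const_nhds (x := x i ^ 2)).sub (ld_seq.const_mul 2)).div
        (((tendsto_const_nhds (x := x i ^ 2)).add ld_seq).pow 2) (by simpa using hx)).mul_const
        (u x ^ 2)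
      have h4 : (x i ^ 2 - 2 * 0) / (x i ^ 2 + 0) ^ 2 * u x ^ 2 = u x ^ 2 / x i ^ 2 := by
        field_simp; ring
      rw [h4] at h3
      exact h3
  exact le_of_tendsto' lim fun n => key _ (by positivity)

end Vale.Agent.P363
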