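import Vale.Agent.P363.LD

/-! Library LE: maximum principles outside a ball.  Test the difference of the weak inequality
and of the Green identity for the barrier with the cut positive part of `u - B`. -/

namespace Vale.Agent.P363

open MeasureTheory Vale.Agent.P370 Filter Topology
open scoped ContDiff

/-- A barrier outside the ball of radius `r`: `C²` there, with exponential decay. -/
def Bar (r : ℝ) (B : Pt → ℝ) : Prop :=
  ContDiffOn ℝ 2 B {x | r < nrm x} ∧ ∃ C c : ℝ, 0 < c ∧ ∀ x, r < nrm x →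
    |B x| ≤ C * Real.exp (-(c * nrm x)) ∧ (∀ k, |pd k B x| ≤ C * Real.exp (-(c * nrm x))) ∧
      |lap B x| ≤ C * Real.exp (-(c * nrm x))

/-- A barrier on the whole space. -/
def LE_Gb (B : Pt → ℝ) : Prop :=
  ContDiff ℝ 2 B ∧ ∃ C c : ℝ, 0 < c ∧ ∀ x,
    |B x| ≤ C * Real.exp (-(c * nrm x)) ∧ (∀ k, |pd k B x| ≤ C * Real.exp (-(c * nrm x))) ∧
      |lap B x| ≤ C * Real.exp (-(c * nrm x))

lemma LE_int {c : ℝ} (hc : 0 < c) (C : ℝ) :
    Integrable fun x : Pt => (C * Real.exp (-(c * nrm x))) ^ 2 := by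
  have h := integrable_radial (f := fun r => Real.exp (-(2 * c * r))) (by fun_prop) (by
    have := integrableOn_rpow_mul_exp_neg_mul_rpow (p := 1) (s := 2) (b := 2 * c) (by norm_num)
      one_pos (by positivity)
    simpa using this)
  refine (h.const_mul (C ^ 2)).congr (ae_of_all _ fun x => ?_)
  simp only [mul_pow, ← Real.exp_nat_mul]
  congr 2
  push_cast
  ring

lemma LE_mem {f : Pt → ℝ} (hf : Continuous f) {C c : ℝ} (hc : 0 < c)
    (h : ∀ x, |f x| ≤ C * Real.exp (-(c * nrm x))) : MemLp f 2 := by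
  rw [memLp_two_iff_integrable_sq hf.aestronglyMeasurable]
  refine (LE_int hc C).mono' (hf.pow 2).aestronglyMeasurable (ae_of_all _ fun x => ?_)
  rw [Real.norm_eq_abs, abs_pow]
  exact pow_le_pow_left₀ (abs_nonneg _) (h x) 2

lemma LE_cut {B : Pt → ℝ} {r₀ r₁ : ℝ} (hB : Bar r₀ B) (h0 : 0 < r₀) (h1 : r₀ < r₁) :
    ∃ B', LE_Gb B' ∧ (∀ x, r₁ ≤ nrm x → B' x = B x ∧ lap B' x = lap B x) ∧
      ∀ x, ∃ t, 0 ≤ t ∧ B' x = t * B x ∧ (nrm x ≤ r₀ → t = 0) := by
  obtain ⟨a, ha, ha'⟩ := exists_between h1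
  obtain ⟨b, hb, hb'⟩ := exists_between ha'
  have hsq : ∀ x : Pt, ∑ k, x k ^ 2 = nrm x ^ 2 := fun x =>
    (Real.sq_sqrt (Finset.sum_nonneg fun _ _ => sq_nonneg _)).symm
  have hd : 0 < b ^ 2 - a ^ 2 := by nlinarith
  set χ : Pt → ℝ := fun x => Real.smoothTransition ((∑ k, x k ^ 2 - a ^ 2) / (b ^ 2 - a ^ 2))
  have hχ : ContDiff ℝ 2 χ := Real.smoothTransition.contDiff.comp (by fun_prop)
  have z0 : ∀ x, nrm x ≤ a → χ x = 0 := fun x hx =>
    Real.smoothTransition.zero_of_nonpos (div_nonpos_of_nonpos_of_nonneg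
      (by rw [hsq]; nlinarith [nrm_nonneg x]) hd.le)
  have z1 : ∀ x, b ≤ nrm x → χ x = 1 := fun x hx =>
    Real.smoothTransition.one_of_one_le ((one_le_div hd).2 (by rw [hsq]; nlinarith))
  have he : ∀ x, r₁ ≤ nrm x → (fun y => χ y * B y) =ᶠ[𝓝 x] B := fun x hx => by
    filter_upwards [(isOpen_lt continuous_const continuous_nrm).mem_nhds (hb'.trans_le hx)]
      with y hy
    rw [z1 y (le_of_lt hy), one_mul]
  have hc : ContDiff ℝ 2 fun y => χ y * B y := contDiff_iff_contDiffAt.2 fun x => by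
    by_cases hx : r₀ < nrm x
    · exact hχ.contDiffAt.mul
        (hB.1.contDiffAt ((isOpen_lt continuous_const continuous_nrm).mem_nhds hx))
    · refine (contDiffAt_const (c := 0)).congr_of_eventuallyEq ?_
      filter_upwards [(isOpen_lt continuous_nrm continuous_const).mem_nhds
        ((not_lt.1 hx).trans_lt ha)] with y hy
      rw [z0 y (le_of_lt hy), zero_mul]
  refine ⟨fun y => χ y * B y, ⟨hc, ?_⟩, fun x hx => ⟨(he x hx).self_of_nhds, lap_congr (he x hx)⟩,
    fun x => ⟨χ x, Real.smoothTransition.nonneg _, rfl, fun h => z0 x (h.trans ha.le)⟩⟩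
  generalize (fun y => χ y * B y) = D at he hc
  obtain ⟨C, c, hc0, hC⟩ := hB.2
  have h1' : ContDiff ℝ 1 D := hc.of_le (by norm_num)
  have hF : Continuous fun x => |D x| + (∑ k, |pd k D x|) + |lap D x| :=
    (hc.continuous.abs.add (continuous_finsetSum _ fun k _ => (nw_cont_pd h1' k).abs)).add
      (continuous_lap hc).abs
  obtain ⟨M, hM⟩ := (isCompact_closedBall (0 : Pt) r₁).exists_bound_of_continuousOn hF.continuousOn
  refine ⟨max C (M * Real.exp (c * r₁)), c, hc0, fun x => ?_⟩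
  by_cases hx : r₁ ≤ nrm x
  · have h2 := hC x (h1.trans_le hx)
    have h3 : C * Real.exp (-(c * nrm x)) ≤
        max C (M * Real.exp (c * r₁)) * Real.exp (-(c * nrm x)) :=
      mul_le_mul_of_nonneg_right (le_max_left _ _) (Real.exp_pos _).le
    rw [(he x hx).self_of_nhds, lap_congr (he x hx)]
    refine ⟨h2.1.trans h3, fun k => ?_, h2.2.2.trans h3⟩
    rw [(nw_pd_congr (he x hx) k).self_of_nhds]
    exact (h2.2.1 k).trans h3
  · have h2 := (le_abs_self _).trans
      (hM x (mem_closedBall_zero_iff.2 ((norm_le_nrm x).trans (not_le.1 hx).le)))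
    have s0 : 0 ≤ ∑ k, |pd k D x| := Finset.sum_nonneg fun k _ => abs_nonneg _
    have a0 := abs_nonneg (D x)
    have a1 := abs_nonneg (lap D x)
    have h3 : M ≤ max C (M * Real.exp (c * r₁)) * Real.exp (-(c * nrm x)) := by
      refine le_trans ?_ (mul_le_mul_of_nonneg_right (le_max_right _ _) (Real.exp_pos _).le)
      rw [mul_assoc, ← Real.exp_add]
      refine le_mul_of_one_le_right (by linarith) (Real.one_le_exp ?_)
      nlinarith [not_le.1 hx]
    refine ⟨by linarith, fun k => ?_, by linarith⟩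
    have := Finset.single_le_sum (f := fun k => |pd k D x|) (fun k _ => abs_nonneg _)
      (Finset.mem_univ k)
    linarith

lemma LE_hardy {T : Pt → ℝ} (h : LE_Gb T) {i : Fin 3} (h0 : ∀ x, x i = 0 → T x = 0) :
    Integrable fun x => T x ^ 2 / x i ^ 2 := by
  obtain ⟨h2, C, c, hc, hC⟩ := h
  have C0 : 0 ≤ C := by
    have := (abs_nonneg _).trans (hC 0).1
    exact nonneg_of_mul_nonneg_left this (Real.exp_pos _)
  have hb : ∀ x, |T x| ≤ C * Real.exp c * Real.exp (-(c * nrm x)) * |x i| := fun x => by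
    by_cases hx : 1 ≤ |x i|
    · refine (hC x).1.trans (le_trans ?_ (le_mul_of_one_le_right (by positivity) hx))
      exact mul_le_mul_of_nonneg_right (le_mul_of_one_le_right C0 (Real.one_le_exp hc.le))
        (Real.exp_pos _).le
    · have hd : ∀ t : ℝ, HasDerivAt (fun t : ℝ => T (x - (t * x i) • ek i))
          (-(x i * pd i T (x - (t * x i) • ek i))) t := fun t => by
        have d1 : HasDerivAt (fun t : ℝ => x - (t * x i) • ek i) (-(x i • ek i)) t := by
          simpa using (((hasDerivAt_id t).mul_const (x i)).smul_const (ek i)).const_sub x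
        have d2 := (h2.differentiable (by norm_num) _).hasFDerivAt.comp_hasDerivAt t d1
        simpa [pd, Function.comp_def] using d2
      have := norm_image_sub_le_of_norm_deriv_le_segment_01'
        (C := C * Real.exp c * Real.exp (-(c * nrm x)) * |x i|)
        (fun t _ => (hd t).hasDerivWithinAt) fun t ht => by
          rw [Real.norm_eq_abs, abs_neg, abs_mul, mul_comm]
          refine mul_le_mul_of_nonneg_right (((hC _).2.1 i).trans ?_) (abs_nonneg _)
          rw [mul_assoc, ← Real.exp_add]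
          refine mul_le_mul_of_nonneg_left (Real.exp_le_exp.2 ?_) C0
          have e1 := nrm_add_le (x - (t * x i) • ek i) ((t * x i) • ek i)
          have e2 : nrm (ek i) = 1 := by simp [nrm, ek, Pi.single_apply]
          rw [sub_add_cancel, nrm_smul, e2, mul_one, abs_mul, abs_of_nonneg ht.1] at e1
          have e3 : t * |x i| ≤ 1 := mul_le_one₀ ht.2.le (abs_nonneg _) (not_le.1 hx).le
          nlinarith
      rw [h0 (x - (1 * x i) • ek i) (by simp [ek])] at this
      simpa using this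
  have hm : Measurable T := h2.continuous.measurable
  refine (LE_int hc (C * Real.exp c)).mono' (Measurable.aestronglyMeasurable (by fun_prop))
    (ae_of_all _ fun x => ?_)
  rw [Real.norm_eq_abs, abs_of_nonneg (by positivity)]
  refine div_le_of_le_mul₀ (sq_nonneg _) (sq_nonneg _) ?_
  rw [← sq_abs (T x), ← sq_abs (x i), ← mul_pow]
  exact pow_le_pow_left₀ (abs_nonneg _) (hb x) 2

/-- Functions with a square integrable weak Laplacian. -/
def LE_Gr (Φ : Pt → ℝ) (h : Fin 3 → Pt → ℝ) (L : Pt → ℝ) : Prop :=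
  H1 Φ h ∧ MemLp L 2 ∧ ∀ w gw, H1 w gw → ∑ k, ∫ x, h k x * gw k x = -∫ x, L x * w x

lemma LE_Gb.gr {B : Pt → ℝ} (h : LE_Gb B) : LE_Gr B (gr1 B) (lap B) := by
  obtain ⟨h2, C, c, hc, hC⟩ := h
  have h1 : ContDiff ℝ 1 B := h2.of_le (by norm_num)
  have m1 := fun k => LE_mem (nw_cont_pd h1 k) hc fun x => (hC x).2.1 k
  have m2 := LE_mem (continuous_lap h2) hc fun x => (hC x).2.2
  exact ⟨h1_iff.2 (wd_c1' h1 (LE_mem h2.continuous hc fun x => (hC x).1) m1), m2,
    fun w gw hw => hw.green h2 m1 m2⟩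

lemma LE_Gr.sub {Φ Ψ L K : Pt → ℝ} {h h' : Fin 3 → Pt → ℝ} (a : LE_Gr Φ h L) (b : LE_Gr Ψ h' K) :
    LE_Gr (fun x => Φ x - Ψ x) (fun k x => h k x - h' k x) fun x => L x - K x := by
  refine ⟨h1_iff.2 ((h1_iff.1 a.1).sub (h1_iff.1 b.1)), a.2.1.sub b.2.1, fun w gw hw => ?_⟩
  simp only [sub_mul]
  rw [integral_sub (LC_imul a.2.1 hw.1) (LC_imul b.2.1 hw.1), Finset.sum_congr rfl fun k _ =>
    integral_sub (LC_imul (a.1.2 k).1 (hw.2 k).1) (LC_imul (b.1.2 k).1 (hw.2 k).1),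
    Finset.sum_sub_distrib, a.2.2 w gw hw, b.2.2 w gw hw]
  ring

lemma LE_core {q τ u Φ L w : Pt → ℝ} {g h gw : Fin 3 → Pt → ℝ} {q₀ : ℝ} (hq : FB q) (hu : H1 u g)
    (hτ : MemLp τ 2) (hs : Sub q τ u g) (hΦ : LE_Gr Φ h L) (hw : H1 w gw) (q0 : 0 < q₀)
    (hp : ∀ᵐ x, (w x = 0 ∧ ∀ k, gw k x = 0) ∨ (0 < w x ∧ w x = u x - Φ x ∧
      (∀ k, gw k x = g k x - h k x) ∧ q₀ ≤ q x ∧ τ x ≤ -(1 / 2) * L x + q x * Φ x)) :
    ∀ᵐ x, w x = 0 := by
  have s1 := hs.h1 hq hu hτ hw (hp.mono fun x hx => hx.elim (fun h => h.1.ge) fun h => h.1.le)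
  have i1 := hq.integrable hu hw
  have i2 := hq.integrable hΦ.1 hw
  have i3 := LC_imul hΦ.2.1 hw.1
  have s2 : ∫ x, τ x * w x ≤ ∫ x, -(1 / 2) * (L x * w x) + q x * (Φ x * w x) :=
    integral_mono_ae (LC_imul hτ hw.1) ((i3.const_mul _).add i2) (hp.mono fun x hx => by
      rcases hx with h | h
      · simp [h.1]
      · have := mul_le_mul_of_nonneg_right h.2.2.2.2 h.1.le
        simp only
        linarith)
  rw [integral_add (i3.const_mul _) i2, integral_const_mul] at s2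
  have s3 : ∀ k, ∫ x, h k x * gw k x ≤ ∫ x, g k x * gw k x := fun k =>
    integral_mono_ae (LC_imul (hΦ.1.2 k).1 (hw.2 k).1) (LC_imul (hu.2 k).1 (hw.2 k).1)
      (hp.mono fun x hx => by
        rcases hx with h' | h'
        · simp [h'.2 k]
        · simp only [h'.2.2.1 k]
          nlinarith [sq_nonneg (g k x - h k x)])
  have s4 : ∫ x, q₀ * w x ^ 2 ≤ ∫ x, q x * (u x * w x) - q x * (Φ x * w x) :=
    integral_mono_ae ((LC_isq hw.1).const_mul _) (i1.sub i2) (hp.mono fun x hx => by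
      rcases hx with h' | h'
      · simp [h'.1]
      · have e : q x * (u x * w x) - q x * (Φ x * w x) = q x * w x ^ 2 := by rw [h'.2.1]; ring
        simp only [e]
        exact mul_le_mul_of_nonneg_right h'.2.2.2.1 (sq_nonneg _))
  rw [integral_sub i1 i2, integral_const_mul] at s4
  have s5 := Finset.sum_le_sum fun k (_ : k ∈ Finset.univ) => s3 k
  rw [hΦ.2.2 w gw hw] at s5
  unfold q1 at s1
  have s6 : ∫ x, w x ^ 2 = 0 :=
    le_antisymm (by nlinarith) (integral_nonneg fun x => sq_nonneg _)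
  rw [integral_eq_zero_iff_of_nonneg (fun x => sq_nonneg _) (LC_isq hw.1)] at s6
  exact s6.mono fun x hx => pow_eq_zero_iff two_ne_zero |>.1 hx

/-- Maximum principle outside a ball. -/
theorem mp_ext {q τ u B : Pt → ℝ} {g : Fin 3 → Pt → ℝ} {r₀ r₁ r₂ q₀ C : ℝ} (hq : FB q)
    (hu : H1 u g) (hτ : MemLp τ 2) (hs : Sub q τ u g) (h0 : 0 < r₀) (h1 : r₀ < r₁) (h2 : r₁ < r₂)
    (hB : Bar r₀ B) (q0 : 0 < q₀) (hq' : ∀ x, r₁ ≤ nrm x → q₀ ≤ q x ∧ q x ≤ C)
    (hsup : ∀ᵐ x, r₁ ≤ nrm x → B x < u x → τ x ≤ -(1 / 2) * lap B x + q x * B x)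
    (hsh : ∀ᵐ x, r₁ ≤ nrm x → nrm x ≤ r₂ → u x ≤ B x) : ∀ᵐ x, r₁ ≤ nrm x → u x ≤ B x := by
  obtain ⟨B', gB, eB, -⟩ := LE_cut hB h0 h1
  have hp : H1 _ _ := h1_iff.2 (((h1_iff.1 hu).sub (h1_iff.1 gB.gr.1)).pos ld_hv)
  have hw := hp.ext (h0.trans h1) h2 (hsh.mono fun x hx a b => by
    rw [(eB x a).1]; exact max_eq_right (sub_nonpos.2 (hx a b)))
  have := LE_core hq hu hτ hs gB.gr hw q0 (hsup.mono fun x hx => by
    by_cases a : x ∈ {x | r₁ ≤ nrm x}
    · simp only [Set.indicator_of_mem a]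
      by_cases b : 0 < u x - B' x
      · refine Or.inr ⟨lt_max_of_lt_left b, max_eq_left b.le, fun k => if_pos b, (hq' x a).1, ?_⟩
        rw [(eB x a).1] at b ⊢
        rw [(eB x a).2]
        exact hx a (sub_pos.1 b)
      · exact Or.inl ⟨max_eq_right (not_lt.1 b), fun k => if_neg b⟩
    · exact Or.inl (by simp [Set.indicator_of_notMem a]))
  refine this.mono fun x hx a => ?_
  rw [Set.indicator_of_mem (show x ∈ {x | r₁ ≤ nrm x} from a), (eB x a).1] at hx
  exact sub_nonpos.1 ((le_max_left _ _).trans hx.le)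

/-- Maximum principle in the part of the quadrant outside a ball.  The barrier is `B - T` with `B`
nonnegative on the quadrant and `T` zero on both planes; `u` vanishes on them in the sense of
Hardy. -/
theorem mp_quad {q τ u B T : Pt → ℝ} {g : Fin 3 → Pt → ℝ} {r₀ r₁ r₂ q₀ C : ℝ} (hq : FB q)
    (hu : H1 u g) (hτ : MemLp τ 2) (hs : Sub q τ u g) (h0 : 0 < r₀) (h1 : r₀ < r₁) (h2 : r₁ < r₂)
    (ho : ∀ i : Fin 3, i ≠ 2 → Integrable fun x => u x ^ 2 / x i ^ 2)
    (hB : Bar r₀ B) (hT : Bar r₀ T) (B0 : ∀ x ∈ Qd, r₀ < nrm x → 0 ≤ B x)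
    (T0 : ∀ x, r₀ < nrm x → x 0 = 0 ∨ x 1 = 0 → T x = 0)
    (q0 : 0 < q₀) (hq' : ∀ x, r₁ ≤ nrm x → q₀ ≤ q x ∧ q x ≤ C)
    (hsup : ∀ᵐ x, x ∈ Qd → r₁ ≤ nrm x → B x - T x < u x →
      τ x ≤ -(1 / 2) * (lap B x - lap T x) + q x * (B x - T x))
    (hsh : ∀ᵐ x, x ∈ Qd → r₁ ≤ nrm x → nrm x ≤ r₂ → u x ≤ B x - T x) :
    ∀ᵐ x, x ∈ Qd → r₁ ≤ nrm x → u x ≤ B x - T x := by
  obtain ⟨B', gB, eB, tB⟩ := LE_cut hB h0 h1
  obtain ⟨T', gT, eT, tT⟩ := LE_cut hT h0 h1
  have B1 : ∀ x ∈ Qd, 0 ≤ B' x := fun x hx => by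
    obtain ⟨t, t0, e, t1⟩ := tB x
    rw [e]
    by_cases a : r₀ < nrm x
    · exact mul_nonneg t0 (B0 x hx a)
    · rw [t1 (not_lt.1 a), zero_mul]
  have T1 : ∀ x : Pt, x 0 = 0 ∨ x 1 = 0 → T' x = 0 := fun x hx => by
    obtain ⟨t, -, e, t1⟩ := tT x
    rw [e]
    by_cases a : r₀ < nrm x
    · rw [T0 x a hx, mul_zero]
    · rw [t1 (not_lt.1 a), zero_mul]
  have oQ : IsOpen Qd := (isOpen_lt continuous_const (continuous_apply 0)).inter
    (isOpen_lt continuous_const (continuous_apply 1))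
  have B2 : ∀ x ∈ Qd, ∀ k, (if 0 < B' x then gr1 B' k x else 0) = gr1 B' k x := fun x hx k => by
    split_ifs with a
    · rfl
    · have : IsLocalMin B' x := by
        filter_upwards [oQ.mem_nhds hx] with y hy
        exact (not_lt.1 a).trans (B1 y hy)
      simp [gr1, pd, this.fderiv_eq_zero]
  have hp : H1 _ _ := h1_iff.2 ((((h1_iff.1 hu).add (h1_iff.1 gT.gr.1)).sub
    ((h1_iff.1 gB.gr.1).pos ld_hv)).pos ld_hv)
  have hQ := hp.quad fun i hi => by
    have hT' := LE_hardy gT (i := i) fun x hx => T1 x (by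
      fin_cases i
      · exact Or.inl hx
      · exact Or.inr hx
      · exact absurd rfl hi)
    refine (((ho i hi).add hT').const_mul 2).mono' (hp.1.integrable_sq.1.aemeasurable.div
      (Measurable.aemeasurable (by fun_prop))).aestronglyMeasurable (ae_of_all _ fun x => ?_)
    rw [Real.norm_eq_abs, abs_of_nonneg (by positivity), Pi.add_apply, ← add_div, ← mul_div_assoc]
    refine div_le_div_of_nonneg_right ?_ (sq_nonneg _)
    have a1 := le_max_right (B' x) 0
    rcases le_total (u x + T' x - max (B' x) 0) 0 with a | a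
    · rw [max_eq_right a]; nlinarith [sq_nonneg (u x), sq_nonneg (T' x)]
    · rw [max_eq_left a]; nlinarith [sq_nonneg (u x - T' x)]
  have hw := hQ.ext (h0.trans h1) h2 (hsh.mono fun x hx a b => by
    by_cases c : x ∈ Qd
    · rw [Set.indicator_of_mem c, max_eq_left (B1 x c), (eB x a).1, (eT x a).1]
      exact max_eq_right (by linarith [hx c a b])
    · exact Set.indicator_of_notMem c _)
  have := LE_core hq hu hτ hs (gB.gr.sub gT.gr) hw q0 (hsup.mono fun x hx => by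
    by_cases a : x ∈ {x | r₁ ≤ nrm x}
    · by_cases c : x ∈ Qd
      · simp only [Set.indicator_of_mem a, Set.indicator_of_mem c, max_eq_left (B1 x c), B2 x c]
        by_cases b : 0 < u x + T' x - B' x
        · refine Or.inr ⟨lt_max_of_lt_left b, (max_eq_left b.le).trans (by ring),
            fun k => (if_pos b).trans (by ring), (hq' x a).1, ?_⟩
          rw [(eB x a).1, (eT x a).1] at b ⊢
          rw [(eB x a).2, (eT x a).2]
          exact hx c a (by linarith)
        · exact Or.inl ⟨max_eq_right (not_lt.1 b), fun k => if_neg b⟩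
      · exact Or.inl (by simp [Set.indicator_of_mem a, Set.indicator_of_notMem c])
    · exact Or.inl (by simp [Set.indicator_of_notMem a]))
  refine this.mono fun x hx c a => ?_
  rw [Set.indicator_of_mem (show x ∈ {x | r₁ ≤ nrm x} from a), Set.indicator_of_mem c,
    max_eq_left (B1 x c), (eB x a).1, (eT x a).1] at hx
  linarith [le_max_left (u x + T x - B x) 0]

end Vale.Agent.P363
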