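import Vale.Agent.P363.LGX2

/-! Library LG: the many-body form on `H¹` (slice with `integral_update` of P370/Tensor). -/

namespace Vale.Agent.P363

open MeasureTheory Vale.Agent.P370 Filter Topology
open scoped ContDiff

variable {N : ℕ} {V : Pt → ℝ} {lam : ℝ} {f f' : Cf N → ℝ} {G G' : Fin N → Fin 3 → Cf N → ℝ}

theorem C1N.rh (h : C1N f) : RH f (gr f) := LG_rh h

theorem RH.seq (h : RH f G) : ∃ u : ℕ → Cf N → ℝ, (∀ m, C1N (u m)) ∧ L2T volume u f ∧
    ∀ i k, L2T volume (fun m => gr (u m) i k) (G i k) := LG_seq h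

theorem FB.rh (h : FB V) {θ : ℝ} (hθ : 0 < θ) : ∃ C, 0 ≤ C ∧ ∀ (N : ℕ) (f : Cf N → ℝ) G (i : Fin N),
    RH f G → Integrable (fun x => V (x i) * f x ^ 2) ∧
      ∫ x, |V (x i)| * f x ^ 2 ≤ θ * (∑ k, ∫ x, G i k x ^ 2) + C * ∫ x, f x ^ 2 := by
  obtain ⟨C, hC0, hC⟩ := h.h1 hθ
  refine ⟨C, hC0, fun N f G i hf => ?_⟩
  have hm : Measurable fun x : Cf N => V (x i) := h.1.comp (measurable_pi_apply i)
  obtain ⟨h1, h2⟩ := LG_main (w := fun x => |V (x i)|) hm.abs (fun x => abs_nonneg _) i
    (α := θ) (β := C) (fun x ψ hψ => by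
      obtain ⟨k1, k2⟩ := hC ψ _ (C1c.h1 hψ)
      simp only [Function.update_self]
      refine ⟨?_, k2⟩
      simpa only [abs_mul, abs_pow, sq_abs] using k1.abs) hf
  refine ⟨h1.mono' (hm.aestronglyMeasurable.mul hf.1.integrable_sq.1)
    (Eventually.of_forall fun x => ?_), h2⟩
  rw [Real.norm_eq_abs, abs_mul, abs_pow, sq_abs]

theorem RH.hardy (h : RH f G) {i j : Fin N} (hij : i ≠ j) :
    Integrable (fun x : Cf N => P370.ker (x i - x j) ^ 2 * f x ^ 2) ∧
      ∫ x : Cf N, P370.ker (x i - x j) ^ 2 * f x ^ 2 ≤ 4 * ∑ k, ∫ x, G i k x ^ 2 := by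
  have := LG_main (w := fun x : Cf N => P370.ker (x i - x j) ^ 2)
    ((measurable_ker.comp ((measurable_pi_apply i).sub (measurable_pi_apply j))).pow_const 2)
    (fun x => sq_nonneg _) i (α := 4) (β := 0) (fun x ψ hψ => by
      simp only [Function.update_self, Function.update_of_ne hij.symm, zero_mul, add_zero]
      exact (C1c.h1 hψ).hardy (x j)) h
  simpa only [zero_mul, add_zero] using this

theorem RH.hardy' (h : RH f G) (i : Fin N) (c : Pt) :
    Integrable (fun x : Cf N => P370.ker (x i - c) ^ 2 * f x ^ 2) ∧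
      ∫ x : Cf N, P370.ker (x i - c) ^ 2 * f x ^ 2 ≤ 4 * ∑ k, ∫ x, G i k x ^ 2 := by
  have := LG_main (w := fun x : Cf N => P370.ker (x i - c) ^ 2)
    ((measurable_ker.comp ((measurable_pi_apply i).sub measurable_const)).pow_const 2)
    (fun x => sq_nonneg _) i (α := 4) (β := 0) (fun x ψ hψ => by
      simp only [Function.update_self, zero_mul, add_zero]
      exact (C1c.h1 hψ).hardy c) h
  simpa only [zero_mul, add_zero] using this

theorem FB.integrable_rh (h : FB V) (hf : RH f G) (hf' : RH f' G') (i : Fin N) :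
    Integrable fun x => V (x i) * (f x * f' x) := by
  obtain ⟨C, -, hC⟩ := h.rh one_pos
  have hm : Measurable fun x : Cf N => V (x i) := h.1.comp (measurable_pi_apply i)
  refine ((hC N f G i hf).1.abs.add (hC N f' G' i hf').1.abs).mono'
    (hm.aestronglyMeasurable.mul (hf.1.1.mul hf'.1.1)) (Eventually.of_forall fun x => ?_)
  simp only [Real.norm_eq_abs, abs_mul, Pi.add_apply, abs_pow, ← mul_add]
  refine mul_le_mul_of_nonneg_left ?_ (abs_nonneg _)
  nlinarith [sq_nonneg (|f x| - |f' x|), abs_nonneg (f x), abs_nonneg (f' x)]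

theorem RH.integrable_ker (hf : RH f G) (hf' : RH f' G') {i j : Fin N} (hij : i ≠ j) :
    Integrable fun x : Cf N => P370.ker (x i - x j) * (f x * f' x) := by
  have hm : Measurable fun x : Cf N => P370.ker (x i - x j) :=
    measurable_ker.comp ((measurable_pi_apply i).sub (measurable_pi_apply j))
  refine ((hf.hardy hij).1.add hf'.1.integrable_sq).mono'
    (hm.aestronglyMeasurable.mul (hf.1.1.mul hf'.1.1)) (Eventually.of_forall fun x => ?_)
  simp only [Real.norm_eq_abs, Pi.add_apply]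
  rw [abs_le]
  constructor <;> nlinarith [sq_nonneg (P370.ker (x i - x j) * f x - f' x),
    sq_nonneg (P370.ker (x i - x j) * f x + f' x), sq_nonneg (P370.ker (x i - x j) * f x),
    sq_nonneg (f' x)]

theorem bil_comm : bil V lam f G f' G' = bil V lam f' G' f G := by
  simp only [bil, mul_comm (f _), mul_comm (G _ _ _)]

theorem bil_lin (h : FB V) {f'' : Cf N → ℝ} {G'' : Fin N → Fin 3 → Cf N → ℝ} (hf : RH f G)
    (hf' : RH f' G') (hf'' : RH f'' G'') (a b : ℝ) :
    bil V lam f G (fun x => a * f' x + b * f'' x) (fun i k x => a * G' i k x + b * G'' i k x) =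
      a * bil V lam f G f' G' + b * bil V lam f G f'' G'' := by
  have e : ∀ p q : Cf N → ℝ, Integrable p → Integrable q →
      ∫ x, (a * p x + b * q x) = a * (∫ x, p x) + b * ∫ x, q x := fun p q hp hq => by
    rw [integral_add (hp.const_mul a) (hq.const_mul b), integral_const_mul, integral_const_mul]
  have e1 : ∀ i k, ∫ x, G i k x * (a * G' i k x + b * G'' i k x) =
      a * (∫ x, G i k x * G' i k x) + b * ∫ x, G i k x * G'' i k x := fun i k => by
    rw [← e (fun x => G i k x * G' i k x) (fun x => G i k x * G'' i k x)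
      ((hf.2 i k).1.integrable_mul (hf'.2 i k).1) ((hf.2 i k).1.integrable_mul (hf''.2 i k).1)]
    exact integral_congr_ae (Eventually.of_forall fun x => by ring)
  have e2 : ∀ i, ∫ x, V (x i) * (f x * (a * f' x + b * f'' x)) =
      a * (∫ x, V (x i) * (f x * f' x)) + b * ∫ x, V (x i) * (f x * f'' x) := fun i => by
    rw [← e _ _ (h.integrable_rh hf hf' i) (h.integrable_rh hf hf'' i)]
    exact integral_congr_ae (Eventually.of_forall fun x => by ring)
  have e3 : ∀ i j : Fin N, (if i < j then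
      ∫ x : Cf N, P370.ker (x i - x j) * (f x * (a * f' x + b * f'' x)) else 0) =
      a * (if i < j then ∫ x : Cf N, P370.ker (x i - x j) * (f x * f' x) else 0) +
        b * if i < j then ∫ x : Cf N, P370.ker (x i - x j) * (f x * f'' x) else 0 := fun i j => by
    split_ifs with hij
    · rw [← e _ _ (hf.integrable_ker hf' hij.ne) (hf.integrable_ker hf'' hij.ne)]
      exact integral_congr_ae (Eventually.of_forall fun x => by ring)
    · simp
  simp only [bil, e1, e2, e3, Finset.sum_add_distrib, ← Finset.mul_sum]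
  ring

theorem bil_congr (hf : RH f G) (hf' : RH f' G') (e : f =ᵐ[volume] f') {h : Cf N → ℝ}
    {H : Fin N → Fin 3 → Cf N → ℝ} : bil V lam f G h H = bil V lam f' G' h H := by
  have e1 : ∀ i k, ∫ x, G i k x * H i k x = ∫ x, G' i k x * H i k x := fun i k =>
    integral_congr_ae (((rh_iff.1 hf).unique (rh_iff.1 hf') e (i, k)).mono fun x hx => by
      simp only at hx ⊢
      rw [hx])
  have e2 : ∀ w : Cf N → ℝ, ∫ x, w x * (f x * h x) = ∫ x, w x * (f' x * h x) := fun w =>
    integral_congr_ae (e.mono fun x hx => by simp only [hx])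
  simp only [bil, e1, e2]

theorem FB.tendsto_bil (h : FB V) {a b : ℕ → Cf N → ℝ} {ga gb : ℕ → Fin N → Fin 3 → Cf N → ℝ}
    (ha : ∀ m, RH (a m) (ga m)) (hb : ∀ m, RH (b m) (gb m)) (hf : RH f G) (hf' : RH f' G')
    (l1 : L2T volume a f) (l2 : ∀ i k, L2T volume (fun m => ga m i k) (G i k))
    (l3 : L2T volume b f') (l4 : ∀ i k, L2T volume (fun m => gb m i k) (G' i k)) :
    Tendsto (fun m => bil V lam (a m) (ga m) (b m) (gb m)) atTop (𝓝 (bil V lam f G f' G')) := by
  obtain ⟨C, hC0, hC⟩ := h.rh one_pos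
  have p0 : ∀ (u : Cf N → ℝ), 0 ≤ ∫ x, u x ^ 2 := fun u => integral_nonneg fun x => sq_nonneg _
  unfold bil
  refine (((tendsto_finsetSum _ fun i _ => tendsto_finsetSum _ fun k _ => ?_).const_mul _).add
    (tendsto_finsetSum _ fun i _ => ?_)).add
    ((tendsto_finsetSum _ fun i _ => tendsto_finsetSum _ fun j _ => ?_).const_mul _)
  · simpa using L2T.integral_mul (fun m => ((ha m).2 i k).1) (fun m => ((hb m).2 i k).1)
      (hf.2 i k).1 (hf'.2 i k).1 (l2 i k) (l4 i k) (b := fun _ => (1 : ℝ))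
      aestronglyMeasurable_const (C := 1) (fun _ => by simp)
  · refine LG_tend (W := fun x => V (x i)) (h.1.comp (measurable_pi_apply i)) (K := C + 1) i
      (fun u H hu => ?_) ha hb hf hf' l1 l2 l3 l4
    obtain ⟨k1, k2⟩ := hC N u H i hu
    refine ⟨by simpa only [abs_mul, abs_pow, sq_abs] using k1.abs, k2.trans ?_⟩
    have := Finset.sum_nonneg fun k (_ : k ∈ Finset.univ) => p0 (H i k)
    nlinarith [p0 u]
  · split_ifs with hij
    · have hm : Measurable fun x : Cf N => P370.ker (x i - x j) :=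
        measurable_ker.comp ((measurable_pi_apply i).sub (measurable_pi_apply j))
      refine LG_tend hm (K := 4) i (fun u H hu => ?_) ha hb hf hf' l1 l2 l3 l4
      obtain ⟨k1, k2⟩ := hu.hardy hij.ne
      have k3 : Integrable fun x : Cf N => |P370.ker (x i - x j)| * u x ^ 2 := by
        simpa only [abs_of_nonneg (ker_nonneg _), sq] using hu.integrable_ker hu hij.ne
      refine ⟨k3, ?_⟩
      have k4 : ∫ x : Cf N, |P370.ker (x i - x j)| * u x ^ 2 ≤
          ∫ x : Cf N, (P370.ker (x i - x j) ^ 2 * u x ^ 2 + u x ^ 2) := by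
        refine integral_mono k3 (k1.add hu.1.integrable_sq) fun x => ?_
        simp only [abs_of_nonneg (ker_nonneg _)]
        nlinarith [mul_nonneg (sq_nonneg (P370.ker (x i - x j) - 1)) (sq_nonneg (u x)),
          mul_nonneg (ker_nonneg (x i - x j)) (sq_nonneg (u x))]
      rw [integral_add k1 hu.1.integrable_sq] at k4
      linarith [p0 u]
    · exact tendsto_const_nhds

/-- The form controls the gradient. -/
theorem FB.grad_le (h : FB V) (hl : 0 ≤ lam) : ∃ C, 0 ≤ C ∧ ∀ (f : Cf N → ℝ) G, RH f G →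
    1 / 4 * ∑ i, ∑ k, ∫ x, G i k x ^ 2 ≤ bil V lam f G f G + C * ∫ x, f x ^ 2 := by
  obtain ⟨C, hC0, hC⟩ := h.rh (θ := 1 / 4) (by norm_num)
  refine ⟨N * C, by positivity, fun f G hf => ?_⟩
  have h1 : ∀ i, -(1 / 4 * (∑ k, ∫ x, G i k x ^ 2) + C * ∫ x, f x ^ 2) ≤
      ∫ x, V (x i) * (f x * f x) := fun i => by
    obtain ⟨k1, k2⟩ := hC N f G i hf
    have k3 : |∫ x, V (x i) * f x ^ 2| ≤ ∫ x, |V (x i)| * f x ^ 2 := by
      refine abs_integral_le_integral_abs.trans (le_of_eq ?_)
      simp only [abs_mul, abs_pow, sq_abs]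
    simp only [← sq]
    linarith [(abs_le.1 k3).1]
  have h2 := Finset.sum_le_sum fun i (_ : i ∈ Finset.univ) => h1 i
  simp only [Finset.sum_neg_distrib, Finset.sum_add_distrib, ← Finset.mul_sum, Finset.sum_const,
    Finset.card_univ, Fintype.card_fin, nsmul_eq_mul] at h2
  have h3 : 0 ≤ lam * ∑ i : Fin N, ∑ j : Fin N,
      if i < j then ∫ x : Cf N, P370.ker (x i - x j) * (f x * f x) else 0 := by
    refine mul_nonneg hl (Finset.sum_nonneg fun i _ => Finset.sum_nonneg fun j _ => ?_)
    split_ifs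
    · exact integral_nonneg fun x => mul_nonneg (ker_nonneg _) (mul_self_nonneg _)
    · exact le_rfl
  unfold bil
  simp only [← sq (G _ _ _)]
  linarith

theorem RH.perm (h : RH f G) (π : Equiv.Perm (Fin N)) :
    RH (fun x => f (x ∘ π)) fun i k x => G (π.symm i) k (x ∘ π) := by
  have := (rh_iff.1 h).comp_equiv (prm π) (mp_prm π) (σ := fun j => (π.symm j.1, j.2))
    (e := fun _ => 1) fun j => by
      funext l
      simp [prm_apply, dirn, Pi.single_apply, Equiv.eq_symm_apply]
  simp only [one_mul] at this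
  exact rh_iff.2 this

theorem LG_pairs (K : Fin N → Fin N → ℝ) (hK : ∀ i j, K i j = K j i) (π : Equiv.Perm (Fin N)) :
    (∑ i, ∑ j, if i < j then K (π i) (π j) else 0) = ∑ i, ∑ j, if i < j then K i j else 0 := by
  have key : ∀ L : Fin N → Fin N → ℝ, (∀ i j, L i j = L j i) →
      2 * (∑ i, ∑ j, if i < j then L i j else 0) = ∑ i, ∑ j, if i = j then 0 else L i j := by
    intro L hL
    have e : (∑ i, ∑ j, if i < j then L i j else 0) = ∑ i, ∑ j, if j < i then L i j else 0 := by
      rw [Finset.sum_comm]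
      simp only [hL]
    rw [two_mul]
    nth_rewrite 2 [e]
    simp only [← Finset.sum_add_distrib]
    refine Finset.sum_congr rfl fun i _ => Finset.sum_congr rfl fun j _ => ?_
    rcases lt_trichotomy i j with h | h | h
    · simp [h, h.ne, not_lt.2 h.le]
    · simp [h]
    · simp [h, h.ne', not_lt.2 h.le]
  have h1 := key _ hK
  have h2 := key (fun i j => K (π i) (π j)) fun i j => hK _ _
  have h3 : (∑ i, ∑ j, if i = j then 0 else K (π i) (π j)) =
      ∑ i, ∑ j, if i = j then 0 else K i j := by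
    rw [← Equiv.sum_comp π fun i => ∑ j, if i = j then 0 else K i j]
    refine Finset.sum_congr rfl fun i _ => ?_
    rw [← Equiv.sum_comp π fun j => if π i = j then 0 else K (π i) j]
    simp only [Equiv.apply_eq_iff_eq]
  linarith

theorem bil_perm (π : Equiv.Perm (Fin N)) :
    bil V lam (fun x => f (x ∘ π)) (fun i k x => G (π.symm i) k (x ∘ π))
      (fun x => f' (x ∘ π)) (fun i k x => G' (π.symm i) k (x ∘ π)) = bil V lam f G f' G' := by
  have e1 : ∀ i k, ∫ x : Cf N, G (π.symm i) k (x ∘ π) * G' (π.symm i) k (x ∘ π) =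
      ∫ x, G (π.symm i) k x * G' (π.symm i) k x := fun i k =>
    int_prm π fun x => G (π.symm i) k x * G' (π.symm i) k x
  have e2 : ∀ i, ∫ x : Cf N, V (x i) * (f (x ∘ π) * f' (x ∘ π)) =
      ∫ x, V (x (π.symm i)) * (f x * f' x) := fun i => by
    rw [← int_prm π fun x => V (x (π.symm i)) * (f x * f' x)]
    simp
  have e3 : ∀ i j, ∫ x : Cf N, P370.ker (x i - x j) * (f (x ∘ π) * f' (x ∘ π)) =
      ∫ x : Cf N, P370.ker (x (π.symm i) - x (π.symm j)) * (f x * f' x) := fun i j => by
    rw [← int_prm π fun x => P370.ker (x (π.symm i) - x (π.symm j)) * (f x * f' x)]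
    simp
  simp only [bil, e1, e2, e3]
  rw [Equiv.sum_comp π.symm fun i => ∑ k, ∫ x, G i k x * G' i k x,
    Equiv.sum_comp π.symm fun i => ∫ x, V (x i) * (f x * f' x),
    LG_pairs (fun i j => ∫ x : Cf N, P370.ker (x i - x j) * (f x * f' x))
      (fun i j => by simp only [ker_sub_comm (_ : Pt)]) π.symm]

theorem mp_rfN (i : Fin 3) :
    MeasurePreserving (fun (x : Cf N) j => rf i (x j)) volume volume :=
  measurePreserving_pi (fun _ => volume) (fun _ => volume) fun _ => mp_rf i

theorem LG_rf_apply (i k : Fin 3) (x : Pt) : rf i x k = (if k = i then -1 else 1) * x k := by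
  by_cases h : k = i
  · simp [rf, h]
  · simp [rf, h]

/-- The reflection of all positions, as a linear map. -/
def LG_rl (N : ℕ) (i : Fin 3) : Cf N →ₗ[ℝ] Cf N where
  toFun x j := rf i (x j)
  map_add' x y := by
    funext j k
    simp only [LG_rf_apply, Pi.add_apply, mul_add]
  map_smul' c x := by
    funext j k
    simp only [LG_rf_apply, Pi.smul_apply, smul_eq_mul, RingHom.id_apply, mul_left_comm]

/-- The reflection of all positions. -/
noncomputable def LG_re (N : ℕ) (i : Fin 3) : Cf N ≃L[ℝ] Cf N :=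
  (LinearEquiv.ofInvolutive (LG_rl N i) fun x => by
    funext j k
    change rf i (rf i (x j)) k = x j k
    simp only [LG_rf_apply]
    split_ifs <;> ring).toContinuousLinearEquiv

theorem LG_int_rf (i : Fin 3) (F : Cf N → ℝ) : ∫ x : Cf N, F (fun j => rf i (x j)) = ∫ x, F x :=
  (mp_rfN i).integral_comp (LG_re N i).toHomeomorph.measurableEmbedding F

theorem RH.rf (h : RH f G) (i : Fin 3) : RH (fun x => f fun j => rf i (x j))
    fun j k x => (if k = i then -1 else 1) * G j k fun j => rf i (x j) := by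
  refine rh_iff.2 ((rh_iff.1 h).comp_equiv (LG_re N i) (mp_rfN i) (σ := id)
    (e := fun j => if j.2 = i then -1 else 1) fun j => ?_)
  funext l m
  change P363.rf i ((dirn j.1 j.2 : Cf N) l) m = _
  simp only [LG_rf_apply, id, Pi.smul_apply, smul_eq_mul, dirn]
  by_cases h1 : l = j.1
  · by_cases h2 : m = j.2
    · simp [h1, h2]
    · simp [h1, h2]
  · simp [h1]

theorem bil_rf {i : Fin 3} (hV : ∀ x, V (rf i x) = V x) :
    bil V lam (fun x => f fun j => rf i (x j))
      (fun j k x => (if k = i then -1 else 1) * G j k fun j => rf i (x j))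
      (fun x => f' fun j => rf i (x j))
      (fun j k x => (if k = i then -1 else 1) * G' j k fun j => rf i (x j)) =
      bil V lam f G f' G' := by
  have e1 : ∀ j k, ∫ x : Cf N, ((if k = i then -1 else 1) * G j k fun j => rf i (x j)) *
      ((if k = i then -1 else 1) * G' j k fun j => rf i (x j)) = ∫ x, G j k x * G' j k x := by
    intro j k
    rw [← LG_int_rf i fun x => G j k x * G' j k x]
    refine integral_congr_ae (Eventually.of_forall fun x => ?_)
    simp only
    split_ifs <;> ring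
  have e2 : ∀ j, ∫ x : Cf N, V (x j) * ((f fun j => rf i (x j)) * f' fun j => rf i (x j)) =
      ∫ x, V (x j) * (f x * f' x) := fun j => by
    rw [← LG_int_rf i fun x => V (x j) * (f x * f' x)]
    simp only [hV]
  have e0 : ∀ a b : Pt, P370.ker (rf i a - rf i b) = P370.ker (a - b) := fun a b => by
    simp only [P370.ker, nrm, Pi.sub_apply, LG_rf_apply]
    congr 2
    refine Finset.sum_congr rfl fun k _ => ?_
    split_ifs <;> ring
  have e3 : ∀ j l, ∫ x : Cf N, P370.ker (x j - x l) *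
      ((f fun j => rf i (x j)) * f' fun j => rf i (x j)) =
      ∫ x : Cf N, P370.ker (x j - x l) * (f x * f' x) := fun j l => by
    rw [← LG_int_rf i fun x => P370.ker (x j - x l) * (f x * f' x)]
    simp only [e0]
  simp only [bil, e1, e2, e3]

/-- Tensor products. -/
theorem H1.tensor {n : ℕ} {u : Pt → ℝ} {g : Fin 3 → Pt → ℝ} (hu : H1 u g) {w : Cf n → ℝ}
    {H : Fin n → Fin 3 → Cf n → ℝ} (hw : RH w H) :
    RH (fun x : Cf (n + 1) => u (x 0) * w (Fin.tail x)) fun i k x =>
      Fin.cases (g k (x 0) * w (Fin.tail x)) (fun j => u (x 0) * H j k (Fin.tail x)) i := by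
  refine ⟨LG_tmem hu.1 hw.1, fun i k => ?_⟩
  refine Fin.cases ?_ (fun j => ?_) i
  · exact (LG_t0 hu hw.1).2 k
  · exact ⟨LG_tmem hu.1 (hw.2 j k).1, fun φ hφ hc => LG_t1 hu.1 hw j k hφ hc⟩

/-- Contraction with a square integrable function of the other variables. -/
theorem RH.contract {n : ℕ} {f : Cf (n + 1) → ℝ} {G : Fin (n + 1) → Fin 3 → Cf (n + 1) → ℝ}
    (h : RH f G) {w : Cf n → ℝ} (hw : MemLp w 2) :
    H1 (fun x => ∫ y, f (Fin.cons x y) * w y) fun k x => ∫ y, G 0 k (Fin.cons x y) * w y := by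
  refine ⟨LG_cmem h.1 hw, fun k => ⟨LG_cmem (h.2 0 k).1 hw, fun φ hφ hc => ?_⟩⟩
  have h1 : H1 φ (gr1 φ) := C1c.h1 ⟨hφ.of_le (by simp), hc⟩
  have h0 : WD volume (fun k : Fin 3 => (dirn 0 k : Cf (n + 1))) f (G 0) := ⟨h.1, h.2 0⟩
  exact (LG_fub h.1 (h1.2 k).1 hw).trans
    ((h0.ibp (LG_t0 h1 hw) (fun k => LG_dirn 0 k) k).trans
      (congrArg Neg.neg (LG_fub (h.2 0 k).1 h1.1 hw).symm))

end Vale.Agent.P363
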