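import Vale.Agent.P363.LD

/-! Auxiliary results for LG: slicing and extension of weighted bounds. -/

namespace Vale.Agent.P363

open MeasureTheory Vale.Agent.P370 Filter Topology
open scoped ContDiff

variable {N n : ℕ}

theorem LG_mp (i : Fin (n + 1)) :
    MeasurePreserving (fun p : Pt × Cf n => (i.insertNth p.1 p.2 : Cf (n + 1)))
      (volume.prod volume) volume :=
  (volume_preserving_piFinSuccAbove (fun _ : Fin (n + 1) => Pt) i).symm

theorem LG_emb (i : Fin (n + 1)) :
    MeasurableEmbedding fun p : Pt × Cf n => (i.insertNth p.1 p.2 : Cf (n + 1)) :=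
  (MeasurableEquiv.piFinSuccAbove (fun _ : Fin (n + 1) => Pt) i).symm.measurableEmbedding

theorem LG_dirn (i : Fin N) (k : Fin 3) : ‖(dirn i k : Cf N)‖ ≤ 1 := by
  simp [dirn, Pi.norm_single]

theorem LG_rh {f : Cf N → ℝ} (h : C1N f) : RH f (gr f) := rh_iff.2 (wd_c1 h.1 h.2)

theorem LG_seq {f : Cf N → ℝ} {G : Fin N → Fin 3 → Cf N → ℝ} (h : RH f G) :
    ∃ u : ℕ → Cf N → ℝ, (∀ m, C1N (u m)) ∧ L2T volume u f ∧
      ∀ i k, L2T volume (fun m => gr (u m) i k) (G i k) := by
  obtain ⟨u, h1, h2, h3⟩ := (rh_iff.1 h).seq fun j => LG_dirn j.1 j.2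
  exact ⟨u, h1, h2, fun i k => h3 (i, k)⟩

theorem LG_sq {u : ℕ → Cf N → ℝ} {f : Cf N → ℝ} (hu : ∀ m, MemLp (u m) 2) (hf : MemLp f 2)
    (h : L2T volume u f) : Tendsto (fun m => ∫ x, u m x ^ 2) atTop (𝓝 (∫ x, f x ^ 2)) := by
  simpa [sq] using L2T.integral_mul hu hu hf hf h h (b := fun _ => (1 : ℝ))
    aestronglyMeasurable_const (C := 1) (fun _ => by simp)

theorem LG_ins (i : Fin (n + 1)) (y : Pt) (z : Cf n) :
    (i.insertNth y z : Cf (n + 1)) = Function.update (i.insertNth 0 z : Cf (n + 1)) i y := by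
  rw [Fin.update_insertNth]

theorem LG_slice_c1 {f : Cf N → ℝ} (h : C1N f) (i : Fin N) (x : Cf N) :
    C1c fun y => f (Function.update x i y) := by
  refine ⟨h.1.comp (contDiff_update 1 x i), ?_⟩
  obtain ⟨r, -, hr⟩ := h.2.isCompact.isBounded.subset_closedBall_lt 0 0
  refine HasCompactSupport.intro (isCompact_closedBall 0 r) fun y hy => ?_
  refine image_eq_zero_of_notMem_tsupport fun hx => hy ?_
  have h1 := mem_closedBall_zero_iff.1 (hr hx)
  exact mem_closedBall_zero_iff.2
    (le_trans (by simpa using norm_le_pi_norm (Function.update x i y) i) h1)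

/-- The bound on the core, by slicing. -/
theorem LG_core {w : Cf N → ℝ} (hw : Measurable w) (h0 : ∀ x, 0 ≤ w x) (i : Fin N) {α β : ℝ}
    (h : ∀ (x : Cf N) ψ, C1c ψ → Integrable (fun y => w (Function.update x i y) * ψ y ^ 2) ∧
      ∫ y, w (Function.update x i y) * ψ y ^ 2 ≤
        α * (∑ k, ∫ y, pd k ψ y ^ 2) + β * ∫ y, ψ y ^ 2)
    {f : Cf N → ℝ} (hf : C1N f) : Integrable (fun x => w x * f x ^ 2) ∧
      ∫ x, w x * f x ^ 2 ≤ α * (∑ k, ∫ x, gr f i k x ^ 2) + β * ∫ x, f x ^ 2 := by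
  obtain ⟨n, rfl⟩ : ∃ n, N = n + 1 := ⟨N - 1, by have := i.pos; omega⟩
  have hr := LG_rh hf
  have i1 : Integrable (fun p : Pt × Cf n => f (i.insertNth p.1 p.2) ^ 2) (volume.prod volume) :=
    (LG_mp i).integrable_comp_of_integrable hr.1.integrable_sq
  have i2 : ∀ k, Integrable (fun p : Pt × Cf n => gr f i k (i.insertNth p.1 p.2) ^ 2)
      (volume.prod volume) := fun k =>
    (LG_mp i).integrable_comp_of_integrable (hr.2 i k).1.integrable_sq
  have key : ∀ z : Cf n,
      Integrable (fun y => w (i.insertNth y z) * f (i.insertNth y z) ^ 2) ∧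
      ∫ y, w (i.insertNth y z) * f (i.insertNth y z) ^ 2 ≤
        α * (∑ k, ∫ y, gr f i k (i.insertNth y z) ^ 2) + β * ∫ y, f (i.insertNth y z) ^ 2 := by
    intro z
    have := h (i.insertNth 0 z) _ (LG_slice_c1 hf i (i.insertNth 0 z))
    simp only [ML.pd_slice hf.1] at this
    simp only [← LG_ins] at this
    exact this
  have j : Integrable fun z : Cf n =>
      α * (∑ k, ∫ y, gr f i k (i.insertNth y z) ^ 2) + β * ∫ y, f (i.insertNth y z) ^ 2 :=
    ((integrable_finsetSum _ fun k _ => (i2 k).integral_prod_right).const_mul α).add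
      (i1.integral_prod_right.const_mul β)
  have hm : AEStronglyMeasurable
      (fun p : Pt × Cf n => w (i.insertNth p.1 p.2) * f (i.insertNth p.1 p.2) ^ 2)
      (volume.prod volume) :=
    ((hw.mul (hf.1.continuous.measurable.pow_const 2)).comp (LG_mp i).measurable).aestronglyMeasurable
  have i3 : Integrable
      (fun p : Pt × Cf n => w (i.insertNth p.1 p.2) * f (i.insertNth p.1 p.2) ^ 2)
      (volume.prod volume) := by
    refine (integrable_prod_iff' hm).2 ⟨Eventually.of_forall fun z => (key z).1, ?_⟩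
    refine j.mono' hm.prod_swap.norm.integral_prod_right' (Eventually.of_forall fun z => ?_)
    have e : ∀ y, ‖w (i.insertNth y z) * f (i.insertNth y z) ^ 2‖ =
        w (i.insertNth y z) * f (i.insertNth y z) ^ 2 := fun y =>
      Real.norm_of_nonneg (mul_nonneg (h0 _) (sq_nonneg _))
    simp only [e]
    rw [Real.norm_of_nonneg (integral_nonneg fun y => mul_nonneg (h0 _) (sq_nonneg _))]
    exact (key z).2
  refine ⟨((LG_mp i).integrable_comp_emb (LG_emb i)).1 i3, ?_⟩
  rw [← (LG_mp i).integral_comp (LG_emb i), integral_prod_symm _ i3]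
  refine (integral_mono i3.integral_prod_right j fun z => (key z).2).trans (le_of_eq ?_)
  rw [integral_add ((integrable_finsetSum _ fun k _ => (i2 k).integral_prod_right).const_mul α)
    (i1.integral_prod_right.const_mul β), integral_const_mul, integral_const_mul,
    integral_finsetSum _ fun k _ => (i2 k).integral_prod_right,
    ← (LG_mp i).integral_comp (LG_emb i) fun x => f x ^ 2, integral_prod_symm _ i1]
  congr 2
  refine Finset.sum_congr rfl fun k _ => ?_
  rw [← (LG_mp i).integral_comp (LG_emb i) fun x => gr f i k x ^ 2, integral_prod_symm _ (i2 k)]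

/-- Lower semicontinuity of weighted norms. -/
theorem LG_ext {w f : Cf N → ℝ} (hw : Measurable w) (h0 : ∀ x, 0 ≤ w x) {u : ℕ → Cf N → ℝ}
    (hu : ∀ m, MemLp (u m) 2) (hf : MemLp f 2) (l : L2T volume u f) {s : ℕ → ℝ} {S : ℝ}
    (hs : Tendsto s atTop (𝓝 S)) (h : ∀ m, Integrable (fun x => w x * u m x ^ 2) ∧
      ∫ x, w x * u m x ^ 2 ≤ s m) :
    Integrable (fun x => w x * f x ^ 2) ∧ ∫ x, w x * f x ^ 2 ≤ S := by
  have w0 : ∀ (m : ℕ) x, 0 ≤ min (w x) m := fun m x => le_min (h0 x) (Nat.cast_nonneg m)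
  have wb : ∀ (m : ℕ) x, |min (w x) m| ≤ m := fun m x => by
    rw [abs_of_nonneg (w0 m x)]; exact min_le_right _ _
  have wm : ∀ m : ℕ, AEStronglyMeasurable (fun x => min (w x) m) volume := fun m =>
    (hw.min measurable_const).aestronglyMeasurable
  have im : ∀ (m : ℕ) (g : Cf N → ℝ), MemLp g 2 → Integrable fun x => min (w x) m * g x ^ 2 :=
    fun m g hg => hg.integrable_sq.bdd_mul (c := m) (wm m) (ae_of_all _ (wb m))
  have hm : ∀ m : ℕ, ∫ x, min (w x) m * f x ^ 2 ≤ S := fun m => by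
    have h1 := L2T.integral_mul hu hu hf hf l l (wm m) (wb m)
    simp only [← sq] at h1
    refine le_of_tendsto_of_tendsto' h1 hs fun j => le_trans ?_ (h j).2
    exact integral_mono (im m _ (hu j)) (h j).1 fun x =>
      mul_le_mul_of_nonneg_right (min_le_left _ _) (sq_nonneg _)
  have hmono : ∀ x, Monotone fun m : ℕ => min (w x) m * f x ^ 2 := fun x a b hab =>
    mul_le_mul_of_nonneg_right (min_le_min le_rfl (Nat.cast_le.2 hab)) (sq_nonneg _)
  have hlim : ∀ x, Tendsto (fun m : ℕ => min (w x) m * f x ^ 2) atTop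
      (𝓝 (w x * f x ^ 2)) := fun x => by
    refine tendsto_const_nhds.congr' ?_
    filter_upwards [eventually_ge_atTop ⌈w x⌉₊] with m hm
    rw [min_eq_left ((Nat.le_ceil _).trans (Nat.cast_le.2 hm))]
  have hint : Integrable fun x => w x * f x ^ 2 := by
    refine ⟨hw.aestronglyMeasurable.mul hf.integrable_sq.1, ?_⟩
    rw [hasFiniteIntegral_iff_ofReal (ae_of_all _ fun x => mul_nonneg (h0 x) (sq_nonneg _))]
    have := lintegral_tendsto_of_tendsto_of_monotone (μ := volume)
      (f := fun (m : ℕ) x => ENNReal.ofReal (min (w x) m * f x ^ 2))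
      (F := fun x => ENNReal.ofReal (w x * f x ^ 2))
      (fun m => (im m f hf).1.aemeasurable.ennreal_ofReal)
      (ae_of_all _ fun x a b hab => ENNReal.ofReal_le_ofReal (hmono x hab))
      (ae_of_all _ fun x => ENNReal.tendsto_ofReal (hlim x))
    refine lt_of_le_of_lt (le_of_tendsto' this fun m => ?_) (ENNReal.ofReal_lt_top (r := S))
    rw [← ofReal_integral_eq_lintegral_ofReal (im m f hf)
      (ae_of_all _ fun x => mul_nonneg (w0 m x) (sq_nonneg _))]
    exact ENNReal.ofReal_le_ofReal (hm m)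
  exact ⟨hint, le_of_tendsto' (integral_tendsto_of_tendsto_of_monotone (fun m => im m f hf) hint
    (ae_of_all _ hmono) (ae_of_all _ hlim)) hm⟩

theorem LG_main {w : Cf N → ℝ} (hw : Measurable w) (h0 : ∀ x, 0 ≤ w x) (i : Fin N) {α β : ℝ}
    (h : ∀ (x : Cf N) ψ, C1c ψ → Integrable (fun y => w (Function.update x i y) * ψ y ^ 2) ∧
      ∫ y, w (Function.update x i y) * ψ y ^ 2 ≤
        α * (∑ k, ∫ y, pd k ψ y ^ 2) + β * ∫ y, ψ y ^ 2)
    {f : Cf N → ℝ} {G : Fin N → Fin 3 → Cf N → ℝ} (hf : RH f G) :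
    Integrable (fun x => w x * f x ^ 2) ∧
      ∫ x, w x * f x ^ 2 ≤ α * (∑ k, ∫ x, G i k x ^ 2) + β * ∫ x, f x ^ 2 := by
  obtain ⟨u, h1, h2, h3⟩ := LG_seq hf
  refine LG_ext hw h0 (fun m => (LG_rh (h1 m)).1) hf.1 h2 ?_ fun m => LG_core hw h0 i h (h1 m)
  exact ((tendsto_finsetSum _ fun k _ => LG_sq (fun m => ((LG_rh (h1 m)).2 i k).1) (hf.2 i k).1
    (h3 i k)).const_mul α).add ((LG_sq (fun m => (LG_rh (h1 m)).1) hf.1 h2).const_mul β)

/-- Continuity of weighted products. -/
theorem LG_tend {W : Cf N → ℝ} (hW : Measurable W) {K : ℝ} (i : Fin N)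
    (h : ∀ u H, RH u H → Integrable (fun x => |W x| * u x ^ 2) ∧
      ∫ x, |W x| * u x ^ 2 ≤ K * ((∑ k, ∫ x, H i k x ^ 2) + ∫ x, u x ^ 2))
    {f f' : Cf N → ℝ} {G G' : Fin N → Fin 3 → Cf N → ℝ}
    {a b : ℕ → Cf N → ℝ} {ga gb : ℕ → Fin N → Fin 3 → Cf N → ℝ}
    (ha : ∀ m, RH (a m) (ga m)) (hb : ∀ m, RH (b m) (gb m)) (hf : RH f G) (hf' : RH f' G')
    (l1 : L2T volume a f) (l2 : ∀ i k, L2T volume (fun m => ga m i k) (G i k))
    (l3 : L2T volume b f') (l4 : ∀ i k, L2T volume (fun m => gb m i k) (G' i k)) :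
    Tendsto (fun m => ∫ x, W x * (a m x * b m x)) atTop (𝓝 (∫ x, W x * (f x * f' x))) := by
  have e1 : ∀ x (t : ℝ), (√|W x| * t) ^ 2 = |W x| * t ^ 2 := fun x t => by
    rw [mul_pow, Real.sq_sqrt (abs_nonneg _)]
  have m1 : ∀ u H, RH u H → MemLp (fun x => √|W x| * u x) 2 := fun u H hu => by
    refine (memLp_two_iff_integrable_sq (hW.abs.sqrt.aestronglyMeasurable.mul hu.1.1)).2 ?_
    simpa only [Pi.mul_apply, e1] using (h u H hu).1
  have m2 : ∀ (c : ℕ → Cf N → ℝ) (gc : ℕ → Fin N → Fin 3 → Cf N → ℝ) (g : Cf N → ℝ) H,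
      (∀ m, RH (c m) (gc m)) → RH g H → L2T volume c g →
      (∀ i k, L2T volume (fun m => gc m i k) (H i k)) →
      L2T volume (fun m x => √|W x| * c m x) fun x => √|W x| * g x := by
    intro c gc g H hc hg k1 k2
    have k3 := ((tendsto_finsetSum Finset.univ fun k _ => k2 i k).add k1).const_mul K
    simp only [Finset.sum_const_zero, add_zero, mul_zero] at k3
    refine squeeze_zero (fun m => integral_nonneg fun x => sq_nonneg _) (fun m => ?_) k3
    have := (h _ _ (rh_iff.2 ((rh_iff.1 (hc m)).sub (rh_iff.1 hg)) :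
      RH (fun x => c m x - g x) fun i k x => gc m i k x - H i k x)).2
    simpa only [← mul_sub, e1] using this
  have hs : ∀ x, |(SignType.sign (W x) : ℝ)| ≤ 1 := fun x => by
    rcases lt_trichotomy (W x) 0 with h | h | h <;> simp [h, sign_neg, sign_pos]
  have hsm : Measurable fun x => (SignType.sign (W x) : ℝ) := by
    have : (fun x => (SignType.sign (W x) : ℝ)) =
        fun x => if 0 < W x then 1 else if W x < 0 then -1 else 0 := by
      funext x
      rcases lt_trichotomy (W x) 0 with h | h | h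
      · simp [h, sign_neg, not_lt.2 h.le]
      · simp [h]
      · simp [h, sign_pos]
    rw [this]
    exact Measurable.ite (measurableSet_lt measurable_const hW) measurable_const
      (Measurable.ite (measurableSet_lt hW measurable_const) measurable_const measurable_const)
  have key := L2T.integral_mul (fun m => m1 _ _ (ha m)) (fun m => m1 _ _ (hb m)) (m1 _ _ hf)
    (m1 _ _ hf') (m2 _ _ _ _ ha hf l1 l2) (m2 _ _ _ _ hb hf' l3 l4) hsm.aestronglyMeasurable hs
  have e2 : ∀ x (s t : ℝ), (SignType.sign (W x) : ℝ) * (√|W x| * s * (√|W x| * t)) =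
      W x * (s * t) := fun x s t => by
    have h1 := Real.mul_self_sqrt (abs_nonneg (W x))
    have h2 : (SignType.sign (W x) : ℝ) * |W x| = W x := sign_mul_abs _
    linear_combination (SignType.sign (W x) : ℝ) * s * t * h1 + s * t * h2
  simpa only [e2] using key

theorem LG_cs {X : Type*} [MeasurableSpace X] {μ : Measure X} {f g : X → ℝ} (hf : MemLp f 2 μ)
    (hg : MemLp g 2 μ) : (∫ x, f x * g x ∂μ) ^ 2 ≤ (∫ x, f x ^ 2 ∂μ) * ∫ x, g x ^ 2 ∂μ := by
  have i1 := hf.integrable_sq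
  have i2 := hg.integrable_sq
  have i3 : Integrable (fun x => f x * g x) μ := hf.integrable_mul hg
  have h := discrim_le_zero (a := ∫ x, f x ^ 2 ∂μ) (b := -2 * ∫ x, f x * g x ∂μ)
    (c := ∫ x, g x ^ 2 ∂μ) fun t => by
      have e : ∫ x, (t * f x - g x) ^ 2 ∂μ =
          ∫ x, (t * t * f x ^ 2 + -2 * t * (f x * g x) + g x ^ 2) ∂μ :=
        integral_congr_ae (Eventually.of_forall fun x => by ring)
      have h0 : 0 ≤ ∫ x, (t * f x - g x) ^ 2 ∂μ := integral_nonneg fun x => sq_nonneg _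
      rw [e, integral_add ((i1.const_mul _).fun_add (i3.const_mul _)) i2,
        integral_add (i1.const_mul _) (i3.const_mul _), integral_const_mul,
        integral_const_mul] at h0
      linarith
  rw [discrim] at h
  nlinarith

end Vale.Agent.P363
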