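import Vale.Agent.P363.LGX1

/-! Auxiliary results for LG: tensor products and contractions. -/

namespace Vale.Agent.P363

open MeasureTheory Vale.Agent.P370 Filter Topology
open scoped ContDiff

variable {n : ℕ}

theorem LG_mp0 : MeasurePreserving (fun p : Pt × Cf n => (Fin.cons p.1 p.2 : Cf (n + 1)))
    (volume.prod volume) volume := by
  simpa only [Fin.insertNth_zero'] using LG_mp (n := n) 0

theorem LG_emb0 : MeasurableEmbedding fun p : Pt × Cf n => (Fin.cons p.1 p.2 : Cf (n + 1)) := by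
  simpa only [Fin.insertNth_zero'] using LG_emb (n := n) 0

theorem LG_mp1 : MeasurePreserving (fun x : Cf (n + 1) => ((x 0, Fin.tail x) : Pt × Cf n)) volume
    (volume.prod volume) :=
  volume_preserving_piFinSuccAbove (fun _ : Fin (n + 1) => Pt) 0

theorem LG_tmem {u : Pt → ℝ} {w : Cf n → ℝ} (hu : MemLp u 2) (hw : MemLp w 2) :
    MemLp (fun x : Cf (n + 1) => u (x 0) * w (Fin.tail x)) 2 := by
  have h : MemLp (fun p : Pt × Cf n => u p.1 * w p.2) 2 (volume.prod volume) := by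
    refine (memLp_two_iff_integrable_sq (hu.1.comp_fst.mul hw.1.comp_snd)).2 ?_
    simpa only [Pi.mul_apply, mul_pow] using hu.integrable_sq.mul_prod hw.integrable_sq
  exact h.comp_measurePreserving LG_mp1

theorem LG_int0 {a b : Cf (n + 1) → ℝ} (ha : MemLp a 2) (hb : MemLp b 2) :
    ∫ x, a x * b x = ∫ y, ∫ z, a (Fin.cons y z) * b (Fin.cons y z) := by
  rw [← LG_mp0.integral_comp LG_emb0]
  exact integral_prod _ (LG_mp0.integrable_comp_of_integrable (ha.integrable_mul hb))

theorem LG_int1 {a b : Cf (n + 1) → ℝ} (ha : MemLp a 2) (hb : MemLp b 2) :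
    ∫ x, a x * b x = ∫ z, ∫ y, a (Fin.cons y z) * b (Fin.cons y z) := by
  rw [← LG_mp0.integral_comp LG_emb0]
  exact integral_prod_symm _ (LG_mp0.integrable_comp_of_integrable (ha.integrable_mul hb))

theorem LG_test {φ : Cf (n + 1) → ℝ} (h : ContDiff ℝ ∞ φ) (hc : HasCompactSupport φ) :
    RH φ (gr φ) := LG_rh ⟨h.of_le (by simp), hc⟩

theorem LG_t0 {u : Pt → ℝ} {g : Fin 3 → Pt → ℝ} (hu : H1 u g) {w : Cf n → ℝ} (hw : MemLp w 2) :
    WD volume (fun k : Fin 3 => (dirn 0 k : Cf (n + 1)))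
      (fun x : Cf (n + 1) => u (x 0) * w (Fin.tail x)) fun k x => g k (x 0) * w (Fin.tail x) := by
  refine ⟨LG_tmem hu.1 hw, fun k => ⟨LG_tmem (hu.2 k).1 hw, fun φ hφ hc => ?_⟩⟩
  have hr := LG_test hφ hc
  have c1 : C1N φ := ⟨hφ.of_le (by simp), hc⟩
  refine (LG_int1 (LG_tmem hu.1 hw) (hr.2 0 k).1).trans ?_
  rw [LG_int1 (LG_tmem (hu.2 k).1 hw) hr.1, ← integral_neg]
  refine integral_congr_ae (Eventually.of_forall fun z => ?_)
  have h1 := (hu.2 k).2 (fun y => φ (Function.update (Fin.cons 0 z : Cf (n + 1)) 0 y))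
    (hφ.comp (contDiff_update ∞ _ 0)) (LG_slice_c1 c1 0 _).2
  simp only [ML.pd_slice c1.1] at h1
  simp only [Fin.update_cons_zero] at h1
  simp only [Fin.cons_zero, Fin.tail_cons, gr]
  simp only [mul_right_comm _ (w z), integral_mul_const]
  rw [← neg_mul]
  exact congrArg (· * w z) h1

/-- Inclusion of the last variables. -/
noncomputable def LG_L (n : ℕ) : Cf n →L[ℝ] Cf (n + 1) :=
  ContinuousLinearMap.pi fun i => Fin.cases 0 (fun j => ContinuousLinearMap.proj j) i

theorem LG_L_eq (y : Pt) (z : Cf n) :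
    (Fin.cons y z : Cf (n + 1)) = LG_L n z + Fin.cons y 0 := by
  funext i
  refine Fin.cases ?_ (fun j => ?_) i <;> simp [LG_L]

theorem LG_L_dirn (j : Fin n) (k : Fin 3) : LG_L n (dirn j k) = dirn j.succ k := by
  funext i
  refine Fin.cases ?_ (fun l => ?_) i
  · simp [LG_L, dirn, (Fin.succ_ne_zero j).symm]
  · simp [LG_L, dirn, Pi.single_apply]

theorem LG_t1 {u : Pt → ℝ} (hu : MemLp u 2) {w : Cf n → ℝ} {H : Fin n → Fin 3 → Cf n → ℝ}
    (hw : RH w H) (j : Fin n) (k : Fin 3) {φ : Cf (n + 1) → ℝ} (hφ : ContDiff ℝ ∞ φ)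
    (hc : HasCompactSupport φ) :
    ∫ x, u (x 0) * w (Fin.tail x) * fderiv ℝ φ x (dirn j.succ k) =
      -∫ x, u (x 0) * H j k (Fin.tail x) * φ x := by
  have hr := LG_test hφ hc
  refine (LG_int0 (LG_tmem hu hw.1) (hr.2 j.succ k).1).trans ?_
  rw [LG_int0 (LG_tmem hu (hw.2 j k).1) hr.1, ← integral_neg]
  refine integral_congr_ae (Eventually.of_forall fun y => ?_)
  have hL : ContDiff ℝ ∞ fun z : Cf n => (Fin.cons y z : Cf (n + 1)) := by
    rw [funext (LG_L_eq y)]
    exact (LG_L n).contDiff.add contDiff_const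
  have hs : HasCompactSupport fun z : Cf n => φ (Fin.cons y z) := by
    obtain ⟨r, hr0, hr⟩ := hc.isCompact.isBounded.subset_closedBall_lt 0 0
    refine HasCompactSupport.intro (isCompact_closedBall 0 r) fun z hz => ?_
    refine image_eq_zero_of_notMem_tsupport fun hx => hz ?_
    have h1 := mem_closedBall_zero_iff.1 (hr hx)
    refine mem_closedBall_zero_iff.2 ((pi_norm_le_iff_of_nonneg hr0.le).2 fun l => ?_)
    exact le_trans (by simpa using norm_le_pi_norm (Fin.cons y z : Cf (n + 1)) l.succ) h1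
  have hd : ∀ z : Cf n, fderiv ℝ (fun z : Cf n => φ (Fin.cons y z)) z (dirn j k) =
      fderiv ℝ φ (Fin.cons y z) (dirn j.succ k) := fun z => by
    have h1 : HasFDerivAt (fun z : Cf n => (Fin.cons y z : Cf (n + 1))) (LG_L n) z := by
      rw [funext (LG_L_eq y)]
      exact (LG_L n).hasFDerivAt.add_const _
    have h2 := ((hφ.differentiable (by simp) (Fin.cons y z)).hasFDerivAt.comp z h1).fderiv
    rw [show (fun z : Cf n => φ (Fin.cons y z)) = φ ∘ fun z : Cf n => (Fin.cons y z : Cf (n + 1))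
      from rfl, h2, ContinuousLinearMap.comp_apply, LG_L_dirn]
  have h1 := (hw.2 j k).2 _ (hφ.comp hL) hs
  simp only [Function.comp_def, hd] at h1
  simp only [Fin.cons_zero, Fin.tail_cons, gr]
  simp only [mul_assoc (u y), integral_const_mul]
  rw [← mul_neg]
  exact congrArg (u y * ·) h1

theorem LG_cmem {f : Cf (n + 1) → ℝ} (hf : MemLp f 2) {w : Cf n → ℝ} (hw : MemLp w 2) :
    MemLp (fun x : Pt => ∫ y, f (Fin.cons x y) * w y) 2 := by
  have h1 : MemLp (fun p : Pt × Cf n => f (Fin.cons p.1 p.2)) 2 (volume.prod volume) :=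
    hf.comp_measurePreserving LG_mp0
  have hm : AEStronglyMeasurable (fun x : Pt => ∫ y, f (Fin.cons x y) * w y) volume :=
    (h1.1.mul hw.1.comp_snd).integral_prod_right'
  refine (memLp_two_iff_integrable_sq hm).2 ?_
  refine (h1.integrable_sq.integral_prod_left.mul_const (∫ y, w y ^ 2)).mono' (hm.pow 2) ?_
  filter_upwards [h1.integrable_sq.prod_right_ae, h1.1.prodMk_left] with x h2 h3
  rw [Real.norm_of_nonneg (sq_nonneg _)]
  exact LG_cs ((memLp_two_iff_integrable_sq h3).2 h2) hw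

theorem LG_fub {f : Cf (n + 1) → ℝ} (hf : MemLp f 2) {a : Pt → ℝ} (ha : MemLp a 2)
    {w : Cf n → ℝ} (hw : MemLp w 2) : ∫ x : Pt, (∫ y, f (Fin.cons x y) * w y) * a x =
      ∫ x, f x * (a (x 0) * w (Fin.tail x)) := by
  rw [LG_int0 hf (LG_tmem ha hw)]
  refine integral_congr_ae (Eventually.of_forall fun x => ?_)
  simp only [Fin.cons_zero, Fin.tail_cons]
  rw [← integral_mul_const]
  exact integral_congr_ae (Eventually.of_forall fun y => by ring)

end Vale.Agent.P363
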