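import Vale.Agent.P363.LG

/-! Part R, file 0: slices, Fubini, Cauchy-Schwarz, Fatou. -/

namespace Vale.Agent.P363

open MeasureTheory Vale.Agent.P370 Filter Topology
open scoped ContDiff

variable {n : ℕ}

/-- Slice at a fixed first position. -/
def sl (f : Cf (n + 1) → ℝ) (x : Pt) : Cf n → ℝ := fun y => f (Fin.cons x y)

/-- Gradient of the slice. -/
def slG (G : Fin (n + 1) → Fin 3 → Cf (n + 1) → ℝ) (x : Pt) : Fin n → Fin 3 → Cf n → ℝ :=
  fun j k y => G j.succ k (Fin.cons x y)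

/-- Norm of the slice. -/
noncomputable def nsl (f : Cf (n + 1) → ℝ) (x : Pt) : ℝ := √(∫ y, f (Fin.cons x y) ^ 2)

/-- Contraction with a function of the other positions. -/
noncomputable def rctr (f : Cf (n + 1) → ℝ) (w : Cf n → ℝ) (x : Pt) : ℝ :=
  ∫ y, f (Fin.cons x y) * w y

/-- Repulsion between the first electron and the other two. -/
noncomputable def rWk (lam : ℝ) (x : Pt) (y : Cf 2) : ℝ :=
  lam * (P370.ker (x - y 0) + P370.ker (x - y 1))

theorem mp_ins (i : Fin (n + 1)) : MeasurePreserving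
    (fun p : Pt × Cf n => (i.insertNth p.1 p.2 : Cf (n + 1))) (volume.prod volume) volume :=
  (volume_preserving_piFinSuccAbove (fun _ : Fin (n + 1) => Pt) i).symm _

theorem rmp_cons : MeasurePreserving (fun p : Pt × Cf n => (Fin.cons p.1 p.2 : Cf (n + 1)))
    (volume.prod volume) volume := by
  simpa only [Fin.insertNth_zero'] using mp_ins (n := n) 0

theorem r0_emb (i : Fin (n + 1)) :
    MeasurableEmbedding fun p : Pt × Cf n => (i.insertNth p.1 p.2 : Cf (n + 1)) :=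
  (MeasurableEquiv.piFinSuccAbove (fun _ : Fin (n + 1) => Pt) i).symm.measurableEmbedding

/-- Fubini, position `i` outside. -/
theorem int_ins (i : Fin (n + 1)) {F : Cf (n + 1) → ℝ} (hF : Integrable F) :
    Integrable (fun x : Pt => ∫ y : Cf n, F (i.insertNth x y)) ∧
      (∀ᵐ x : Pt, Integrable fun y : Cf n => F (i.insertNth x y)) ∧
      ∫ x : Pt, ∫ y : Cf n, F (i.insertNth x y) = ∫ z, F z := by
  have h := (mp_ins i).integrable_comp_of_integrable hF
  exact ⟨h.integral_prod_left, h.prod_right_ae,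
    (integral_prod _ h).symm.trans ((mp_ins i).integral_comp (r0_emb i) F)⟩

/-- Fubini, position `i` inside. -/
theorem int_ins' (i : Fin (n + 1)) {F : Cf (n + 1) → ℝ} (hF : Integrable F) :
    Integrable (fun y : Cf n => ∫ x : Pt, F (i.insertNth x y)) ∧
      (∀ᵐ y : Cf n, Integrable fun x : Pt => F (i.insertNth x y)) ∧
      ∫ y : Cf n, ∫ x : Pt, F (i.insertNth x y) = ∫ z, F z := by
  have h := (mp_ins i).integrable_comp_of_integrable hF
  exact ⟨h.integral_prod_right, h.prod_left_ae,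
    (integral_prod_symm _ h).symm.trans ((mp_ins i).integral_comp (r0_emb i) F)⟩

theorem int_cons {F : Cf (n + 1) → ℝ} (hF : Integrable F) :
    Integrable (fun x : Pt => ∫ y : Cf n, F (Fin.cons x y)) ∧
      (∀ᵐ x : Pt, Integrable fun y : Cf n => F (Fin.cons x y)) ∧
      ∫ x : Pt, ∫ y : Cf n, F (Fin.cons x y) = ∫ z, F z := by
  simpa only [Fin.insertNth_zero'] using int_ins 0 hF

theorem int_cons' {F : Cf (n + 1) → ℝ} (hF : Integrable F) :
    Integrable (fun y : Cf n => ∫ x : Pt, F (Fin.cons x y)) ∧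
      (∀ᵐ y : Cf n, Integrable fun x : Pt => F (Fin.cons x y)) ∧
      ∫ y : Cf n, ∫ x : Pt, F (Fin.cons x y) = ∫ z, F z := by
  simpa only [Fin.insertNth_zero'] using int_ins' 0 hF

theorem ae_ins (i : Fin (n + 1)) {p : Cf (n + 1) → Prop} (h : ∀ᵐ z, p z) :
    ∀ᵐ x : Pt, ∀ᵐ y : Cf n, p (i.insertNth x y) :=
  Measure.ae_ae_of_ae_prod ((mp_ins i).quasiMeasurePreserving.ae h)

theorem ae_ins' (i : Fin (n + 1)) {p : Cf (n + 1) → Prop} (h : ∀ᵐ z, p z) :
    ∀ᵐ y : Cf n, ∀ᵐ x : Pt, p (i.insertNth x y) :=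
  Measure.ae_ae_of_ae_prod (Measure.measurePreserving_swap.quasiMeasurePreserving.ae
    ((mp_ins i).quasiMeasurePreserving.ae h))

theorem ae_cons {p : Cf (n + 1) → Prop} (h : ∀ᵐ z, p z) :
    ∀ᵐ x : Pt, ∀ᵐ y : Cf n, p (Fin.cons x y) := by
  simpa only [Fin.insertNth_zero'] using ae_ins 0 h

/-- A property of one position that holds almost everywhere. -/
theorem ae_coord (i : Fin (n + 1)) {p : Pt → Prop} (h : ∀ᵐ x, p x) :
    ∀ᵐ z : Cf (n + 1), p (z i) :=
  (Measure.quasiMeasurePreserving_eval (fun _ : Fin (n + 1) => (volume : Measure Pt)) i).ae h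

theorem aesm_coord (i : Fin (n + 1)) {u : Pt → ℝ} (h : AEStronglyMeasurable u volume) :
    AEStronglyMeasurable (fun z : Cf (n + 1) => u (z i)) volume :=
  h.comp_quasiMeasurePreserving
    (Measure.quasiMeasurePreserving_eval (fun _ : Fin (n + 1) => (volume : Measure Pt)) i)

theorem aesm_cons {F : Cf (n + 1) → ℝ} (hF : AEStronglyMeasurable F volume) :
    AEStronglyMeasurable (fun x : Pt => ∫ y : Cf n, F (Fin.cons x y)) volume :=
  (hF.comp_measurePreserving rmp_cons).integral_prod_right'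

section L2

variable {E : Type} [MeasurableSpace E] {μ : Measure E} {f g : E → ℝ}

theorem l2_sq (hf : MemLp f 2 μ) : Integrable (fun x => f x ^ 2) μ := hf.integrable_sq

theorem l2_mul (hf : MemLp f 2 μ) (hg : MemLp g 2 μ) : Integrable (fun x => f x * g x) μ :=
  hf.integrable_mul hg

theorem l2_of_sq (hf : AEStronglyMeasurable f μ) (h : Integrable (fun x => f x ^ 2) μ) :
    MemLp f 2 μ := (memLp_two_iff_integrable_sq hf).2 h

theorem l2_cs (hf : MemLp f 2 μ) (hg : MemLp g 2 μ) :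
    (∫ x, f x * g x ∂μ) ^ 2 ≤ (∫ x, f x ^ 2 ∂μ) * ∫ x, g x ^ 2 ∂μ := by
  have h : ∀ t : ℝ, 0 ≤ (∫ x, f x ^ 2 ∂μ) * (t * t) + 2 * (∫ x, f x * g x ∂μ) * t +
      ∫ x, g x ^ 2 ∂μ := by
    intro t
    have i1 := (l2_sq hf).mul_const (t * t)
    have i2 := ((l2_mul hf hg).const_mul 2).mul_const t
    have i3 : Integrable (fun x => f x ^ 2 * (t * t) + 2 * (f x * g x) * t) μ := i1.add i2
    rw [← integral_mul_const, ← integral_const_mul, ← integral_mul_const, ← integral_add i1 i2,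
      ← integral_add i3 (l2_sq hg)]
    exact integral_nonneg fun x => by
      have := sq_nonneg (f x * t + g x)
      simp only [Pi.zero_apply]
      nlinarith
  have := discrim_le_zero h
  unfold discrim at this
  nlinarith

theorem l2_cs' (hf : MemLp f 2 μ) (hg : MemLp g 2 μ) :
    |∫ x, f x * g x ∂μ| ≤ √(∫ x, f x ^ 2 ∂μ) * √(∫ x, g x ^ 2 ∂μ) := by
  rw [← Real.sqrt_mul (integral_nonneg fun x => sq_nonneg _)]
  exact Real.abs_le_sqrt (l2_cs hf hg)

/-- Triangle inequality. -/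
theorem l2_tri (hf : MemLp f 2 μ) (hg : MemLp g 2 μ) :
    √(∫ x, f x ^ 2 ∂μ) ≤ √(∫ x, g x ^ 2 ∂μ) + √(∫ x, (f x - g x) ^ 2 ∂μ) := by
  have hd : MemLp (fun x => f x - g x) 2 μ := hf.sub hg
  have h1 := (le_abs_self _).trans (l2_cs' hg hd)
  have e : ∫ x, f x ^ 2 ∂μ = (∫ x, g x ^ 2 ∂μ) + 2 * (∫ x, g x * (f x - g x) ∂μ) +
      ∫ x, (f x - g x) ^ 2 ∂μ := by
    have i2 := (l2_mul hg hd).const_mul 2
    have i3 : Integrable (fun x => g x ^ 2 + 2 * (g x * (f x - g x))) μ := (l2_sq hg).add i2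
    rw [← integral_const_mul, ← integral_add (l2_sq hg) i2, ← integral_add i3 (l2_sq hd)]
    exact integral_congr_ae (Eventually.of_forall fun x => by ring)
  have a := Real.sq_sqrt (integral_nonneg fun x => sq_nonneg (g x) : 0 ≤ ∫ x, g x ^ 2 ∂μ)
  have b := Real.sq_sqrt (integral_nonneg fun x => sq_nonneg (f x - g x) :
    0 ≤ ∫ x, (f x - g x) ^ 2 ∂μ)
  refine Real.sqrt_le_iff.2 ⟨by positivity, ?_⟩
  nlinarith

/-- Fatou. -/
theorem fatou_int {F : ℕ → E → ℝ} {C : ℝ} (hF : ∀ m, Integrable (F m) μ)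
    (h0 : ∀ m x, 0 ≤ F m x) (hC : ∀ m, ∫ x, F m x ∂μ ≤ C)
    (l : ∀ᵐ x ∂μ, Tendsto (fun m => F m x) atTop (𝓝 (f x))) :
    Integrable f μ ∧ ∫ x, f x ∂μ ≤ C := by
  have hm : AEStronglyMeasurable f μ := aestronglyMeasurable_of_tendsto_ae atTop
    (fun m => (hF m).1) l
  have f0 : 0 ≤ᵐ[μ] f := l.mono fun x hx => ge_of_tendsto' hx fun m => h0 m x
  have hC0 : 0 ≤ C := (integral_nonneg (h0 0)).trans (hC 0)
  have h1 : ∫⁻ x, ENNReal.ofReal (f x) ∂μ ≤ ENNReal.ofReal C := by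
    calc ∫⁻ x, ENNReal.ofReal (f x) ∂μ
        = ∫⁻ x, liminf (fun m => ENNReal.ofReal (F m x)) atTop ∂μ :=
          lintegral_congr_ae (l.mono fun x hx =>
            ((ENNReal.continuous_ofReal.tendsto _).comp hx).liminf_eq.symm)
      _ ≤ liminf (fun m => ∫⁻ x, ENNReal.ofReal (F m x) ∂μ) atTop :=
          lintegral_liminf_le' fun m => (hF m).1.aemeasurable.ennreal_ofReal
      _ ≤ ENNReal.ofReal C := liminf_le_of_frequently_le' (Frequently.of_forall fun m => by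
          rw [← ofReal_integral_eq_lintegral_ofReal (hF m) (Eventually.of_forall (h0 m))]
          exact ENNReal.ofReal_le_ofReal (hC m))
  have hi : Integrable f μ :=
    ⟨hm, (hasFiniteIntegral_iff_ofReal f0).2 (h1.trans_lt ENNReal.ofReal_lt_top)⟩
  refine ⟨hi, ?_⟩
  rw [← ofReal_integral_eq_lintegral_ofReal hi f0] at h1
  exact (ENNReal.ofReal_le_ofReal_iff hC0).1 h1

end L2

theorem l2_ins (i : Fin (n + 1)) {f : Cf (n + 1) → ℝ} (hf : MemLp f 2) :
    (∀ᵐ x : Pt, MemLp (fun y : Cf n => f (i.insertNth x y)) 2) ∧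
      ∀ᵐ y : Cf n, MemLp (fun x : Pt => f (i.insertNth x y)) 2 := by
  have h := hf.1.comp_measurePreserving (mp_ins i)
  constructor
  · filter_upwards [h.prodMk_left, (int_ins i (l2_sq hf)).2.1] with x h1 h2
    exact l2_of_sq h1 h2
  · filter_upwards [h.prodMk_right, (int_ins' i (l2_sq hf)).2.1] with x h1 h2
    exact l2_of_sq h1 h2

theorem l2_cons {f : Cf (n + 1) → ℝ} (hf : MemLp f 2) : ∀ᵐ x : Pt, MemLp (sl f x) 2 := by
  have := (l2_ins 0 hf).1
  simp only [Fin.insertNth_zero'] at this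
  exact this

theorem nsl_nonneg (f : Cf (n + 1) → ℝ) (x : Pt) : 0 ≤ nsl f x := Real.sqrt_nonneg _

theorem nsl_sq (f : Cf (n + 1) → ℝ) (x : Pt) : nsl f x ^ 2 = ∫ y, f (Fin.cons x y) ^ 2 :=
  Real.sq_sqrt (integral_nonneg fun _ => sq_nonneg _)

theorem nsl_l2 {f : Cf (n + 1) → ℝ} (hf : MemLp f 2) :
    MemLp (nsl f) 2 ∧ ∫ x, nsl f x ^ 2 = ∫ z, f z ^ 2 := by
  have h := int_cons (l2_sq hf)
  simp only [nsl_sq]
  refine ⟨l2_of_sq (Real.continuous_sqrt.comp_aestronglyMeasurable h.1.1) ?_, h.2.2⟩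
  simpa only [nsl_sq] using h.1

/-- Square integrability from a bound on the slices. -/
theorem l2_of_slice {F : Cf (n + 1) → ℝ} (hF : AEStronglyMeasurable F volume) {B : Pt → ℝ}
    (hB : Integrable B) (h : ∀ᵐ x : Pt, Integrable (fun y : Cf n => F (Fin.cons x y) ^ 2) ∧
      ∫ y : Cf n, F (Fin.cons x y) ^ 2 ≤ B x) : MemLp F 2 := by
  refine l2_of_sq hF ?_
  have hm : AEStronglyMeasurable (fun z => F z ^ 2) volume := hF.pow 2
  rw [← rmp_cons.integrable_comp hm]
  have hm' := hm.comp_measurePreserving rmp_cons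
  refine (integrable_prod_iff hm').2 ⟨h.mono fun x hx => hx.1, hB.mono' hm'.norm.integral_prod_right'
    (h.mono fun x hx => ?_)⟩
  simp only [Function.comp_apply, norm_pow, Real.norm_eq_abs, sq_abs]
  rw [abs_of_nonneg (integral_nonneg fun _ => sq_nonneg _)]
  exact hx.2

end Vale.Agent.P363
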