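import Vale.Agent.P363.MLin
import Vale.Agent.P363.R0

/-!
Part M: existence of a minimiser below the gap.
Let `b` be the form, `l f = ∫ p f`, `μ` the infimum of `b f` over normalised `f` of the class
(`sInf`; bounded below by `e` as `l² ≤ ∫ p² ∫ f² ≤ ∫ f²`; `μ ≤ e + δ` by scaling `Gp.up`;
`μ ∫ f² ≤ b f` on the class by scaling, and for `∫ f² = 0` by `Gp.low`).  `q = b - μ <.,.>` is a
nonnegative symmetric bilinear form on the class (`bil_lin`, `bil_comm`, `WD.add`, `WD.smul`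
through `rh_iff`), so `q (s x + t y) ≤ 2 s² q x + 2 t² q y` (use `q (s x - t y) ≥ 0`).
Take normalised `x m` with `b (x m) ≤ μ + κ / (m + 2)`, `κ = g - δ`; `Gp.low` gives
`g l(x m)² ≥ κ / 2`; put `y m = x m / l (x m)`, so `l (y m) = 1`, `1 ≤ ∫ (y m)² ≤ 2 g / κ`,
`q (y m) → 0`.  For `d = y m - y m'`: `l d = 0`, so `κ ∫ d² ≤ q d ≤ 2 q (y m) + 2 q (y m')`, and
`FB.grad_le` bounds the gradient of `d` by `q d + (|μ| + C) ∫ d²`.  `l2_complete` for `y` and every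
gradient component, `WD.limit`, `Cls.lim`, `FB.tendsto_bil`, `L2T.tendsto_sq`,
`L2T.integral_mul`: the limit `y` has `q y = 0`, `l y = 1`, `∫ y² ≥ 1`.  Normalise.
-/

namespace Vale.Agent.P363

open MeasureTheory Vale.Agent.P370 Filter Topology

section Aux

variable {N : ℕ} {V : Pt → ℝ} {lam : ℝ} {f f' p : Cf N → ℝ} {G G' : Fin N → Fin 3 → Cf N → ℝ}

theorem mabs1_lin (hf : RH f G) (hf' : RH f' G') (a b : ℝ) :
    RH (fun x => a * f x + b * f' x) fun i k x => a * G i k x + b * G' i k x :=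
  rh_iff.2 (((rh_iff.1 hf).smul a).add ((rh_iff.1 hf').smul b))

theorem mabs1_bil (hV : FB V) (hf : RH f G) (hf' : RH f' G') (a b : ℝ) :
    bil V lam (fun x => a * f x + b * f' x) (fun i k x => a * G i k x + b * G' i k x)
      (fun x => a * f x + b * f' x) (fun i k x => a * G i k x + b * G' i k x) =
      a ^ 2 * bil V lam f G f G + 2 * a * b * bil V lam f G f' G' +
        b ^ 2 * bil V lam f' G' f' G' := by
  rw [bil_lin hV (mabs1_lin hf hf' a b) hf hf', bil_comm (f' := f), bil_comm (f' := f'),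
    bil_lin hV hf hf hf', bil_lin hV hf' hf hf', bil_comm (f := f') (f' := f)]
  ring

theorem mabs1_sq (hf : MemLp f 2) (hf' : MemLp f' 2) (a b : ℝ) :
    ∫ x, (a * f x + b * f' x) ^ 2 =
      a ^ 2 * (∫ x, f x ^ 2) + 2 * a * b * (∫ x, f x * f' x) + b ^ 2 * ∫ x, f' x ^ 2 := by
  have i1 := (l2_sq hf).const_mul (a ^ 2)
  have i2 := (l2_mul hf hf').const_mul (2 * a * b)
  have i3 := (l2_sq hf').const_mul (b ^ 2)
  have i4 : Integrable fun x => a ^ 2 * f x ^ 2 + 2 * a * b * (f x * f' x) := i1.add i2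
  rw [← integral_const_mul, ← integral_const_mul, ← integral_const_mul, ← integral_add i1 i2,
    ← integral_add i4 i3]
  exact integral_congr_ae (Eventually.of_forall fun x => by ring)

theorem mabs1_l (hp : MemLp p 2) (hf : MemLp f 2) (hf' : MemLp f' 2) (a b : ℝ) :
    ∫ x, p x * (a * f x + b * f' x) = a * (∫ x, p x * f x) + b * ∫ x, p x * f' x := by
  rw [← integral_const_mul, ← integral_const_mul,
    ← integral_add ((l2_mul hp hf).const_mul a) ((l2_mul hp hf').const_mul b)]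
  exact integral_congr_ae (Eventually.of_forall fun x => by ring)

theorem mabs1_cauchy {u : ℕ → Cf N → ℝ} (hu : ∀ m, MemLp (u m) 2) {K : ℝ} (hK : 0 ≤ K)
    (h : ∀ m m' : ℕ, ∫ x, (u m x - u m' x) ^ 2 ≤ K / (m + 2) + K / (m' + 2)) :
    ∃ f, MemLp f 2 ∧ L2T volume u f := by
  obtain ⟨f, -, h1, h2⟩ := l2_complete hu fun ε hε => by
    obtain ⟨M, hM⟩ := exists_nat_ge (2 * K / ε)
    have key : ∀ m ≥ M, K / ((m : ℝ) + 2) ≤ ε / 2 := fun m hm => by
      have : (M : ℝ) ≤ m := by exact_mod_cast hm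
      rw [div_le_iff₀ hε] at hM
      rw [div_le_iff₀ (by positivity)]
      nlinarith
    exact ⟨M, fun m hm m' hm' => by linarith [h m m', key m hm, key m' hm']⟩
  exact ⟨f, h1, h2⟩

end Aux

section Main

variable {N : ℕ} {V : Pt → ℝ} {lam : ℝ} {S : (Cf N → ℝ) → Prop} {p : Cf N → ℝ} {e g δ : ℝ}

theorem mabs1_scale (h : Gp V lam S p e g δ) {f : Cf N → ℝ} {G : Fin N → Fin 3 → Cf N → ℝ}
    (hf : RH f G) (hS : S f) (c : ℝ) : ∃ f' G', RH f' G' ∧ S f' ∧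
      ∫ x, f' x ^ 2 = c ^ 2 * ∫ x, f x ^ 2 ∧ ∫ x, p x * f' x = c * ∫ x, p x * f x ∧
      bil V lam f' G' f' G' = c ^ 2 * bil V lam f G f G :=
  ⟨_, _, mabs1_lin hf hf c 0, h.cls.lin f f c 0 hS hS, by rw [mabs1_sq hf.1 hf.1]; ring,
    by rw [mabs1_l h.mem hf.1 hf.1]; ring, by rw [mabs1_bil h.fb hf hf]; ring⟩

theorem mabs1_cs (h : Gp V lam S p e g δ) {f : Cf N → ℝ} (hf : MemLp f 2) :
    (∫ x, p x * f x) ^ 2 ≤ ∫ x, f x ^ 2 :=
  (l2_cs h.mem hf).trans (mul_le_of_le_one_left (integral_nonneg fun _ => sq_nonneg _) h.le_one)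

theorem mabs1_norm (h : Gp V lam S p e g δ) {f : Cf N → ℝ} {G : Fin N → Fin 3 → Cf N → ℝ}
    (hf : RH f G) (hS : S f) (h0 : 0 < ∫ x, f x ^ 2) : ∃ c, 0 < c ∧ c ^ 2 * ∫ x, f x ^ 2 = 1 ∧
      ∃ f' G', RH f' G' ∧ S f' ∧ ∫ x, f' x ^ 2 = 1 ∧ ∫ x, p x * f' x = c * ∫ x, p x * f x ∧
      bil V lam f' G' f' G' = c ^ 2 * bil V lam f G f G := by
  have e1 : (√(∫ x, f x ^ 2))⁻¹ ^ 2 * ∫ x, f x ^ 2 = 1 := by
    rw [inv_pow, Real.sq_sqrt h0.le, inv_mul_cancel₀ h0.ne']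
  obtain ⟨f', G', a1, a2, a3, a4, a5⟩ := mabs1_scale h hf hS (√(∫ x, f x ^ 2))⁻¹
  exact ⟨_, inv_pos.2 (Real.sqrt_pos.2 h0), e1, f', G', a1, a2, a3.trans e1, a4, a5⟩

/-- The infimum and a normalised minimising sequence. -/
theorem mabs1_inf (h : Gp V lam S p e g δ) : ∃ μ, μ ≤ e + δ ∧
    (∀ f H, RH f H → S f → μ * ∫ x, f x ^ 2 ≤ bil V lam f H f H) ∧
    ∀ t, 0 < t → ∃ f H, RH f H ∧ S f ∧ ∫ x, f x ^ 2 = 1 ∧ bil V lam f H f H ≤ μ + t := by
  have g0 : 0 < g := h.δ0.trans_lt h.δg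
  let A : Set ℝ := {t | ∃ f G, RH f G ∧ S f ∧ ∫ x, f x ^ 2 = 1 ∧ bil V lam f G f G = t}
  have hb : BddBelow A := ⟨e, by
    rintro t ⟨f, G, a1, a2, a3, rfl⟩
    have h1 := h.low f G a1 a2
    have h2 := mabs1_cs h a1.1
    rw [a3] at h1 h2
    nlinarith⟩
  have hle : ∀ f H, RH f H → S f → 0 < ∫ x, f x ^ 2 →
      sInf A * ∫ x, f x ^ 2 ≤ bil V lam f H f H := by
    intro f H a1 a2 a3
    obtain ⟨c, c0, c1, f', G', b1, b2, b3, -, b5⟩ := mabs1_norm h a1 a2 a3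
    have h1 : sInf A ≤ c ^ 2 * bil V lam f H f H := csInf_le hb ⟨f', G', b1, b2, b3, b5⟩
    calc _ ≤ c ^ 2 * bil V lam f H f H * ∫ x, f x ^ 2 := mul_le_mul_of_nonneg_right h1 a3.le
      _ = (c ^ 2 * ∫ x, f x ^ 2) * bil V lam f H f H := by ring
      _ = _ := by rw [c1, one_mul]
  obtain ⟨f, G, a1, a2, a3, a4⟩ := h.up
  refine ⟨sInf A, le_of_mul_le_mul_right ((hle f G a1 a2 a3).trans a4) a3, fun f H b1 b2 => ?_,
    fun t ht => ?_⟩
  · rcases (integral_nonneg fun x => sq_nonneg (f x) : 0 ≤ ∫ x, f x ^ 2).eq_or_lt with h0 | h0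
    · have h1 := h.low f H b1 b2
      have h2 := mabs1_cs h b1.1
      rw [← h0] at h1 h2 ⊢
      nlinarith
    · exact hle f H b1 b2 h0
  · obtain ⟨c, -, -, f', G', b1, b2, b3, -, -⟩ := mabs1_norm h a1 a2 a3
    obtain ⟨s, ⟨f, H, c1, c2, c3, rfl⟩, hs⟩ := exists_lt_of_csInf_lt
      (⟨_, f', G', b1, b2, b3, rfl⟩ : A.Nonempty) (lt_add_of_pos_right _ ht)
    exact ⟨f, H, c1, c2, c3, hs.le⟩

end Main

theorem Gp.exists_gs {N : ℕ} {V : Pt → ℝ} {lam : ℝ} {S : (Cf N → ℝ) → Prop} {p : Cf N → ℝ}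
    {e g δ : ℝ} (h : Gp V lam S p e g δ) : ∃ ψ G μ, GS V lam S p ψ G μ := by
  obtain ⟨μ, hμ, hmin, hseq⟩ := mabs1_inf h
  have g0 : 0 < g := h.δ0.trans_lt h.δg
  have κ0 : 0 < g - δ := sub_pos.2 h.δg
  have hy : ∀ m : ℕ, ∃ f H, RH f H ∧ S f ∧ ∫ x, p x * f x = 1 ∧
      bil V lam f H f H - μ * ∫ x, f x ^ 2 ≤ 2 * g / (m + 2) := by
    intro m
    have m2 : (0 : ℝ) < m + 2 := by positivity
    obtain ⟨f, H, a1, a2, a3, a4⟩ := hseq ((g - δ) / (m + 2)) (by positivity)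
    have h1 := h.low f H a1 a2
    rw [a3] at h1
    have h2 : (g - δ) / (m + 2) ≤ (g - δ) / 2 :=
      div_le_div_of_nonneg_left κ0.le two_pos (by linarith [(Nat.cast_nonneg m : (0 : ℝ) ≤ m)])
    have h3 : (g - δ) / 2 ≤ g * (∫ x, p x * f x) ^ 2 := by linarith
    have l0 : ∫ x, p x * f x ≠ 0 := fun h0 => by
      rw [h0] at h3
      linarith
    have l1 : 0 < (∫ x, p x * f x) ^ 2 := by positivity
    obtain ⟨f', H', b1, b2, b3, b4, b5⟩ := mabs1_scale h a1 a2 (∫ x, p x * f x)⁻¹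
    refine ⟨f', H', b1, b2, b4.trans (inv_mul_cancel₀ l0), ?_⟩
    rw [b5, b3, a3, mul_one, inv_pow, mul_comm μ, ← mul_sub, inv_mul_le_iff₀ l1]
    calc _ ≤ (g - δ) / (m + 2) := by linarith
      _ = (g - δ) / 2 * (2 / (m + 2)) := by field_simp
      _ ≤ g * (∫ x, p x * f x) ^ 2 * (2 / (m + 2)) := by gcongr
      _ = _ := by ring
  choose y H hy1 hy2 hy3 hy4 using hy
  obtain ⟨C, C0, hC⟩ := h.fb.grad_le (N := N) h.lam0
  have hd : ∀ m m' : ℕ, ∫ x, (y m x - y m' x) ^ 2 ≤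
      4 * g / (g - δ) / (m + 2) + 4 * g / (g - δ) / (m' + 2) ∧
      ∑ i, ∑ k, ∫ x, (H m i k x - H m' i k x) ^ 2 ≤
        16 * g * (1 + (|μ| + C) / (g - δ)) / (m + 2) +
          16 * g * (1 + (|μ| + C) / (g - δ)) / (m' + 2) := by
    intro m m'
    have r1 := mabs1_lin (hy1 m) (hy1 m') 1 (-1)
    have s1 := h.cls.lin _ _ 1 (-1) (hy2 m) (hy2 m')
    have h1 := h.low _ _ r1 s1
    have h2 := hC _ _ r1
    have h3 := hmin _ _ (mabs1_lin (hy1 m) (hy1 m') 1 1) (h.cls.lin _ _ 1 1 (hy2 m) (hy2 m'))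
    have h4 := mabs1_bil (lam := lam) h.fb (hy1 m) (hy1 m') 1 (-1)
    have h5 := mabs1_sq (hy1 m).1 (hy1 m').1 1 (-1)
    rw [mabs1_l h.mem (hy1 m).1 (hy1 m').1, hy3, hy3] at h1
    rw [mabs1_bil h.fb (hy1 m) (hy1 m'), mabs1_sq (hy1 m).1 (hy1 m').1] at h3
    simp only [one_mul, neg_mul, ← sub_eq_add_neg] at h1 h2 h4 h5
    set D := ∫ x, (y m x - y m' x) ^ 2 with hD
    set B := bil V lam (fun x => y m x - y m' x) (fun i k x => H m i k x - H m' i k x)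
      (fun x => y m x - y m' x) (fun i k x => H m i k x - H m' i k x) with hB
    have D0 : 0 ≤ D := integral_nonneg fun _ => sq_nonneg _
    set T := 4 * g / ((m : ℝ) + 2) + 4 * g / ((m' : ℝ) + 2) with hT
    have q1 : B - μ * D ≤ T := by
      have a := hy4 m
      have b := hy4 m'
      have e1 : T = 2 * (2 * g / (m + 2)) + 2 * (2 * g / (m' + 2)) := by rw [hT]; ring
      rw [h4, h5, e1]
      linarith
    have q2 : (g - δ) * D ≤ T := by nlinarith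
    have q3 : D ≤ T / (g - δ) := by rw [le_div_iff₀ κ0]; linarith
    have q4 : (μ + C) * D ≤ (|μ| + C) * (T / (g - δ)) :=
      mul_le_mul (by linarith [le_abs_self μ]) q3 D0 (by positivity)
    constructor
    · refine q3.trans (le_of_eq ?_)
      rw [hT]
      ring
    · calc _ ≤ 4 * (T + (|μ| + C) * (T / (g - δ))) := by linarith
        _ = _ := by rw [hT]; ring
  obtain ⟨f, f2, lf⟩ := mabs1_cauchy (fun m => (hy1 m).1) (by positivity) fun m m' => (hd m m').1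
  have hG : ∀ i k, ∃ F, MemLp F 2 ∧ L2T volume (fun m => H m i k) F := fun i k =>
    mabs1_cauchy (fun m => ((hy1 m).2 i k).1) (K := 16 * g * (1 + (|μ| + C) / (g - δ)))
      (by positivity) fun m m' => by
      refine le_trans ?_ (hd m m').2
      have n0 : ∀ i k, 0 ≤ ∫ x, (H m i k x - H m' i k x) ^ 2 := fun i k =>
        integral_nonneg fun _ => sq_nonneg _
      exact (Finset.single_le_sum (fun k _ => n0 i k) (Finset.mem_univ k)).trans
        (Finset.single_le_sum (f := fun i => ∑ k, ∫ x, (H m i k x - H m' i k x) ^ 2)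
          (fun i _ => Finset.sum_nonneg fun k _ => n0 i k) (Finset.mem_univ i))
  choose G G2 lG using hG
  have hf : RH f G := rh_iff.2 (WD.limit (fun m => rh_iff.1 (hy1 m)) f2 (fun j => G2 j.1 j.2) lf
    fun j => lG j.1 j.2)
  have hS : S f := h.cls.lim y f (fun m => (hy1 m).1) f2 hy2 lf
  have l1 := h.fb.tendsto_bil (lam := lam) hy1 hy1 hf hf lf lG lf lG
  have l2 := L2T.tendsto_sq (fun m => (hy1 m).1) f2 lf
  have l3 : Tendsto (fun m : ℕ => 2 * g / ((m : ℝ) + 2)) atTop (𝓝 0) :=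
    tendsto_const_nhds.div_atTop (tendsto_atTop_add_const_right _ _ tendsto_natCast_atTop_atTop)
  have q0 : bil V lam f G f G - μ * ∫ x, f x ^ 2 ≤ 0 :=
    le_of_tendsto_of_tendsto' (l1.sub (l2.const_mul μ)) l3 hy4
  have l4 := L2T.integral_mul (μ := volume) (u := fun _ => p) (fun _ => h.mem)
    (fun m => (hy1 m).1) h.mem f2 (by simp [L2T]) lf (b := fun _ => 1) aestronglyMeasurable_const
    (C := 1) (by simp)
  simp only [one_mul, hy3] at l4
  have l5 : ∫ x, p x * f x = 1 := tendsto_nhds_unique l4 tendsto_const_nhds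
  have n1 : 0 < ∫ x, f x ^ 2 := by
    have := mabs1_cs h f2
    rw [l5] at this
    linarith
  obtain ⟨c, c0, c1, ψ, Gψ, b1, b2, b3, b4, b5⟩ := mabs1_norm h hf hS n1
  refine ⟨ψ, Gψ, μ, b1, b2, b3, ?_, hmin, by rw [b4, l5]; linarith⟩
  have q1 : bil V lam f G f G = μ * ∫ x, f x ^ 2 := by linarith [hmin f G hf hS]
  rw [b5, q1, mul_left_comm, c1, mul_one]

end Vale.Agent.P363
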