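import Vale.Agent.P363.MLin

/-!
Part M: properties of the minimiser.  `l f = ∫ p f`, `l² ≤ ∫ f²` (Cauchy-Schwarz, `Gp.le_one`).
`near`: `g (1 - l ψ²) ≤ δ`, `0 ≤ l ψ ≤ 1`, `∫ (ψ - p)² ≤ 2 - 2 l ψ ≤ 2 - 2 l ψ²`.
`el`: `t ↦ b (ψ + t f) - μ ∫ (ψ + t f)² = 2 t (..) + t² (..) ≥ 0` (`bil_lin`, `bil_comm`,
`WD.add`, `WD.smul` through `rh_iff`).
`gap`: `a = ∫ ψ f`, `χ = f - a ψ`, `∫ ψ χ = 0`, `b (ψ, χ) = 0`, `b f = a² μ + b χ`,
`∫ χ² = ∫ f² - a²`; `Gp.low` for `l χ • ψ - l ψ • χ` (on which `l` vanishes) gives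
`l ψ² b χ ≥ (e + g) l ψ² ∫ χ²`, and `l ψ² > 0` as `δ < g`.
`symm`: `f = ψ ∘ T` has `∫ f² = 1`, `b f = μ`, so `gap` gives `∫ (f - a ψ)² = 1 - a² ≤ 0`,
`f = a ψ` a.e.; `a l ψ = ∫ p f = σ ∫ (p ∘ T) (ψ ∘ T) = σ l ψ` (`integral_map`, `hT.map_eq`).
-/

namespace Vale.Agent.P363

open MeasureTheory Vale.Agent.P370

variable {N : ℕ} {V : Pt → ℝ} {lam : ℝ} {S : (Cf N → ℝ) → Prop} {p ψ f : Cf N → ℝ} {e g δ μ : ℝ}
  {G H : Fin N → Fin 3 → Cf N → ℝ}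

lemma mabs2_mul {f' : Cf N → ℝ} (hp : MemLp p 2) (hf : MemLp f 2) (hf' : MemLp f' 2) (a b : ℝ) :
    ∫ x, p x * (a * f x + b * f' x) = a * (∫ x, p x * f x) + b * ∫ x, p x * f' x := by
  have i1 : Integrable fun x => p x * f x := hp.integrable_mul hf
  have i2 : Integrable fun x => p x * f' x := hp.integrable_mul hf'
  rw [← integral_const_mul, ← integral_const_mul, ← integral_add (i1.const_mul a) (i2.const_mul b)]
  exact integral_congr_ae (Filter.Eventually.of_forall fun x => by simp only; ring)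

lemma mabs2_sq {f' : Cf N → ℝ} (hf : MemLp f 2) (hf' : MemLp f' 2) (a b : ℝ) :
    ∫ x, (a * f x + b * f' x) ^ 2 =
      a ^ 2 * (∫ x, f x ^ 2) + 2 * a * b * (∫ x, f x * f' x) + b ^ 2 * ∫ x, f' x ^ 2 := by
  have i1 := hf.integrable_sq.const_mul (a ^ 2)
  have i2 : Integrable fun x => 2 * a * b * (f x * f' x) := (hf.integrable_mul hf').const_mul _
  have i3 := hf'.integrable_sq.const_mul (b ^ 2)
  rw [← integral_const_mul, ← integral_const_mul, ← integral_const_mul, ← integral_add i1 i2,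
    ← integral_add (i1.fun_add i2) i3]
  exact integral_congr_ae (Filter.Eventually.of_forall fun x => by simp only; ring)

lemma mabs2_cs (hp : MemLp p 2) (h1 : ∫ x, p x ^ 2 ≤ 1) (hf : MemLp f 2) :
    (∫ x, p x * f x) ^ 2 ≤ ∫ x, f x ^ 2 := by
  have h2 := mabs2_sq hp hf (-∫ x, p x * f x) 1
  have h3 : 0 ≤ ∫ x, ((-∫ x, p x * f x) * p x + 1 * f x) ^ 2 := integral_nonneg fun _ => sq_nonneg _
  nlinarith [mul_le_mul_of_nonneg_left h1 (sq_nonneg (∫ x, p x * f x))]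

lemma mabs2_rh (hψ : RH ψ G) (hf : RH f H) (a b : ℝ) :
    RH (fun x => a * ψ x + b * f x) fun i k x => a * G i k x + b * H i k x :=
  rh_iff.2 (((rh_iff.1 hψ).smul a).add ((rh_iff.1 hf).smul b))

lemma mabs2_bil (h : FB V) (hψ : RH ψ G) (hf : RH f H) (a b : ℝ) :
    bil V lam (fun x => a * ψ x + b * f x) (fun i k x => a * G i k x + b * H i k x)
      (fun x => a * ψ x + b * f x) (fun i k x => a * G i k x + b * H i k x) =
      a ^ 2 * bil V lam ψ G ψ G + 2 * a * b * bil V lam ψ G f H + b ^ 2 * bil V lam f H f H := by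
  rw [bil_lin h (mabs2_rh hψ hf a b) hψ hf, bil_comm (f' := ψ), bil_comm (f' := f),
    bil_lin h hψ hψ hf, bil_lin h hf hψ hf, bil_comm (f := f) (f' := ψ)]
  ring

theorem GS.ge (h : Gp V lam S p e g δ) (hψ : GS V lam S p ψ G μ) : e ≤ μ := by
  have h1 := h.low ψ G hψ.rh hψ.mem
  have h2 := mabs2_cs h.mem h.le_one hψ.rh.1
  rw [hψ.one] at h1 h2
  rw [hψ.val] at h1
  nlinarith [h.δ0, h.δg]

theorem GS.le (h : Gp V lam S p e g δ) (hψ : GS V lam S p ψ G μ) : μ ≤ e + δ := by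
  obtain ⟨f, H, h1, h2, h3, h4⟩ := h.up
  exact le_of_mul_le_mul_right ((hψ.min f H h1 h2).trans h4) h3

lemma mabs2_l (h : Gp V lam S p e g δ) (hψ : GS V lam S p ψ G μ) :
    g * (1 - (∫ x, p x * ψ x) ^ 2) ≤ δ := by
  have h1 := h.low ψ G hψ.rh hψ.mem
  rw [hψ.one, hψ.val] at h1
  linarith [hψ.le h]

lemma mabs2_ne (h : Gp V lam S p e g δ) (hψ : GS V lam S p ψ G μ) : ∫ x, p x * ψ x ≠ 0 := by
  intro h0
  have h1 := mabs2_l h hψ
  rw [h0] at h1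
  linarith [h.δg]

theorem GS.near (h : Gp V lam S p e g δ) (hψ : GS V lam S p ψ G μ) :
    g * ∫ x, (ψ x - p x) ^ 2 ≤ 2 * δ := by
  have h1 := mabs2_l h hψ
  have h2 := mabs2_cs h.mem h.le_one hψ.rh.1
  have h3 := mabs2_sq h.mem hψ.rh.1 (-1) 1
  have h4 : ∫ x, (ψ x - p x) ^ 2 = ∫ x, (-1 * p x + 1 * ψ x) ^ 2 :=
    integral_congr_ae (Filter.Eventually.of_forall fun x => by simp only; ring)
  have h5 := hψ.pos
  have hg : 0 ≤ g := h.δ0.trans h.δg.le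
  rw [hψ.one] at h2 h3
  have h6 : ∫ x, p x * ψ x ≤ 1 := by nlinarith
  have h7 : ∫ x, (ψ x - p x) ^ 2 ≤ 2 * (1 - (∫ x, p x * ψ x) ^ 2) := by
    nlinarith [h.le_one, mul_nonneg h5 (sub_nonneg.2 h6)]
  nlinarith [mul_le_mul_of_nonneg_left h7 hg]

theorem GS.el (h : Gp V lam S p e g δ) (hψ : GS V lam S p ψ G μ) (hf : RH f H) (hS : S f) :
    bil V lam ψ G f H = μ * ∫ x, ψ x * f x := by
  have key : ∀ t : ℝ, 0 ≤ (bil V lam f H f H - μ * ∫ x, f x ^ 2) * (t * t) +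
      2 * (bil V lam ψ G f H - μ * ∫ x, ψ x * f x) * t + 0 := fun t => by
    have h1 := hψ.min _ _ (mabs2_rh hψ.rh hf 1 t) (h.cls.lin _ _ 1 t hψ.mem hS)
    rw [mabs2_bil h.fb hψ.rh hf, mabs2_sq hψ.rh.1 hf.1, hψ.one, hψ.val] at h1
    linarith
  have h2 := discrim_le_zero key
  rw [discrim] at h2
  nlinarith [sq_nonneg (bil V lam ψ G f H - μ * ∫ x, ψ x * f x)]

theorem GS.gap (h : Gp V lam S p e g δ) (hψ : GS V lam S p ψ G μ) (hf : RH f H) (hS : S f) :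
    (μ + (g - δ)) * (∫ x, f x ^ 2) - (g - δ) * (∫ x, ψ x * f x) ^ 2 ≤ bil V lam f H f H := by
  have h1 := h.low _ _ (mabs2_rh hψ.rh hf (-∫ x, p x * f x) (∫ x, p x * ψ x))
    (h.cls.lin _ _ _ _ hψ.mem hS)
  rw [mabs2_bil h.fb hψ.rh hf, mabs2_sq hψ.rh.1 hf.1, mabs2_mul h.mem hψ.rh.1 hf.1, hψ.one,
    hψ.val, hψ.el h hf hS] at h1
  have h2 := mabs2_cs hψ.rh.1 hψ.one.le hf.1
  have h3 : 0 < (∫ x, p x * ψ x) ^ 2 := pow_pos (hψ.pos.lt_of_ne' (mabs2_ne h hψ)) 2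
  have h4 := hψ.le h
  have h5 := h.δg
  generalize ∫ x, p x * ψ x = l at h1 h3
  generalize ∫ x, p x * f x = m at h1
  generalize ∫ x, ψ x * f x = a at h1 h2 ⊢
  generalize ∫ x, f x ^ 2 = A at h1 h2 ⊢
  have h6 : l ^ 2 * ((e + g) * A - (e + g - μ) * a ^ 2) ≤ l ^ 2 * bil V lam f H f H := by
    nlinarith [mul_nonneg (show 0 ≤ e + g - μ by linarith) (sq_nonneg (m - l * a))]
  have h7 := le_of_mul_le_mul_left h6 h3
  nlinarith [mul_nonneg (show 0 ≤ e + δ - μ by linarith) (sub_nonneg.2 h2)]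

theorem GS.symm (h : Gp V lam S p e g δ) (hψ : GS V lam S p ψ G μ) {T : Cf N → Cf N}
    (hT : MeasurePreserving T volume volume) {σ : ℝ} (hσ : σ * σ = 1)
    (hp : ∀ x, p (T x) = σ * p x) (hS : S fun x => ψ (T x)) (hH : RH (fun x => ψ (T x)) H)
    (hb : bil V lam (fun x => ψ (T x)) H (fun x => ψ (T x)) H = bil V lam ψ G ψ G) :
    ∀ᵐ x, ψ (T x) = σ * ψ x := by
  have hI : ∀ F : Cf N → ℝ, Integrable F → ∫ x, F (T x) = ∫ x, F x := fun F hF => by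
    rw [← integral_map hT.measurable.aemeasurable (by rw [hT.map_eq]; exact hF.1), hT.map_eq]
  have h1 := hψ.gap h hH hS
  have h2 := hI _ hψ.rh.1.integrable_sq
  have h3 := hI (fun x => p x * ψ x) (h.mem.integrable_mul hψ.rh.1)
  have h4 := mabs2_sq hψ.rh.1 hH.1 (-∫ x, ψ x * ψ (T x)) 1
  rw [hψ.one] at h2 h4
  rw [hb, hψ.val, h2] at h1
  rw [h2] at h4
  generalize ∫ x, ψ x * ψ (T x) = a at h1 h4
  have h5 : 1 ≤ a ^ 2 := by
    by_contra hh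
    nlinarith [mul_pos (sub_pos.2 h.δg) (sub_pos.2 (not_le.1 hh))]
  have h6 := (integral_eq_zero_iff_of_nonneg (fun x => sq_nonneg (-a * ψ x + 1 * ψ (T x)))
    (mabs2_rh hψ.rh hH (-a) 1).1.integrable_sq).1
    (le_antisymm (by rw [h4]; linarith) (integral_nonneg fun _ => sq_nonneg _))
  have h7 : ∀ᵐ x, ψ (T x) = a * ψ x := h6.mono fun x hx => by
    have := pow_eq_zero_iff two_ne_zero |>.1 hx
    linarith
  have h8 : ∫ x, p (T x) * ψ (T x) = σ * a * ∫ x, p x * ψ x := by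
    rw [← integral_const_mul]
    exact integral_congr_ae (h7.mono fun x hx => by simp only [hp, hx]; ring)
  have h9 : σ * a = 1 := mul_right_cancel₀ (mabs2_ne h hψ) (by rw [← h8, h3, one_mul])
  have h10 : a = σ := by linear_combination σ * h9 - a * hσ
  rwa [h10] at h7

end Vale.Agent.P363
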