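import Vale.Agent.P363.MLin
import Vale.Agent.P363.R0

/-!
Part M: the amplitude.  For `a` on space and `w` on `Cf 2`, both `MemLp 2`, put
`(a ⊗ w) x = a (x 0) * w (Fin.tail x)` on `Cf 3`.  With the measure preserving equivalence
`volume_preserving_piFinSuccAbove (fun _ => Pt) 0` (its inverse is `Fin.cons`/`insertNth 0`) and
Fubini: `a ⊗ w` is `MemLp 2`, `∫ (a ⊗ w)² = ∫ a² * ∫ w²`,
`∫ x, a x * ∫ y, ψ (cons x y) * w y = ∫ (a ⊗ w) ψ`.  `oo φ = lc5 φ oc`, `∫ oo² = 1`,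
`oo ⊗ tp φ w₂ = tp φ fun α => oc (α 0) * w₂ (Fin.tail α)` (`Fin.consEquiv`/`Fin.prod_univ_succ`),
so its product with `tp φ w₃` has integral `≥ 11/20` (`Orb.int_tp_mul`, `Orb.cf_tp`, `Cert.amp`).
`(oo ⊗ Φ) ψ = (oo ⊗ p₂) p₃ + (oo ⊗ (Φ - p₂)) p₃ + (oo ⊗ Φ) (ψ - p₃)`, and
`∫ F G ≥ -(t ∫ F² + ∫ G² / t) / 2` with `t = 10`, `t = 1/5`: `11/20 - 1/10 - 1/5 = 1/4`.
-/

namespace Vale.Agent.P363

open MeasureTheory Vale.Agent.P370

theorem mamp_mp {n : ℕ} : MeasurePreserving (fun z : Cf (n + 1) => (z 0, Fin.tail z)) volume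
    (volume.prod volume) :=
  volume_preserving_piFinSuccAbove (fun _ : Fin (n + 1) => Pt) 0

theorem mamp_ten {n : ℕ} {a : Pt → ℝ} {w : Cf n → ℝ} (ha : MemLp a 2) (hw : MemLp w 2) :
    MemLp (fun z : Cf (n + 1) => a (z 0) * w (Fin.tail z)) 2 ∧
      ∫ z : Cf (n + 1), (a (z 0) * w (Fin.tail z)) ^ 2 = (∫ x, a x ^ 2) * ∫ y, w y ^ 2 := by
  have i : Integrable (fun p : Pt × Cf n => a p.1 ^ 2 * w p.2 ^ 2) (volume.prod volume) :=
    (l2_sq ha).mul_prod (l2_sq hw)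
  have m : AEStronglyMeasurable (fun p : Pt × Cf n => a p.1 * w p.2) (volume.prod volume) :=
    ha.1.comp_fst.mul hw.1.comp_snd
  have h1 : MemLp (fun p : Pt × Cf n => a p.1 * w p.2) 2 (volume.prod volume) :=
    l2_of_sq m (by simpa only [mul_pow] using i)
  have h2 : MemLp (fun z : Cf (n + 1) => a (z 0) * w (Fin.tail z)) 2 :=
    h1.comp_measurePreserving mamp_mp
  refine ⟨h2, ?_⟩
  rw [← (int_cons (l2_sq h2)).2.2]
  simp only [Fin.cons_zero, Fin.tail_cons, mul_pow, integral_const_mul, integral_mul_const]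

theorem mamp_oo {φ η : Fin 5 → Pt → ℝ} (h : Orb φ η) :
    MemLp (oo φ) 2 ∧ ∫ x, oo φ x ^ 2 = 1 := by
  have i : ∀ a, Integrable fun x => φ a x ^ 2 := fun a =>
    Integrable.of_integral_ne_zero (by rw [h.one a]; exact one_ne_zero)
  have e : (fun x => oo φ x ^ 2) =
      fun x => (φ 1 x ^ 2 + φ 2 x ^ 2 + φ 3 x ^ 2 + φ 4 x ^ 2) / 4 := by
    funext x
    have h12 := h.disj 1 2 x (by decide)
    have h13 := h.disj 1 3 x (by decide)
    have h14 := h.disj 1 4 x (by decide)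
    have h23 := h.disj 2 3 x (by decide)
    have h24 := h.disj 2 4 x (by decide)
    have h34 := h.disj 3 4 x (by decide)
    unfold oo
    linear_combination (-h12 + h13 - h14 - h23 + h24 - h34) / 2
  have i2 : Integrable fun x => φ 1 x ^ 2 + φ 2 x ^ 2 := (i 1).add (i 2)
  have i3 : Integrable fun x => φ 1 x ^ 2 + φ 2 x ^ 2 + φ 3 x ^ 2 := i2.add (i 3)
  have i4 : Integrable fun x => φ 1 x ^ 2 + φ 2 x ^ 2 + φ 3 x ^ 2 + φ 4 x ^ 2 := i3.add (i 4)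
  have m : Measurable (oo φ) :=
    ((((h.bm 1).1.sub (h.bm 2).1).add (h.bm 3).1).sub (h.bm 4).1).div_const 2
  refine ⟨l2_of_sq m.aestronglyMeasurable (by rw [e]; exact i4.div_const 4), ?_⟩
  rw [e, integral_div, integral_add i3 (i 4), integral_add i2 (i 3), integral_add (i 1) (i 2),
    h.one, h.one, h.one, h.one]
  norm_num

theorem mamp_tp (φ : Fin 5 → Pt → ℝ) (w : Ar 2) (z : Cf 3) :
    oo φ (z 0) * tp φ w (Fin.tail z) = tp φ (fun α => oc (α 0) * w (Fin.tail α)) z := by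
  have e : oo φ (z 0) = ∑ a, oc a * φ a (z 0) := by
    simp only [oo, oc, Fin.sum_univ_five, Matrix.cons_val]
    ring
  rw [e, tp, tp, ← (Fin.consEquiv fun _ : Fin 3 => Fin 5).sum_comp, Fintype.sum_prod_type,
    Finset.sum_mul_sum]
  refine Finset.sum_congr rfl fun a _ => Finset.sum_congr rfl fun β _ => ?_
  rw [Fin.prod_univ_succ (n := 2)]
  change _ = oc a * w β * (φ a (z 0) * ∏ i, φ (β i) (Fin.tail z i))
  ring

theorem amp_ge {φ η : Fin 5 → Pt → ℝ} (h : Orb φ η) {w₂ : Ar 2} {w₃ : Ar 3} {e₂ e₃ : ℝ}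
    (hc : Cert w₂ w₃ e₂ e₃) {Φ : Cf 2 → ℝ} {ψ : Cf 3 → ℝ} (hΦ : MemLp Φ 2) (hψ : MemLp ψ 2)
    (h1 : ∫ y, Φ y ^ 2 = 1) (h2 : ∫ y, (Φ y - tp φ w₂ y) ^ 2 ≤ 1 / 100)
    (h3 : ∫ x, (ψ x - tp φ w₃ x) ^ 2 ≤ 1 / 25) :
    1 / 4 ≤ ∫ x, oo φ x * ∫ y : Cf 2, ψ (Fin.cons x y) * Φ y := by
  obtain ⟨ho, ho1⟩ := mamp_oo h
  have p2 := h.memLp_tp w₂
  have p3 := h.memLp_tp w₃
  have d2 : MemLp (fun y => Φ y - tp φ w₂ y) 2 := hΦ.sub p2
  have d3 : MemLp (fun x => ψ x - tp φ w₃ x) 2 := hψ.sub p3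
  obtain ⟨t1, e1⟩ := mamp_ten ho hΦ
  obtain ⟨t2, -⟩ := mamp_ten ho p2
  obtain ⟨t3, e3⟩ := mamp_ten ho d2
  have a0 : ∫ x, oo φ x * ∫ y : Cf 2, ψ (Fin.cons x y) * Φ y =
      ∫ z : Cf 3, oo φ (z 0) * Φ (Fin.tail z) * ψ z := by
    rw [← (int_cons (l2_mul t1 hψ)).2.2]
    refine integral_congr_ae (Filter.Eventually.of_forall fun x => ?_)
    beta_reduce
    rw [← integral_const_mul]
    refine integral_congr_ae (Filter.Eventually.of_forall fun y => ?_)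
    simp only [Fin.cons_zero, Fin.tail_cons]
    ring
  have a1 : 11 / 20 ≤ ∫ z : Cf 3, oo φ (z 0) * tp φ w₂ (Fin.tail z) * tp φ w₃ z := by
    simp only [mamp_tp]
    rw [h.int_tp_mul _ p3, h.cf_tp]
    exact hc.amp
  have a2 := l2_cs t3 p3
  have a3 := l2_cs t1 d3
  rw [e3, ho1, one_mul, h.int_tp_sq] at a2
  rw [e1, ho1, h1, one_mul, one_mul] at a3
  have i1 := l2_mul t2 p3
  have i2 := l2_mul t3 p3
  have i12 : Integrable fun z : Cf 3 => oo φ (z 0) * tp φ w₂ (Fin.tail z) * tp φ w₃ z +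
    oo φ (z 0) * (Φ (Fin.tail z) - tp φ w₂ (Fin.tail z)) * tp φ w₃ z := i1.add i2
  have a4 : ∫ z : Cf 3, oo φ (z 0) * Φ (Fin.tail z) * ψ z =
      (∫ z : Cf 3, oo φ (z 0) * tp φ w₂ (Fin.tail z) * tp φ w₃ z) +
        (∫ z : Cf 3, oo φ (z 0) * (Φ (Fin.tail z) - tp φ w₂ (Fin.tail z)) * tp φ w₃ z) +
        ∫ z : Cf 3, oo φ (z 0) * Φ (Fin.tail z) * (ψ z - tp φ w₃ z) := by
    rw [← integral_add i1 i2, ← integral_add i12 (l2_mul t1 d3)]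
    exact integral_congr_ae (Filter.Eventually.of_forall fun z => by ring)
  have b2 : (∫ y, (Φ y - tp φ w₂ y) ^ 2) * nsq w₃ ≤ (1 / 10) ^ 2 :=
    (mul_le_mul h2 hc.n3.2 hc.n3.1.le (by norm_num)).trans (by norm_num)
  have c2 := (abs_le_of_sq_le_sq' (a2.trans b2) (by norm_num)).1
  have c3 := (abs_le_of_sq_le_sq' (a3.trans (h3.trans (by norm_num : (1 : ℝ) / 25 ≤ (1 / 5) ^ 2)))
    (by norm_num)).1
  rw [a0, a4]
  linarith

end Vale.Agent.P363
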