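import Vale.Agent.P363.MCertX3

/-! Part M: the certificate for three electrons, real part. -/

namespace Vale.Agent.P363

/-- The trial vector. -/
noncomputable def w3 : Ar 3 := fun α => W3 (α 0) (α 1) (α 2) / 10 ^ 6

theorem anti_sum {X : T3 → ℝ} (hX : ∀ p, X (sw3 p) = -X p) (F : T3 → ℝ) :
    ∑ p, X p * F p = ∑ p ∈ S3, X p * (F p - F (sw3 p)) := by
  have hs : Function.Involutive sw3 := fun p => rfl
  have h1 : ∀ p : T3, X p * F p = (if p.1 < p.2.1 then X p * F p else 0) +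
      if (sw3 p).1 < (sw3 p).2.1 then X p * F p else 0 := by
    intro p
    change _ = _ + if p.2.1 < p.1 then _ else _
    rcases lt_trichotomy p.1 p.2.1 with h | h | h
    · rw [if_pos h, if_neg h.not_gt, add_zero]
    · have h2 : sw3 p = p := by
        obtain ⟨a, b, d⟩ := p
        simp only at h
        subst h
        rfl
      have h3 := hX p
      rw [h2] at h3
      have h4 : X p = 0 := by linarith
      simp [h4]
    · rw [if_pos h, if_neg h.not_gt, zero_add]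
  have h2 : ∑ p : T3, (if (sw3 p).1 < (sw3 p).2.1 then X p * F p else 0) =
      ∑ p : T3, if p.1 < p.2.1 then -(X p * F (sw3 p)) else 0 := by
    rw [← Equiv.sum_comp hs.toPerm]
    refine Finset.sum_congr rfl fun p _ => ?_
    rw [Function.Involutive.coe_toPerm, hs p, hX p, neg_mul]
  rw [Finset.sum_congr rfl fun p _ => h1 p, Finset.sum_add_distrib, h2, ← Finset.sum_add_distrib,
    S3, Finset.sum_filter]
  refine Finset.sum_congr rfl fun p _ => ?_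
  split_ifs <;> ring

theorem sum_T3 (F : T3 → ℝ) : ∑ p, F p = ∑ a, ∑ b, ∑ d, F (a, b, d) := by
  simp only [Fintype.sum_prod_type]

theorem qf_MF (c : Ar 3) : ∑ p : T3, ∑ q : T3,
    c ![p.1, p.2.1, p.2.2] * c ![q.1, q.2.1, q.2.2] * (MF p q : ℝ) =
      10 ^ 15 * fm (10 ^ 5) c - 776001 * 10 ^ 10 * nsq c := by
  have a1 : ∑ p : T3, ∑ q : T3, c ![p.1, p.2.1, p.2.2] * c ![q.1, q.2.1, q.2.2] *
      (if p.2.1 = q.2.1 ∧ p.2.2 = q.2.2 then (KZ p.1 q.1 : ℝ) else 0) =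
      ∑ b, ∑ d, ∑ a, ∑ a', c ![a, b, d] * c ![a', b, d] * KZ a a' := by
    rw [sum_T3, Finset.sum_comm]
    refine Finset.sum_congr rfl fun b _ => ?_
    rw [Finset.sum_comm]
    simp only [sum_T3, ite_and, mul_ite, mul_zero, Finset.sum_ite_eq, Finset.mem_univ, if_true,
      Finset.sum_ite_irrel, Finset.sum_const_zero]
  have a2 : ∑ p : T3, ∑ q : T3, c ![p.1, p.2.1, p.2.2] * c ![q.1, q.2.1, q.2.2] *
      (if p.1 = q.1 ∧ p.2.2 = q.2.2 then (KZ p.2.1 q.2.1 : ℝ) else 0) =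
      ∑ a, ∑ d, ∑ b, ∑ b', c ![a, b, d] * c ![a, b', d] * KZ b b' := by
    rw [sum_T3]
    refine Finset.sum_congr rfl fun a _ => ?_
    rw [Finset.sum_comm]
    simp only [sum_T3, ite_and, mul_ite, mul_zero, Finset.sum_ite_eq, Finset.mem_univ, if_true,
      Finset.sum_ite_irrel, Finset.sum_const_zero]
  have a3 : ∑ p : T3, ∑ q : T3, c ![p.1, p.2.1, p.2.2] * c ![q.1, q.2.1, q.2.2] *
      (if p.1 = q.1 ∧ p.2.1 = q.2.1 then (KZ p.2.2 q.2.2 : ℝ) else 0) =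
      ∑ a, ∑ b, ∑ d, ∑ d', c ![a, b, d] * c ![a, b, d'] * KZ d d' := by
    rw [sum_T3]
    simp only [sum_T3, ite_and, mul_ite, mul_zero, Finset.sum_ite_eq, Finset.mem_univ, if_true,
      Finset.sum_ite_irrel, Finset.sum_const_zero]
  have a4 : ∑ p : T3, ∑ q : T3, c ![p.1, p.2.1, p.2.2] * c ![q.1, q.2.1, q.2.2] *
      (if p = q then 10 ^ 8 * ((VZ p.1 p.2.1 : ℝ) + VZ p.1 p.2.2 + VZ p.2.1 p.2.2) -
        776001 * 10 ^ 10 else 0) =
      10 ^ 8 * (∑ a, ∑ b, ∑ d, (VZ a b + VZ a d + VZ b d) * c ![a, b, d] ^ 2) -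
        776001 * 10 ^ 10 * nsq c := by
    simp only [mul_ite, mul_zero, Finset.sum_ite_eq, Finset.mem_univ, if_true]
    simp only [nsq, sum_three, sum_T3, Finset.mul_sum, ← Finset.sum_sub_distrib]
    exact Finset.sum_congr rfl fun a _ => Finset.sum_congr rfl fun b _ =>
      Finset.sum_congr rfl fun d _ => by ring
  have a5 : ∀ p q : T3, c ![p.1, p.2.1, p.2.2] * c ![q.1, q.2.1, q.2.2] * (MF p q : ℝ) =
      25 * 10 ^ 13 * (c ![p.1, p.2.1, p.2.2] * c ![q.1, q.2.1, q.2.2] *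
        if p.2.1 = q.2.1 ∧ p.2.2 = q.2.2 then (KZ p.1 q.1 : ℝ) else 0) +
      25 * 10 ^ 13 * (c ![p.1, p.2.1, p.2.2] * c ![q.1, q.2.1, q.2.2] *
        if p.1 = q.1 ∧ p.2.2 = q.2.2 then (KZ p.2.1 q.2.1 : ℝ) else 0) +
      25 * 10 ^ 13 * (c ![p.1, p.2.1, p.2.2] * c ![q.1, q.2.1, q.2.2] *
        if p.1 = q.1 ∧ p.2.1 = q.2.1 then (KZ p.2.2 q.2.2 : ℝ) else 0) +
      c ![p.1, p.2.1, p.2.2] * c ![q.1, q.2.1, q.2.2] *
        if p = q then 10 ^ 8 * ((VZ p.1 p.2.1 : ℝ) + VZ p.1 p.2.2 + VZ p.2.1 p.2.2) -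
          776001 * 10 ^ 10 else 0 := by
    intro p q
    unfold MF
    push_cast
    ring
  simp only [a5, Finset.sum_add_distrib, ← Finset.mul_sum]
  rw [a1, a2, a3, a4, fm_three]
  ring

theorem W3_anti : ∀ a b d, W3 b a d = -W3 a b d := by decide +kernel

theorem swap_vec (a b d : Fin 5) : ![a, b, d] ∘ Equiv.swap (0 : Fin 3) 1 = ![b, a, d] := by
  funext i
  fin_cases i <;> rfl

theorem low_w3 (c : Ar 3) (hc : AsC c) :
    (775101 / 10 ^ 5 + 9 / 1000) * nsq c - 9 / 1000 * dotc w3 c ^ 2 ≤ fm (10 ^ 5) c := by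
  set X : T3 → ℝ := fun p => c ![p.1, p.2.1, p.2.2] with hXd
  have hX : ∀ p, X (sw3 p) = -X p := fun p => by
    have := hc ![p.1, p.2.1, p.2.2]
    rwa [swap_vec] at this
  have h := psd_of_chol _ M3 L3 (fun p _ q _ => M3_symm p q) M3_dd X
  have a1 : ∑ p : T3, ∑ q : T3, X p * X q * (MF p q : ℝ) = ∑ p ∈ S3, ∑ q ∈ S3, X p * X q *
      ((MF p q : ℝ) - MF p (sw3 q) - (MF (sw3 p) q - MF (sw3 p) (sw3 q))) := by
    have e1 : ∀ p : T3, ∑ q : T3, X p * X q * (MF p q : ℝ) =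
        X p * ∑ q ∈ S3, X q * ((MF p q : ℝ) - MF p (sw3 q)) := fun p => by
      rw [← anti_sum hX fun q => (MF p q : ℝ), Finset.mul_sum]
      exact Finset.sum_congr rfl fun q _ => by ring
    rw [Finset.sum_congr rfl fun p _ => e1 p, anti_sum hX]
    refine Finset.sum_congr rfl fun p _ => ?_
    rw [← Finset.sum_sub_distrib, Finset.mul_sum]
    exact Finset.sum_congr rfl fun q _ => by ring
  have a2 : dotc w3 c = 2 / 10 ^ 6 * ∑ p ∈ S3, X p * W3 p.1 p.2.1 p.2.2 := by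
    have e1 : dotc w3 c = ∑ p : T3, X p * ((W3 p.1 p.2.1 p.2.2 : ℝ) / 10 ^ 6) := by
      rw [dotc, sum_three, sum_T3]
      exact Finset.sum_congr rfl fun a _ => Finset.sum_congr rfl fun b _ =>
        Finset.sum_congr rfl fun d _ => mul_comm _ _
    rw [e1, anti_sum hX, Finset.mul_sum]
    refine Finset.sum_congr rfl fun p _ => ?_
    change X p * ((W3 p.1 p.2.1 p.2.2 : ℝ) / 10 ^ 6 - (W3 p.2.1 p.1 p.2.2 : ℝ) / 10 ^ 6) = _
    rw [W3_anti p.1 p.2.1 p.2.2]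
    push_cast
    ring
  have a3 : ∑ p ∈ S3, ∑ q ∈ S3, X p * X q * ((W3 p.1 p.2.1 p.2.2 : ℝ) * W3 q.1 q.2.1 q.2.2) =
      (∑ p ∈ S3, X p * W3 p.1 p.2.1 p.2.2) ^ 2 := by
    rw [sq, Finset.sum_mul_sum]
    exact Finset.sum_congr rfl fun a _ => Finset.sum_congr rfl fun b _ => by ring
  have a4 : ∀ p q : T3, X p * X q * (M3 p q : ℝ) =
      10 ^ 9 * (X p * X q * ((MF p q : ℝ) - MF p (sw3 q) - (MF (sw3 p) q - MF (sw3 p) (sw3 q)))) +
      36 * 10 ^ 9 * (X p * X q * ((W3 p.1 p.2.1 p.2.2 : ℝ) * W3 q.1 q.2.1 q.2.2)) := by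
    intro p q
    unfold M3
    push_cast
    ring
  simp only [a4, Finset.sum_add_distrib, ← Finset.mul_sum] at h
  rw [← a1, a3, qf_MF] at h
  rw [a2, mul_pow]
  generalize (∑ p ∈ S3, X p * (W3 p.1 p.2.1 p.2.2 : ℝ)) ^ 2 = t at h ⊢
  generalize fm (10 ^ 5) c = s at h ⊢
  clear a1 a2 a3 a4
  norm_num at h ⊢
  linarith

theorem nsq_w3 : nsq w3 = 999992838040 / 10 ^ 12 := by
  have h : ∑ a, ∑ b, ∑ d, W3 a b d ^ 2 = 999992838040 := by decide +kernel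
  have h' : ∑ a, ∑ b, ∑ d, (W3 a b d : ℝ) ^ 2 = 999992838040 := by exact_mod_cast h
  rw [nsq, sum_three, ← h']
  simp only [Finset.sum_div]
  refine Finset.sum_congr rfl fun a _ => Finset.sum_congr rfl fun b _ =>
    Finset.sum_congr rfl fun d _ => ?_
  change ((W3 a b d : ℝ) / 10 ^ 6) ^ 2 = _
  ring

theorem up_w3 (u : ℝ) : fm u w3 ≤ (775101 / 10 ^ 5 + 4 / 10 ^ 5) * nsq w3 := by
  have h : 25 * 10 ^ 5 * ((∑ b, ∑ d, ∑ a, ∑ a', W3 a b d * W3 a' b d * KZ a a') +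
      (∑ a, ∑ d, ∑ b, ∑ b', W3 a b d * W3 a b' d * KZ b b') +
      ∑ a, ∑ b, ∑ d, ∑ d', W3 a b d * W3 a b d' * KZ d d') +
      ∑ a, ∑ b, ∑ d, (VZ a b + VZ a d + VZ b d) * W3 a b d ^ 2 ≤ 77510500 * 999992838040 := by
    decide +kernel
  have h' : 25 * 10 ^ 5 * ((∑ b, ∑ d, ∑ a, ∑ a', (W3 a b d : ℝ) * W3 a' b d * KZ a a') +
      (∑ a, ∑ d, ∑ b, ∑ b', (W3 a b d : ℝ) * W3 a b' d * KZ b b') +
      ∑ a, ∑ b, ∑ d, ∑ d', (W3 a b d : ℝ) * W3 a b d' * KZ d d') +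
      ∑ a, ∑ b, ∑ d, ((VZ a b : ℝ) + VZ a d + VZ b d) * W3 a b d ^ 2 ≤
        77510500 * 999992838040 := by exact_mod_cast h
  have e : ∀ a b d, w3 ![a, b, d] = 1 / 10 ^ 6 * W3 a b d := fun a b d => by
    change (W3 a b d : ℝ) / 10 ^ 6 = _
    ring
  have e1 : ∀ x y z : ℝ, 1 / 10 ^ 6 * x * (1 / 10 ^ 6 * y) * z = 1 / 10 ^ 12 * (x * y * z) :=
    fun x y z => by ring
  have e2 : ∀ x y : ℝ, x * (1 / 10 ^ 6 * y) ^ 2 = 1 / 10 ^ 12 * (x * y ^ 2) := fun x y => by ring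
  have z : ∀ a b d, a = b ∨ a = d ∨ b = d → W3 a b d = 0 := by decide +kernel
  rw [fm_indep u, nsq_w3, fm_three]
  · simp only [e, e1, e2, ← Finset.mul_sum]
    linarith
  · intro α i j hij h
    have : α 0 = α 1 ∨ α 0 = α 2 ∨ α 1 = α 2 := by
      fin_cases i <;> fin_cases j <;>
        first
          | exact absurd hij (by decide)
          | exact Or.inl h
          | exact Or.inr (Or.inl h)
          | exact Or.inr (Or.inr h)
    simp [w3, z _ _ _ this]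

end Vale.Agent.P363
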