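import Vale.Agent.P363.MCertX2
import Vale.Agent.P363.MCertX4

/-! Part M: the numerical certificate. -/

namespace Vale.Agent.P363

theorem cert_pr {i : Fin 3} (hi : i ≠ 2) : i = 0 ∨ i = 1 := by revert i; decide

theorem cert : ∃ w₂ w₃ e₂ e₃, Cert w₂ w₃ e₂ e₃ := by
  have s2 : ∀ a b, W2 b a = W2 a b := by decide +kernel
  have p2 : ∀ i : Fin 3, ∀ a b, W2 (pr i a) (pr i b) = W2 a b := by decide +kernel
  have p3 : ∀ i : Fin 3, ∀ a b d, W3 (pr i a) (pr i b) (pr i d) = -W3 a b d := by decide +kernel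
  refine ⟨w2, w3, 393585 / 10 ^ 5, 775101 / 10 ^ 5, ⟨by norm_num, by norm_num⟩,
    ⟨by norm_num, by norm_num⟩, by rw [nsq_w2]; norm_num, by rw [nsq_w3]; norm_num, low_w2, low_w3,
    up_w2, up_w3, fun α => ?_, fun i _ α => ?_, fun α => ?_, fun i _ α => ?_, ?_⟩
  · change (W2 (α 1) (α 0) : ℝ) / 10 ^ 6 = W2 (α 0) (α 1) / 10 ^ 6
    rw [s2]
  · change (W2 (pr i (α 0)) (pr i (α 1)) : ℝ) / 10 ^ 6 = W2 (α 0) (α 1) / 10 ^ 6
    rw [p2]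
  · change (W3 (α 1) (α 0) (α 2) : ℝ) / 10 ^ 6 = -(W3 (α 0) (α 1) (α 2) / 10 ^ 6)
    rw [W3_anti]
    push_cast
    ring
  · change (W3 (pr i (α 0)) (pr i (α 1)) (pr i (α 2)) : ℝ) / 10 ^ 6 =
      -(W3 (α 0) (α 1) (α 2) / 10 ^ 6)
    rw [p3]
    push_cast
    ring
  · have h : 11 * 10 ^ 11 ≤ ∑ b, ∑ d, W2 b d * (W3 1 b d - W3 2 b d + W3 3 b d - W3 4 b d) := by
      decide +kernel
    have h' : (11 * 10 ^ 11 : ℝ) ≤
        ∑ b, ∑ d, (W2 b d : ℝ) * (W3 1 b d - W3 2 b d + W3 3 b d - W3 4 b d) := by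
      exact_mod_cast h
    have e : ∑ α : Fin 3 → Fin 5, oc (α 0) * w2 (Fin.tail α) * w3 α = 1 / (2 * 10 ^ 12) *
        ∑ b, ∑ d, (W2 b d : ℝ) * (W3 1 b d - W3 2 b d + W3 3 b d - W3 4 b d) := by
      rw [sum_three, Finset.sum_comm, Finset.mul_sum]
      refine Finset.sum_congr rfl fun b _ => ?_
      rw [Finset.sum_comm, Finset.mul_sum]
      refine Finset.sum_congr rfl fun d _ => ?_
      rw [Fin.sum_univ_five]
      change (0 : ℝ) * (W2 b d / 10 ^ 6) * (W3 0 b d / 10 ^ 6) +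
        1 / 2 * (W2 b d / 10 ^ 6) * (W3 1 b d / 10 ^ 6) +
        -1 / 2 * (W2 b d / 10 ^ 6) * (W3 2 b d / 10 ^ 6) +
        1 / 2 * (W2 b d / 10 ^ 6) * (W3 3 b d / 10 ^ 6) +
        -1 / 2 * (W2 b d / 10 ^ 6) * (W3 4 b d / 10 ^ 6) = _
      ring
    rw [e]
    linarith

end Vale.Agent.P363
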