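import Vale.Agent.P363.MDefs

/-! Part M: nonnegativity of integer matrices from a rounded Cholesky factor; the model in
coordinates. -/

namespace Vale.Agent.P363

open Function

/-- Scalar product of integer lists. -/
def dl : List ℤ → List ℤ → ℤ
  | a :: s, b :: t => a * b + dl s t
  | _, _ => 0

theorem dl_eq (a : List ℤ) : ∀ (b : List ℤ) (n : ℕ), a.length ≤ n →
    dl a b = ∑ k ∈ Finset.range n, a.getD k 0 * b.getD k 0 := by
  induction a with
  | nil => intro b n _; simp [dl]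
  | cons x s ih =>
    intro b n hn
    obtain ⟨m, rfl⟩ : ∃ m, n = m + 1 := ⟨n - 1, by simp at hn; omega⟩
    cases b with
    | nil => simp [dl]
    | cons y t =>
      rw [Finset.sum_range_succ', dl, ih t m (by simpa using hn)]
      simp [add_comm]

theorem psd_of_chol {ι : Type} [DecidableEq ι] (s : Finset ι) (M : ι → ι → ℤ) (L : ι → List ℤ)
    (hs : ∀ i ∈ s, ∀ j ∈ s, M i j = M j i)
    (h : ∀ i ∈ s, ∑ j ∈ s, |M i j - dl (L i) (L j)| ≤ 2 * (M i i - dl (L i) (L i)))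
    (x : ι → ℝ) : 0 ≤ ∑ i ∈ s, ∑ j ∈ s, x i * x j * M i j := by
  set n := s.sup fun i => (L i).length with hn
  have e : ∀ i ∈ s, ∀ j, dl (L i) (L j) = ∑ k ∈ Finset.range n, (L i).getD k 0 * (L j).getD k 0 :=
    fun i hi j => dl_eq _ _ _ (Finset.le_sup (f := fun i => (L i).length) hi)
  have h1 : 0 ≤ ∑ i ∈ s, ∑ j ∈ s, x i * x j * (dl (L i) (L j) : ℝ) := by
    have : ∑ i ∈ s, ∑ j ∈ s, x i * x j * (dl (L i) (L j) : ℝ) =
        ∑ k ∈ Finset.range n, (∑ i ∈ s, x i * ((L i).getD k 0 : ℝ)) ^ 2 := by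
      simp only [sq, Finset.sum_mul_sum]
      rw [Finset.sum_comm (s := Finset.range n)]
      refine Finset.sum_congr rfl fun i hi => ?_
      rw [Finset.sum_comm (s := Finset.range n)]
      refine Finset.sum_congr rfl fun j _ => ?_
      rw [e i hi j]
      push_cast
      rw [Finset.mul_sum]
      exact Finset.sum_congr rfl fun k _ => by ring
    rw [this]
    exact Finset.sum_nonneg fun k _ => sq_nonneg _
  set R : ι → ι → ℝ := fun i j => ((M i j - dl (L i) (L j) : ℤ) : ℝ) with hR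
  have hsym : ∀ i ∈ s, ∀ j ∈ s, R i j = R j i := fun i hi j hj => by
    simp only [hR]
    rw [hs i hi j hj, e i hi j, e j hj i]
    simp only [mul_comm]
  have h2 : ∀ i ∈ s, ∑ j ∈ s, |R i j| ≤ 2 * R i i := fun i hi => by
    simp only [hR]
    exact_mod_cast h i hi
  have h3 : ∑ i ∈ s, ∑ j ∈ s, ((if i = j then 2 * R i i * x i ^ 2 else 0) -
      1 / 2 * (|R i j| * x i ^ 2) - 1 / 2 * (|R j i| * x j ^ 2)) ≤
      ∑ i ∈ s, ∑ j ∈ s, x i * x j * R i j := by
    refine Finset.sum_le_sum fun i hi => Finset.sum_le_sum fun j hj => ?_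
    rw [← hsym i hi j hj]
    split_ifs with hij
    · subst hij
      nlinarith [mul_nonneg (sub_nonneg.2 (le_abs_self (R i i))) (sq_nonneg (x i))]
    · nlinarith [mul_nonneg (sub_nonneg.2 (le_abs_self (R i j))) (sq_nonneg (x i - x j)),
        mul_nonneg (sub_nonneg.2 (neg_le_abs (R i j))) (sq_nonneg (x i + x j))]
  have h4 : ∑ i ∈ s, ∑ j ∈ s, 1 / 2 * (|R j i| * x j ^ 2) =
      ∑ i ∈ s, ∑ j ∈ s, 1 / 2 * (|R i j| * x i ^ 2) := Finset.sum_comm
  have h5 : ∑ i ∈ s, ∑ j ∈ s, (if i = j then 2 * R i i * x i ^ 2 else 0) =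
      ∑ i ∈ s, 2 * R i i * x i ^ 2 := Finset.sum_congr rfl fun i hi => by
    rw [Finset.sum_ite_eq, if_pos hi]
  have h6 : ∑ i ∈ s, ∑ j ∈ s, 1 / 2 * (|R i j| * x i ^ 2) ≤
      ∑ i ∈ s, 1 / 2 * (2 * R i i * x i ^ 2) := Finset.sum_le_sum fun i hi => by
    rw [← Finset.mul_sum, ← Finset.sum_mul]
    exact mul_le_mul_of_nonneg_left (mul_le_mul_of_nonneg_right (h2 i hi) (sq_nonneg _))
      (by norm_num)
  simp only [Finset.sum_sub_distrib] at h3
  rw [h4, h5] at h3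
  rw [← Finset.mul_sum] at h6
  have h7 : ∑ i ∈ s, ∑ j ∈ s, x i * x j * (M i j : ℝ) = ∑ i ∈ s, ∑ j ∈ s, x i * x j * R i j +
      ∑ i ∈ s, ∑ j ∈ s, x i * x j * (dl (L i) (L j) : ℝ) := by
    simp only [← Finset.sum_add_distrib, hR]
    exact Finset.sum_congr rfl fun i _ => Finset.sum_congr rfl fun j _ => by push_cast; ring
  rw [h7]
  linarith

/-- Four times the matrix of the one-body form. -/
def KZ (a b : Fin 5) : ℤ :=
  if a = b then (if a = 0 then 4 else 9) else if a = 0 ∨ b = 0 then -1 else 0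

/-- The repulsion in units of `10⁻⁷`. -/
def VZ (a b : Fin 5) : ℤ :=
  if a = b then 10 ^ 12 else if a = 0 ∨ b = 0 then 10 ^ 7 else
    if (a.val + b.val) % 2 = 0 then 5 * 10 ^ 6 else 7071068

theorem Kf_eq (c : Fin 5 → ℝ) : Kf c = 1 / 4 * ∑ a, ∑ b, c a * c b * KZ a b := by
  simp [Kf, KZ, Fin.sum_univ_succ]
  ring

theorem Vm_eq (a b : Fin 5) : Vm (10 ^ 5) a b = VZ a b / 10 ^ 7 := by
  unfold Vm VZ
  split_ifs <;> norm_num

theorem Vm_mul (u : ℝ) (a b : Fin 5) {x : ℝ} (h : a = b → x = 0) :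
    Vm u a b * x ^ 2 = Vm (10 ^ 5) a b * x ^ 2 := by
  unfold Vm
  split_ifs with hab
  · simp [h hab]
  all_goals rfl

theorem fm_indep {N : ℕ} (u : ℝ) {c : Ar N} (h : ∀ α i j, i < j → α i = α j → c α = 0) :
    fm u c = fm (10 ^ 5) c := by
  unfold fm fm2
  refine congrArg _ (Finset.sum_congr rfl fun i _ => Finset.sum_congr rfl fun j _ => ?_)
  split_ifs with hij
  · exact Finset.sum_congr rfl fun α _ => Vm_mul u _ _ (h α i j hij)
  · rfl

theorem sum_two (F : (Fin 2 → Fin 5) → ℝ) : ∑ α, F α = ∑ a, ∑ b, F ![a, b] := by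
  let e : Fin 5 × Fin 5 ≃ (Fin 2 → Fin 5) := ⟨fun p => ![p.1, p.2], fun α => (α 0, α 1),
    fun p => rfl, fun α => by funext i; fin_cases i <;> rfl⟩
  rw [← e.sum_comp, Fintype.sum_prod_type]
  rfl

theorem sum_three (F : (Fin 3 → Fin 5) → ℝ) : ∑ α, F α = ∑ a, ∑ b, ∑ d, F ![a, b, d] := by
  let e : Fin 5 × Fin 5 × Fin 5 ≃ (Fin 3 → Fin 5) := ⟨fun p => ![p.1, p.2.1, p.2.2],
    fun α => (α 0, α 1, α 2), fun p => rfl, fun α => by funext i; fin_cases i <;> rfl⟩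
  rw [← e.sum_comp, Fintype.sum_prod_type]
  refine Finset.sum_congr rfl fun a _ => ?_
  rw [Fintype.sum_prod_type]
  rfl

theorem fm_two (c : Ar 2) : fm (10 ^ 5) c =
    1 / 4 * ((∑ b, ∑ a, ∑ a', c ![a, b] * c ![a', b] * KZ a a') +
      ∑ a, ∑ b, ∑ b', c ![a, b] * c ![a, b'] * KZ b b') +
    1 / 10 ^ 7 * ∑ a, ∑ b, VZ a b * c ![a, b] ^ 2 := by
  have u0 : ∀ a b x : Fin 5, update ![a, b] 0 x = ![x, b] := fun a b x => by
    funext i; fin_cases i <;> rfl
  have u1 : ∀ a b x : Fin 5, update ![a, b] 1 x = ![a, x] := fun a b x => by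
    funext i; fin_cases i <;> rfl
  have e0 : fm1 c 0 = 1 / 4 * ∑ b, ∑ a, ∑ a', c ![a, b] * c ![a', b] * KZ a a' := by
    rw [fm1, Finset.sum_filter, sum_two, Finset.sum_comm, Finset.mul_sum]
    refine Finset.sum_congr rfl fun b _ => ?_
    simp only [u0, Matrix.cons_val_zero, Finset.sum_ite_eq', Finset.mem_univ, if_true, Kf_eq]
  have e1 : fm1 c 1 = 1 / 4 * ∑ a, ∑ b, ∑ b', c ![a, b] * c ![a, b'] * KZ b b' := by
    rw [fm1, Finset.sum_filter, sum_two, Finset.mul_sum]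
    refine Finset.sum_congr rfl fun a _ => ?_
    simp only [u1, Matrix.cons_val_one, Matrix.cons_val_zero, Finset.sum_ite_eq', Finset.mem_univ,
      if_true, Kf_eq]
  have e2 : fm2 (10 ^ 5) c = 1 / 10 ^ 7 * ∑ a, ∑ b, VZ a b * c ![a, b] ^ 2 := by
    simp only [fm2, Fin.sum_univ_two, lt_self_iff_false, if_false, zero_lt_one, if_true,
      not_lt_zero, zero_add, add_zero, sum_two, Vm_eq, Finset.mul_sum, Matrix.cons_val_one,
      Matrix.cons_val_zero]
    exact Finset.sum_congr rfl fun a _ => Finset.sum_congr rfl fun b _ => by ring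
  rw [fm, Fin.sum_univ_two, e0, e1, e2]
  ring

theorem fm_three (c : Ar 3) : fm (10 ^ 5) c =
    1 / 4 * ((∑ b, ∑ d, ∑ a, ∑ a', c ![a, b, d] * c ![a', b, d] * KZ a a') +
      (∑ a, ∑ d, ∑ b, ∑ b', c ![a, b, d] * c ![a, b', d] * KZ b b') +
      ∑ a, ∑ b, ∑ d, ∑ d', c ![a, b, d] * c ![a, b, d'] * KZ d d') +
    1 / 10 ^ 7 * ∑ a, ∑ b, ∑ d, (VZ a b + VZ a d + VZ b d) * c ![a, b, d] ^ 2 := by
  have u0 : ∀ a b d x : Fin 5, update ![a, b, d] 0 x = ![x, b, d] := fun a b d x => by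
    funext i; fin_cases i <;> rfl
  have u1 : ∀ a b d x : Fin 5, update ![a, b, d] 1 x = ![a, x, d] := fun a b d x => by
    funext i; fin_cases i <;> rfl
  have u2 : ∀ a b d x : Fin 5, update ![a, b, d] 2 x = ![a, b, x] := fun a b d x => by
    funext i; fin_cases i <;> rfl
  have v0 : ∀ a b d : Fin 5, ![a, b, d] 0 = a := fun _ _ _ => rfl
  have v1 : ∀ a b d : Fin 5, ![a, b, d] 1 = b := fun _ _ _ => rfl
  have v2 : ∀ a b d : Fin 5, ![a, b, d] 2 = d := fun _ _ _ => rfl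
  have e0 : fm1 c 0 = 1 / 4 * ∑ b, ∑ d, ∑ a, ∑ a', c ![a, b, d] * c ![a', b, d] * KZ a a' := by
    rw [fm1, Finset.sum_filter, sum_three, Finset.sum_comm, Finset.mul_sum]
    refine Finset.sum_congr rfl fun b _ => ?_
    rw [Finset.sum_comm, Finset.mul_sum]
    refine Finset.sum_congr rfl fun d _ => ?_
    simp only [u0, v0, Finset.sum_ite_eq', Finset.mem_univ, if_true, Kf_eq]
  have e1 : fm1 c 1 = 1 / 4 * ∑ a, ∑ d, ∑ b, ∑ b', c ![a, b, d] * c ![a, b', d] * KZ b b' := by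
    rw [fm1, Finset.sum_filter, sum_three, Finset.mul_sum]
    refine Finset.sum_congr rfl fun a _ => ?_
    rw [Finset.sum_comm, Finset.mul_sum]
    refine Finset.sum_congr rfl fun d _ => ?_
    simp only [u1, v1, Finset.sum_ite_eq', Finset.mem_univ, if_true, Kf_eq]
  have e2 : fm1 c 2 = 1 / 4 * ∑ a, ∑ b, ∑ d, ∑ d', c ![a, b, d] * c ![a, b, d'] * KZ d d' := by
    rw [fm1, Finset.sum_filter, sum_three, Finset.mul_sum]
    refine Finset.sum_congr rfl fun a _ => ?_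
    rw [Finset.mul_sum]
    refine Finset.sum_congr rfl fun b _ => ?_
    simp only [u2, v2, Finset.sum_ite_eq', Finset.mem_univ, if_true, Kf_eq]
  have e3 : fm2 (10 ^ 5) c =
      1 / 10 ^ 7 * ∑ a, ∑ b, ∑ d, (VZ a b + VZ a d + VZ b d) * c ![a, b, d] ^ 2 := by
    have l1 : (0 : Fin 3) < 1 := by decide
    have l2 : (0 : Fin 3) < 2 := by decide
    have l3 : (1 : Fin 3) < 2 := by decide
    simp only [fm2, Fin.sum_univ_three, lt_self_iff_false, if_false, l1, l2, l3, if_true,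
      l1.not_gt, l2.not_gt, l3.not_gt, zero_add, add_zero, sum_three, Vm_eq, Finset.mul_sum, v0, v1,
      v2, ← Finset.sum_add_distrib]
    exact Finset.sum_congr rfl fun a _ => Finset.sum_congr rfl fun b _ =>
      Finset.sum_congr rfl fun d _ => by ring
  rw [fm, Fin.sum_univ_three, e0, e1, e2, e3]
  ring

end Vale.Agent.P363
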