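import Vale.Agent.P363.MCertX1

/-! Part M: the certificate for two electrons. -/

namespace Vale.Agent.P363

/-- The trial vector in units of `10⁻⁶`. -/
def W2 (a b : Fin 5) : ℤ :=
  if a = b then 0 else if a = 0 ∨ b = 0 then 314335 else
    if (a.val + b.val) % 2 = 0 then 147697 else 123634

/-- The trial vector. -/
noncomputable def w2 : Ar 2 := fun α => W2 (α 0) (α 1) / 10 ^ 6

/-- The matrix in units of `10⁻²⁴`. -/
def M2 (p q : Fin 5 × Fin 5) : ℤ :=
  10 ^ 9 * (25 * 10 ^ 13 * ((if p.2 = q.2 then KZ p.1 q.1 else 0) +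
    if p.1 = q.1 then KZ p.2 q.2 else 0) +
    (if p = q then 10 ^ 8 * VZ p.1 p.2 - 400585 * 10 ^ 10 else 0) + 70 * (W2 p.1 p.2 * W2 q.1 q.2))

/-- Rows of the rounded Cholesky factor. -/
def tb2 : List (List (List ℤ)) :=
    [[[316224594465706], [-790577344, 501059706465], [-790577344, 13802405889, 500869566888],
    [-790577344, 13802405889, 13427294209, 500689555319], [-790577344, 13802405889, 13427294209,
    13072033829, 500518883497]], [[-790577344, 13802405889, 13427294209, 13072033829,
    12735089418, 500356842897], [0, -498942534740, 13749302882, 13385522773, 13040497878,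
    -486930597486, 316227777972888], [0, 5429242268, -493850252482, 18527469704, 18049906116,
    -482047066480, -713750925, 851683789374], [0, 6485940723, 6309670575, -493168665517,
    19024891884, -481096580315, -710747368, -256854586923, 674228556323], [0, 5429242268,
    5281690298, 5141946931, -494472246188, -482047066480, -713750925, -258183979899,
    -422816009114, 692771919208]], [[-790577344, 13802405889, 13427294209, 13072033829,
    12735089418, 12415080002, 39231929, 17364581514, 29237988497, 45663916339, 496951962030], [0,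
    -493513292472, 19030993180, 18527469704, 18049906116, 17596345114, -753923701, 24610661936,
    41438739693, 64719053645, -495034253316, 840151557383], [0, 0, -499131942779, 13385522773,
    13040497878, 12712814109, 40172776, -282794641834, -84568349943, -135147074177,
    -463309016764, -239660503270, 316227555756469], [0, 5429242268, 5281690298, -494169447414,
    18049906116, 17596345114, 55604843, 24611340359, -338246547343, -167011275448, -451402460844,
    -222663248806, -942127268, 749114359596], [0, 6485940723, 6309670575, 6142728827,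
    -493497260420, 18546831280, 58608400, 25940733335, 43678241049, -301306625413, -460645936815,
    -235858784636, -918236434, -378866357376, 496928428593]], [[-790577344, 13802405889,
    13427294209, 13072033829, 12735089418, 12415080002, 39231929, 17364581514, 29237988497,
    45663916339, 5667051910, 8090375235, 76913647, 40093056431, 82083791003, 488383532771], [0,
    -492456594017, 20058973458, 19528251600, 19024891884, 18546831280, -750920144, 25940054912,
    43677129220, 68214976728, 8466352369, -292615683188, -116025899, -30674551296, -91050031472,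
    -480707569387, 646860112825], [0, 5429242268, -493850252482, 18527469704, 18049906116,
    17596345114, 55604843, -275964314311, -73067662132, -117185267485, 41986923515, 59938905934,
    -991195390, 9308463222, 50051307726, -479825588207, -274339697889, 740779826227], [0, 0, 0,
    -499311394345, 13040497878, 12712814109, 40172776, 17781012835, -349747235154, -184973082140,
    49435064891, 70571485672, -10685220, -478973251293, -349550575368, -365262744605,
    -255344508498, -355298154359, 316226823289100], [0, 5429242268, 5281690298, 5141946931,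
    -494472246188, 17596345114, 55604843, 24611340359, 41439851522, -304802548496, 41986923515,
    59938905934, 37571320, 9309757056, -604616303344, -369794301815, -284719801978,
    -329998912658, -1808020857, 405560216734]], [[-790577344, 13802405889, 13427294209,
    13072033829, 12735089418, 12415080002, 39231929, 17364581514, 29237988497, 45663916339,
    5667051910, 8090375235, 76913647, 40093056431, 82083791003, -11520709731, 14983528075,
    19228020062, 246852070, 186778770988, 450449947533], [0, -493513292472, 19030993180,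
    18527469704, 18049906116, 17596345114, -753923701, 24610661936, 41438739693, 64719053645,
    8032479691, -293235064459, -121914280, -33743981355, -97334169484, 32067182996,
    -510756918806, -98189536718, -470113908, -438138588182, -316557801528, 539011142053], [0,
    6485940723, -492822272204, 19528251600, 19024891884, 18546831280, 58608400, -274634921335,
    -70829272605, -113689344403, 42420796193, 60558287205, -985307009, 12377893282, 56335445738,
    31185201817, 107215353132, -406904075484, -373802425, -186943826042, -429072443118,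
    -279641873391, 417394687083], [0, 5429242268, 5281690298, -494169447414, 18049906116,
    17596345114, 55604843, 24611340359, -338246547343, -167011275448, 51664272163, 73753823035,
    19568866, -463202735733, -317263116658, 142098469388, 130957163396, 124713556994,
    -1921727299, -218068936436, -316557801528, -204240377954, -497956140524, 29301218142], [0, 0,
    0, 0, -499481654425, 12712814109, 40172776, 17781012835, 29939163711, -322764355188,
    39757716243, 56756568571, 7317234, -6460758504, -636903762054, 146630026598, 89794427288,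
    134886199274, -475859317, -1511622741284, 225776684722, -1028378998425, -1011497992460,
    -43275534964050, 313245099351397]]]

/-- The row of a pair. -/
def L2 (p : Fin 5 × Fin 5) : List ℤ := (tb2.getD p.1 []).getD p.2 []

theorem M2_symm : ∀ p ∈ (Finset.univ : Finset (Fin 5 × Fin 5)), ∀ q ∈ Finset.univ,
    M2 p q = M2 q p := by decide +kernel

theorem M2_dd : ∀ p ∈ (Finset.univ : Finset (Fin 5 × Fin 5)),
    ∑ q ∈ Finset.univ, |M2 p q - dl (L2 p) (L2 q)| ≤ 2 * (M2 p p - dl (L2 p) (L2 p)) := by
  decide +kernel

theorem low_w2 (c : Ar 2) : (393585 / 10 ^ 5 + 7 / 100) * nsq c - 7 / 100 * dotc w2 c ^ 2 ≤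
    fm (10 ^ 5) c := by
  have h := psd_of_chol _ M2 L2 M2_symm M2_dd fun p => c ![p.1, p.2]
  have a1 : ∑ p : Fin 5 × Fin 5, ∑ q : Fin 5 × Fin 5, c ![p.1, p.2] * c ![q.1, q.2] *
      (if p.2 = q.2 then (KZ p.1 q.1 : ℝ) else 0) =
      ∑ b, ∑ a, ∑ a', c ![a, b] * c ![a', b] * KZ a a' := by
    rw [Fintype.sum_prod_type, Finset.sum_comm]
    simp only [Fintype.sum_prod_type, mul_ite, mul_zero, Finset.sum_ite_eq, Finset.mem_univ,
      if_true]
  have a2 : ∑ p : Fin 5 × Fin 5, ∑ q : Fin 5 × Fin 5, c ![p.1, p.2] * c ![q.1, q.2] *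
      (if p.1 = q.1 then (KZ p.2 q.2 : ℝ) else 0) =
      ∑ a, ∑ b, ∑ b', c ![a, b] * c ![a, b'] * KZ b b' := by
    rw [Fintype.sum_prod_type]
    refine Finset.sum_congr rfl fun a _ => Finset.sum_congr rfl fun b _ => ?_
    rw [Fintype.sum_prod_type_right]
    simp only [mul_ite, mul_zero, Finset.sum_ite_eq, Finset.mem_univ, if_true]
  have a3 : ∑ p : Fin 5 × Fin 5, ∑ q : Fin 5 × Fin 5, c ![p.1, p.2] * c ![q.1, q.2] *
      (if p = q then 10 ^ 8 * (VZ p.1 p.2 : ℝ) - 400585 * 10 ^ 10 else 0) =
      10 ^ 8 * (∑ a, ∑ b, VZ a b * c ![a, b] ^ 2) - 400585 * 10 ^ 10 * nsq c := by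
    simp only [mul_ite, mul_zero, Finset.sum_ite_eq, Finset.mem_univ, if_true, nsq, sum_two,
      Fintype.sum_prod_type, Finset.mul_sum, ← Finset.sum_sub_distrib]
    exact Finset.sum_congr rfl fun a _ => Finset.sum_congr rfl fun b _ => by ring
  have a4 : ∑ p : Fin 5 × Fin 5, ∑ q : Fin 5 × Fin 5, c ![p.1, p.2] * c ![q.1, q.2] *
      ((W2 p.1 p.2 : ℝ) * W2 q.1 q.2) = 10 ^ 12 * dotc w2 c ^ 2 := by
    have : dotc w2 c = 1 / 10 ^ 6 * ∑ p : Fin 5 × Fin 5, c ![p.1, p.2] * W2 p.1 p.2 := by
      rw [dotc, sum_two, Fintype.sum_prod_type, Finset.mul_sum]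
      refine Finset.sum_congr rfl fun a _ => ?_
      rw [Finset.mul_sum]
      refine Finset.sum_congr rfl fun b _ => ?_
      change (W2 a b : ℝ) / 10 ^ 6 * _ = _
      ring
    rw [this, mul_pow, sq (Finset.sum _ _), Finset.sum_mul_sum, ← mul_assoc]
    norm_num
    exact Finset.sum_congr rfl fun a _ => Finset.sum_congr rfl fun b _ => by ring
  have a5 : ∀ p q : Fin 5 × Fin 5, c ![p.1, p.2] * c ![q.1, q.2] * (M2 p q : ℝ) =
      25 * 10 ^ 22 * (c ![p.1, p.2] * c ![q.1, q.2] * if p.2 = q.2 then (KZ p.1 q.1 : ℝ) else 0) +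
      25 * 10 ^ 22 * (c ![p.1, p.2] * c ![q.1, q.2] * if p.1 = q.1 then (KZ p.2 q.2 : ℝ) else 0) +
      10 ^ 9 * (c ![p.1, p.2] * c ![q.1, q.2] *
        if p = q then 10 ^ 8 * (VZ p.1 p.2 : ℝ) - 400585 * 10 ^ 10 else 0) +
      70 * 10 ^ 9 * (c ![p.1, p.2] * c ![q.1, q.2] * ((W2 p.1 p.2 : ℝ) * W2 q.1 q.2)) := by
    intro p q
    unfold M2
    push_cast
    ring
  simp only [a5, Finset.sum_add_distrib, ← Finset.mul_sum] at h
  rw [a1, a2, a3, a4] at h
  rw [fm_two]
  linarith

theorem nsq_w2 : nsq w2 = 999992480684 / 10 ^ 12 := by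
  have h : ∑ a, ∑ b, W2 a b ^ 2 = 999992480684 := by decide +kernel
  have h' : ∑ a, ∑ b, (W2 a b : ℝ) ^ 2 = 999992480684 := by exact_mod_cast h
  rw [nsq, sum_two, ← h']
  simp only [Finset.sum_div]
  refine Finset.sum_congr rfl fun a _ => Finset.sum_congr rfl fun b _ => ?_
  change ((W2 a b : ℝ) / 10 ^ 6) ^ 2 = _
  ring

theorem up_w2 (u : ℝ) : fm u w2 ≤ (393585 / 10 ^ 5 + 4 / 10 ^ 5) * nsq w2 := by
  have h : 25 * 10 ^ 5 * ((∑ b, ∑ a, ∑ a', W2 a b * W2 a' b * KZ a a') +
      ∑ a, ∑ b, ∑ b', W2 a b * W2 a b' * KZ b b') + ∑ a, ∑ b, VZ a b * W2 a b ^ 2 ≤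
      39358900 * 999992480684 := by decide +kernel
  have h' : 25 * 10 ^ 5 * ((∑ b, ∑ a, ∑ a', (W2 a b : ℝ) * W2 a' b * KZ a a') +
      ∑ a, ∑ b, ∑ b', (W2 a b : ℝ) * W2 a b' * KZ b b') + ∑ a, ∑ b, (VZ a b : ℝ) * W2 a b ^ 2 ≤
      39358900 * 999992480684 := by exact_mod_cast h
  have e : ∀ a b, w2 ![a, b] = 1 / 10 ^ 6 * W2 a b := fun a b => by
    change (W2 a b : ℝ) / 10 ^ 6 = _
    ring
  have e1 : ∀ x y z : ℝ, 1 / 10 ^ 6 * x * (1 / 10 ^ 6 * y) * z = 1 / 10 ^ 12 * (x * y * z) :=
    fun x y z => by ring
  have e2 : ∀ x y : ℝ, x * (1 / 10 ^ 6 * y) ^ 2 = 1 / 10 ^ 12 * (x * y ^ 2) := fun x y => by ring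
  rw [fm_indep u, nsq_w2, fm_two]
  · simp only [e, e1, e2, ← Finset.mul_sum]
    linarith
  · intro α i j hij h
    have : α 0 = α 1 := by
      fin_cases i <;> fin_cases j <;> first | exact h | exact absurd hij (by decide)
    simp [w2, W2, this]

end Vale.Agent.P363
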