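import Vale.Agent.P363.LG

/-! Part M: definitions (finite model, coefficient arrays, gapped classes). -/

namespace Vale.Agent.P363

open MeasureTheory Vale.Agent.P370

noncomputable section

/-- Coefficient arrays. -/
abbrev Ar (N : ℕ) := (Fin N → Fin 5) → ℝ

variable {N : ℕ}

/-- Squared norm. -/
def nsq (c : Ar N) : ℝ := ∑ α, c α ^ 2

/-- Scalar product. -/
def dotc (c d : Ar N) : ℝ := ∑ α, c α * d α

/-- The one-body form of the model in the slot `i`. -/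
def fm1 (c : Ar N) (i : Fin N) : ℝ :=
  ∑ α ∈ Finset.univ.filter (fun α : Fin N → Fin 5 => α i = 0),
    Kf fun a => c (Function.update α i a)

/-- The repulsion of the model. -/
def fm2 (u : ℝ) (c : Ar N) : ℝ :=
  ∑ i, ∑ j, if i < j then ∑ α, Vm u (α i) (α j) * c α ^ 2 else 0

/-- The form of the model. -/
def fm (u : ℝ) (c : Ar N) : ℝ := (∑ i, fm1 c i) + fm2 u c

/-- Combinations of products of orbitals. -/
def tp (φ : Fin 5 → Pt → ℝ) (c : Ar N) (x : Cf N) : ℝ := ∑ α, c α * ∏ i, φ (α i) (x i)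

/-- Coefficients in the products of orbitals. -/
def cf (φ : Fin 5 → Pt → ℝ) (f : Cf N → ℝ) : Ar N := fun α => ∫ x, (∏ i, φ (α i) (x i)) * f x

/-- Antisymmetry in the first two slots. -/
def AsC (c : Ar 3) : Prop := ∀ α, c (α ∘ Equiv.swap 0 1) = -c α

/-- Coefficients of the odd orbital. -/
def oc : Fin 5 → ℝ := ![0, 1 / 2, -1 / 2, 1 / 2, -1 / 2]

/-- The numerical facts on the finite model. -/
structure Cert (w₂ : Ar 2) (w₃ : Ar 3) (e₂ e₃ : ℝ) : Prop where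
  e2 : 0 ≤ e₂ ∧ e₂ ≤ 9
  e3 : 0 ≤ e₃ ∧ e₃ ≤ 9
  n2 : 0 < nsq w₂ ∧ nsq w₂ ≤ 1
  n3 : 0 < nsq w₃ ∧ nsq w₃ ≤ 1
  low2 : ∀ c, (e₂ + 7 / 100) * nsq c - 7 / 100 * dotc w₂ c ^ 2 ≤ fm (10 ^ 5) c
  low3 : ∀ c, AsC c → (e₃ + 9 / 1000) * nsq c - 9 / 1000 * dotc w₃ c ^ 2 ≤ fm (10 ^ 5) c
  up2 : ∀ u, fm u w₂ ≤ (e₂ + 4 / 10 ^ 5) * nsq w₂
  up3 : ∀ u, fm u w₃ ≤ (e₃ + 4 / 10 ^ 5) * nsq w₃
  sw2 : ∀ α, w₂ (α ∘ Equiv.swap 0 1) = w₂ α
  ev2 : ∀ i : Fin 3, i ≠ 2 → ∀ α, w₂ (fun j => pr i (α j)) = w₂ α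
  as3 : AsC w₃
  od3 : ∀ i : Fin 3, i ≠ 2 → ∀ α, w₃ (fun j => pr i (α j)) = -w₃ α
  amp : 11 / 20 ≤ ∑ α : Fin 3 → Fin 5, oc (α 0) * w₂ (Fin.tail α) * w₃ α

/-- Classes of functions closed under linear combinations and limits. -/
structure Cls (S : (Cf N → ℝ) → Prop) : Prop where
  lin : ∀ f g (a b : ℝ), S f → S g → S fun x => a * f x + b * g x
  lim : ∀ (u : ℕ → Cf N → ℝ) (f : Cf N → ℝ), (∀ m, MemLp (u m) 2) → MemLp f 2 → (∀ m, S (u m)) →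
    L2T volume u f → S f

/-- The form is at least `e`, at least `e + g` on the functions orthogonal to `p`, and some
function of the class has energy at most `e + δ`. -/
structure Gp (V : Pt → ℝ) (lam : ℝ) (S : (Cf N → ℝ) → Prop) (p : Cf N → ℝ) (e g δ : ℝ) :
    Prop where
  fb : FB V
  lam0 : 0 ≤ lam
  cls : Cls S
  mem : MemLp p 2
  le_one : ∫ x, p x ^ 2 ≤ 1
  δ0 : 0 ≤ δ
  δg : δ < g
  low : ∀ f G, RH f G → S f →
    (e + g) * (∫ x, f x ^ 2) - g * (∫ x, p x * f x) ^ 2 ≤ bil V lam f G f G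
  up : ∃ f G, RH f G ∧ S f ∧ 0 < ∫ x, f x ^ 2 ∧ bil V lam f G f G ≤ (e + δ) * ∫ x, f x ^ 2

/-- Normalised minimisers in the class, with the sign fixed by `p`. -/
structure GS (V : Pt → ℝ) (lam : ℝ) (S : (Cf N → ℝ) → Prop) (p ψ : Cf N → ℝ)
    (G : Fin N → Fin 3 → Cf N → ℝ) (μ : ℝ) : Prop where
  rh : RH ψ G
  mem : S ψ
  one : ∫ x, ψ x ^ 2 = 1
  val : bil V lam ψ G ψ G = μ
  min : ∀ f H, RH f H → S f → μ * ∫ x, f x ^ 2 ≤ bil V lam f H f H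
  pos : 0 ≤ ∫ x, p x * ψ x

end

end Vale.Agent.P363
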