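import Vale.Agent.P363.MUpX1

/-!
Part M: trial states.  Copy P370/ManyUpB (`mu_lc_c1c`, `mu_pd_lc`, `Soft.mu_norm_eq`, ...) and
P370/ManyUp (`muG`, `muH`, `muK`, `mu_psi_*`, `mu_G_low`, `mu_G_up`, `mu_one_body`, `mu_two_body`,
`mu_rE_le`) with `Fin 5` for `Arm M`, `lc5` for `lc`, `tp` for `muPsi`, `Orb` for `Sharp`/`Soft`
(put the copied part in `MUpX1.lean`; ManyUpA and `mu_qf_*` are generic).  Integrability of
`V * (η a * η b)`: `FB.integrable` with `C1c.h1`.  The matrix of `Kf` is `1` at `(0,0)`, `9/4` at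
`(a,a)`, `-1/4` at `(0,a)`, `(a,0)`; `∑ α, ∑ b, c α * c (update α i b) * K (α i) b = fm1 c i`
(`Finset.sum_fiberwise` over `α i`, bijection `α ↦ update α i a` between fibres).
`up_raw` with the `u` of `Orb.tup`; `m_up`: `(1 + tol)³ (B + 12 tol) ≤ B + 5 / 10⁵`.
-/

namespace Vale.Agent.P363

open MeasureTheory Function Vale.Agent.P370

variable {N : ℕ} {V : Pt → ℝ} {lam E : ℝ} {φ η : Fin 5 → Pt → ℝ}

theorem Orb.c1n_tp (h : Orb φ η) (c : Ar N) : C1N (tp η c) :=
  ⟨xmu_psi_contDiff h.mu_c1c c, xmu_psi_supp h.mu_c1c c⟩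

theorem Orb.nsq_le (h : Orb φ η) (c : Ar N) : nsq c ≤ ∫ x, tp η c x ^ 2 := xmu_psi_norm_ge h c

/-- The matrix of the one-body form of the model. -/
noncomputable def muKm (a b : Fin 5) : ℝ :=
  if a = b then (if a = 0 then 1 else 9 / 4) else if a = 0 ∨ b = 0 then -1 / 4 else 0

theorem MUp_symm (a b : Fin 5) : muKm a b = muKm b a := by
  unfold muKm
  by_cases h : a = b
  · rw [h]
  · simp only [if_neg h, if_neg (Ne.symm h), or_comm]

theorem MUp_qf (c : Fin 5 → ℝ) : qf muKm c = Kf c := by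
  simp [qf, Kf, muKm, Fin.sum_univ_succ]
  ring

theorem MUp_Kf (c : Fin 5 → ℝ) : 0 ≤ Kf c := by unfold Kf; positivity

theorem MUp_fib (i : Fin N) (F : (Fin N → Fin 5) → ℝ) :
    ∑ α, F α = ∑ α ∈ Finset.univ.filter (fun α : Fin N → Fin 5 => α i = 0),
      ∑ a, F (update α i a) := by
  rw [← Finset.sum_product']
  symm
  refine Finset.sum_bij' (fun p _ => update p.1 i p.2) (fun β _ => (update β i 0, β i))
    (fun _ _ => Finset.mem_univ _) (fun _ _ => by simp) (fun p hp => ?_) (fun _ _ => by simp)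
    fun _ _ => rfl
  have : p.1 i = 0 := by simpa using hp
  ext1
  · simp only [update_idem]; rw [← this, update_eq_self]
  · simp

theorem MUp_coord (i : Fin N) (c : Ar N) :
    ∑ α, ∑ b, c α * c (update α i b) * muKm (α i) b = fm1 c i := by
  rw [MUp_fib i, fm1]
  refine Finset.sum_congr rfl fun α _ => ?_
  rw [← MUp_qf, qf]
  simp only [update_idem, update_self]

theorem MUp_tol : 0 < tol := by unfold tol; norm_num

theorem MUp_one (h : OB V lam E φ η) (c : Ar N) (i : Fin N) :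
    1 / 2 * (∑ k, ∫ x, fderiv ℝ (tp η c) x (Pi.single i (Pi.single k 1)) ^ 2) +
      ∫ x, V (x i) * tp η c x ^ 2 ≤
      E * (∫ x, tp η c x ^ 2) + (1 + tol) ^ N *
        (lam / Lc * fm1 c i + tol * (lam / Lc) * ∑ α, c α ^ 2) := by
  have hη := h.orb.mu_c1c
  have hVi : ∀ a b, Integrable fun x => V x * (η a x * η b x) := fun a b =>
    h.fb.integrable (C1c.h1 (hη a)) (C1c.h1 (hη b))
  have t0 := MUp_tol
  have hT : 0 ≤ lam / Lc := div_nonneg h.lam_pos.le (by unfold Lc; norm_num)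
  set T := lam / Lc
  set ε := tol * T with hε
  have hK' : PSD fun a b : Fin 5 => T * muKm a b + if a = b then ε else 0 := by
    refine ⟨fun a b => by simp only [MUp_symm a b, eq_comm], fun c => ?_⟩
    rw [mu_qf_add, mu_qf_smul, MUp_qf, mu_qf_diag (fun _ => ε)]
    exact add_nonneg (mul_nonneg hT (MUp_Kf c)) (Finset.sum_nonneg fun _ _ => by positivity)
  have hK : PSD fun a b : Fin 5 => (T * muKm a b + if a = b then ε else 0) -
      (xmuH V η a b - E * xmuG η a b) := by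
    refine ⟨fun a b => by
      simp only [MUp_symm a b, xmu_H_symm V a b, xmu_G_symm a b, eq_comm], fun c => ?_⟩
    rw [mu_qf_sub, mu_qf_add, mu_qf_smul, MUp_qf, mu_qf_diag (fun _ => ε), mu_qf_sub,
      mu_qf_smul, xmu_qf_H hη hVi, xmu_qf_G hη, ← Finset.mul_sum]
    have := h.up c
    linarith
  have key := qf_one_le i hK' hK (xmu_G_psd hη) (r := 1 + tol) (by linarith) (xmu_G_up h.orb) c
  rw [Fintype.card_fin] at key
  have e1 : ∑ α, ∑ b, c α * c (update α i b) * (T * muKm (α i) b + if α i = b then ε else 0) =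
      T * fm1 c i + ε * ∑ α, c α ^ 2 := by
    rw [← MUp_coord, Finset.mul_sum, Finset.mul_sum, ← Finset.sum_add_distrib]
    refine Finset.sum_congr rfl fun α _ => ?_
    simp only [mul_add, Finset.sum_add_distrib, mul_ite, mul_zero, Finset.sum_ite_eq,
      Finset.mem_univ, if_true, update_eq_self, Finset.mul_sum]
    refine congrArg₂ (· + ·) (Finset.sum_congr rfl fun b _ => by ring) (by ring)
  rw [e1] at key
  have e2 : qf (fun α β : Fin N → Fin 5 => (xmuH V η (α i) (β i) - E * xmuG η (α i) (β i)) *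
      ∏ l ∈ Finset.univ.erase i, xmuG η (α l) (β l)) c =
      1 / 2 * (∑ k, ∫ x, fderiv ℝ (tp η c) x (Pi.single i (Pi.single k 1)) ^ 2) +
      (∫ x, V (x i) * tp η c x ^ 2) - E * ∫ x, tp η c x ^ 2 := by
    simp only [xmu_psi_kin hη, xmu_psi_pot hη hVi, xmu_psi_norm hη]
    rw [← mu_qf_sum, ← mu_qf_smul, ← mu_qf_add, ← mu_qf_smul, ← mu_qf_sub]
    refine congrArg (fun G => qf G c) ?_
    funext α β
    rw [← Finset.mul_prod_erase Finset.univ _ (Finset.mem_univ i), ← Finset.sum_mul, xmuH]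
    ring
  rw [e2] at key
  linarith

theorem MUp_two (hφ : Orb φ η) {W : Fin 5 → Fin 5 → ℝ} (hW : ∀ a b, 0 ≤ W a b)
    (h2 : ∀ d : Fin 5 → Fin 5 → ℝ,
      ∫ p : Pt × Pt, ker (p.1 - p.2) * (∑ a, ∑ b, d a b * (η a p.1 * η b p.2)) ^ 2 ≤
        ∑ a, ∑ b, W a b * d a b ^ 2) (c : Ar N) {i j : Fin N} (hij : i ≠ j) :
    ∫ x, ker (x i - x j) * tp η c x ^ 2 ≤ (1 + tol) ^ N * ∑ α, W (α i) (α j) * c α ^ 2 := by
  have h := hφ.mu_c1c
  have hK : PSD fun p q : Fin 5 × Fin 5 => (if p = q then W p.1 p.2 else 0) - xmuK η p q := by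
    refine ⟨fun p q => ?_, fun d => ?_⟩
    · by_cases hpq : p = q
      · rw [hpq]
      · simp only [if_neg hpq, if_neg (Ne.symm hpq), xmu_K_symm p q]
    · rw [mu_qf_sub, mu_qf_diag (fun p : Fin 5 × Fin 5 => W p.1 p.2), xmu_qf_K h,
        Fintype.sum_prod_type]
      exact sub_nonneg.2 (h2 fun a b => d (a, b))
  have key := qf_two_le hij hW hK (xmu_G_psd h) (r := 1 + tol) (by linarith [MUp_tol])
    (xmu_G_up hφ) c
  rw [Fintype.card_fin] at key
  rw [xmu_psi_pair h c hij]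
  exact key

theorem up_raw (h : OB V lam E φ η) : ∃ u : ℝ, 0 ≤ u ∧ ∀ c : Ar N,
    bil V lam (tp η c) (gr (tp η c)) (tp η c) (gr (tp η c)) ≤ N * E * (∫ x, tp η c x ^ 2) +
      (1 + tol) ^ N * (lam / Lc) * (fm u c + (N + N ^ 2) * tol * nsq c) := by
  obtain ⟨u, hu, h2⟩ := h.orb.tup
  refine ⟨u, hu, fun c => ?_⟩
  have t0 := MUp_tol
  have L0 : 0 < Lc := by unfold Lc; norm_num
  have hV : ∀ a b, 0 ≤ Vm u a b := fun a b => by unfold Vm; split_ifs <;> positivity
  have hc := nsq_nonneg c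
  have hA := Finset.sum_le_sum fun i (_ : i ∈ (Finset.univ : Finset (Fin N))) => MUp_one h c i
  simp only [Finset.sum_add_distrib, ← Finset.mul_sum, Finset.sum_const, Finset.card_univ,
    Fintype.card_fin, nsmul_eq_mul] at hA
  have hB : ∑ i : Fin N, ∑ j : Fin N,
      (if i < j then ∫ x : Cf N, ker (x i - x j) * tp η c x ^ 2 else 0) ≤
      ∑ i : Fin N, ∑ j : Fin N, (1 + tol) ^ N / Lc *
        ((if i < j then ∑ α, Vm u (α i) (α j) * c α ^ 2 else 0) + tol * nsq c) := by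
    refine Finset.sum_le_sum fun i _ => Finset.sum_le_sum fun j _ => ?_
    by_cases hij : i < j
    · simp only [if_pos hij]
      refine (MUp_two h.orb (W := fun a b => (Vm u a b + tol) / Lc)
        (fun a b => div_nonneg (add_nonneg (hV a b) t0.le) L0.le) h2 c hij.ne).trans (le_of_eq ?_)
      rw [nsq, Finset.mul_sum, Finset.mul_sum, ← Finset.sum_add_distrib, Finset.mul_sum]
      exact Finset.sum_congr rfl fun α _ => by ring
    · simp only [if_neg hij, zero_add]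
      positivity
  simp only [Finset.sum_add_distrib, ← Finset.mul_sum, Finset.sum_const, Finset.card_univ,
    Fintype.card_fin, nsmul_eq_mul] at hB
  have hB' := mul_le_mul_of_nonneg_left hB h.lam_pos.le
  simp only [bil, gr, ← sq, fm, fm2, nsq] at hB' ⊢
  refine (add_le_add hA hB').trans (le_of_eq ?_)
  ring

theorem m_up (h : OB V lam E φ η) (hN : N ≤ 3) {c : Ar N} {B : ℝ} (h0 : 0 ≤ B) (h1 : B ≤ 10)
    (hB : ∀ u, fm u c ≤ B * nsq c) :
    bil V lam (tp η c) (gr (tp η c)) (tp η c) (gr (tp η c)) ≤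
      (N * E + lam / Lc * (B + 5 / 10 ^ 5)) * ∫ x, tp η c x ^ 2 := by
  obtain ⟨u, -, hu⟩ := up_raw (N := N) h
  have t0 := MUp_tol
  have hT : 0 ≤ lam / Lc := div_nonneg h.lam_pos.le (by unfold Lc; norm_num)
  have hc := nsq_nonneg c
  have n3 : (N : ℝ) ≤ 3 := by exact_mod_cast hN
  have n0 : (0 : ℝ) ≤ N := Nat.cast_nonneg N
  have a1 : (1 + tol) ^ N ≤ (1 + tol) ^ 3 := pow_le_pow_right₀ (by linarith) hN
  have a2 : ((N : ℝ) + N ^ 2) * tol * nsq c ≤ 12 * tol * nsq c := by gcongr; nlinarith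
  have a3 : (1 + tol) ^ 3 * (B + 12 * tol) ≤ B + 5 / 10 ^ 5 := by unfold tol; norm_num; linarith
  have a4 : (1 + tol) ^ N * (fm u c + (N + N ^ 2) * tol * nsq c) ≤
      (B + 5 / 10 ^ 5) * ∫ x, tp η c x ^ 2 :=
    calc _ ≤ (1 + tol) ^ N * ((B + 12 * tol) * nsq c) :=
          mul_le_mul_of_nonneg_left (by linarith [hB u]) (by positivity)
      _ ≤ (1 + tol) ^ 3 * ((B + 12 * tol) * nsq c) :=
          mul_le_mul_of_nonneg_right a1 (by positivity)
      _ ≤ (B + 5 / 10 ^ 5) * nsq c := by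
          rw [← mul_assoc]; exact mul_le_mul_of_nonneg_right a3 hc
      _ ≤ _ := mul_le_mul_of_nonneg_left (h.orb.nsq_le c) (by positivity)
  have a5 := mul_le_mul_of_nonneg_left a4 hT
  linarith [hu c]

end Vale.Agent.P363
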