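import Vale.Agent.P363.MLow
import Vale.Agent.P363.MUp

/-!
Part M: the gap hypotheses and the distance to the product space.
`gp_of`: `low` from `m_low`, `hlow`, `Orb.int_tp_mul`, `Orb.bessel` and
`lam / Lc * (e₀ + g₀) ≤ gam / 2` (`OB.lam_le`); `up` from `m_up` with `B = e₀ + 4 / 10⁵` and the
trial function `tp η w` (`Orb.c1n_tp`, `C1N.rh`, `Orb.nsq_le`).
`gs_close`: `m_low` for `ψ`, `fm_nonneg`, `Orb.pyth`: `gam / 2 (1 - nsq c) ≤ 11 lam / Lc`.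
-/

namespace Vale.Agent.P363

open MeasureTheory Vale.Agent.P370

variable {N : ℕ} {V : Pt → ℝ} {lam E : ℝ} {φ η : Fin 5 → Pt → ℝ}

theorem MGp_kap (h : OB V lam E φ η) :
    0 < lam / Lc ∧ 22 * (lam / Lc) ≤ lam ∧ lam ≤ gam := by
  have h0 := h.lam_pos
  have h1 := h.lam_le
  unfold Lc
  exact ⟨by positivity, by linarith, by linarith⟩

theorem gp_of (h : OB V lam E φ η) (hN : N ≤ 3) {S : (Cf N → ℝ) → Prop} (hS : Cls S) {w : Ar N}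
    {e₀ g₀ : ℝ} (he : 0 ≤ e₀ ∧ e₀ ≤ 9) (hg : 1 / 1000 ≤ g₀ ∧ g₀ ≤ 1) (hn : 0 < nsq w ∧ nsq w ≤ 1)
    (hlow : ∀ f, S f → (e₀ + g₀) * nsq (cf φ f) - g₀ * dotc w (cf φ f) ^ 2 ≤ fm (10 ^ 5) (cf φ f))
    (hup : ∀ u, fm u w ≤ (e₀ + 4 / 10 ^ 5) * nsq w) (hw : S (tp η w)) :
    Gp V lam S (tp φ w) (N * E + lam / Lc * (e₀ - 2 / 10 ^ 5)) (lam / Lc * g₀)
      (lam / Lc * (15 / 10 ^ 5)) := by
  obtain ⟨k0, k1, k2⟩ := MGp_kap h
  refine ⟨h.fb, h.lam_pos.le, hS, h.orb.memLp_tp w, ?_, by positivity, ?_, fun f G hf hf' => ?_,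
    tp η w, _, (h.orb.c1n_tp w).rh, hw, hn.1.trans_le (h.orb.nsq_le w), ?_⟩
  · rw [h.orb.int_tp_sq]; exact hn.2
  · exact mul_lt_mul_of_pos_left (by linarith [hg.1]) k0
  · have h1 := m_low h hN hf
    have h2 := mul_le_mul_of_nonneg_left (hlow f hf') k0.le
    have h3 := h.orb.bessel hf.1
    have h4 : lam / Lc * (e₀ + g₀) ≤ gam / 2 := by nlinarith [he.2, hg.2]
    have h5 := mul_le_mul_of_nonneg_right h4 (sub_nonneg.2 h3)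
    rw [h.orb.int_tp_mul w hf.1]
    linarith
  · refine (m_up h hN (by linarith [he.1]) (by linarith [he.2]) hup).trans
      (mul_le_mul_of_nonneg_right ?_ (integral_nonneg fun _ => sq_nonneg _))
    linarith

theorem gs_close (h : OB V lam E φ η) (hN : N ≤ 3) {ψ : Cf N → ℝ} {G : Fin N → Fin 3 → Cf N → ℝ}
    (hψ : RH ψ G) (h1 : ∫ x, ψ x ^ 2 = 1) (h2 : bil V lam ψ G ψ G ≤ N * E + 10 * (lam / Lc)) :
    nsq (cf φ ψ) ≤ 1 ∧ ∫ x, (ψ x - tp φ (cf φ ψ) x) ^ 2 ≤ lam / gam := by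
  obtain ⟨k0, k1, k2⟩ := MGp_kap h
  have h3 := m_low h hN hψ
  have h4 := h.orb.bessel hψ.1
  have h5 := mul_nonneg k0.le (fm_nonneg (u := 10 ^ 5) (by positivity) (cf φ ψ))
  rw [h.orb.pyth hψ.1, le_div_iff₀ (h.lam_pos.trans_le k2)]
  rw [h1] at h3 h4 ⊢
  exact ⟨h4, by linarith⟩

end Vale.Agent.P363
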