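import Vale.Agent.P363.MDefs

/-!
Part M: the products of sharp orbitals are an orthonormal family of `L²`.
Hints.  `P α x = ∏ i, φ (α i) (x i)` is bounded, measurable, with bounded support (`Orb.bm`,
`Orb.bdd`), so `MemLp (P α) 2` (`memLp_two_iff_integrable_sq`, `Integrable.fintype_prod`; see
`Sharp.mu_integrable*` in P370/ManyUpB).  `∫ P α * P β = if α = β then 1 else 0` by
`integral_fintype_prod_volume_eq_prod`, `Orb.disj`, `Orb.one`.  Products of two `MemLp 2`
functions are integrable (`MemLp.integrable_mul`).  `cf_tp_eta`: pointwise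
`φ b x * η a x = φ b x * φ a x` (`Orb.agree`), so `P α x * tp η c x = P α x * tp φ c x`.
`mp_perm`: `measurePreserving_piCongrLeft` (see `anti_coef` in P370/ManyLowB, `int_prm` in DensA).
`tp_perm`, `tp_rf`: reindex the sum over `α` (`Equiv.sum_comp` with `Equiv.arrowCongr`, or
`Function.Involutive.toPerm`: `pr i` is an involution, `by decide`/`fin_cases`), `Equiv.prod_comp`.
`cls_asym`: `(f∘π + f)² ≤ 2 (f∘π - u∘π)² + 2 (u - f)²` a.e., integrate, `mp_perm`, limit,
`integral_eq_zero_iff_of_nonneg`.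
-/

namespace Vale.Agent.P363

open MeasureTheory Vale.Agent.P370 Filter Topology

variable {N : ℕ} {φ η : Fin 5 → Pt → ℝ} {f : Cf N → ℝ}

theorem nsq_nonneg (c : Ar N) : 0 ≤ nsq c := Finset.sum_nonneg fun _ _ => sq_nonneg _

theorem fm_nonneg {u : ℝ} (hu : 0 ≤ u) (c : Ar N) : 0 ≤ fm u c := by
  refine add_nonneg (Finset.sum_nonneg fun i _ => Finset.sum_nonneg fun α _ => ?_)
    (Finset.sum_nonneg fun i _ => Finset.sum_nonneg fun j _ => ?_)
  · exact add_nonneg (mul_nonneg (by norm_num) (Finset.sum_nonneg fun _ _ => sq_nonneg _))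
      (mul_nonneg (by norm_num) (Finset.sum_nonneg fun _ _ => sq_nonneg _))
  · split_ifs
    · refine Finset.sum_nonneg fun α _ => mul_nonneg ?_ (sq_nonneg _)
      unfold Vm
      split_ifs
      · exact hu
      all_goals norm_num
    · exact le_rfl

theorem mp_perm (π : Equiv.Perm (Fin N)) :
    MeasurePreserving (fun x : Cf N => x ∘ π) volume volume := mp_prm π

theorem MLin_mem (h : Orb φ η) (a : Fin 5) : MemLp (φ a) 2 :=
  (memLp_two_iff_integrable_sq (h.bm a).1.aestronglyMeasurable).2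
    (Integrable.of_integral_ne_zero (by rw [h.one]; exact one_ne_zero))

theorem Orb.memLp_prod (h : Orb φ η) (α : Fin N → Fin 5) :
    MemLp (fun x : Cf N => ∏ i, φ (α i) (x i)) 2 := by
  have hm : Measurable fun x : Cf N => ∏ i, φ (α i) (x i) :=
    Finset.measurable_fun_prod _ fun i _ => (h.bm (α i)).1.comp (measurable_pi_apply i)
  refine (memLp_two_iff_integrable_sq hm.aestronglyMeasurable).2 ?_
  simp only [← Finset.prod_pow]
  exact Integrable.fintype_prod (f := fun i y => φ (α i) y ^ 2) fun i =>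
    (MLin_mem h (α i)).integrable_sq

theorem MLin_on (h : Orb φ η) (α β : Fin N → Fin 5) :
    ∫ x : Cf N, (∏ i, φ (α i) (x i)) * ∏ i, φ (β i) (x i) = if α = β then 1 else 0 := by
  simp only [← Finset.prod_mul_distrib]
  rw [integral_fintype_prod_volume_eq_prod fun i y => φ (α i) y * φ (β i) y]
  split_ifs with e
  · subst e
    refine Finset.prod_eq_one fun i _ => ?_
    simp only [← sq]
    exact h.one _
  · obtain ⟨i, hi⟩ := Function.ne_iff.1 e
    refine Finset.prod_eq_zero (Finset.mem_univ i) ?_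
    simp only [h.disj _ _ _ hi, integral_zero]

theorem Orb.memLp_tp (h : Orb φ η) (c : Ar N) : MemLp (tp φ c) 2 :=
  memLp_finsetSum (f := fun α (x : Cf N) => c α * ∏ i, φ (α i) (x i)) _ fun α _ =>
    (h.memLp_prod α).const_mul _

theorem Orb.int_tp_mul (h : Orb φ η) (c : Ar N) (hf : MemLp f 2) :
    ∫ x, tp φ c x * f x = dotc c (cf φ f) := by
  have h1 : ∀ α : Fin N → Fin 5, Integrable fun x : Cf N => (∏ i, φ (α i) (x i)) * f x := fun α =>
    (h.memLp_prod α).integrable_mul hf
  simp only [tp, Finset.sum_mul, mul_assoc]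
  rw [integral_finsetSum _ fun α _ => (h1 α).const_mul _]
  simp only [integral_const_mul, dotc, cf]

theorem Orb.cf_tp (h : Orb φ η) (c : Ar N) : cf φ (tp φ c) = c := by
  funext α
  have h1 := h.int_tp_mul c (h.memLp_prod α)
  simp only [dotc, cf, MLin_on h, mul_ite, mul_one, mul_zero, Finset.sum_ite_eq',
    Finset.mem_univ, if_true] at h1
  rw [← h1]
  simp only [cf, mul_comm]

theorem Orb.cf_tp_eta (h : Orb φ η) (c : Ar N) : cf φ (tp η c) = c := by
  funext α
  rw [← congrFun (h.cf_tp c) α]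
  refine integral_congr_ae (Eventually.of_forall fun x => ?_)
  by_cases h0 : ∏ i, φ (α i) (x i) = 0
  · simp only [h0, zero_mul]
  · have h1 : tp η c x = tp φ c x := Finset.sum_congr rfl fun β _ => by
      rw [Finset.prod_congr rfl fun i hi =>
        h.agree (β i) (α i) (x i) (Finset.prod_ne_zero_iff.1 h0 i hi)]
    simp only [h1]

theorem Orb.int_tp_sq (h : Orb φ η) (c : Ar N) : ∫ x, tp φ c x ^ 2 = nsq c := by
  simp only [sq, nsq]
  rw [h.int_tp_mul c (h.memLp_tp c), h.cf_tp, dotc]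

theorem Orb.pyth (h : Orb φ η) (hf : MemLp f 2) :
    ∫ x, (f x - tp φ (cf φ f) x) ^ 2 = (∫ x, f x ^ 2) - nsq (cf φ f) := by
  have h1 := h.memLp_tp (cf φ f)
  have h2 : Integrable fun x => tp φ (cf φ f) x * f x := h1.integrable_mul hf
  have h3 : Integrable fun x => f x ^ 2 + tp φ (cf φ f) x ^ 2 :=
    hf.integrable_sq.add h1.integrable_sq
  have h4 : ∀ x, (f x - tp φ (cf φ f) x) ^ 2 =
      f x ^ 2 + tp φ (cf φ f) x ^ 2 - 2 * (tp φ (cf φ f) x * f x) := fun x => by ring
  have h5 : dotc (cf φ f) (cf φ f) = nsq (cf φ f) := by simp only [dotc, nsq, sq]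
  simp only [h4]
  rw [integral_sub h3 (h2.const_mul _), integral_add hf.integrable_sq h1.integrable_sq,
    integral_const_mul, h.int_tp_mul _ hf, h.int_tp_sq, h5]
  ring

theorem Orb.bessel (h : Orb φ η) (hf : MemLp f 2) : nsq (cf φ f) ≤ ∫ x, f x ^ 2 := by
  have h1 := h.pyth hf
  have h2 : 0 ≤ ∫ x, (f x - tp φ (cf φ f) x) ^ 2 := integral_nonneg fun x => sq_nonneg _
  linarith

/-- Use `L2T.integral_mul` with a constant sequence. -/
theorem Orb.tendsto_cf (h : Orb φ η) {u : ℕ → Cf N → ℝ} (hu : ∀ m, MemLp (u m) 2)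
    (hf : MemLp f 2) (l : L2T volume u f) (α : Fin N → Fin 5) :
    Tendsto (fun m => cf φ (u m) α) atTop (𝓝 (cf φ f α)) := by
  have h1 := L2T.integral_mul (u := fun _ (x : Cf N) => ∏ i, φ (α i) (x i))
    (fun _ => h.memLp_prod α) hu (h.memLp_prod α) hf (by simp [L2T]) l
    (b := fun _ => 1) aestronglyMeasurable_const (C := 1) (by simp)
  simpa only [one_mul, cf] using h1

theorem L2T.tendsto_sq {u : ℕ → Cf N → ℝ} (hu : ∀ m, MemLp (u m) 2) (hf : MemLp f 2)
    (l : L2T volume u f) : Tendsto (fun m => ∫ x, u m x ^ 2) atTop (𝓝 (∫ x, f x ^ 2)) := by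
  have h1 := L2T.integral_mul hu hu hf hf l l (b := fun _ => 1) aestronglyMeasurable_const
    (C := 1) (by simp)
  simpa only [one_mul, ← sq] using h1

theorem tp_perm (φ : Fin 5 → Pt → ℝ) (c : Ar N) (π : Equiv.Perm (Fin N)) (x : Cf N) :
    tp φ c (x ∘ π) = tp φ (fun α => c (α ∘ π)) x := by
  unfold tp
  rw [← Equiv.sum_comp (Equiv.arrowCongr π.symm (Equiv.refl (Fin 5)))]
  refine Finset.sum_congr rfl fun β _ => ?_
  congr 1
  exact Equiv.prod_comp π fun j => φ (β j) (x j)

theorem MLin_pr (i : Fin 3) : Function.Involutive (pr i) := by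
  revert i
  unfold Function.Involutive
  decide

theorem tp_rf {i : Fin 3} (hφ : ∀ a x, φ (pr i a) (rf i x) = φ a x) (c : Ar N) (x : Cf N) :
    tp φ c (fun j => rf i (x j)) = tp φ (fun α => c fun j => pr i (α j)) x := by
  unfold tp
  rw [← Equiv.sum_comp (Equiv.arrowCongr (Equiv.refl (Fin N)) (MLin_pr i).toPerm)]
  refine Finset.sum_congr rfl fun β _ => ?_
  congr 1
  exact Finset.prod_congr rfl fun j _ => hφ _ _

theorem tp_neg (φ : Fin 5 → Pt → ℝ) (c : Ar N) (x : Cf N) :
    tp φ (fun α => -c α) x = -tp φ c x := by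
  simp only [tp, neg_mul, Finset.sum_neg_distrib]

theorem Asym.cf {f : Cf 3 → ℝ} (hf : Asym f) (φ : Fin 5 → Pt → ℝ) : AsC (cf φ f) := by
  intro α
  unfold P363.cf
  rw [← int_prm (Equiv.swap 0 1), ← integral_neg]
  refine integral_congr_ae (hf.mono fun x hx => ?_)
  have h1 := Equiv.prod_comp (Equiv.swap (0 : Fin 3) 1) fun j => φ (α j) (x j)
  simp only [hx, Function.comp_apply, h1, mul_neg]

theorem AsC.tp {c : Ar 3} (hc : AsC c) (φ : Fin 5 → Pt → ℝ) : Asym (tp φ c) :=
  Eventually.of_forall fun x => by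
    rw [tp_perm, ← tp_neg]
    congr 1
    exact funext hc

theorem Asym.rf {f : Cf 3 → ℝ} (hf : Asym f) (i : Fin 3) :
    Asym fun x => f fun j => rf i (x j) :=
  (mp_rfN i).quasiMeasurePreserving.ae hf

theorem cls_asym : Cls Asym := by
  refine ⟨fun f g a b hf hg => ?_, fun u f hu hf hS l => ?_⟩
  · filter_upwards [hf, hg] with x h1 h2
    rw [h1, h2]
    ring
  · have h1 : MemLp (fun x : Cf 3 => f (x ∘ Equiv.swap 0 1)) 2 :=
      hf.comp_measurePreserving (mp_perm _)
    have h2 : Integrable fun x : Cf 3 => (f (x ∘ Equiv.swap 0 1) + f x) ^ 2 :=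
      (h1.add hf).integrable_sq
    have h3 : ∀ m, ∫ x : Cf 3, (f (x ∘ Equiv.swap 0 1) + f x) ^ 2 ≤ 4 * ∫ x, (u m x - f x) ^ 2 := by
      intro m
      have a1 : Integrable fun x : Cf 3 => (u m x - f x) ^ 2 := ((hu m).sub hf).integrable_sq
      have a2 : Integrable fun x : Cf 3 =>
          (u m (x ∘ Equiv.swap 0 1) - f (x ∘ Equiv.swap 0 1)) ^ 2 :=
        (((hu m).sub hf).comp_measurePreserving (mp_perm _)).integrable_sq
      have a3 := int_prm (Equiv.swap (0 : Fin 3) 1) fun x => (u m x - f x) ^ 2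
      have a4 := integral_mono_ae h2 ((a2.const_mul 2).add (a1.const_mul 2))
        ((hS m).mono fun x hx => by
          simp only [Pi.add_apply, hx]
          nlinarith [sq_nonneg (f (x ∘ Equiv.swap 0 1) - f x + 2 * u m x)])
      rw [integral_add' (a2.const_mul 2) (a1.const_mul 2), integral_const_mul,
        integral_const_mul] at a4
      linarith
    have h4 : ∫ x : Cf 3, (f (x ∘ Equiv.swap 0 1) + f x) ^ 2 ≤ 4 * 0 :=
      ge_of_tendsto' (Tendsto.const_mul 4 l) h3
    have h5 := (integral_eq_zero_iff_of_nonneg (fun x => sq_nonneg _) h2).1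
      (le_antisymm (by linarith) (integral_nonneg fun x => sq_nonneg _))
    filter_upwards [h5] with x hx
    have h6 : (f (x ∘ Equiv.swap 0 1) + f x) ^ 2 = 0 := hx
    linarith [pow_eq_zero_iff two_ne_zero |>.1 h6]

theorem cls_true : Cls fun _ : Cf N → ℝ => True := ⟨fun _ _ _ _ _ _ => trivial,
  fun _ _ _ _ _ _ => trivial⟩

end Vale.Agent.P363
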