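import Vale.Agent.P363.MLin
import Vale.Agent.P370.ManyLowB

/-!
Part M: the repulsion of one pair.  Copy `ML.proj_sq_eq`, `ML.one_mu`, `ML.pair_diag`,
`ML.pair_low` of P370/ManyLowB with `Fin 5` for `Arm M` and `Λ = 1` (`ML.pert`, `ML.quad`,
`ML.bm_k`, `ML.int_ker`, `ML.mu`, `int_pi`, `int_prod` are reusable as they are), hypothesis
`Orb.tlow`.  Choose `r` with the supports of `φ` and of `ψ` inside the ball of radius `r`; then
`coef (fun _ => mu r) (fun _ => φ) ψ = cf φ ψ` (`int_pi`).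
-/

namespace Vale.Agent.P363

open MeasureTheory Vale.Agent.P370

open ML

section aux

variable {N : ℕ} {φ η : Fin 5 → Pt → ℝ} {r : ℝ} {Ψ : Cf N → ℝ}

theorem MLowB_on (h : Orb φ η) (hr : ∀ a x, r < ‖x‖ → φ a x = 0) :
    ON (fun _ : Fin N => mu r) (fun _ => φ) := by
  refine ⟨fun _ a => h.bm a, fun _ a b => ?_⟩
  beta_reduce
  split_ifs with e
  · subst e
    rw [int_mu fun y hy => by rw [hr a y hy, mul_zero], ← h.one a]
    simp only [sq]
  · simp [h.disj a b _ e]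

theorem MLowB_sq (h : Orb φ η) (c : Ar N) (x : Cf N) :
    (∑ α : Fin N → Fin 5, c α * ∏ i, φ (α i) (x i)) ^ 2 =
      ∑ α : Fin N → Fin 5, c α ^ 2 * ∏ i, φ (α i) (x i) ^ 2 := by
  rw [sq, Finset.sum_mul_sum]
  refine Finset.sum_congr rfl fun α _ => ?_
  rw [Finset.sum_eq_single α (fun β _ hβ => ?_) (by simp), Finset.prod_pow]
  · ring
  · obtain ⟨i, hi⟩ := Function.ne_iff.1 hβ
    rw [mul_mul_mul_comm, ← Finset.prod_mul_distrib,
      Finset.prod_eq_zero (Finset.mem_univ i) (h.disj _ _ _ hi.symm), mul_zero]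

theorem MLowB_one (h : Orb φ η) (hr : ∀ a x, r < ‖x‖ → φ a x = 0) (a : Fin 5) :
    ∫ y, φ a y ^ 2 ∂mu r = 1 := by
  rw [int_mu fun y hy => by rw [hr a y hy, sq, mul_zero], h.one]

theorem MLowB_diag (h : Orb φ η) (hr : ∀ a x, r < ‖x‖ → φ a x = 0) {i j : Fin N} (hij : i ≠ j)
    (α : Fin N → Fin 5) (t : ℝ) :
    ∫ x, min (ker (x i - x j)) 1 * (t * ∏ l, φ (α l) (x l) ^ 2) ∂(Measure.pi fun _ => mu r) =
      t * ∫ p : Pt × Pt, min (ker (p.1 - p.2)) 1 * (φ (α i) p.1 ^ 2 * φ (α j) p.2 ^ 2) := by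
  have h1 : BM fun p : Pt × Pt => φ (α i) p.1 := bm_comp (h.bm (α i)) measurable_fst
  have h2 : BM fun p : Pt × Pt => φ (α j) p.2 := bm_comp (h.bm (α j)) measurable_snd
  have h3 := integral_pair_prod (fun _ => mu r) hij
    (bm_int (bm_mul (bm_k zero_le_one) (bm_mul (bm_sq h1) (bm_sq h2))) _)
    (g := fun l y => φ (α l) y ^ 2) fun l => bm_sq (h.bm _)
  simp only [MLowB_one h hr, Finset.prod_const_one, mul_one] at h3
  rw [← int_prod (r := r) fun p hp => by rcases hp with e | e <;> simp [hr _ _ e], ← h3,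
    ← integral_const_mul]
  refine integral_congr_ae (Filter.Eventually.of_forall fun x => ?_)
  beta_reduce
  rw [← Finset.mul_prod_erase _ _ (Finset.mem_univ i), ← Finset.mul_prod_erase _ _
    (Finset.mem_erase.2 ⟨hij.symm, Finset.mem_univ j⟩)]
  ring

theorem MLowB_low (h : Orb φ η) (hr : ∀ a x, r < ‖x‖ → φ a x = 0) {g A B : ℝ} (hg : 0 ≤ g)
    (hA : 0 ≤ A) (hB : 0 ≤ B) (hAB : g ^ 2 ≤ A * B) (hΨ : BM Ψ) {i j : Fin N} (hij : i ≠ j) :
    g / Lc * (∑ α : Fin N → Fin 5,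
        Vm (10 ^ 5) (α i) (α j) * coef (fun _ => mu r) (fun _ => φ) Ψ α ^ 2) -
      (g / Lc * tol + A) * ∑ α, coef (fun _ => mu r) (fun _ => φ) Ψ α ^ 2 -
      B * ((∫ x, Ψ x ^ 2 ∂Measure.pi fun _ => mu r) -
        ∑ α, coef (fun _ => mu r) (fun _ => φ) Ψ α ^ 2) ≤
    g * ∫ x, ker (x i - x j) * Ψ x ^ 2 ∂Measure.pi fun _ => mu r := by
  rw [← proj_sq (MLowB_on h hr) hΨ]
  generalize coef (fun _ => mu r) (fun _ => φ) Ψ = c
  have hk' : BM fun x : Fin N → Pt => min (ker (x i - x j)) 1 :=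
    bm_comp (u := fun x : Fin N → Pt => (x i, x j)) (bm_k zero_le_one)
      ((measurable_pi_apply i).prodMk (measurable_pi_apply j))
  have hΦ0 : ∀ a l, BM fun x : Fin N → Pt => φ a (x l) := fun a l =>
    bm_comp (h.bm a) (measurable_pi_apply l)
  have hΦ2 : ∀ α : Fin N → Fin 5, BM fun x : Fin N → Pt => c α ^ 2 * ∏ l, φ (α l) (x l) ^ 2 :=
    fun α => bm_mul (bm_const _) (bm_prod _ fun l => bm_sq (hΦ0 _ l))
  have hP : BM fun x : Fin N → Pt => ∑ α : Fin N → Fin 5, c α * ∏ l, φ (α l) (x l) :=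
    bm_sum _ fun α => bm_mul (bm_const _) (bm_prod _ fun l => hΦ0 _ l)
  have hk : Integrable (fun x : Fin N → Pt => ker (x i - x j)) (Measure.pi fun _ => mu r) :=
    integrable_pair (fun _ => mu r) hij (int_ker r)
  refine le_trans (sub_le_sub_right ?_ _) (pert hk hk' hΨ hP
    (fun x => le_min (ker_nonneg _) zero_le_one) (fun x => min_le_left _ _)
    (fun x => min_le_right _ _) hg hA hB (by rwa [mul_one]))
  simp only [MLowB_sq h, Finset.mul_sum]
  rw [integral_finsetSum _ fun α _ => bm_int (bm_mul hk' (hΦ2 α)) _,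
    integral_finsetSum _ fun α _ => bm_int (hΦ2 α) _, Finset.mul_sum,
    Finset.mul_sum, ← Finset.sum_sub_distrib, ← Finset.sum_sub_distrib]
  refine Finset.sum_le_sum fun α _ => ?_
  rw [MLowB_diag h hr hij, integral_const_mul,
    integral_fintype_prod_eq_prod (fun l y => φ (α l) y ^ 2) (μ := fun _ => mu r)]
  simp only [MLowB_one h hr, Finset.prod_const_one]
  have h3 := mul_le_mul_of_nonneg_left (h.tlow (α i) (α j)) (mul_nonneg hg (sq_nonneg (c α)))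
  have e : g * c α ^ 2 * ((Vm (10 ^ 5) (α i) (α j) - tol) / Lc) =
      g / Lc * (Vm (10 ^ 5) (α i) (α j) * c α ^ 2) - g / Lc * tol * c α ^ 2 := by ring
  linarith

end aux

theorem low_pair {N : ℕ} {φ η : Fin 5 → Pt → ℝ} (h : Orb φ η) {ψ : Cf N → ℝ} (hψ : C1N ψ)
    {i j : Fin N} (hij : i ≠ j) {g A B : ℝ} (hg : 0 ≤ g) (hA : 0 ≤ A) (hB : 0 ≤ B)
    (hAB : g ^ 2 ≤ A * B) :
    g / Lc * (∑ α, Vm (10 ^ 5) (α i) (α j) * cf φ ψ α ^ 2) -
      (g / Lc * tol + A) * nsq (cf φ ψ) - B * ((∫ x, ψ x ^ 2) - nsq (cf φ ψ)) ≤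
    g * ∫ x, P370.ker (x i - x j) * (ψ x * ψ x) := by
  obtain ⟨r₁, h1⟩ := h.bdd
  obtain ⟨r₂, h2⟩ := hψ.2.isCompact.isBounded.subset_closedBall 0
  have hr : ∀ a x, max r₁ r₂ < ‖x‖ → φ a x = 0 := fun a x hx => by
    by_contra e
    exact absurd ((h1 a x e).trans (le_max_left _ r₂)) (not_le.2 hx)
  have h0 : ∀ x, max r₁ r₂ < ‖x‖ → ψ x = 0 := fun x hx =>
    image_eq_zero_of_notMem_tsupport fun e =>
      absurd ((mem_closedBall_zero_iff.1 (h2 e)).trans (le_max_right r₁ _)) (not_le.2 hx)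
  have e : coef (fun _ => mu (max r₁ r₂)) (fun _ => φ) ψ = cf φ ψ := funext fun α =>
    int_pi fun x hx => by rw [h0 x hx, mul_zero]
  have h3 := MLowB_low h hr hg hA hB hAB (bm_cc hψ.1.continuous hψ.2) hij
  rw [e, int_pi fun x hx => by rw [h0 x hx, sq, mul_zero],
    int_pi fun x hx => by rw [h0 x hx, sq, mul_zero, mul_zero]] at h3
  simpa only [nsq, sq] using h3

end Vale.Agent.P363
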