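import Vale.Agent.P363.MLowA
import Vale.Agent.P363.MLowB

/-!
Part M: the lower bound.  `low_c1`: add `low_one` and `low_pair` over the pairs `i < j` with
`g = lam`, `B = gam / 18`, `A = 18 lam² / gam ≤ 10⁻¹² lam / Lc` (`OB.lam_le`); at most `N² ≤ 9`
pairs (`ML.sum_pairs_le`), `Orb.bessel`; see the second half of `ML.comp_low` in P370/ManyLow.
`m_low`: `RH.seq`, `C1N.rh`, `FB.tendsto_bil`, `Orb.tendsto_cf`, `L2T.tendsto_sq`,
`le_of_tendsto_of_tendsto'`; `fm u` and `nsq` are continuous on `Ar N` (finite sums; unfold, then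
`continuity`/`fun_prop`, `tendsto_pi_nhds`).
-/

namespace Vale.Agent.P363

open MeasureTheory Vale.Agent.P370

variable {N : ℕ} {V : Pt → ℝ} {lam E : ℝ} {φ η : Fin 5 → Pt → ℝ} {ψ : Cf N → ℝ}

theorem low_c1 (h : OB V lam E φ η) (hN : N ≤ 3) (hψ : C1N ψ) :
    N * E * (∫ x, ψ x ^ 2) + lam / Lc * (fm (10 ^ 5) (cf φ ψ) - 2 / 10 ^ 5 * ∫ x, ψ x ^ 2) +
      gam / 2 * ((∫ x, ψ x ^ 2) - nsq (cf φ ψ)) ≤ bil V lam ψ (gr ψ) ψ (gr ψ) := by
  have h1 := low_one h hψ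
  have h2 := h.orb.bessel hψ.rh.1
  have h3 := nsq_nonneg (cf φ ψ)
  have hl := h.lam_pos
  have hg : 0 < gam := by unfold gam; positivity
  have ht : 0 < lam / Lc := by unfold Lc; positivity
  have hp := fun (i j : Fin N) (hij : i ≠ j) => low_pair h.orb hψ hij hl.le
    (A := 18 / 10 ^ 14 * (lam / Lc)) (B := gam / 18) (by positivity) (by positivity) (by
      have := mul_le_mul_of_nonneg_left h.lam_le hl.le
      unfold Lc
      linarith)
  obtain ⟨K, hK⟩ : ∃ K, K = (lam / Lc * tol + 18 / 10 ^ 14 * (lam / Lc)) * nsq (cf φ ψ) +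
    gam / 18 * ((∫ x, ψ x ^ 2) - nsq (cf φ ψ)) := ⟨_, rfl⟩
  have hK0 : 0 ≤ K := by
    have := sub_nonneg.2 h2
    rw [hK, tol]
    positivity
  have h4 : lam / Lc * fm2 (10 ^ 5) (cf φ ψ) - ∑ i : Fin N, ∑ j, (if i < j then K else 0) ≤
      lam * ∑ i, ∑ j, if i < j then ∫ x, P370.ker (x i - x j) * (ψ x * ψ x) else 0 := by
    simp only [fm2, Finset.mul_sum (s := (Finset.univ : Finset (Fin N))),
      ← Finset.sum_sub_distrib]
    refine Finset.sum_le_sum fun i _ => Finset.sum_le_sum fun j _ => ?_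
    split_ifs with hij
    · linarith [hp i j hij.ne]
    · simp
  have h5 := ML.sum_pairs_le (N := N) hK0
  have h6 : (N : ℝ) ≤ 3 := by exact_mod_cast hN
  have h7 : (N : ℝ) ^ 2 * K ≤ 9 * K :=
    mul_le_mul_of_nonneg_right (by nlinarith [(N.cast_nonneg : (0 : ℝ) ≤ N)]) hK0
  have h8 := mul_le_mul_of_nonneg_left h2 ht.le
  have h9 := mul_le_mul_of_nonneg_right h6 (mul_nonneg ht.le (h3.trans h2))
  have h10 := mul_nonneg ht.le h3
  rw [bil, fm]
  rw [tol] at h1 hK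
  linarith

theorem m_low (h : OB V lam E φ η) (hN : N ≤ 3) {G : Fin N → Fin 3 → Cf N → ℝ} (hψ : RH ψ G) :
    N * E * (∫ x, ψ x ^ 2) + lam / Lc * (fm (10 ^ 5) (cf φ ψ) - 2 / 10 ^ 5 * ∫ x, ψ x ^ 2) +
      gam / 2 * ((∫ x, ψ x ^ 2) - nsq (cf φ ψ)) ≤ bil V lam ψ G ψ G := by
  obtain ⟨u, h1, h2, h3⟩ := hψ.seq
  have h0 := fun m => (h1 m).rh
  have h4 := L2T.tendsto_sq (fun m => (h0 m).1) hψ.1 h2
  have h5 := tendsto_pi_nhds.2 (h.orb.tendsto_cf (fun m => (h0 m).1) hψ.1 h2)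
  have c1 : Continuous (nsq : Ar N → ℝ) := by
    unfold nsq
    fun_prop
  have c2 : Continuous (fm (10 ^ 5) : Ar N → ℝ) := by
    unfold fm fm1 fm2 Kf
    refine Continuous.add (by fun_prop) (continuous_finsetSum _ fun i _ =>
      continuous_finsetSum _ fun j _ => ?_)
    split_ifs <;> fun_prop
  exact le_of_tendsto_of_tendsto' (((h4.const_mul _).add
    ((((c2.tendsto _).comp h5).sub (h4.const_mul _)).const_mul _)).add
      ((h4.sub ((c1.tendsto _).comp h5)).const_mul _))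
    (h.fb.tendsto_bil h0 h0 hψ hψ h2 h3 h2 h3) fun m => low_c1 h hN (h1 m)

end Vale.Agent.P363
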