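import Vale.Agent.P363.MLin
import Vale.Agent.P370.ManyLowB

/-!
Part M: the one-body part of the lower bound.  Copy `ML.on_mu`, `ML.hop_le`, `ML.one_low` of
P370/ManyLowA and the first half of `ML.comp_low` of P370/ManyLow, with `Fin 5` for `Arm M`
(`ML.mu`, `int_pi`, `int_mu`, `pd_slice`, `bm_*` are reusable as they are).  Choose `r` with the
supports of `φ` and of `ψ` inside the ball of radius `r`; then `coef (fun _ => mu r) (fun _ => φ) ψ = cf φ ψ`
(`int_pi`).  `Kf c` is a sum of eight squares of linear forms `∑ a, w a * c a`, so `bessel_slice`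
with `a₀ = 0` gives `fm1 c i ≤ (∫ Kf (slice)) / mass`.  Integrability of `V (x i) * ψ x ^ 2` on
configuration space: `FB.rh`/`FB.integrable_rh` with `C1N.rh` (then restrict:
`Measure.restrict_pi_pi`, see `int_pi`).  Sum over `i` and use `efron_stein` for the `gam` term.
-/

namespace Vale.Agent.P363

open MeasureTheory Vale.Agent.P370

open ML Function

section aux

variable {N : ℕ} {V : Pt → ℝ} {lam E r : ℝ} {φ η : Fin 5 → Pt → ℝ} {Ψ : Cf N → ℝ}

theorem MLowA_on (hφ : Orb φ η) (hr : ∀ a x, r < ‖x‖ → φ a x = 0) :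
    ON (fun _ : Fin N => mu r) (fun _ => φ) := by
  refine ⟨fun _ a => hφ.bm a, fun _ a b => ?_⟩
  beta_reduce
  split_ifs with h
  · subst h
    rw [int_mu fun y hy => by rw [hr a y hy, mul_zero], ← hφ.one a]
    simp only [sq]
  · simp [hφ.disj a b _ h]

/-- the linear forms whose squares add up to the one-body form -/
noncomputable def MLowA_w (j : Fin 4 ⊕ Fin 4) (a : Fin 5) : ℝ :=
  Sum.elim (fun i : Fin 4 => ((if a = i.succ then 1 else 0) - if a = 0 then 1 else 0) / 2)
    (fun i : Fin 4 => if a = i.succ then √2 else 0) j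

theorem MLowA_Kf (c : Fin 5 → ℝ) : Kf c = ∑ j, (∑ a, MLowA_w j a * c a) ^ 2 := by
  rw [Fintype.sum_sum_type, Kf, Finset.mul_sum, Finset.mul_sum]
  congr 1 <;> refine Finset.sum_congr rfl fun i _ => ?_
  · simp only [MLowA_w, Sum.elim_inl, div_mul_eq_mul_div, sub_mul, ← Finset.sum_div,
      Finset.sum_sub_distrib, ite_mul, one_mul, zero_mul, Finset.sum_ite_eq', Finset.mem_univ,
      if_true]
    ring
  · simp only [MLowA_w, Sum.elim_inr, ite_mul, zero_mul, Finset.sum_ite_eq', Finset.mem_univ,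
      if_true, mul_pow, Real.sq_sqrt zero_le_two]

theorem MLowA_bm (hφ : ON (fun _ : Fin N => mu r) (fun _ => φ)) (hΨ : BM Ψ) (i : Fin N)
    (j : Fin 4 ⊕ Fin 4) :
    BM fun x => (∑ a, MLowA_w j a * slice (fun _ => mu r) (fun _ => φ) Ψ i a x) ^ 2 :=
  bm_sq (bm_sum _ fun a => bm_mul (bm_const _) (hΨ.slice hφ i a))

theorem MLowA_hop (hφ : ON (fun _ : Fin N => mu r) (fun _ => φ)) (hr : 0 < r) (hΨ : BM Ψ)
    (i : Fin N) : fm1 (coef (fun _ => mu r) (fun _ => φ) Ψ) i ≤
      (∫ x, Kf (fun a => slice (fun _ => mu r) (fun _ => φ) Ψ i a x)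
        ∂Measure.pi fun _ => mu r) / (mu r).real Set.univ := by
  simp only [fm1, MLowA_Kf]
  rw [Finset.sum_comm, integral_finsetSum _ fun j _ => bm_int (MLowA_bm hφ hΨ i j) _,
    Finset.sum_div]
  exact Finset.sum_le_sum fun j _ => bessel_slice hφ (fun _ => mu_pos hr) hΨ i 0 _

/-- the one-body estimate in the coordinate `i` -/
theorem MLowA_one (h : OB V lam E φ η) (hr0 : 0 < r) (hr : ∀ a x, r < ‖x‖ → φ a x = 0)
    (hψ : C1N Ψ) (hs : tsupport Ψ ⊆ Metric.closedBall 0 r) (i : Fin N) :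
    (E - tol * (lam / Lc)) * (∫ x, Ψ x ^ 2 ∂Measure.pi fun _ => mu r) +
      lam / Lc * fm1 (coef (fun _ => mu r) (fun _ => φ) Ψ) i +
      gam * ((∫ x, Ψ x ^ 2 ∂Measure.pi fun _ => mu r) -
        (∑ a, ∫ x, slice (fun _ => mu r) (fun _ => φ) Ψ i a x ^ 2 ∂Measure.pi fun _ => mu r) /
          (mu r).real Set.univ) ≤
    1 / 2 * (∑ k, ∫ x, fderiv ℝ Ψ x (Pi.single i (Pi.single k 1)) ^ 2) +
      ∫ x, V (x i) * Ψ x ^ 2 := by
  obtain ⟨hΨ, hc⟩ := id hψ
  have hT : 0 ≤ lam / Lc := div_nonneg h.lam_pos.le (by unfold Lc; positivity)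
  have hON := MLowA_on (N := N) h.orb hr
  have hm := mu_pos hr0
  have hB := bm_cc hΨ.continuous hc
  have hn : ∀ x, r < ‖x‖ → x ∉ tsupport Ψ := fun x hx h =>
    absurd (mem_closedBall_zero_iff.1 (hs h)) (not_le.2 hx)
  have h0 : ∀ x, r < ‖x‖ → Ψ x = 0 := fun x hx => image_eq_zero_of_notMem_tsupport (hn x hx)
  have h0' : ∀ x, r < ‖x‖ → fderiv ℝ Ψ x = 0 := fun x hx =>
    notMem_support.1 fun h => hn x hx (support_fderiv_subset ℝ h)
  have hu : ∀ (x : Fin N → Pt) y, r < ‖y‖ → r < ‖update x i y‖ := fun x y hy =>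
    hy.trans_le (by simpa using norm_le_pi_norm (update x i y) i)
  have hD : ∀ k : Fin 3, BM fun x => fderiv ℝ Ψ x (Pi.single i (Pi.single k 1)) ^ 2 := fun k =>
    bm_sq (bm_cc ((hΨ.continuous_fderiv one_ne_zero).clm_apply continuous_const)
      (hc.fderiv_apply ℝ _))
  have i1 := bm_int (bm_sq hB) (Measure.pi fun _ => mu r)
  have i2 := bm_int (bm_sum Finset.univ hD) (Measure.pi fun _ => mu r)
  have i3 : Integrable (fun x => V (x i) * Ψ x ^ 2) (Measure.pi fun _ => mu r) := by
    unfold mu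
    rw [← Measure.restrict_pi_pi, ← volume_pi]
    simpa only [sq] using (h.fb.integrable_rh hψ.rh hψ.rh i).restrict
  have j1 := (integrable_update _ i i1).integral_prod_left
  have j2 := (integrable_update _ i i2).integral_prod_left
  have j3 := (integrable_update _ i i3).integral_prod_left
  have j4 : Integrable (fun x => Kf fun a => slice (fun _ => mu r) (fun _ => φ) Ψ i a x)
      (Measure.pi fun _ => mu r) := by
    simp only [MLowA_Kf]
    exact bm_int (bm_sum _ fun j => MLowA_bm hON hB i j) _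
  have j5 : ∀ a, Integrable (fun x => slice (fun _ => mu r) (fun _ => φ) Ψ i a x ^ 2)
      (Measure.pi fun _ => mu r) := fun a => bm_int (bm_sq (hB.slice hON i a)) _
  have j6 := integrable_finsetSum Finset.univ fun a _ => j5 a
  have key := integral_mono (((j1.const_mul (E - tol * (lam / Lc))).add
    (j4.const_mul (lam / Lc))).add ((j1.sub j6).const_mul gam)) ((j2.const_mul (1 / 2)).add j3)
    fun x => by
      have h2 := h.low (fun y => Ψ (update x i y)) ⟨hΨ.comp (contDiff_update 1 x i),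
        HasCompactSupport.intro (isCompact_closedBall 0 r) fun y hy =>
          h0 _ (hu x y (by simpa using hy))⟩
      have e1 : co5 φ (fun y => Ψ (update x i y)) =
          fun a => slice (fun _ => mu r) (fun _ => φ) Ψ i a x := funext fun a =>
        (int_mu fun y hy => by rw [hr a y hy, zero_mul]).symm
      unfold qV gsq at h2
      simp only [pd_slice hΨ] at h2
      rw [e1, ← int_mu (r := r) fun y hy => by rw [h0 _ (hu x y hy), sq, mul_zero],
        ← int_mu (r := r) fun y hy => by simp [h0' _ (hu x y hy)],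
        ← int_mu (r := r) (f := fun y => V y * Ψ (update x i y) ^ 2) fun y hy => by
          rw [h0 _ (hu x y hy), sq, mul_zero, mul_zero]] at h2
      simpa only [Pi.add_apply, Pi.sub_apply, update_self] using h2
  rw [integral_add' ((j1.const_mul _).add (j4.const_mul _)) ((j1.sub j6).const_mul gam),
    integral_add' (j1.const_mul _) (j4.const_mul _), integral_add' (j2.const_mul _) j3,
    integral_const_mul, integral_const_mul, integral_const_mul, integral_const_mul,
    integral_sub' j1 j6, integral_update _ i i1, integral_update _ i i2, integral_update _ i i3,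
    integral_finsetSum _ fun a _ => j5 a,
    integral_finsetSum _ fun k _ => bm_int (hD k) _] at key
  rw [← int_pi (r := r) (f := fun x => V (x i) * Ψ x ^ 2) fun x hx => by
    rw [h0 x hx, sq, mul_zero, mul_zero],
    Finset.sum_congr rfl fun k _ => (int_pi (r := r)
      (f := fun x => fderiv ℝ Ψ x (Pi.single i (Pi.single k 1)) ^ 2) fun x hx => by
        simp [h0' x hx]).symm]
  have h3 := mul_le_mul_of_nonneg_left (MLowA_hop hON hr0 hB i) hT
  generalize lam / Lc = T at *
  refine le_trans (add_le_add_left (add_le_add_right h3 _) _) (le_of_mul_le_mul_left ?_ hm)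
  refine le_trans (le_of_eq ?_) (key.trans (le_of_eq ?_))
  · field_simp
  · ring

end aux

theorem low_one {N : ℕ} {V : Pt → ℝ} {lam E : ℝ} {φ η : Fin 5 → Pt → ℝ} (h : OB V lam E φ η)
    {ψ : Cf N → ℝ} (hψ : C1N ψ) :
    N * (E - tol * (lam / Lc)) * (∫ x, ψ x ^ 2) + lam / Lc * (∑ i, fm1 (cf φ ψ) i) +
      gam * ((∫ x, ψ x ^ 2) - nsq (cf φ ψ)) ≤
    1 / 2 * (∑ i, ∑ k, ∫ x, gr ψ i k x * gr ψ i k x) + ∑ i, ∫ x, V (x i) * (ψ x * ψ x) := by
  obtain ⟨r₀, hr₀⟩ := h.orb.bdd
  obtain ⟨r, hr1, hs⟩ := hψ.2.isCompact.isBounded.subset_closedBall_lt |r₀| 0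
  have hr0 := (abs_nonneg r₀).trans_lt hr1
  have hr : ∀ a x, r < ‖x‖ → φ a x = 0 := fun a x hx => by
    by_contra h
    linarith [hr₀ a x h, le_abs_self r₀]
  have hON := MLowA_on (N := N) h.orb hr
  have hb := bm_cc hψ.1.continuous hψ.2
  have h0 : ∀ x, r < ‖x‖ → ψ x = 0 := fun x hx => image_eq_zero_of_notMem_tsupport fun h =>
    absurd (mem_closedBall_zero_iff.1 (hs h)) (not_le.2 hx)
  have e1 : ∫ x, ψ x ^ 2 ∂(Measure.pi fun _ => mu r) = ∫ x, ψ x ^ 2 :=
    int_pi fun x hx => by rw [h0 x hx, sq, mul_zero]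
  have e2 : coef (fun _ => mu r) (fun _ => φ) ψ = cf φ ψ :=
    funext fun α => int_pi fun x hx => by rw [h0 x hx, mul_zero]
  have h3 := Finset.sum_le_sum fun i (_ : i ∈ Finset.univ) => MLowA_one h hr0 hr hψ hs i
  have hγ : 0 ≤ gam := by unfold gam; positivity
  have h4 := mul_le_mul_of_nonneg_left (efron_stein hON (fun _ => mu_pos hr0) hb) hγ
  rw [e1, e2] at h3 h4
  simp only [Finset.sum_add_distrib, ← Finset.mul_sum, Finset.sum_const, Finset.card_univ,
    Fintype.card_fin, nsmul_eq_mul] at h3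
  simp only [← sq, gr, dirn, nsq]
  linarith

end Vale.Agent.P363
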