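import Vale.Agent.P363.MGp
import Vale.Agent.P363.MAbs1
import Vale.Agent.P363.MAbs2

/-!
Part M: the ground state of three electrons.  `gp_of` with `cls_asym`, `g₀ = 9/1000`, `Asym.cf`,
`AsC.tp`, then `Gp.exists_gs`.  Oddness by `GS.symm` (`σ = -1`) with `mp_rfN`, `RH.rf`, `bil_rf`
(`OB.symV`), `tp_rf` (`Orb.symφ`), `tp_neg`, `Cert.od3`, `Asym.rf`.  `GS.ge`, `GS.le`, `GS.near`,
`gs_close`.  The equation for all tests: apply `GS.el` to `χ - χ ∘ π`, `π = swap 0 1` (`RH.perm`,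
`WD.sub` through `rh_iff`); `bil_perm`, `bil_congr` (`ψ ∘ π = -ψ` a.e.), `bil_lin`, `bil_comm`
give `bil (ψ, χ ∘ π) = -bil (ψ, χ)`, and `∫ ψ (χ ∘ π) = -∫ ψ χ` by `mp_perm`.
-/

namespace Vale.Agent.P363

open MeasureTheory Vale.Agent.P370

variable {V : Pt → ℝ} {lam E : ℝ} {φ η : Fin 5 → Pt → ℝ} {w₂ : Ar 2} {w₃ : Ar 3} {e₂ e₃ : ℝ}

theorem mthree_el {p ψ : Cf 3 → ℝ} {e g δ μ : ℝ} {G : Fin 3 → Fin 3 → Cf 3 → ℝ}
    (h : Gp V lam Asym p e g δ) (hψ : GS V lam Asym p ψ G μ) {χ : Cf 3 → ℝ}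
    {H : Fin 3 → Fin 3 → Cf 3 → ℝ} (hχ : RH χ H) :
    bil V lam ψ G χ H = μ * ∫ x, ψ x * χ x := by
  have hπ := hχ.perm (Equiv.swap 0 1)
  have e1 : ∀ x : Cf 3, (x ∘ Equiv.swap 0 1) ∘ Equiv.swap 0 1 = x := fun x => by
    funext j
    simp
  have h1 := hψ.el h (mabs2_rh hχ hπ 1 (-1)) (Filter.Eventually.of_forall fun x => by
    simp only [e1]
    ring)
  rw [bil_lin h.fb hψ.rh hχ hπ, mabs2_mul hψ.rh.1 hχ.1 hπ.1] at h1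
  have h2 := bil_perm (V := V) (lam := lam) (f := ψ) (G := G) (f' := χ) (G' := H) (Equiv.swap 0 1)
  rw [bil_congr (hψ.rh.perm _) (mabs2_rh hψ.rh hψ.rh (-1) 0)
    (hψ.mem.mono fun x hx => by simp only [hx]; ring), bil_comm,
    bil_lin h.fb hπ hψ.rh hψ.rh, bil_comm] at h2
  have h3 := int_prm (Equiv.swap (0 : Fin 3) 1) fun x => ψ x * χ x
  have h4 : ∫ x : Cf 3, ψ (x ∘ Equiv.swap 0 1) * χ (x ∘ Equiv.swap 0 1) =
      -∫ x : Cf 3, ψ x * χ (x ∘ Equiv.swap 0 1) := by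
    rw [← integral_neg]
    exact integral_congr_ae (hψ.mem.mono fun x hx => by simp only [hx]; ring)
  have h5 : ∫ x : Cf 3, ψ x * χ (x ∘ Equiv.swap 0 1) = -∫ x, ψ x * χ x := by linarith
  rw [h5] at h1
  linarith

theorem three (h : OB V lam E φ η) (hc : Cert w₂ w₃ e₂ e₃) :
    ∃ (ψ : Cf 3 → ℝ) (Gψ : Fin 3 → Fin 3 → Cf 3 → ℝ) (E₃ : ℝ), MinA V lam ψ Gψ ∧
      (∀ i : Fin 3, i ≠ 2 → ∀ᵐ x : Cf 3, ψ (fun j => rf i (x j)) = -ψ x) ∧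
      (∀ χ, C1N χ → bil V lam ψ Gψ χ (gr χ) = E₃ * ∫ x, ψ x * χ x) ∧
      |E₃ - 3 * E| ≤ 10 * (lam / Lc) ∧ nsq (cf φ ψ) ≤ 1 ∧
      ∫ x, (ψ x - tp φ (cf φ ψ) x) ^ 2 ≤ lam / gam ∧ ∫ x, (ψ x - tp φ w₃ x) ^ 2 ≤ 1 / 25 := by
  have hg := gp_of h le_rfl cls_asym (g₀ := 9 / 1000) hc.e3 (by norm_num) hc.n3
    (fun f hf => hc.low3 _ (hf.cf φ)) hc.up3 (hc.as3.tp η)
  obtain ⟨ψ, G, μ, hψ⟩ := hg.exists_gs
  have t0 : 0 < lam / Lc := div_pos h.lam_pos (by norm_num [Lc])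
  have h1 := hψ.ge hg
  have h2 := hψ.le hg
  have h3 := hψ.near hg
  have h4 := mul_nonneg t0.le hc.e3.1
  have h5 := mul_le_mul_of_nonneg_left hc.e3.2 t0.le
  have h6 := gs_close h le_rfl hψ.rh hψ.one (by rw [hψ.val]; linarith)
  push_cast at h1 h2
  refine ⟨ψ, G, μ, ⟨hψ.rh, hψ.mem, hψ.one, fun f H hf ha => ?_⟩, fun i hi => ?_,
    fun χ hχ => mthree_el hg hψ hχ.rh, abs_le.2 ⟨by linarith, by linarith⟩, h6.1, h6.2, ?_⟩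
  · rw [hψ.val]
    exact hψ.min f H hf ha
  · have := hψ.symm hg (mp_rfN i) (σ := -1) (by norm_num) (fun x => by
      rw [tp_rf (h.orb.symφ i hi)]
      simp only [hc.od3 i hi, tp_neg]
      ring) (hψ.mem.rf i) (hψ.rh.rf i) (bil_rf (h.symV i hi))
    exact this.mono fun x hx => by rw [hx]; ring
  · refine le_of_mul_le_mul_left ?_ t0
    linarith

end Vale.Agent.P363
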