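import Vale.Agent.P363.MGp
import Vale.Agent.P363.MAbs1
import Vale.Agent.P363.MAbs2

/-!
Part M: the ground state of two electrons.  `gp_of` with `cls_true`, `g₀ = 7/100`, then
`Gp.exists_gs`.  Symmetries by `GS.symm` (`σ = 1`) with `mp_perm`, `RH.perm`, `bil_perm`,
`tp_perm`, `Cert.sw2` and with `mp_rfN`, `RH.rf`, `bil_rf` (`OB.symV`), `tp_rf` (`Orb.symφ`),
`Cert.ev2`.  `GS.el`, `GS.ge`, `GS.le`, `GS.near`; in `GS.gap` lower the constant with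
`(∫ Φ χ)² ≤ ∫ χ²` (expand `∫ (χ - a Φ)² ≥ 0`).
-/

namespace Vale.Agent.P363

open MeasureTheory Vale.Agent.P370

variable {V : Pt → ℝ} {lam E : ℝ} {φ η : Fin 5 → Pt → ℝ} {w₂ : Ar 2} {w₃ : Ar 3} {e₂ e₃ : ℝ}

theorem two (h : OB V lam E φ η) (hc : Cert w₂ w₃ e₂ e₃) :
    ∃ (Φ : Cf 2 → ℝ) (GΦ : Fin 2 → Fin 3 → Cf 2 → ℝ) (E₂ : ℝ), RH Φ GΦ ∧ ∫ y, Φ y ^ 2 = 1 ∧
      (∀ᵐ y : Cf 2, Φ (y ∘ Equiv.swap 0 1) = Φ y) ∧
      (∀ i : Fin 3, i ≠ 2 → ∀ᵐ y : Cf 2, Φ (fun j => rf i (y j)) = Φ y) ∧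
      (∀ χ, C1N χ → bil V lam Φ GΦ χ (gr χ) = E₂ * ∫ y, Φ y * χ y) ∧
      (∀ χ : Cf 2 → ℝ, C1N χ → (E₂ + lam / Lc / 100) * (∫ y, χ y ^ 2) -
        lam / Lc / 100 * (∫ y, Φ y * χ y) ^ 2 ≤ bil V lam χ (gr χ) χ (gr χ)) ∧
      |E₂ - 2 * E| ≤ 10 * (lam / Lc) ∧ ∫ y, (Φ y - tp φ w₂ y) ^ 2 ≤ 1 / 100 := by
  have e0 : 0 < lam / Lc := div_pos h.lam_pos (by unfold Lc; norm_num)
  have hg := gp_of h (N := 2) (by norm_num) cls_true hc.e2 (g₀ := 7 / 100) (by norm_num) hc.n2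
    (fun f _ => hc.low2 _) hc.up2 trivial
  obtain ⟨Φ, GΦ, μ, hΦ⟩ := hg.exists_gs
  have h1 := hΦ.ge hg
  have h2 := hΦ.le hg
  have h3 := hΦ.near hg
  obtain ⟨a1, a2⟩ := hc.e2
  refine ⟨Φ, GΦ, μ, hΦ.rh, hΦ.one, ?_, fun i hi => ?_, fun χ hχ => hΦ.el hg hχ.rh trivial,
    fun χ hχ => ?_, ?_, ?_⟩
  · have := hΦ.symm hg (mp_perm (Equiv.swap 0 1)) (σ := 1) (by norm_num) (fun x => by
      rw [tp_perm, one_mul]
      simp only [hc.sw2]) trivial (hΦ.rh.perm _) (bil_perm _)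
    simpa only [one_mul] using this
  · have := hΦ.symm hg (mp_rfN i) (σ := 1) (by norm_num) (fun x => by
      rw [tp_rf (h.orb.symφ i hi), one_mul]
      simp only [hc.ev2 i hi]) trivial (hΦ.rh.rf i) (bil_rf (h.symV i hi))
    simpa only [one_mul] using this
  · have h4 := hΦ.gap hg hχ.rh trivial
    have h5 := mabs2_cs hΦ.rh.1 hΦ.one.le hχ.rh.1
    nlinarith [mul_le_mul_of_nonneg_left h5 e0.le]
  · push_cast at h1 h2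
    rw [abs_le]
    constructor <;> nlinarith
  · have h6 : lam / Lc * (7 / 100 * ∫ y, (Φ y - tp φ w₂ y) ^ 2) ≤ lam / Lc * (30 / 10 ^ 5) := by
      linarith
    have := le_of_mul_le_mul_left h6 e0
    linarith

end Vale.Agent.P363
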