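import Vale.Agent.P363.MLin
import Vale.Agent.P370.ManyUp

/-! Part M: trial states, copied from P370 with five sites. -/

namespace Vale.Agent.P363

open MeasureTheory Function Vale.Agent.P370

variable {N : ℕ} {φ η : Fin 5 → Pt → ℝ}

lemma Orb.mu_c1c (hφ : Orb φ η) (a : Fin 5) : C1c (η a) :=
  ⟨(hφ.smooth a).1.of_le (by exact_mod_cast le_top), (hφ.smooth a).2⟩

lemma xmu_lc_c1c (h : ∀ a, C1c (η a)) (c : Fin 5 → ℝ) : C1c (lc5 η c) := by
  refine ⟨ContDiff.sum fun a _ => contDiff_const.mul (h a).1, ?_⟩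
  have : lc5 η c = ∑ a, fun x => c a * η a x := by
    funext x; simp [lc5]
  rw [this]
  exact HasCompactSupport.finset_sum fun a _ => (h a).2.mul_left

lemma xmu_pd_lc (h : ∀ a, C1c (η a)) (c : Fin 5 → ℝ) (k : Fin 3) (x : Pt) :
    pd k (lc5 η c) x = ∑ a, c a * pd k (η a) x := by
  have hd : ∀ a, DifferentiableAt ℝ (η a) x := fun a => (h a).1.differentiable one_ne_zero x
  unfold pd lc5
  rw [fderiv_fun_sum fun a _ => (hd a).const_mul _, sum_apply]
  refine Finset.sum_congr rfl fun a _ => ?_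
  rw [fderiv_const_mul (hd a)]
  rfl

lemma Orb.mu_integrable (hφ : Orb φ η) (a : Fin 5) : Integrable (φ a) := by
  obtain ⟨r, hr⟩ := hφ.bdd
  obtain ⟨hm, C, hC⟩ := hφ.bm a
  refine IntegrableOn.integrable_of_forall_notMem_eq_zero (s := Metric.closedBall 0 r) ?_ ?_
  · exact Measure.integrableOn_of_bounded measure_closedBall_lt_top.ne hm.aestronglyMeasurable
      (M := C) (Filter.Eventually.of_forall hC)
  · intro x hx
    by_contra h
    exact hx (mem_closedBall_zero_iff.2 (hr a x h))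

lemma Orb.mu_integrable_mul (hφ : Orb φ η) (a : Fin 5) {f : Pt → ℝ} (hf : Integrable f) :
    Integrable fun x => φ a x * f x := by
  obtain ⟨hm, C, hC⟩ := hφ.bm a
  exact hf.bdd_mul hm.aestronglyMeasurable (c := C) (Filter.Eventually.of_forall hC)

lemma Orb.mu_integrable_sq (hφ : Orb φ η) (a : Fin 5) : Integrable fun x => φ a x ^ 2 := by
  simpa only [pow_two] using hφ.mu_integrable_mul a (hφ.mu_integrable a)

lemma Orb.mu_lc_sq (hφ : Orb φ η) (c : Fin 5 → ℝ) (x : Pt) :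
    lc5 φ c x ^ 2 = ∑ a, c a ^ 2 * φ a x ^ 2 := by
  rw [lc5, pow_two, Finset.sum_mul_sum]
  refine Finset.sum_congr rfl fun a _ => ?_
  rw [Finset.sum_eq_single a]
  · ring
  · intro b _ hb
    have := hφ.disj a b x hb.symm
    linear_combination (c a * c b) * this
  · simp

lemma Orb.mu_integrable_lc_sq (hφ : Orb φ η) (c : Fin 5 → ℝ) :
    Integrable fun x => lc5 φ c x ^ 2 := by
  simp only [hφ.mu_lc_sq]
  exact integrable_finsetSum _ fun a _ => (hφ.mu_integrable_sq a).const_mul _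

lemma Orb.mu_integral_lc_sq (hφ : Orb φ η) (c : Fin 5 → ℝ) :
    ∫ x, lc5 φ c x ^ 2 = ∑ a, c a ^ 2 := by
  simp only [hφ.mu_lc_sq]
  rw [integral_finsetSum _ fun a _ => (hφ.mu_integrable_sq a).const_mul _]
  refine Finset.sum_congr rfl fun a _ => ?_
  rw [integral_const_mul, hφ.one, mul_one]

lemma Orb.mu_diff_sq (hφ : Orb φ η) (c : Fin 5 → ℝ) (x : Pt) :
    (lc5 η c x - lc5 φ c x) ^ 2 = lc5 η c x ^ 2 - lc5 φ c x ^ 2 := by
  by_cases h : ∃ b, φ b x ≠ 0
  · obtain ⟨b, hb⟩ := h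
    have : lc5 η c x = lc5 φ c x := Finset.sum_congr rfl fun a _ => by rw [hφ.agree a b x hb]
    rw [this]; ring
  · push Not at h
    have : lc5 φ c x = 0 := Finset.sum_eq_zero fun a _ => by rw [h a, mul_zero]
    rw [this]; ring

lemma Orb.mu_integrable_diff_sq (hφ : Orb φ η) (c : Fin 5 → ℝ) :
    Integrable fun x => (lc5 η c x - lc5 φ c x) ^ 2 := by
  simp only [hφ.mu_diff_sq]
  exact (xmu_lc_c1c hφ.mu_c1c c).mu_cc.sq.integrable.sub (hφ.mu_integrable_lc_sq c)

lemma Orb.mu_norm_eq (hφ : Orb φ η) (c : Fin 5 → ℝ) :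
    ∫ x, lc5 η c x ^ 2 = (∑ a, c a ^ 2) + ∫ x, (lc5 η c x - lc5 φ c x) ^ 2 := by
  simp only [hφ.mu_diff_sq]
  rw [integral_sub (xmu_lc_c1c hφ.mu_c1c c).mu_cc.sq.integrable (hφ.mu_integrable_lc_sq c),
    hφ.mu_integral_lc_sq]
  ring

/-- Gram matrix. -/
noncomputable def xmuG (η : Fin 5 → Pt → ℝ) (a b : Fin 5) : ℝ := ∫ x, η a x * η b x

/-- One-body matrix. -/
noncomputable def xmuH (V : Pt → ℝ) (η : Fin 5 → Pt → ℝ) (a b : Fin 5) : ℝ :=
  1 / 2 * (∑ k, ∫ x, pd k (η a) x * pd k (η b) x) + ∫ x, V x * (η a x * η b x)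

/-- Two-body matrix. -/
noncomputable def xmuK (η : Fin 5 → Pt → ℝ) (p q : Fin 5 × Fin 5) : ℝ :=
  ∫ z : Pt × Pt, ker (z.1 - z.2) * ((η p.1 z.1 * η q.1 z.1) * (η p.2 z.2 * η q.2 z.2))

lemma xmu_qf_G (h : ∀ a, C1c (η a)) (c : Fin 5 → ℝ) : qf (xmuG η) c = ∫ x, lc5 η c x ^ 2 :=
  (mu_int_sq' η c fun a b => ((h a).mu_cc.mul (h b).mu_cc).integrable).symm

lemma xmu_G_symm (a b : Fin 5) : xmuG η a b = xmuG η b a := by
  simp only [xmuG, mul_comm]

lemma xmu_H_symm (V : Pt → ℝ) (a b : Fin 5) : xmuH V η a b = xmuH V η b a := by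
  simp only [xmuH, mul_comm]

lemma xmu_K_symm (p q : Fin 5 × Fin 5) : xmuK η p q = xmuK η q p := by
  simp only [xmuK, mul_comm]

lemma xmu_qf_H (h : ∀ a, C1c (η a)) {V : Pt → ℝ}
    (hVi : ∀ a b, Integrable fun x => V x * (η a x * η b x))
    (c : Fin 5 → ℝ) : qf (xmuH V η) c = qV V (lc5 η c) := by
  have h1 : ∫ x, gsq (lc5 η c) x = ∑ k, qf (fun a b => ∫ x, pd k (η a) x * pd k (η b) x) c := by
    unfold gsq
    rw [integral_finsetSum _ fun k _ => ((xmu_lc_c1c h c).mu_cc_pd k).sq.integrable]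
    refine Finset.sum_congr rfl fun k _ => ?_
    simp only [xmu_pd_lc h]
    exact mu_int_sq' (fun a => pd k (η a)) c fun a b =>
      (((h a).mu_cc_pd k).mul ((h b).mu_cc_pd k)).integrable
  have h2 : ∫ x, V x * lc5 η c x ^ 2 = qf (fun a b => ∫ x, V x * (η a x * η b x)) c :=
    mu_int_sq η V c hVi
  rw [qV, h1, h2, ← mu_qf_sum, ← mu_qf_smul, ← mu_qf_add]
  rfl

lemma xmu_qf_K (h : ∀ a, C1c (η a)) (d : Fin 5 × Fin 5 → ℝ) :
    qf (xmuK η) d =
      ∫ p : Pt × Pt, ker (p.1 - p.2) * (∑ a, ∑ b, d (a, b) * (η a p.1 * η b p.2)) ^ 2 := by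
  have e : ∀ (p q : Fin 5 × Fin 5) (z : Pt × Pt),
      (η p.1 z.1 * η p.2 z.2) * (η q.1 z.1 * η q.2 z.2) =
        (η p.1 z.1 * η q.1 z.1) * (η p.2 z.2 * η q.2 z.2) := fun p q z => by ring
  have := mu_int_sq (μ := volume) (fun (p : Fin 5 × Fin 5) (z : Pt × Pt) => η p.1 z.1 * η p.2 z.2)
    (fun z => ker (z.1 - z.2)) d fun p q => by
      simp only [e]
      exact mu_ker_integrable ((h p.1).mu_cc.mul (h q.1).mu_cc) ((h p.2).mu_cc.mul (h q.2).mu_cc)
  have e2 : ∀ z : Pt × Pt, ∑ p : Fin 5 × Fin 5, d p * (η p.1 z.1 * η p.2 z.2) =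
      ∑ a, ∑ b, d (a, b) * (η a z.1 * η b z.2) := fun z => Fintype.sum_prod_type _
  simp only [e, e2] at this
  rw [this]
  rfl

lemma xmu_psi_norm (h : ∀ a, C1c (η a)) (c : (Fin N → Fin 5) → ℝ) :
    ∫ x, tp η c x ^ 2 = qf (fun α β => ∏ i, xmuG η (α i) (β i)) c := by
  have e : ∀ (α β : Fin N → Fin 5) (x : Fin N → Pt),
      (∏ i, η (α i) (x i)) * ∏ i, η (β i) (x i) = ∏ i, η (α i) (x i) * η (β i) (x i) :=
    fun α β x => Finset.prod_mul_distrib.symm
  unfold tp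
  rw [mu_int_sq' (fun (α : Fin N → Fin 5) (x : Fin N → Pt) => ∏ i, η (α i) (x i)) c fun α β => by
    simp only [e]
    exact Integrable.fintype_prod (f := fun i y => η (α i) y * η (β i) y) fun i =>
      ((h _).mu_cc.mul (h _).mu_cc).integrable]
  refine congrArg (fun G => qf G c) ?_
  funext α β
  simp only [e]
  exact integral_fintype_prod_volume_eq_prod fun i y => η (α i) y * η (β i) y

lemma xmu_psi_contDiff (h : ∀ a, C1c (η a)) (c : (Fin N → Fin 5) → ℝ) :
    ContDiff ℝ 1 (tp η c) :=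
  ContDiff.sum fun α _ => contDiff_const.mul (mu_contDiff_prod fun l => (h (α l)).1)

lemma xmu_psi_supp (h : ∀ a, C1c (η a)) (c : (Fin N → Fin 5) → ℝ) :
    HasCompactSupport (tp η c) := by
  obtain ⟨R, hR⟩ := mu_exists_ball fun a => (h a).mu_cc
  refine HasCompactSupport.intro
    (isCompact_univ_pi fun _ : Fin N => isCompact_closedBall (0 : Pt) R) fun x hx => ?_
  rw [Set.mem_univ_pi, not_forall] at hx
  obtain ⟨l, hl⟩ := hx
  refine Finset.sum_eq_zero fun α _ => ?_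
  rw [Finset.prod_eq_zero (Finset.mem_univ l), mul_zero]
  by_contra h0
  exact hl (mem_closedBall_zero_iff.2 (hR _ _ h0))

lemma xmu_psi_fderiv (h : ∀ a, C1c (η a)) (c : (Fin N → Fin 5) → ℝ) (x : Fin N → Pt) (i : Fin N)
    (k : Fin 3) :
    fderiv ℝ (tp η c) x (Pi.single i (Pi.single k 1)) =
      ∑ α, c α * (pd k (η (α i)) (x i) * ∏ l ∈ Finset.univ.erase i, η (α l) (x l)) := by
  have hd : ∀ α : Fin N → Fin 5,
      DifferentiableAt ℝ (fun x : Fin N → Pt => ∏ l, η (α l) (x l)) x := fun α =>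
    (mu_contDiff_prod fun l => (h (α l)).1).differentiable one_ne_zero x
  unfold tp
  rw [fderiv_fun_sum fun α _ => (hd α).const_mul _, sum_apply]
  refine Finset.sum_congr rfl fun α _ => ?_
  rw [fderiv_const_mul (hd α), ← mu_fderiv_prod (fun l => (h (α l)).1) x i k]
  rfl

lemma xmu_psi_kin (h : ∀ a, C1c (η a)) (c : (Fin N → Fin 5) → ℝ) (i : Fin N) (k : Fin 3) :
    ∫ x, fderiv ℝ (tp η c) x (Pi.single i (Pi.single k 1)) ^ 2 =
      qf (fun α β => (∫ x, pd k (η (α i)) x * pd k (η (β i)) x) *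
        ∏ l ∈ Finset.univ.erase i, xmuG η (α l) (β l)) c := by
  have e : ∀ (α β : Fin N → Fin 5) (x : Fin N → Pt),
      (pd k (η (α i)) (x i) * ∏ l ∈ Finset.univ.erase i, η (α l) (x l)) *
        (pd k (η (β i)) (x i) * ∏ l ∈ Finset.univ.erase i, η (β l) (x l)) =
      (pd k (η (α i)) (x i) * pd k (η (β i)) (x i)) *
        ∏ l ∈ Finset.univ.erase i, η (α l) (x l) * η (β l) (x l) := fun α β x => by
    rw [Finset.prod_mul_distrib]; ring
  simp only [xmu_psi_fderiv h]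
  rw [mu_int_sq' (fun (α : Fin N → Fin 5) (x : Fin N → Pt) =>
    pd k (η (α i)) (x i) * ∏ l ∈ Finset.univ.erase i, η (α l) (x l)) c fun α β => by
      simp only [e]
      exact mu_one_integrable i (f := fun y => pd k (η (α i)) y * pd k (η (β i)) y)
        (g := fun l y => η (α l) y * η (β l) y)
        (((h _).mu_cc_pd k).mul ((h _).mu_cc_pd k)).integrable fun l =>
        ((h _).mu_cc.mul (h _).mu_cc).integrable]
  refine congrArg (fun G => qf G c) ?_
  funext α β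
  simp only [e]
  exact mu_one_integral i (fun y => pd k (η (α i)) y * pd k (η (β i)) y)
    fun l y => η (α l) y * η (β l) y

lemma xmu_psi_pot (h : ∀ a, C1c (η a)) {V : Pt → ℝ}
    (hVi : ∀ a b, Integrable fun x => V x * (η a x * η b x))
    (c : (Fin N → Fin 5) → ℝ) (i : Fin N) :
    ∫ x, V (x i) * tp η c x ^ 2 =
      qf (fun α β => (∫ x, V x * (η (α i) x * η (β i) x)) *
        ∏ l ∈ Finset.univ.erase i, xmuG η (α l) (β l)) c := by
  have e : ∀ (α β : Fin N → Fin 5) (x : Fin N → Pt),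
      V (x i) * ((∏ l, η (α l) (x l)) * ∏ l, η (β l) (x l)) =
      (V (x i) * (η (α i) (x i) * η (β i) (x i))) *
        ∏ l ∈ Finset.univ.erase i, η (α l) (x l) * η (β l) (x l) := fun α β x => by
    rw [← Finset.prod_mul_distrib, ← Finset.mul_prod_erase Finset.univ _ (Finset.mem_univ i)]
    ring
  unfold tp
  rw [mu_int_sq (fun (α : Fin N → Fin 5) (x : Fin N → Pt) => ∏ l, η (α l) (x l))
    (fun x => V (x i)) c fun α β => by
      simp only [e]
      exact mu_one_integrable i (f := fun y => V y * (η (α i) y * η (β i) y))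
        (g := fun l y => η (α l) y * η (β l) y)
        (hVi _ _) fun l =>
        ((h _).mu_cc.mul (h _).mu_cc).integrable]
  refine congrArg (fun G => qf G c) ?_
  funext α β
  simp only [e]
  exact mu_one_integral i (fun y => V y * (η (α i) y * η (β i) y))
    fun l y => η (α l) y * η (β l) y

lemma xmu_psi_pair (h : ∀ a, C1c (η a)) (c : (Fin N → Fin 5) → ℝ) {i j : Fin N} (hij : i ≠ j) :
    ∫ x, ker (x i - x j) * tp η c x ^ 2 =
      qf (fun α β => xmuK η (α i, α j) (β i, β j) *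
        ∏ l ∈ (Finset.univ.erase i).erase j, xmuG η (α l) (β l)) c := by
  have e : ∀ (α β : Fin N → Fin 5) (x : Fin N → Pt),
      ker (x i - x j) * ((∏ l, η (α l) (x l)) * ∏ l, η (β l) (x l)) =
      ker (x i - x j) * ((η (α i) (x i) * η (β i) (x i)) * (η (α j) (x j) * η (β j) (x j))) *
        ∏ l ∈ (Finset.univ.erase i).erase j, η (α l) (x l) * η (β l) (x l) := fun α β x => by
    rw [← Finset.prod_mul_distrib, ← Finset.mul_prod_erase Finset.univ _ (Finset.mem_univ i),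
      ← Finset.mul_prod_erase (Finset.univ.erase i) _ (a := j) (by simp [hij.symm])]
    ring
  have key := fun α β : Fin N → Fin 5 => mu_two hij ((h (α i)).mu_cc.mul (h (β i)).mu_cc)
    ((h (α j)).mu_cc.mul (h (β j)).mu_cc) (g := fun l y => η (α l) y * η (β l) y)
    fun l => (h (α l)).mu_cc.mul (h (β l)).mu_cc
  unfold tp
  rw [mu_int_sq (fun (α : Fin N → Fin 5) (x : Fin N → Pt) => ∏ l, η (α l) (x l))
    (fun x => ker (x i - x j)) c fun α β => by
      simp only [e]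
      exact (key α β).1]
  refine congrArg (fun G => qf G c) ?_
  funext α β
  simp only [e]
  exact (key α β).2

lemma xmu_G_psd (h : ∀ a, C1c (η a)) : PSD (xmuG η) :=
  ⟨xmu_G_symm, fun c => by rw [xmu_qf_G h]; exact integral_nonneg fun _ => sq_nonneg _⟩

lemma xmu_G_low (hφ : Orb φ η) :
    PSD fun a b => xmuG η a b - if a = b then 1 else 0 := by
  refine ⟨fun a b => by simp only [xmu_G_symm a b, eq_comm], fun c => ?_⟩
  rw [mu_qf_sub, xmu_qf_G hφ.mu_c1c, mu_qf_diag (fun _ => 1), hφ.mu_norm_eq]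
  have : 0 ≤ ∫ x, (lc5 η c x - lc5 φ c x) ^ 2 := integral_nonneg fun _ => sq_nonneg _
  simp only [one_mul]
  linarith

lemma xmu_G_up (hφ : Orb φ η) :
    PSD fun a b => (if a = b then 1 + tol else 0) - xmuG η a b := by
  refine ⟨fun a b => by simp only [xmu_G_symm a b, eq_comm], fun c => ?_⟩
  rw [mu_qf_sub, xmu_qf_G hφ.mu_c1c, mu_qf_diag (fun _ => 1 + tol), hφ.mu_norm_eq,
    ← Finset.mul_sum]
  have := hφ.close c
  linarith

lemma xmu_psi_norm_ge (hφ : Orb φ η) (c : (Fin N → Fin 5) → ℝ) :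
    ∑ α, c α ^ 2 ≤ ∫ x, tp η c x ^ 2 := by
  rw [xmu_psi_norm hφ.mu_c1c]
  have h1 : PSD fun a b : Fin 5 => if a = b then (1 : ℝ) else 0 :=
    ⟨fun a b => by simp only [eq_comm], fun c => by
      rw [mu_qf_diag (fun _ => 1)]
      exact Finset.sum_nonneg fun _ _ => by positivity⟩
  have := qf_prod_le (ι := Fin N) (G := fun _ a b => if a = b then (1 : ℝ) else 0)
    (H := fun _ => xmuG η) (fun _ => h1) (fun _ => xmu_G_low hφ) c
  refine le_trans (le_of_eq ?_) this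
  have e : (fun α β : Fin N → Fin 5 => ∏ i, if α i = β i then (1 : ℝ) else 0) =
      fun α β => if α = β then 1 else 0 := by
    funext α β
    rw [Finset.prod_ite_zero]
    simp [funext_iff]
  rw [e, mu_qf_diag (fun _ => 1)]
  simp only [one_mul]
end Vale.Agent.P363
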