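import Vale.Agent.P363.D2b
import Vale.Agent.P363.DesH
import Vale.Agent.P363.LD

/-! Part D2 (see `skeleton/P363/PROOF.md`). -/

namespace Vale.Agent.P363

open MeasureTheory Vale.Agent.P370 D26 Filter Topology
open scoped ContDiff

namespace D26

theorem d2_jet {H S : Pt → ℝ} (hH : Sm H) {c k r a₁ a₂ a₃ a₄ : ℝ} {x : Pt} (hc : 0 ≤ c)
    (hS : S = fun y => qd ![1, 1, 1 + c] y + H y + k) (hr : nrm x ≤ r) (h1 : nD 1 H x ≤ a₁)
    (h2 : nD 2 H x ≤ a₂) (h3 : nD 3 H x ≤ a₃) (h4 : nD 4 H x ≤ a₄) (ha : a₂ ≤ 1 + c) :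
    (1 + c - a₂) ^ 2 - 9 * (((1 + c) * r + a₁) * a₃) - 9 / 2 * a₄ ≤
        lap (fun y => 1 / 2 * gsq S y - 1 / 2 * lap S y) x ∧
      lap (fun y => 1 / 2 * gsq S y - 1 / 2 * lap S y) x ≤
        9 * (1 + c + a₂) ^ 2 + 9 * (((1 + c) * r + a₁) * a₃) + 9 / 2 * a₄ ∧
      |1 / 2 * gsq S x - 1 / 2 * lap S x| ≤
        3 / 2 * ((1 + c) * r + a₁) ^ 2 + (3 + c + 3 * a₂) / 2 := by
  have hQ := sm_qd ![1, 1, 1 + c]
  have sS : Sm S := hS ▸ (hQ.add hH).add contDiff_const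
  have e1 : ∀ k, pd k S = fun y => ![1, 1, 1 + c] k * y k + pd k H y := fun k => by
    rw [hS, Sm.pd_add (hQ.add hH) contDiff_const, hQ.pd_add hH, pd_qd, d2_pd_const]
    simp
  have e2 : ∀ j k, pd j (pd k S) x = ![1, 1, 1 + c] k * ek j k + pd j (pd k H) x := fun j k => by
    rw [e1, Sm.pd_add (contDiff_const.mul (sm_coord k)) (hH.pd k), (sm_coord k).pd_cmul,
      d2_pd_coord]
  have e3 : lap S = fun y => (3 + c) + lap H y := by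
    rw [hS, Sm.lap_add (hQ.add hH) contDiff_const, hQ.lap_add hH, lap_qd, d2_lap_const]
    funext y
    simp
    ring
  have e4 : ∀ k, pd k (lap S) x = pd k (lap H) x := fun k => by
    rw [e3, Sm.pd_add contDiff_const hH.lap, d2_pd_const]
    simp
  have e5 : lap (lap S) x = lap (lap H) x := by
    rw [e3, Sm.lap_add contDiff_const hH.lap, d2_lap_const]
    simp
  have a0 : ∀ k : Fin 3, 0 ≤ ![1, 1, 1 + c] k ∧ ![1, 1, 1 + c] k ≤ 1 + c := fun k => by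
    fin_cases k <;> simp [hc] <;> linarith
  have b1 : ∀ k, |pd k S x| ≤ (1 + c) * r + a₁ := fun k => by
    rw [e1]
    refine (abs_add_le _ _).trans (add_le_add ?_ ((hH.abs_pd k x).trans h1))
    rw [abs_mul, abs_of_nonneg (a0 k).1]
    exact mul_le_mul (a0 k).2 ((abs_le_nrm x k).trans hr) (abs_nonneg _) (by linarith)
  have b2 : ∀ j k, pd j (pd k S) x ^ 2 ≤ (1 + c + a₂) ^ 2 := fun j k => by
    rw [e2]
    refine sq_le_sq' (abs_le.1 ?_).1 (abs_le.1 ?_).2 <;>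
    · refine (abs_add_le _ _).trans (add_le_add ?_ ((hH.abs_pd2 j k x).trans h2))
      rw [abs_mul, abs_of_nonneg (a0 k).1]
      refine (mul_le_of_le_one_right (a0 k).1 ?_).trans (a0 k).2
      simpa [nw_norm_ek] using norm_le_pi_norm (ek j) k
  have b3 : ∀ k, |pd k S x * pd k (lap S) x| ≤ ((1 + c) * r + a₁) * (3 * a₃) := fun k => by
    rw [abs_mul, e4]
    exact mul_le_mul (b1 k) (by linarith [hH.abs_pd_lap k x]) (abs_nonneg _)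
      ((abs_nonneg _).trans (b1 k))
  have b4 := abs_le.1 (hH.abs_lap2 x)
  have b5 : (1 + c - a₂) ^ 2 ≤ pd 2 (pd 2 S) x ^ 2 := by
    refine pow_le_pow_left₀ (by linarith) ?_ 2
    have := (abs_le.1 (hH.abs_pd2 2 2 x)).1
    rw [e2]
    simp [ek]
    linarith
  have b6 : ∀ k, pd k S x ^ 2 ≤ ((1 + c) * r + a₁) ^ 2 := fun k =>
    sq_le_sq' (abs_le.1 (b1 k)).1 (abs_le.1 (b1 k)).2
  have b7 := abs_le.1 (hH.abs_lap x)
  rw [Sm.lap_sub (contDiff_const.mul sS.gsq) (contDiff_const.mul sS.lap), sS.gsq.lap_cmul,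
    sS.lap.lap_cmul]
  simp only [sS.bochner, e5, Fin.sum_univ_three]
  have c0 := abs_le.1 (b3 0)
  have c1 := abs_le.1 (b3 1)
  have c2 := abs_le.1 (b3 2)
  refine ⟨?_, ?_, ?_⟩
  · have p := fun j k => sq_nonneg (pd j (pd k S) x)
    linarith [p 0 0, p 0 1, p 0 2, p 1 0, p 1 1, p 1 2, p 2 0, p 2 1]
  · linarith [b2 0 0, b2 0 1, b2 0 2, b2 1 0, b2 1 1, b2 1 2, b2 2 0, b2 2 1, b2 2 2]
  · rw [e3, gsq, Fin.sum_univ_three, abs_le]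
    have p := fun k => sq_nonneg (pd k S x)
    constructor <;> linarith [b6 0, b6 1, b6 2, p 0, p 1, p 2, nD_nonneg 2 H x]

theorem W3_far {x : Pt} (h : 3 * Lc < nrm x) (j : ℕ) : nD j W3 x = 0 :=
  nD_of_zero ((continuousAt_const.eventually_lt continuous_nrm.continuousAt h).mono fun _ hy =>
    (d2_far hy.le).2.2) j

/-- sizes of the parameter -/
theorem d2_size {n : ℝ} (h1 : 4 * Lc ≤ n) :
    200 ≤ n ∧ n ≤ n ^ 2 ∧ n ^ 2 ≤ n ^ 3 ∧ 2 * n ^ 5 ≤ del * n ^ 8 := by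
  have h : 200 ≤ n := le_trans (by norm_num [Lc]) h1
  have h2 : 200 ^ 3 ≤ n ^ 3 := by gcongr
  refine ⟨h, by nlinarith, by nlinarith, ?_⟩
  rw [show del * n ^ 8 = (del * n ^ 3) * n ^ 5 by ring]
  gcongr
  rw [del]
  linarith

theorem d2_B {D : Des} (h : D.OK) (h1 : 4 * Lc ≤ D.n) (h2 : 2 * CW ≤ D.n) (x : Pt) :
    ∃ B, 0 ≤ B ∧ B * (D.Ls + nrm x) ≤ del * (1 + D.c x) ∧ (∀ j ≤ 4, nD j D.Wd2 x ≤ B) ∧
      √D.n * nD 2 W3 x ≤ B := by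
  obtain ⟨s1, s2, s3, s4⟩ := d2_size h1
  have hc := h.nonneg x
  have hd : 0 < del := by norm_num [del]
  have hL : 0 < Lc := by norm_num [Lc]
  rcases lt_or_ge (3 * Lc) (nrm x) with hx | hx
  · exact ⟨0, le_rfl, by rw [zero_mul]; positivity, fun j _ => (D.Wd2_far hx j).le,
      by rw [W3_far hx, mul_zero]⟩
  have h3 : nrm x ≤ D.Ls := by
    rw [Des.Ls]
    linarith
  have := CW_ge
  refine ⟨D.n ^ 2, by positivity, ?_, fun j hj => (D.Wd2_le (by linarith) hj x).trans (by nlinarith),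
    ?_⟩
  · rw [h.core x h3, Des.Om]
    have : D.n ^ 2 * (D.Ls + nrm x) ≤ D.n ^ 2 * (2 * D.n ^ 3) := by
      rw [Des.Ls] at h3 ⊢
      gcongr
      linarith
    nlinarith
  · have h4 : √D.n ≤ D.n := Real.sqrt_le_iff.2 ⟨by linarith, s2⟩
    calc √D.n * nD 2 W3 x ≤ D.n * D.n :=
          mul_le_mul h4 (by linarith [(CW_le (j := 2) (by norm_num) x).2.2]) (nD_nonneg _ _ _)
            (by linarith)
      _ = _ := by ring

theorem d2_num1 {ρ u B d : ℝ} (hρ1 : 1 ≤ ρ) (hdu : 0 ≤ d * u) (hB : 0 ≤ B) (b1 : B * ρ ≤ d * u) :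
    B ≤ d * u ∧ (2 * ρ⁻¹) ^ 1 * (d * u * ρ ^ 2) + B ≤ 3 * (d * u * ρ) ∧
      (2 * ρ⁻¹) ^ 2 * (d * u * ρ ^ 2) + B ≤ 5 * (d * u) ∧
      (2 * ρ⁻¹) ^ 3 * (d * u * ρ ^ 2) + B ≤ 9 * (d * u / ρ) ∧
      (2 * ρ⁻¹) ^ 4 * (d * u * ρ ^ 2) + B ≤ 17 * (d * u) ∧
      (u * ρ + 3 * (d * u * ρ)) * (9 * (d * u / ρ)) = 9 * (d * (1 + 3 * d)) * u ^ 2 := by
  have hB1 : B ≤ d * u := le_trans (le_mul_of_one_le_right hB hρ1) b1
  have hB2 : B ≤ d * u / ρ := by rwa [le_div_iff₀ (by linarith)]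
  refine ⟨hB1, ?_, ?_, ?_, ?_, by field_simp⟩
  · rw [show (2 * ρ⁻¹) ^ 1 * (d * u * ρ ^ 2) = 2 * (d * u * ρ) by field_simp]
    linarith [le_mul_of_one_le_right hdu hρ1]
  · rw [show (2 * ρ⁻¹) ^ 2 * (d * u * ρ ^ 2) = 4 * (d * u) by field_simp; ring]
    linarith
  · rw [show (2 * ρ⁻¹) ^ 3 * (d * u * ρ ^ 2) = 8 * (d * u / ρ) by field_simp; ring]
    linarith
  · rw [show (2 * ρ⁻¹) ^ 4 * (d * u * ρ ^ 2) = 16 * (d * u / ρ ^ 2) by field_simp; ring]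
    linarith [div_le_self hdu (one_le_pow₀ hρ1 (n := 2))]

theorem d2_num2 {ρ u c d a g v : ℝ} (hu : u = 1 + c) (hc : 0 ≤ c) (hd : d = 1 / 10 ^ 6)
    (j1 : (u - 5 * (d * u)) ^ 2 - 9 * (9 * (d * (1 + 3 * d)) * u ^ 2) - 9 / 2 * (17 * (d * u)) ≤ a)
    (j2 : a ≤ 9 * (u + 5 * (d * u)) ^ 2 + 9 * (9 * (d * (1 + 3 * d)) * u ^ 2) +
      9 / 2 * (17 * (d * u)))
    (j3 : v ≤ 3 / 2 * (u * ρ + 3 * (d * u * ρ)) ^ 2 + (3 + c + 3 * (5 * (d * u))) / 2)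
    (hg : |g| ≤ 3 * (d * u)) :
    1 / 2 ≤ a + g ∧ a + g ≤ 10 * u ^ 2 ∧ v ≤ 2 * (u * ρ) ^ 2 + 2 * u := by
  have hG := abs_le.1 hg
  have h1 : u ≤ u ^ 2 := by nlinarith
  have h2 : 1 ≤ u := by linarith
  have h3 := sq_nonneg (u * ρ)
  subst hd
  refine ⟨by nlinarith, by nlinarith, by nlinarith⟩

theorem d2_main {D : Des} (h : D.OK) (h1 : 4 * Lc ≤ D.n) (h2 : 2 * CW ≤ D.n) (x : Pt) :
    1 / 2 ≤ lap D.Vref x + lap D.Gam x ∧ lap D.Vref x + lap D.Gam x ≤ 10 * (1 + D.c x) ^ 2 ∧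
      |D.Vref x| ≤ 2 * ((1 + D.c x) * (D.Ls + nrm x)) ^ 2 + 2 * (1 + D.c x) := by
  obtain ⟨s1, s2, s3, -⟩ := d2_size h1
  obtain ⟨B, hB, b1, b2, b3⟩ := d2_B h h1 h2 x
  have hc := h.nonneg x
  have hr := nrm_nonneg x
  have hL : 1 ≤ D.Ls := by
    rw [Des.Ls]
    linarith
  have hE := fun j hj => (Sm.nD_sub (h.sm_Ed2 x) D.sm_Wd2 j x).trans
    (add_le_add (h.Ed2_le (by linarith) x hj) (b2 j hj))
  have hd : del = 1 / 10 ^ 6 := rfl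
  obtain ⟨hB1, g1, g2, g3, g4, g5⟩ := d2_num1 (ρ := D.Ls + nrm x) (by linarith)
    (by rw [hd]; positivity) hB b1
  obtain ⟨j1, j2, j3⟩ := d2_jet (S := D.S) (k := 7 * D.n) (r := D.Ls + nrm x)
    (H := fun y => D.Ed2 x y - D.Wd2 y) (ContDiff.sub (h.sm_Ed2 x) D.sm_Wd2) hc (by
      funext y
      rw [Des.S, D.Zf_eq2 x, D.Yf_eq2]
      simp [qd, Fin.sum_univ_three]
      ring) (by linarith) ((hE 1 (by norm_num)).trans g1) ((hE 2 (by norm_num)).trans g2)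
    ((hE 3 (by norm_num)).trans g3) ((hE 4 le_rfl).trans g4) (by rw [hd]; linarith)
  have hG : |lap D.Gam x| ≤ 3 * (del * (1 + D.c x)) := by
    rw [D.Gam_eq2, Sm.lap_sub contDiff_const (contDiff_const.mul sm_W3), d2_lap_const,
      sm_W3.lap_cmul]
    simp only [zero_sub, abs_neg, abs_mul, abs_of_nonneg (Real.sqrt_nonneg _)]
    linarith [mul_le_mul_of_nonneg_left (sm_W3.abs_lap x) (Real.sqrt_nonneg D.n)]
  rw [g5] at j1 j2
  exact d2_num2 rfl hc hd j1 j2 j3 hG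

end D26

/-- D2 -/
theorem F_facts : Ev fun D => ContDiff ℝ ∞ D.F ∧ (∀ x, D.Lg ≤ nrm x → D.F x = 0) ∧
    (∀ i : Fin 3, i ≠ 2 → ∀ x, D.F (rf i x) = D.F x) ∧
    (∀ x, -(5 / 2) ≤ lap D.F x ∧ lap D.F x ≤ D.n ^ 20) ∧ ∀ x, |D.F x| ≤ D.n ^ 20 * D.Lg ^ 2 := by
  refine ((ev_ge (4 * Lc)).and (ev_ge (2 * CW))).mono fun D h ⟨h1, h2⟩ => ?_
  obtain ⟨s1, s2, s3, -⟩ := d2_size h1
  have hL : 4 * Lc ≤ D.Ls := by
    rw [Des.Ls]
    linarith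
  have hu : ∀ x, 1 + D.c x ≤ 2 * D.n ^ 8 := fun x => by
    have := h.le x
    have : 1 ≤ D.n ^ 8 := one_le_pow₀ (by linarith)
    rw [Des.Om] at *
    linarith
  have hn : 200 * D.n ^ 16 ≤ D.n ^ 20 := by
    rw [show D.n ^ 20 = D.n ^ 4 * D.n ^ 16 by ring]
    gcongr
    nlinarith
  have hn8 : D.n ^ 8 ≤ D.n ^ 16 := pow_le_pow_right₀ (by linarith) (by norm_num)
  have hn1 : D.n ≤ D.n ^ 8 := le_self_pow₀ (by linarith) (by norm_num)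
  refine ⟨h.cd_F, fun x => h.F_far hL, fun i hi x => ?_, fun x => ?_, fun x => ?_⟩
  · have e : ∑ k, rf i x k ^ 2 = ∑ k, x k ^ 2 := by
      fin_cases i <;> simp [rf, Fin.sum_univ_three]
    simp only [Des.F, Des.Vref, gsq_rf (h.S_rf hi), lap_rf (h.S_rf hi), D.Gam_rf hi, e]
  · have e : D.F = fun y => (D.Vref y + D.Gam y) - qd ![1, 1, 1] y + (3 / 2 - √D.n) := by
      funext y
      simp [Des.F, qd, Fin.sum_univ_three]
      ring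
    have hV : Sm D.Vref := h.cd_Vref
    obtain ⟨a1, a2, -⟩ := d2_main h h1 h2 x
    have a3 : (1 + D.c x) ^ 2 ≤ (2 * D.n ^ 8) ^ 2 := by
      have := h.nonneg x
      gcongr
      exact hu x
    rw [e, Sm.lap_add ((hV.add D.sm_Gam).sub (sm_qd _)) contDiff_const,
      Sm.lap_sub (hV.add D.sm_Gam) (sm_qd _), hV.lap_add D.sm_Gam, lap_qd, d2_lap_const]
    simp only [Matrix.cons_val_zero, Matrix.cons_val_one, Matrix.cons_val]
    constructor <;> nlinarith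
  · have hg : D.Ls ≤ D.Lg := h.L_le
    have hg1 : 1 ≤ D.Lg := by
      rw [Des.Ls] at hg
      linarith
    rcases le_total D.Lg (nrm x) with hx | hx
    · rw [h.F_far hL hx, abs_zero]
      positivity
    obtain ⟨-, -, a⟩ := d2_main h h1 h2 x
    have a1 : ((1 + D.c x) * (D.Ls + nrm x)) ^ 2 ≤ (2 * D.n ^ 8 * (2 * D.Lg)) ^ 2 := by
      have := h.nonneg x
      have := nrm_nonneg x
      have : 0 ≤ D.Ls := le_trans (by norm_num [Lc]) hL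
      gcongr
      · exact hu x
      · linarith
    have a2 : ∑ k, x k ^ 2 ≤ D.Lg ^ 2 := by
      rw [Fin.sum_univ_three, ← d2_nrm_sq]
      exact pow_le_pow_left₀ (nrm_nonneg x) hx 2
    have a3 : 0 ≤ ∑ k, x k ^ 2 := by positivity
    have a4 : √D.n ≤ D.n := Real.sqrt_le_iff.2 ⟨by linarith, s2⟩
    have a5 := D.Gam_mem2 x
    have a6 := abs_le.1 a
    have a7 : 1 ≤ D.Lg ^ 2 := one_le_pow₀ hg1
    have a8 : D.n ^ 16 ≤ D.n ^ 16 * D.Lg ^ 2 := le_mul_of_one_le_right (by positivity) a7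
    have a9 : D.Lg ^ 2 ≤ D.n ^ 16 * D.Lg ^ 2 := le_mul_of_one_le_left (by positivity) (by linarith)
    have a10 := mul_le_mul_of_nonneg_right hn (sq_nonneg D.Lg)
    have a11 := hu x
    rw [show (2 * D.n ^ 8 * (2 * D.Lg)) ^ 2 = 16 * (D.n ^ 16 * D.Lg ^ 2) by ring] at a1
    rw [Des.F, abs_le]
    constructor <;> linarith [a5.1, a5.2, a6.1, a6.2]

end Vale.Agent.P363
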