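import Vale.Agent.P363.Des
import Vale.Agent.P363.LD
import Vale.Agent.P363.D3Newt
import Vale.Agent.P363.D3Cell

/-! Part D3 (see `skeleton/P363/PROOF.md`). -/

namespace Vale.Agent.P363

open MeasureTheory Vale.Agent.P370
open scoped ContDiff

theorem d3_vp_eq (l : List Pt) (lam : ℝ) (x : Pt) :
    vp l lam x = -(l.map fun q => lam * ker (x - q)).sum := by
  unfold vp pot
  rw [List.map_map]
  rfl

theorem d3_vp_append (l l' : List Pt) (lam : ℝ) (x : Pt) :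
    vp (l ++ l') lam x = vp l lam x + vp l' lam x := by
  rw [d3_vp_eq, d3_vp_eq, d3_vp_eq, List.map_append, List.sum_append]
  ring

theorem d3_vp_rf (l : List Pt) (lam : ℝ) (i : Fin 3) (x : Pt) :
    vp (l.map (rf i)) lam x = vp l lam (rf i x) := by
  rw [d3_vp_eq, d3_vp_eq, List.map_map]
  congr 2
  refine List.map_congr_left fun q _ => ?_
  rw [Function.comp_apply, d3_ker_rf]

theorem d3_vp_list {ι : Type} (l : List ι) (n : ι → ℕ) (p : ι → Pt) (lam : ℝ) (x : Pt) :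
    vp (l.flatMap fun j => List.replicate (n j) (p j)) lam x =
      -(l.map fun j => n j * lam * ker (x - p j)).sum := by
  induction l with
  | nil => simp [d3_vp_eq]
  | cons j l ih =>
    rw [List.flatMap_cons, d3_vp_append, ih, d3_vp_eq, List.map_replicate, List.sum_replicate,
      List.map_cons, List.sum_cons, nsmul_eq_mul]
    ring

theorem d3_pts {ι : Type} (s : Finset ι) (n : ι → ℕ) (p : ι → Pt) (lam : ℝ)
    (hn : 0 < ∑ j ∈ s, n j) : ∃ pts : List Pt, pts ≠ [] ∧ ∀ x, vp pts lam x =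
      S4 (fun x => -∑ j ∈ s, n j * lam * ker (x - p j)) x := by
  set l := s.toList.flatMap fun j => List.replicate (n j) (p j) with hl
  have h1 : ∀ x, vp l lam x = -∑ j ∈ s, n j * lam * ker (x - p j) := fun x => by
    rw [hl, d3_vp_list, Finset.sum_map_toList]
  refine ⟨l ++ l.map (rf 0) ++ l.map (rf 1) ++ (l.map (rf 0)).map (rf 1), ?_, fun x => ?_⟩
  · obtain ⟨j, hj, hj'⟩ := Finset.exists_ne_zero_of_sum_ne_zero hn.ne'
    have h2 : p j ∈ l := by
      rw [hl, List.mem_flatMap]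
      exact ⟨j, Finset.mem_toList.2 hj, List.mem_replicate.2 ⟨hj', rfl⟩⟩
    refine List.ne_nil_of_mem (a := p j) ?_
    simp only [List.mem_append]
    exact Or.inl (Or.inl (Or.inl h2))
  · rw [d3_vp_append, d3_vp_append, d3_vp_append, d3_vp_rf, d3_vp_rf, d3_vp_rf, d3_vp_rf, h1, h1,
      h1, h1]
    rfl

theorem d3_S4_rf (f : Pt → ℝ) {i : Fin 3} (hi : i ≠ 2) (x : Pt) : S4 f (rf i x) = S4 f x := by
  unfold S4
  have h : i = 0 ∨ i = 1 := by omega
  rcases h with rfl | rfl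
  · rw [d3_rf_rf, d3_rf_comm, d3_rf_rf]
    ring
  · rw [d3_rf_rf]
    ring

theorem d3_S4_small {W : Pt → ℝ} {ε : ℝ} (h : Small W ε) : Small (S4 W) (4 * ε) := by
  have h1 := ((h.d3_add (h.d3_rf 0)).d3_add (h.d3_rf 1)).d3_add ((h.d3_rf 0).d3_rf 1)
  exact h1.d3_mono (le_of_eq (by ring))

theorem d3_S4_le {f : Pt → ℝ} {x : Pt} {a : ℝ} (h : ∀ y, nrm y = nrm x → |f y| ≤ a) :
    |S4 f x| ≤ 4 * a := by
  have h1 := abs_le.1 (h x rfl)
  have h2 := abs_le.1 (h _ (d3_nrm_rf 0 x))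
  have h3 := abs_le.1 (h _ (d3_nrm_rf 1 x))
  have h4 := abs_le.1 (h (rf 0 (rf 1 x)) (by rw [d3_nrm_rf, d3_nrm_rf]))
  unfold S4
  rw [abs_le]
  constructor <;> linarith [h1.1, h1.2, h2.1, h2.2, h3.1, h3.2, h4.1, h4.2]

theorem d3_int_ker {ρ : Pt → ℝ} (hm : Measurable ρ) {B : ℝ} (hB : ∀ y, 0 ≤ ρ y ∧ ρ y ≤ B)
    (R : ℝ) (x : Pt) : IntegrableOn (fun y => ker (x - y) * ρ y) {y : Pt | nrm y ≤ R} := by
  refine Integrable.mono' ((integrableOn_ker (d3_vol_ne R) x).mul_const B)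
    ((measurable_ker_sub x).mul hm).aestronglyMeasurable (Filter.Eventually.of_forall fun y => ?_)
  rw [Real.norm_of_nonneg (mul_nonneg (ker_nonneg _) (hB y).1)]
  exact mul_le_mul_of_nonneg_left (hB y).2 (ker_nonneg _)

theorem d3_quad_ker {ρ : Pt → ℝ} (hm : Measurable ρ) {B : ℝ} (hB : ∀ y, 0 ≤ ρ y ∧ ρ y ≤ B)
    (hs : ∀ i : Fin 3, i ≠ 2 → ∀ y, ρ (rf i y) = ρ y) (R : ℝ) (x : Pt) :
    S4 (fun x => ∫ y in Oq R, ker (x - y) * ρ y) x =
      ∫ y in {y : Pt | nrm y ≤ R}, ker (x - y) * ρ y := by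
  rw [quad_split (d3_int_ker hm hB R x)]
  unfold S4
  simp only [d3_ker_rf, hs 0 (by decide), hs 1 (by decide), d3_rf_comm]

theorem d3_pot_le {ρ : Pt → ℝ} (hm : Measurable ρ) {B R : ℝ} (hB : ∀ y, 0 ≤ ρ y ∧ ρ y ≤ B)
    (hR : 10 ≤ R) (x : Pt) :
    |∫ y in {y : Pt | nrm y ≤ R}, ker (x - y) * ρ y| ≤ 6 * B * R ^ 3 := by
  have hB0 : 0 ≤ B := (hB 0).1.trans (hB 0).2
  rw [abs_of_nonneg (integral_nonneg fun y => mul_nonneg (ker_nonneg _) (hB y).1)]
  have h1 : ∫ y in {y : Pt | nrm y ≤ R}, ker (x - y) * ρ y ≤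
      ∫ y in {y : Pt | nrm y ≤ R}, ker (x - y) * B :=
    integral_mono (d3_int_ker hm hB R x) ((integrableOn_ker (d3_vol_ne R) x).mul_const B)
      fun y => mul_le_mul_of_nonneg_left (hB y).2 (ker_nonneg _)
  rw [integral_mul_const] at h1
  have h2 := coulomb_le (d3_meas_ball R) (d3_vol_ne R) x one_pos
  rw [ball_vol (by linarith)] at h2
  have h3 : (10 : ℝ) ^ 3 ≤ R ^ 3 := pow_le_pow_left₀ (by norm_num) hR 3
  have h4 : ∫ y in {y : Pt | nrm y ≤ R}, ker (x - y) ≤ 6 * R ^ 3 := by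
    have := Real.pi_lt_d2
    nlinarith
  nlinarith

/-- The numerical inequality in the vacuum. -/
theorem d3_vac_num {R B t r M : ℝ} (hR : 200 ≤ R) (hB : R ≤ B) (ht : 0 < t) (h : t * B ^ 25 ≤ 1)
    (hr : R + 1 / 8 / R ≤ r) (hM : M ≤ R ^ 3 / 4) :
    5 * (4 * t) ^ 4 ≤ r - R ∧
      4 * (5 * ((4 * t) ^ 4) ^ 2 * M / (r - R) ^ 3) ≤ 1 / 2 / r ^ 2 := by
  have hR0 : 0 < R := by linarith
  have hB1 : 1 ≤ B := by linarith
  have h25 : 1 ≤ B ^ 25 := one_le_pow₀ hB1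
  have ht1 : t ≤ 1 := by nlinarith
  obtain ⟨δ, rfl⟩ : ∃ δ, r = R + δ := ⟨r - R, by ring⟩
  rw [add_sub_cancel_left]
  have hδ : 1 ≤ 8 * R * δ := by
    have h1 : 1 / 8 / R ≤ δ := by linarith
    rw [div_le_iff₀ hR0] at h1
    linarith
  have hδ0 : 0 < δ := by
    by_contra hc
    nlinarith [not_lt.1 hc]
  have hB4 : (200 : ℝ) ^ 4 ≤ B ^ 4 := pow_le_pow_left₀ (by norm_num) (hR.trans hB) 4
  have h12 : t * B ^ 12 ≤ 1 :=
    (mul_le_mul_of_nonneg_left (pow_le_pow_right₀ hB1 (by norm_num)) ht.le).trans h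
  have hR8 : R ^ 8 ≤ B ^ 8 := pow_le_pow_left₀ hR0.le hB 8
  have hR1 : R ≤ R ^ 8 := le_self_pow₀ (by linarith) (by norm_num)
  have hk : 200 ^ 4 * (t * R ^ 8) ≤ 1 := by
    calc 200 ^ 4 * (t * R ^ 8) ≤ B ^ 4 * (t * B ^ 8) :=
          mul_le_mul hB4 (mul_le_mul_of_nonneg_left hR8 ht.le) (by positivity) (by positivity)
      _ = t * B ^ 12 := by ring
      _ ≤ 1 := h12
  have ht4 : t ^ 4 ≤ t := pow_le_of_le_one ht.le ht1 (by norm_num)
  have ht8 : t ^ 8 ≤ t := pow_le_of_le_one ht.le ht1 (by norm_num)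
  constructor
  · have h1 : t * R ≤ t * R ^ 8 := mul_le_mul_of_nonneg_left hR1 ht.le
    have h2 : t ^ 4 * R ≤ t * R := mul_le_mul_of_nonneg_right ht4 hR0.le
    have h3 : 8 * R * (5 * (4 * t) ^ 4) ≤ 8 * R * δ := by nlinarith
    exact le_of_mul_le_mul_left h3 (by positivity)
  · have h1 : R + δ ≤ 9 * R ^ 2 * δ := by nlinarith [mul_le_mul_of_nonneg_left hδ hR0.le]
    have h2 : (R + δ) ^ 2 ≤ (9 * R ^ 2 * δ) ^ 2 := pow_le_pow_left₀ (by positivity) h1 2
    have h3 : t ^ 8 * R ^ 8 ≤ t * R ^ 8 := mul_le_mul_of_nonneg_right ht8 (by positivity)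
    rw [← mul_div_assoc, div_div, div_le_div_iff₀ (by positivity) (by positivity), one_mul]
    calc 4 * (5 * ((4 * t) ^ 4) ^ 2 * M) * (2 * (R + δ) ^ 2)
        ≤ 4 * (5 * ((4 * t) ^ 4) ^ 2 * (R ^ 3 / 4)) * (2 * (9 * R ^ 2 * δ) ^ 2) := by
          gcongr
      _ = (810 * 4 ^ 8 * (t ^ 8 * R ^ 7)) * δ ^ 2 * 1 := by ring
      _ ≤ (810 * 4 ^ 8 * (t ^ 8 * R ^ 7)) * δ ^ 2 * (8 * R * δ) := by gcongr
      _ = (6480 * 4 ^ 8 * (t ^ 8 * R ^ 8)) * δ ^ 3 := by ring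
      _ ≤ 1 * δ ^ 3 := by
          gcongr
          nlinarith
      _ = δ ^ 3 := one_mul _

theorem d3_small_num {R B C t M : ℝ} (hR : 200 ≤ R) (hB : R ≤ B) (hC0 : 1 ≤ C) (hC : C ≤ B)
    (ht : 0 < t) (ht1 : t ≤ 1) (hM0 : 0 ≤ M) (hM : M ≤ R ^ 3 / 4) :
    4 * (C * (B + M) * (4 * t) ^ 7) + 24 * B * t ^ 12 ≤ B ^ 20 * t ^ 7 := by
  have hB1 : 1 ≤ B := by linarith
  have h1 : R ^ 3 ≤ B ^ 3 := pow_le_pow_left₀ (by linarith) hB 3
  have h2 : B ≤ B ^ 3 := le_self_pow₀ hB1 (by norm_num)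
  have h3 : (200 : ℝ) ^ 3 ≤ B ^ 3 := pow_le_pow_left₀ (by norm_num) (hR.trans hB) 3
  have h4 : t ^ 12 ≤ t ^ 7 := pow_le_pow_of_le_one ht.le ht1 (by norm_num)
  have h5 : B ≤ B ^ 4 := le_self_pow₀ hB1 (by norm_num)
  have h6 : B ^ 7 ≤ B ^ 20 := pow_le_pow_right₀ hB1 (by norm_num)
  have h7 : B + M ≤ 2 * B ^ 3 := by linarith
  calc 4 * (C * (B + M) * (4 * t) ^ 7) + 24 * B * t ^ 12
      ≤ 4 * (B * (2 * B ^ 3) * (4 * t) ^ 7) + 24 * B ^ 4 * t ^ 7 := by gcongr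
    _ = 131096 * (B ^ 4 * t ^ 7) := by ring
    _ ≤ B ^ 3 * (B ^ 4 * t ^ 7) := by
        gcongr
        linarith
    _ = B ^ 7 * t ^ 7 := by ring
    _ ≤ B ^ 20 * t ^ 7 := by gcongr

/-- D3 -/
theorem discr : ∃ C : ℝ, 1 ≤ C ∧ ∀ (R L B lam : ℝ) (F : Pt → ℝ), 10 ≤ L → 20 * L ≤ R → R ≤ B →
    C ≤ B → 0 < lam → lam * B ^ 300 ≤ 1 → ContDiff ℝ ∞ F → (∀ x, L ≤ nrm x → F x = 0) →
    (∀ i : Fin 3, i ≠ 2 → ∀ x, F (rf i x) = F x) → (∀ x, -(11 / 4) ≤ lap F x ∧ lap F x ≤ B) →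
    ∃ pts Z W₁ W₂, Disc R L lam (B ^ 20 * lam ^ (7 / 12 : ℝ)) F pts Z W₁ W₂ := by
  obtain ⟨C, hC1, hC⟩ := cells_small
  refine ⟨C, hC1, fun R L B lam F hL hR hRB hCB hl hlB hF hF0 hFs hlap => ?_⟩
  have hR2 : 200 ≤ R := by linarith
  have hB1 : 1 ≤ B := by linarith
  have hpi := Real.pi_lt_d2
  have hpi' := Real.pi_gt_three
  obtain ⟨t, ht, htl, ht7⟩ : ∃ t : ℝ, 0 < t ∧ t ^ 12 = lam ∧ lam ^ (7 / 12 : ℝ) = t ^ 7 := by
    refine ⟨lam ^ (1 / 12 : ℝ), Real.rpow_pos_of_pos hl _, ?_, ?_⟩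
    · rw [← Real.rpow_natCast, ← Real.rpow_mul hl.le]
      norm_num
    · rw [← Real.rpow_natCast, ← Real.rpow_mul hl.le]
      norm_num
  have htB : t * B ^ 25 ≤ 1 := by
    refine (pow_le_one_iff_of_nonneg (by positivity) (n := 12) (by norm_num)).1 ?_
    calc (t * B ^ 25) ^ 12 = t ^ 12 * B ^ 300 := by ring
      _ ≤ 1 := by rw [htl]; exact hlB
  have hBB : B ≤ B ^ 25 := le_self_pow₀ hB1 (by norm_num)
  have ht1 : t ≤ 1 / 200 := by
    have h1 := mul_le_mul_of_nonneg_left (hR2.trans (hRB.trans hBB)) ht.le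
    linarith
  have ht4 : t ^ 4 ≤ t := pow_le_of_le_one ht.le (by linarith) (by norm_num)
  have hl1 : lam ≤ 1 / 200 := by
    rw [← htl]
    exact (pow_le_of_le_one ht.le (by linarith) (by norm_num)).trans ht1
  have hF2 : ContDiff ℝ 2 F := hF.of_le (WithTop.coe_le_coe.2 le_top)
  set ρ : Pt → ℝ := fun y => (3 + lap F y) / (4 * Real.pi) with hρ
  have hρm : Measurable ρ := ((continuous_const.add (continuous_lap hF2)).div_const _).measurable
  have hρl : ∀ y, 2 / 125 ≤ ρ y := fun y => by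
    rw [hρ, le_div_iff₀ (by positivity)]
    linarith [(hlap y).1]
  have hρB : ∀ y, 0 ≤ ρ y ∧ ρ y ≤ B := fun y => ⟨by linarith [hρl y], by
    rw [hρ, div_le_iff₀ (by positivity)]
    have h1 := mul_le_mul_of_nonneg_left hpi'.le (zero_le_one.trans hB1)
    linarith [(hlap y).2]⟩
  have hρs : ∀ i : Fin 3, i ≠ 2 → ∀ y, ρ (rf i y) = ρ y := fun i hi y => by
    have h1 : (fun y => F (rf i y)) = F := funext (hFs i hi)
    simp only [hρ]
    rw [← d3_lap_rf, h1]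
  have hR3 : (200 : ℝ) ^ 3 ≤ R ^ 3 := pow_le_pow_left₀ (by norm_num) hR2 3
  have hM0 : ∫ y in Oq R, ρ y = R ^ 3 / 4 := by
    have h1 : IntegrableOn ρ {y : Pt | nrm y ≤ R} :=
      Integrable.mono' (integrableOn_const (C := B) (d3_vol_ne R)) hρm.aestronglyMeasurable
        (Filter.Eventually.of_forall fun y => by
          rw [Real.norm_of_nonneg (hρB y).1]; exact (hρB y).2)
    have h2 := quad_split h1
    simp only [hρs 0 (by decide), hρs 1 (by decide)] at h2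
    rw [dens_mass (by linarith) (by linarith : L ≤ R) hF hF0] at h2
    linarith
  set N : ℕ := ⌊R ^ 3 / 4 / lam⌋₊ with hN
  have hN1 : N * lam ≤ R ^ 3 / 4 := by
    rw [← le_div_iff₀ hl]
    exact Nat.floor_le (by positivity)
  have hN2 : R ^ 3 / 4 < N * lam + lam := by
    have h1 := Nat.lt_floor_add_one (R ^ 3 / 4 / lam)
    rw [div_lt_iff₀ hl] at h1
    linarith
  obtain ⟨θ, hθ⟩ : ∃ θ : ℝ, θ * (R ^ 3 / 4) = N * lam :=
    ⟨N * lam / (R ^ 3 / 4), div_mul_cancel₀ _ (by positivity)⟩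
  have hθ1 : θ ≤ 1 := le_of_mul_le_mul_right (a := R ^ 3 / 4) (by linarith) (by positivity)
  have hθ2 : (1 - θ) * R ^ 3 ≤ 4 * lam := by linarith
  have hθ3 : 1 / 2 ≤ θ := le_of_mul_le_mul_right (a := R ^ 3) (by linarith) (by positivity)
  obtain ⟨s, σ, p, n, hce, hsum, hmass, hn⟩ := exists_cells (R := R) (B := B) (c := 1 / 125)
    (lam := lam) (h := 5 * t ^ 4) (d := (4 * t) ^ 4) (ρ := fun y => θ * ρ y)
    (hρm.const_mul θ) (by linarith) (by positivity) (by linarith)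
    (by rw [mul_pow]; linarith [pow_pos ht 4]) hl (le_of_eq (by rw [← htl]; ring))
    (fun y _ => ⟨by linarith [mul_le_mul hθ3 (hρl y) (by norm_num) (by linarith)],
      (mul_le_of_le_one_left (hρB y).1 hθ1).trans (hρB y).2⟩) (N := N)
    (by rw [integral_const_mul, hM0, hθ])
  have hNpos : 0 < N := by
    rcases Nat.eq_zero_or_pos N with h | h
    · rw [h, Nat.cast_zero] at hN2
      linarith
    · exact h
  obtain ⟨pts, hne, hv⟩ := d3_pts s n p lam (hn ▸ hNpos)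
  have key : ∀ x, vp pts lam x = S4 (cerr s σ p) x + θ * (ub R x + F x) := by
    have h1 : ∀ x, -∑ j ∈ s, n j * lam * ker (x - p j) =
        cerr s σ p x - θ * ∫ y in Oq R, ker (x - y) * ρ y := fun x => by
      have h2 : ∑ j ∈ s, ∫ y, ker (x - y) * σ j y = θ * ∫ y in Oq R, ker (x - y) * ρ y := by
        rw [← integral_finsetSum _ fun j hj => hce.int_ker hj x, ← integral_const_mul,
          ← integral_indicator (d3_meas_Oq R)]
        refine integral_congr_ae (Filter.Eventually.of_forall fun y => ?_)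
        simp only
        rw [← Finset.mul_sum, hsum]
        by_cases hy : y ∈ Oq R
        · rw [Set.indicator_of_mem hy, Set.indicator_of_mem hy]
          ring
        · rw [Set.indicator_of_notMem hy, Set.indicator_of_notMem hy, mul_zero]
      have h3 : ∑ j ∈ s, (∫ y, σ j y) * ker (x - p j) = ∑ j ∈ s, n j * lam * ker (x - p j) :=
        Finset.sum_congr rfl fun j hj => by rw [hmass j hj]
      unfold cerr
      rw [Finset.sum_sub_distrib, h2, h3]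
      ring
    intro x
    have h3 := d3_quad_ker hρm hρB hρs R x
    rw [dens_pot (by linarith) (by linarith : L ≤ R) hF hF0] at h3
    rw [hv]
    unfold S4 at h3 ⊢
    simp only [h1]
    linear_combination (-θ) * h3
  have hpot : ∀ x, |ub R x + F x| ≤ 6 * B * R ^ 3 := fun x => by
    have h1 := d3_pot_le hρm hρB (by linarith : 10 ≤ R) x
    rwa [dens_pot (by linarith) (by linarith : L ≤ R) hF hF0, abs_neg] at h1
  refine ⟨pts, θ * R ^ 3, fun x => S4 (cerr s σ p) x + (θ - 1) * (ub R x + F x), fun _ => 0,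
    hne, fun i hi x => by rw [hv, hv, d3_S4_rf _ hi], fun x => by rw [key]; ring, ?_,
    measurable_const, fun _ => ⟨le_rfl, zero_le_one⟩, fun _ _ => rfl, ?_, fun x hx => ?_⟩
  · have h1 := d3_S4_small (hC hce (by positivity) (by linarith))
    have h2 : Small (fun x => (θ - 1) * (ub R x + F x)) (24 * B * t ^ 12) := by
      refine d3_small_bdd (((d3_meas_ub R).add hF.continuous.measurable).const_mul _) fun x => ?_
      rw [abs_mul, abs_sub_comm, abs_of_nonneg (by linarith : 0 ≤ 1 - θ), htl]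
      calc (1 - θ) * |ub R x + F x| ≤ (1 - θ) * (6 * B * R ^ 3) :=
            mul_le_mul_of_nonneg_left (hpot x) (by linarith)
        _ = 6 * B * ((1 - θ) * R ^ 3) := by ring
        _ ≤ 6 * B * (4 * lam) := by gcongr
        _ = 24 * B * lam := by ring
    rw [ht7]
    exact (h1.d3_add h2).d3_mono
      (d3_small_num hR2 hRB hC1 hCB ht (by linarith) (by positivity) hN1)
  · have h1 : 0 ≤ (1 - θ) * R ^ 3 := mul_nonneg (by linarith) (by positivity)
    rw [abs_sub_comm, abs_of_nonneg (by linarith)]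
    linarith
  · obtain ⟨h1, h2⟩ := d3_vac_num hR2 hRB ht htB hx hN1
    have hRx : R < nrm x := by
      have : 0 < 1 / 8 / R := by positivity
      linarith
    have h3 : |S4 (cerr s σ p) x| ≤ 1 / 2 / nrm x ^ 2 := by
      refine (d3_S4_le fun z hz => hce.vac (by positivity) h1 fun j hj y hy => ?_).trans h2
      have h4 : y ∈ Oq R := by
        by_contra hc
        have h5 := hsum y
        rw [Set.indicator_of_notMem hc,
          Finset.sum_eq_zero_iff_of_nonneg fun j _ => hce.nonneg j y] at h5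
        exact hy (h5 j hj)
      have h6 := nrm_add_le (z - y) y
      rw [sub_add_cancel, hz] at h6
      linarith [h4.1]
    have h7 : ub R x = -(R ^ 3 / nrm x) := if_neg (not_le.2 hRx)
    rw [key, h7, hF0 x (by linarith), add_zero]
    refine ⟨by rwa [show S4 (cerr s σ p) x + θ * -(R ^ 3 / nrm x) + θ * R ^ 3 / nrm x =
      S4 (cerr s σ p) x by ring], ?_⟩
    have h8 : 1 / 2 / nrm x ^ 2 ≤ 1 / 2 := div_le_self (by norm_num) (one_le_pow₀ (by linarith))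
    have h9 : (1 - θ) * R ^ 3 / nrm x ≤ (1 - θ) * R ^ 3 :=
      div_le_self (mul_nonneg (by linarith) (by positivity)) (by linarith)
    have h10 : θ * -(R ^ 3 / nrm x) = -(R ^ 3 / nrm x) + (1 - θ) * R ^ 3 / nrm x := by ring
    linarith [(abs_le.1 h3).2]

end Vale.Agent.P363
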