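import Vale.Agent.P363.DesH
import Vale.Agent.P363.LD
import Vale.Agent.P363.D4aA
import Vale.Agent.P363.D4aC

/-! Part D4a (see `skeleton/P363/PROOF.md`). -/

namespace Vale.Agent.P363

open MeasureTheory Vale.Agent.P370
open scoped ContDiff

/-- The size conditions used in this part. -/
structure D4aH (D : Des) : Prop where
  ok : D.OK
  n_ge : 2 ≤ D.n
  Ls_ge : 4 * Lc ≤ D.Ls
  eq : ∀ a, D.mass a = D.mass 0
  ge : ∀ a, 1 / D.n ^ 5 ≤ D.mass a
  small : 10 ^ 200 * D.n ^ 10 ≤ Real.exp D.n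

theorem d4a_ev : Ev D4aH := by
  refine ((((ev_ge 2).and ev_Ls).and (ev_Iz.and ev_mass)).and
    ((ev_poly' (10 ^ 200) 10).and (ev_P 1 one_pos))).mono ?_
  rintro D h ⟨⟨⟨h1, h2⟩, h3, h4⟩, h5, h6⟩
  rw [pow_one, one_mul] at h6
  refine ⟨h, h1, h2.1, fun a => (h4 a).1, fun a => le_trans ?_ (h4 a).2.1, h5.2.trans h6⟩
  have h7 : 0 < 1 / D.n ^ 5 := by have : 0 < D.n := by linarith
                                  positivity
  have h8 : (1 : ℝ) ≤ 4 * aw ^ 2 := by norm_num [aw]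
  nlinarith [h3.1]

namespace D4aH

variable {D : Des} (h : D4aH D)
include h

theorem n_pos : 0 < D.n := by linarith [h.n_ge]

theorem mass_pos (a : Fin 5) : 0 < D.mass a :=
  lt_of_lt_of_le (by have := h.n_pos; positivity) (h.ge a)

theorem inv_le (a : Fin 5) : 1 / D.mass a ≤ D.n ^ 5 := by
  have := h.n_pos
  rw [div_le_comm₀ (h.mass_pos a) (by positivity)]
  exact h.ge a

theorem S_eq {x : Pt} (hp : |pc x| ≤ Lc + aw + 4) (hq : |qc x| ≤ Lc + aw + 4) (hz : |x 2| ≤ 1) :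
    D.φ0 x ^ 2 = Real.exp (-((1 + D.Om) * x 2 ^ 2 + 2 * D.n * (7 - dd x))) := by
  have h1 : Lc + aw + 4 ≤ 2 * Lc := by norm_num [Lc, aw]
  rw [Des.φ0, h.ok.S_box h.Ls_ge (hp.trans h1) (hq.trans h1) hz, ← Real.exp_nat_mul]
  congr 1
  push_cast
  ring

theorem Om_ge : 48 * D.n ≤ 1 + D.Om := by
  have h1 := h.n_ge
  have h2 : (2 : ℝ) ^ 7 ≤ D.n ^ 7 := pow_le_pow_left₀ (by norm_num) h1 7
  have h3 : D.Om = D.n ^ 7 * D.n := by rw [Des.Om]; ring
  rw [h3]
  nlinarith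

theorem η_sq (a : Fin 5) (x : Pt) : D.η a x ^ 2 ≤ 25 * D.n ^ 5 * D.φ0 x ^ 2 := by
  have h1 := d4a_th_sq a x
  have h2 := h.inv_le a
  have h3 := h.mass_pos a
  rw [Des.η, div_pow, mul_pow, Real.sq_sqrt h3.le, div_eq_mul_one_div]
  calc _ ≤ D.φ0 x ^ 2 * 25 * D.n ^ 5 := by gcongr
    _ = _ := by ring

omit h in
theorem η_ne {a : Fin 5} {x : Pt} (hx : D.η a x ≠ 0) :
    |pc x| ≤ Lc + aw + 4 ∧ |qc x| ≤ Lc + aw + 4 ∧ |x 2| ≤ 1 := by
  have h1 := d4a_th_ne (a := a) (x := x) fun h0 => hx (by simp [Des.η, h0])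
  exact ⟨h1.1.le, h1.2.1.le, by linarith [h1.2.2]⟩

omit h in
theorem η_out (a : Fin 5) (x : Pt) (hx : x ∉ box (2 * Lc) (2 * Lc) (2 * Lc)) : D.η a x = 0 := by
  by_contra h0
  exact hx (d4a_box (η_ne h0).1 (η_ne h0).2.1 (η_ne h0).2.2)

theorem η_le (a : Fin 5) (x : Pt) : D.η a x ^ 2 ≤ 25 * D.n ^ 5 := by
  have h0 := h.n_pos
  by_cases hx : D.η a x = 0
  · rw [hx, sq, zero_mul]
    positivity
  refine (h.η_sq a x).trans (mul_le_of_le_one_right (by positivity) ?_)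
  rw [h.S_eq (η_ne hx).1 (η_ne hx).2.1 (η_ne hx).2.2, Real.exp_le_one_iff, neg_nonpos]
  have h1 := (dd_mem x).2
  have h2 := h.Om_ge
  have h3 : 0 ≤ 1 + D.Om := by linarith
  have h4 : 0 ≤ 7 - dd x := by linarith
  positivity

omit h in
theorem φ_ne {a : Fin 5} {x : Pt} (hx : D.φ a x ≠ 0) : x ∈ Aw a :=
  Set.mem_of_indicator_ne_zero hx

omit h in
theorem agree (a : Fin 5) {b : Fin 5} {x : Pt} (hx : x ∈ Aw b) : D.η a x = D.φ a x := by
  rw [Des.η, d4a_th_Aw a hx, Des.φ]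
  split_ifs with hab
  · subst hab
    rw [Set.indicator_of_mem hx, mul_one]
  · rw [Set.indicator_of_notMem (d4a_disj (Ne.symm hab) hx), mul_zero, zero_div]

theorem mφ (a : Fin 5) : Measurable (D.φ a) :=
  (h.ok.cd_φ0.continuous.measurable.div_const _).indicator (d4a_Aw_closed a).measurableSet

theorem cd_η (a : Fin 5) : ContDiff ℝ ∞ (D.η a) := (h.ok.cd_φ0.mul (cd_th a)).div_const _

theorem one (a : Fin 5) : ∫ x, D.φ a x ^ 2 = 1 := by
  have h1 : ∀ x, D.φ a x ^ 2 = (Aw a).indicator (fun x => D.φ0 x ^ 2 / D.mass a) x := fun x => by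
    rw [Des.φ]
    by_cases hx : x ∈ Aw a
    · rw [Set.indicator_of_mem hx, Set.indicator_of_mem hx, div_pow,
        Real.sq_sqrt (h.mass_pos a).le]
    · simp [Set.indicator_of_notMem hx]
  simp only [h1]
  rw [integral_indicator (d4a_Aw_closed a).measurableSet, integral_div]
  exact div_self (h.mass_pos a).ne'

theorem diff_le (a : Fin 5) (x : Pt) : (D.η a x - D.φ a x) ^ 2 ≤
    (box (2 * Lc) (2 * Lc) (2 * Lc)).indicator
      (fun _ => 25 * D.n ^ 5 * Real.exp (-(12 * D.n))) x := by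
  have h0 := h.n_pos
  have n0 : 0 ≤ (box (2 * Lc) (2 * Lc) (2 * Lc)).indicator
      (fun _ => 25 * D.n ^ 5 * Real.exp (-(12 * D.n))) x :=
    Set.indicator_nonneg (fun _ _ => by positivity) x
  by_cases h1 : ∃ b, x ∈ Aw b
  · obtain ⟨b, hb⟩ := h1
    rw [agree a hb, sub_self]
    simpa using n0
  push Not at h1
  rw [Des.φ, Set.indicator_of_notMem (h1 a), sub_zero]
  by_cases hx : D.η a x = 0
  · rw [hx]
    simpa using n0
  obtain ⟨k1, k2, k3⟩ := η_ne hx
  rw [Set.indicator_of_mem (d4a_box k1 k2 k3)]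
  refine (h.η_sq a x).trans (mul_le_mul_of_nonneg_left ?_ (by positivity))
  rw [h.S_eq k1 k2 k3, Real.exp_le_exp, neg_le_neg_iff]
  have h2 := h.Om_ge
  have h3 : 0 ≤ 1 + D.Om := by linarith
  by_cases hz : |x 2| ≤ 1 / 2
  · have h4 : dd x ≤ 1 := dd_le_one fun b => by
      by_contra h5
      push Not at h5
      exact h1 b ⟨h5.1.le, h5.2.le, hz⟩
    nlinarith [mul_nonneg h3 (sq_nonneg (x 2))]
  · have h4 : 1 / 4 ≤ x 2 ^ 2 := by nlinarith [sq_abs (x 2), abs_nonneg (x 2), not_le.1 hz]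
    have h5 := (dd_mem x).2
    nlinarith [mul_le_mul_of_nonneg_left h4 h3, mul_nonneg h0.le (sub_nonneg.2 h5)]

theorem diff_int (a : Fin 5) : Integrable (fun x => (D.η a x - D.φ a x) ^ 2) ∧
    ∫ x, (D.η a x - D.φ a x) ^ 2 ≤ 10 ^ 60 * D.n ^ 5 * Real.exp (-(12 * D.n)) := by
  have h0 := h.n_pos
  have hL : (0 : ℝ) ≤ 2 * Lc := by norm_num [Lc]
  have i1 : Integrable ((box (2 * Lc) (2 * Lc) (2 * Lc)).indicator
      fun _ : Pt => 25 * D.n ^ 5 * Real.exp (-(12 * D.n))) :=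
    (integrable_indicator_iff (measurableSet_box _ _ _)).2
      (integrableOn_const (isCompact_box _ _ _).measure_lt_top.ne)
  have i2 : Integrable fun x => (D.η a x - D.φ a x) ^ 2 :=
    i1.mono' ((((h.cd_η a).continuous.measurable.sub (h.mφ a)).pow_const 2).aestronglyMeasurable)
      (Filter.Eventually.of_forall fun x => by
        rw [Real.norm_of_nonneg (sq_nonneg _)]
        exact h.diff_le a x)
  refine ⟨i2, (integral_mono i2 i1 (h.diff_le a)).trans ?_⟩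
  rw [integral_indicator (measurableSet_box _ _ _), setIntegral_const, volume_box hL hL hL,
    smul_eq_mul]
  have h1 : 0 ≤ D.n ^ 5 * Real.exp (-(12 * D.n)) := by positivity
  norm_num [Lc]
  nlinarith

theorem tiny : D.n ^ 10 * Real.exp (-(12 * D.n)) ≤ 1 / 10 ^ 200 := by
  have h0 := h.n_pos
  have h1 : Real.exp (-(12 * D.n)) ≤ (Real.exp D.n)⁻¹ := by
    rw [← Real.exp_neg, Real.exp_le_exp]
    linarith
  refine (mul_le_mul_of_nonneg_left h1 (by positivity)).trans ?_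
  rw [← div_eq_mul_inv, div_le_div_iff₀ (Real.exp_pos _) (by norm_num)]
  linarith [h.small]

theorem tiny' : D.n ^ 5 * Real.exp (-(12 * D.n)) ≤ 1 / 10 ^ 200 := by
  refine le_trans (mul_le_mul_of_nonneg_right ?_ (Real.exp_pos _).le) h.tiny
  exact pow_le_pow_right₀ (by linarith [h.n_ge]) (by norm_num)

theorem orb : Orb D.φ D.η where
  bm a := ⟨h.mφ a, √(25 * D.n ^ 5), fun x => by
    by_cases hx : D.φ a x = 0
    · rw [hx, abs_zero]
      positivity
    · rw [← agree a (φ_ne hx)]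
      exact Real.abs_le_sqrt (h.η_le a x)⟩
  bdd := ⟨2 * Lc, fun a x hx => by
    have h1 := d4a_Aw_box (φ_ne hx)
    refine (pi_norm_le_iff_of_nonneg (by norm_num [Lc])).2 fun k => ?_
    fin_cases k
    exacts [h1.1, h1.2.1, h1.2.2]⟩
  nonneg a x := Set.indicator_nonneg
    (fun y _ => div_nonneg (Real.exp_pos _).le (Real.sqrt_nonneg _)) x
  disj a b x hab := by
    by_contra h0
    exact d4a_disj hab (φ_ne (left_ne_zero_of_mul h0)) (φ_ne (right_ne_zero_of_mul h0))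
  one := h.one
  symφ i hi a x := by
    rw [Des.φ, Des.φ]
    by_cases hx : x ∈ Aw a
    · rw [Set.indicator_of_mem hx, Set.indicator_of_mem ((d4a_Aw_rf hi a x).2 hx),
        d4a_phi0_rf h.ok hi, h.eq a, h.eq (pr i a)]
    · rw [Set.indicator_of_notMem hx, Set.indicator_of_notMem fun k => hx ((d4a_Aw_rf hi a x).1 k)]
  symη i hi a x := by
    rw [Des.η, Des.η, d4a_phi0_rf h.ok hi, d4a_th_rf hi, h.eq a, h.eq (pr i a)]
  quad x hx := d4a_quad (φ_ne hx)
  smooth a := ⟨h.cd_η a, HasCompactSupport.intro (isCompact_box _ _ _) (η_out a)⟩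
  agree a b x hx := agree a (φ_ne hx)
  close c := by
    refine (d4a_close (fun a => (h.diff_int a).1) (fun a => (h.diff_int a).2) c).trans
      (mul_le_mul_of_nonneg_right ?_ (by positivity))
    have := h.tiny'
    norm_num [tol] at this ⊢
    linarith
  tlow a b := by
    refine d4a_tlow (h.mφ a) (h.mφ b) (h.one a) (h.one b) fun x y hx hy hxy => ?_
    by_cases hab : a = b
    · subst hab
      exact d4a_near (φ_ne hx) (φ_ne hy) hxy
    · exact (d4a_far hab (φ_ne hx) (φ_ne hy) _).1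
  tup := by
    have hL : (0 : ℝ) < Lc := by norm_num [Lc]
    obtain ⟨u, u0, hu⟩ := d4a_tup h.mφ (fun a => (h.cd_η a).continuous.measurable)
      (fun a b x hab => by
        by_contra h0
        exact d4a_disj hab (φ_ne (left_ne_zero_of_mul h0)) (φ_ne (right_ne_zero_of_mul h0)))
      h.one (fun a b x hx => agree a (φ_ne hx)) (s := 2 * Lc) (by positivity) h.η_le η_out
      (fun a => (h.diff_int a).2) (W := fun a b => (Vm 0 a b + tol / 2) / Lc)
      fun a b hab x y hx hy => (d4a_far hab (φ_ne hx) (φ_ne hy) _).2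
    refine ⟨u * Lc, by positivity, fun d => (hu d).trans ?_⟩
    refine Finset.sum_le_sum fun a _ => Finset.sum_le_sum fun b _ =>
      mul_le_mul_of_nonneg_right ?_ (sq_nonneg _)
    have h1 : 50 * (25 * D.n ^ 5) * (7 + 8 * (2 * Lc) ^ 3) *
        (10 ^ 60 * D.n ^ 5 * Real.exp (-(12 * D.n))) ≤ tol / 2 / Lc := by
      have h2 := h.tiny
      have h3 : 50 * (25 * D.n ^ 5) * (7 + 8 * (2 * Lc) ^ 3) *
          (10 ^ 60 * D.n ^ 5 * Real.exp (-(12 * D.n))) = 50 * 25 * (7 + 8 * (2 * Lc) ^ 3) *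
          10 ^ 60 * (D.n ^ 10 * Real.exp (-(12 * D.n))) := by ring
      rw [h3]
      refine (mul_le_mul_of_nonneg_left h2 (by positivity)).trans ?_
      norm_num [tol, Lc]
    have h2 : (0 : ℝ) ≤ tol / 2 / Lc := by norm_num [tol, Lc]
    have h3 : (Vm (u * Lc) a b + tol) / Lc =
        (Vm (u * Lc) a b + tol / 2) / Lc + tol / 2 / Lc := by ring
    rw [h3]
    refine add_le_add ?_ h1
    split_ifs with hab
    · rw [Vm, if_pos hab, add_div, mul_div_cancel_right₀ _ hL.ne']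
      linarith
    · simp only [Vm, if_neg hab, le_refl]

end D4aH

/-- D4a -/
theorem orb_ev : Ev fun D => Orb D.φ D.η := d4a_ev.mono fun _ _ h => h.orb

end Vale.Agent.P363
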