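import Vale.Agent.P363.D4bM
import Vale.Agent.P363.D4bT
import Vale.Agent.P363.D4bC

/-! Part D4b (see `skeleton/P363/PROOF.md`). -/

namespace Vale.Agent.P363

open MeasureTheory Vale.Agent.P370
open scoped ContDiff

theorem d4b_pos : Ev fun D => ∀ ψ, C1c ψ → D.E1 * (∫ x, ψ x ^ 2) ≤ qV D.U ψ := by
  refine d4b_gsr.mono fun D _ h ψ hψ => ?_
  have h1 := h ψ hψ
  have h2 : 0 ≤ ∫ x in rot ⁻¹' B1, D.φ0 x ^ 2 * gsq (fun y => Real.exp (D.S y) * ψ y) x :=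
    integral_nonneg fun x => mul_nonneg (sq_nonneg _) (Finset.sum_nonneg fun _ _ => sq_nonneg _)
  have h3 : 0 ≤ ∫ x, D.Gam x * ψ x ^ 2 :=
    integral_nonneg fun x => mul_nonneg (D.Gam_mem x).1 (sq_nonneg _)
  linarith

/-- D4b -/
theorem obu_ev : Ev fun D => OBU D.U D.lam D.E1 D.P D.φ D.η D.ηt := by
  refine (d4b_pos.and (d4b_low.and (d4b_up.and (d4b_close.and (d4b_t1.and d4b_t2))))).mono ?_
  rintro D - ⟨h1, h2, h3, h4, ⟨a1, a2, a3, a4, a5, a6⟩, b1, b2⟩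
  exact ⟨h1, h2, h3, h4, a1, a2, a3, a6, b1, b2, a4, a5⟩

end Vale.Agent.P363
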