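import Vale.Agent.P363.Des
import Vale.Agent.P363.LD

/-! Part D5 (see `skeleton/P363/PROOF.md`). -/

namespace Vale.Agent.P363

open MeasureTheory Vale.Agent.P370
open scoped ContDiff

theorem d5_add {u v : Pt → ℝ} (hu : C1c u) (hv : C1c v) : C1c fun x => u x + v x :=
  ⟨hu.1.add hv.1, hu.2.add hv.2⟩

theorem d5_sub {u v : Pt → ℝ} (hu : C1c u) (hv : C1c v) : C1c fun x => u x - v x :=
  ⟨hu.1.sub hv.1, hu.2.sub hv.2⟩

theorem d5_smul {u : Pt → ℝ} (c : ℝ) (hu : C1c u) : C1c fun x => c * u x :=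
  ⟨contDiff_const.mul hu.1, hu.2.mul_left⟩

theorem d5_five (η : Fin 5 → Pt → ℝ) (c : Fin 5 → ℝ) : lc5 η c = fun x =>
    c 0 * η 0 x + c 1 * η 1 x + c 2 * η 2 x + c 3 * η 3 x + c 4 * η 4 x :=
  funext fun x => by rw [lc5, Fin.sum_univ_five]

theorem d5_lc {η : Fin 5 → Pt → ℝ} (h : ∀ a, C1c (η a)) (c : Fin 5 → ℝ) : C1c (lc5 η c) := by
  rw [d5_five]
  exact d5_add (d5_add (d5_add (d5_add (d5_smul _ (h 0)) (d5_smul _ (h 1))) (d5_smul _ (h 2)))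
    (d5_smul _ (h 3))) (d5_smul _ (h 4))

theorem d5_mem {u : Pt → ℝ} (hu : C1c u) : MemLp u 2 :=
  hu.1.continuous.memLp_of_hasCompactSupport hu.2

theorem d5_mem_pd {u : Pt → ℝ} (hu : C1c u) (k : Fin 3) : MemLp (pd k u) 2 :=
  ((hu.1.continuous_fderiv one_ne_zero).clm_apply continuous_const).memLp_of_hasCompactSupport
    (hu.2.fderiv_apply ℝ (ek k))

theorem d5_int_gsq {u : Pt → ℝ} (hu : C1c u) : Integrable (gsq u) :=
  integrable_finsetSum _ fun k _ => (d5_mem_pd hu k).integrable_sq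

theorem d5_gr {u : Pt → ℝ} (hu : C1c u) : ∑ k, ∫ x, gr1 u k x ^ 2 = ∫ x, gsq u x :=
  (integral_finsetSum _ fun k _ => (d5_mem_pd hu k).integrable_sq).symm

theorem d5_bdd {W : Pt → ℝ} (hm : Measurable W) {C : ℝ} (h : ∀ x, |W x| ≤ C) {u : Pt → ℝ}
    (hu : C1c u) : Integrable fun x => W x * u x ^ 2 :=
  (d5_mem hu).integrable_sq.bdd_mul hm.aestronglyMeasurable (Filter.Eventually.of_forall h)

/-- Quadratic forms on the core. -/
def d5Q (A : (Pt → ℝ) → ℝ) : Prop :=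
  (∀ u v, C1c u → C1c v → A (fun x => u x + v x) + A (fun x => u x - v x) = 2 * A u + 2 * A v) ∧
    ∀ c u, C1c u → A (fun x => c * u x) = c ^ 2 * A u

theorem d5Q_W {W : Pt → ℝ} (hW : ∀ ψ, C1c ψ → Integrable fun x => W x * ψ x ^ 2) :
    d5Q fun u => ∫ x, W x * u x ^ 2 := by
  refine ⟨fun u v hu hv => ?_, fun c u _ => ?_⟩
  · rw [← integral_add (hW _ (d5_add hu hv)) (hW _ (d5_sub hu hv)), ← integral_const_mul,
      ← integral_const_mul, ← integral_add ((hW _ hu).const_mul _) ((hW _ hv).const_mul _)]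
    congr 1
    funext x
    ring
  · rw [← integral_const_mul]
    exact integral_congr_ae (Filter.Eventually.of_forall fun x => by simp only; ring)

theorem d5Q_N : d5Q fun u => ∫ x, u x ^ 2 := by
  have h := d5Q_W (W := fun _ => 1) fun ψ hψ => by simpa using (d5_mem hψ).integrable_sq
  simpa using h

theorem d5Q_G : d5Q fun u => ∫ x, gsq u x := by
  refine ⟨fun u v hu hv => ?_, fun c u hu => ?_⟩
  · rw [← integral_add (d5_int_gsq (d5_add hu hv)) (d5_int_gsq (d5_sub hu hv)),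
      ← integral_const_mul, ← integral_const_mul,
      ← integral_add ((d5_int_gsq hu).const_mul _) ((d5_int_gsq hv).const_mul _)]
    congr 1
    funext x
    have h1 := hu.1.differentiable one_ne_zero x
    have h2 := hv.1.differentiable one_ne_zero x
    simp only [gsq, pd, fderiv_fun_add h1 h2, fderiv_fun_sub h1 h2, Fin.sum_univ_three,
      add_apply, sub_apply]
    ring
  · rw [← integral_const_mul]
    refine integral_congr_ae (Filter.Eventually.of_forall fun x => ?_)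
    have h1 := hu.1.differentiable one_ne_zero x
    simp only [gsq, pd, fderiv_const_mul h1, Fin.sum_univ_three,
      smul_apply, smul_eq_mul]
    ring

theorem d5Q.lin {A A' : (Pt → ℝ) → ℝ} (h : d5Q A) (h' : d5Q A') (a b : ℝ) :
    d5Q fun u => a * A u + b * A' u := by
  refine ⟨fun u v hu hv => ?_, fun c u hu => ?_⟩
  · linear_combination a * h.1 u v hu hv + b * h'.1 u v hu hv
  · linear_combination a * h.2 c u hu + b * h'.2 c u hu

theorem d5Q.add_le {A : (Pt → ℝ) → ℝ} (h : d5Q A) (p : ∀ u, C1c u → 0 ≤ A u) {u v : Pt → ℝ}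
    (hu : C1c u) (hv : C1c v) : A (fun x => u x + v x) ≤ 2 * A u + 2 * A v := by
  linarith [h.1 u v hu hv, p _ (d5_sub hu hv)]

theorem d5Q.sub_le {A : (Pt → ℝ) → ℝ} (h : d5Q A) (p : ∀ u, C1c u → 0 ≤ A u) {u v : Pt → ℝ}
    (hu : C1c u) (hv : C1c v) : A (fun x => u x - v x) ≤ 2 * A u + 2 * A v := by
  linarith [h.1 u v hu hv, p _ (d5_add hu hv)]

theorem d5Q.lc_le {A : (Pt → ℝ) → ℝ} (h : d5Q A) (p : ∀ u, C1c u → 0 ≤ A u)
    {η : Fin 5 → Pt → ℝ} (hη : ∀ a, C1c (η a)) {M : ℝ} (hM : ∀ a, A (η a) ≤ M) (c : Fin 5 → ℝ) :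
    A (lc5 η c) ≤ 16 * M * ∑ a, c a ^ 2 := by
  have s : ∀ a, C1c fun x => c a * η a x := fun a => d5_smul _ (hη a)
  have t : ∀ a, A (fun x => c a * η a x) ≤ M * c a ^ 2 := fun a => by
    rw [h.2 _ _ (hη a), mul_comm M]
    exact mul_le_mul_of_nonneg_left (hM a) (sq_nonneg _)
  have t0 : ∀ a, 0 ≤ M * c a ^ 2 := fun a => (p _ (s a)).trans (t a)
  have h1 := h.add_le p (s 0) (s 1)
  have h2 := h.add_le p (d5_add (s 0) (s 1)) (s 2)
  have h3 := h.add_le p (d5_add (d5_add (s 0) (s 1)) (s 2)) (s 3)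
  have h4 := h.add_le p (d5_add (d5_add (d5_add (s 0) (s 1)) (s 2)) (s 3)) (s 4)
  rw [d5_five, Fin.sum_univ_five]
  linarith [t 0, t 1, t 2, t 3, t 4, t0 2, t0 3, t0 4]

theorem d5_mem_lc {φ : Fin 5 → Pt → ℝ} (h : ∀ a, MemLp (φ a) 2) (c : Fin 5 → ℝ) :
    MemLp (lc5 φ c) 2 :=
  memLp_finsetSum (f := fun a x => c a * φ a x) _ fun a _ => (h a).const_mul _

theorem d5_close {φ η : Fin 5 → Pt → ℝ} (hφ : ∀ a, MemLp (φ a) 2) (hη : ∀ a, MemLp (η a) 2)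
    {M : ℝ} (hM : ∀ a, ∫ x, (η a x - φ a x) ^ 2 ≤ M) (c : Fin 5 → ℝ) :
    ∫ x, (lc5 η c x - lc5 φ c x) ^ 2 ≤ 5 * M * ∑ a, c a ^ 2 := by
  have h1 : ∀ a, Integrable fun x => (η a x - φ a x) ^ 2 := fun a =>
    ((hη a).sub (hφ a)).integrable_sq
  calc ∫ x, (lc5 η c x - lc5 φ c x) ^ 2 ≤ ∫ x, (∑ a, c a ^ 2) * ∑ a, (η a x - φ a x) ^ 2 := by
        refine integral_mono ((d5_mem_lc hη c).sub (d5_mem_lc hφ c)).integrable_sq
          ((integrable_finsetSum _ fun a _ => h1 a).const_mul _) fun x => ?_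
        have h2 : lc5 η c x - lc5 φ c x = ∑ a, c a * (η a x - φ a x) := by
          simp only [lc5, mul_sub, Finset.sum_sub_distrib]
        simp only [h2]
        exact Finset.sum_mul_sq_le_sq_mul_sq _ _ _
    _ ≤ _ := by
        rw [integral_const_mul, integral_finsetSum _ fun a _ => h1 a, mul_comm]
        refine mul_le_mul_of_nonneg_right ?_ (Finset.sum_nonneg fun _ _ => sq_nonneg _)
        rw [Fin.sum_univ_five]
        linarith [hM 0, hM 1, hM 2, hM 3, hM 4]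

theorem d5_tri {u v w : Pt → ℝ} (hu : MemLp u 2) (hv : MemLp v 2) (hw : MemLp w 2) :
    ∫ x, (u x - v x) ^ 2 ≤ 2 * (∫ x, (u x - w x) ^ 2) + 2 * ∫ x, (v x - w x) ^ 2 := by
  have h1 : Integrable fun x => (u x - w x) ^ 2 := (hu.sub hw).integrable_sq
  have h2 : Integrable fun x => (v x - w x) ^ 2 := (hv.sub hw).integrable_sq
  rw [← integral_const_mul, ← integral_const_mul, ← integral_add (h1.const_mul _) (h2.const_mul _)]
  refine integral_mono (hu.sub hv).integrable_sq ((h1.const_mul _).add (h2.const_mul _)) fun x => ?_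
  simp only
  nlinarith [sq_nonneg (u x + v x - 2 * w x)]

theorem d5_sq {φ : Fin 5 → Pt → ℝ} (h : ∀ a b x, a ≠ b → φ a x * φ b x = 0) (c : Fin 5 → ℝ)
    (x : Pt) : lc5 φ c x ^ 2 = ∑ a, c a ^ 2 * φ a x ^ 2 := by
  rw [lc5, sq, Finset.sum_mul_sum]
  refine Finset.sum_congr rfl fun a _ => ?_
  rw [Finset.sum_eq_single a (fun b _ hb => ?_) (by simp)]
  · ring
  · linear_combination c a * c b * h a b x hb.symm

section Orb

variable {φ η : Fin 5 → Pt → ℝ} (ho : Orb φ η)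
include ho

theorem d5_memφ (a : Fin 5) : MemLp (φ a) 2 :=
  (memLp_two_iff_integrable_sq (ho.bm a).1.aestronglyMeasurable).2
    (Integrable.of_integral_ne_zero (by rw [ho.one]; exact one_ne_zero))

theorem d5_norm (c : Fin 5 → ℝ) : ∫ x, lc5 φ c x ^ 2 = ∑ a, c a ^ 2 := by
  simp only [d5_sq ho.disj]
  rw [integral_finsetSum _ fun a _ => (d5_memφ ho a).integrable_sq.const_mul _]
  simp only [integral_const_mul, ho.one, mul_one]

theorem d5_proj {ψ : Pt → ℝ} (hψ : MemLp ψ 2) :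
    ∫ x, (ψ x - lc5 φ (co5 φ ψ) x) ^ 2 = (∫ x, ψ x ^ 2) - ∑ a, co5 φ ψ a ^ 2 := by
  have h1 : ∀ a, Integrable fun x => φ a x * ψ x := fun a => (d5_memφ ho a).integrable_mul hψ
  have h2 : ∀ x, (ψ x - lc5 φ (co5 φ ψ) x) ^ 2 = ψ x ^ 2 + lc5 φ (co5 φ ψ) x ^ 2 -
      ∑ a, 2 * co5 φ ψ a * (φ a x * ψ x) := fun x => by
    simp only [lc5, Fin.sum_univ_five]
    ring
  have h3 := (d5_mem_lc (d5_memφ ho) (co5 φ ψ)).integrable_sq
  simp only [h2]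
  have h5 : Integrable fun x => ψ x ^ 2 + lc5 φ (co5 φ ψ) x ^ 2 := hψ.integrable_sq.add h3
  rw [integral_sub h5 (integrable_finsetSum _ fun a _ => (h1 a).const_mul _),
    integral_add hψ.integrable_sq h3, d5_norm ho,
    integral_finsetSum _ fun a _ => (h1 a).const_mul _]
  simp only [integral_const_mul]
  have h4 : ∀ a, ∫ x, φ a x * ψ x = co5 φ ψ a := fun _ => rfl
  simp only [h4, Fin.sum_univ_five]
  ring

theorem d5_c1η (a : Fin 5) : C1c (η a) := ⟨(ho.smooth a).1.of_le (by simp), (ho.smooth a).2⟩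

theorem d5_agree (c : Fin 5 → ℝ) :
    ∫ x, lc5 η c x ^ 2 = (∑ a, c a ^ 2) + ∫ x, (lc5 η c x - lc5 φ c x) ^ 2 := by
  have h1 := d5_mem_lc (d5_memφ ho) c
  have h2 := d5_mem (d5_lc (d5_c1η ho) c)
  have h4 : Integrable fun x => (lc5 η c x - lc5 φ c x) ^ 2 := (h2.sub h1).integrable_sq
  rw [← d5_norm ho, ← integral_add h1.integrable_sq h4]
  congr 1
  funext x
  by_cases h : ∃ b, φ b x ≠ 0
  · obtain ⟨b, hb⟩ := h
    have h3 : lc5 η c x = lc5 φ c x := Finset.sum_congr rfl fun a _ => by rw [ho.agree a b x hb]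
    simp [h3]
  · push Not at h
    have h3 : lc5 φ c x = 0 := Finset.sum_eq_zero fun a _ => by rw [h a, mul_zero]
    simp [h3]

end Orb

theorem d5_K0 (c : Fin 5 → ℝ) : 0 ≤ K0 c ∧ K0 c ≤ 2 * ∑ a, c a ^ 2 ∧
    Kf c = K0 c + 2 * ∑ i : Fin 4, c i.succ ^ 2 := by
  refine ⟨mul_nonneg (by norm_num) (Finset.sum_nonneg fun _ _ => sq_nonneg _), ?_, rfl⟩
  have h1 : ∑ i : Fin 4, (c i.succ - c 0) ^ 2 ≤ ∑ i : Fin 4, (2 * c i.succ ^ 2 + 2 * c 0 ^ 2) :=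
    Finset.sum_le_sum fun i _ => by nlinarith [sq_nonneg (c i.succ + c 0)]
  have h2 : 0 ≤ ∑ i : Fin 4, c i.succ ^ 2 := Finset.sum_nonneg fun _ _ => sq_nonneg _
  rw [Finset.sum_add_distrib, ← Finset.mul_sum] at h1
  rw [K0, Fin.sum_univ_succ (f := fun a => c a ^ 2)]
  simp only [Finset.sum_const, Finset.card_univ, Fintype.card_fin, nsmul_eq_mul] at h1
  push_cast at h1
  linarith

/-- Expansion of the small potential around the span of the orbitals. -/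
theorem d5_exp {W : Pt → ℝ} {ε t e B : ℝ} {ηt : Fin 5 → Pt → ℝ} (h1 : Small W ε) (ht : 0 < t)
    (hε : ε * t ≤ 1) (hη : ∀ a, C1c (ηt a)) (disj : ∀ a b x, a ≠ b → ηt a x * ηt b x = 0)
    (hB : ∀ a, (∫ x, gsq (ηt a) x) + ∫ x, ηt a x ^ 2 ≤ B)
    (tun : ∀ a : Fin 5, a ≠ 0 → |(∫ x, W x * ηt a x ^ 2) - (∫ x, W x * ηt 0 x ^ 2) - 2 * e| ≤
      tol / 10 * e) (he : 0 ≤ e) {v : Pt → ℝ} (hv : C1c v) (c : Fin 5 → ℝ) :
    |(∫ x, W x * v x ^ 2) - (∫ x, W x * ηt 0 x ^ 2) * (∑ a, c a ^ 2) -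
      2 * e * ∑ i : Fin 4, c i.succ ^ 2| ≤ (tol / 10 * e + 16 * B * ε ^ 2 * t) * (∑ a, c a ^ 2) +
        2 / t * ((∫ x, gsq (fun x => v x - lc5 ηt c x) x) + ∫ x, (v x - lc5 ηt c x) ^ 2) := by
  have hχ := d5_lc hη c
  have hr := d5_sub hv hχ
  have pH : ∀ u, C1c u → 0 ≤ 1 * (∫ x, gsq u x) + 1 * ∫ x, u x ^ 2 := fun u _ => by
    have a1 : 0 ≤ ∫ x, gsq u x :=
      integral_nonneg fun x => Finset.sum_nonneg fun _ _ => sq_nonneg _
    have a2 : 0 ≤ ∫ x, u x ^ 2 := integral_nonneg fun x => sq_nonneg _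
    linarith
  have H1 := (d5Q_G.lin d5Q_N 1 1).lc_le pH hη (M := B) (fun a => by linarith [hB a]) c
  have H0 := pH _ hχ
  have H2 := pH _ hr
  obtain ⟨b1, b2⟩ := h1.bil (C1c.h1 hχ) (C1c.h1 hr)
  rw [d5_gr hχ, d5_gr hr] at b2
  have b3 : |∫ x, W x * (v x - lc5 ηt c x) ^ 2| ≤ _ := (abs_integral_le_integral_abs.trans
    (le_of_eq (by simp only [abs_mul, abs_pow, sq_abs]))).trans (h1.2 _ hr).2
  have b4 : ∫ x, W x * v x ^ 2 = (∫ x, W x * lc5 ηt c x ^ 2) +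
      2 * (∫ x, W x * (lc5 ηt c x * (v x - lc5 ηt c x))) + ∫ x, W x * (v x - lc5 ηt c x) ^ 2 := by
    have a1 : Integrable fun x => W x * lc5 ηt c x ^ 2 +
        2 * (W x * (lc5 ηt c x * (v x - lc5 ηt c x))) := (h1.2 _ hχ).1.add (b1.const_mul _)
    rw [← integral_const_mul, ← integral_add (h1.2 _ hχ).1 (b1.const_mul _),
      ← integral_add a1 (h1.2 _ hr).1]
    congr 1
    funext x
    ring
  have b5 : ∫ x, W x * lc5 ηt c x ^ 2 = ∑ a, c a ^ 2 * ∫ x, W x * ηt a x ^ 2 := by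
    simp only [d5_sq disj, Finset.mul_sum, ← integral_const_mul]
    rw [← integral_finsetSum _ fun a _ => (h1.2 _ (hη a)).1.const_mul _]
    congr 1
    funext x
    exact Finset.sum_congr rfl fun a _ => by ring
  have b6 : |(∑ a, c a ^ 2 * ∫ x, W x * ηt a x ^ 2) - (∫ x, W x * ηt 0 x ^ 2) * (∑ a, c a ^ 2) -
      2 * e * ∑ i : Fin 4, c i.succ ^ 2| ≤ tol / 10 * e * ∑ a, c a ^ 2 := by
    have a1 : (∑ a, c a ^ 2 * ∫ x, W x * ηt a x ^ 2) - (∫ x, W x * ηt 0 x ^ 2) * (∑ a, c a ^ 2) -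
        2 * e * ∑ i : Fin 4, c i.succ ^ 2 = ∑ i : Fin 4, c i.succ ^ 2 *
          ((∫ x, W x * ηt i.succ x ^ 2) - (∫ x, W x * ηt 0 x ^ 2) - 2 * e) := by
      rw [Fin.sum_univ_succ, Fin.sum_univ_succ (f := fun a => c a ^ 2)]
      simp only [mul_sub, Finset.sum_sub_distrib, ← Finset.sum_mul]
      ring
    have a2 : 0 ≤ tol / 10 * e := mul_nonneg (by unfold tol; norm_num) he
    rw [a1, Fin.sum_univ_succ (f := fun a => c a ^ 2), mul_add, Finset.mul_sum]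
    refine (Finset.abs_sum_le_sum_abs _ _).trans ((Finset.sum_le_sum fun i _ => ?_).trans
      (le_add_of_nonneg_left (mul_nonneg a2 (sq_nonneg _))))
    rw [abs_mul, abs_of_nonneg (sq_nonneg _), mul_comm]
    exact mul_le_mul_of_nonneg_right (tun _ (Fin.succ_ne_zero i)) (sq_nonneg _)
  rw [b4, b5]
  simp only [one_mul] at H0 H1 H2
  generalize (∫ x, gsq (lc5 ηt c) x) + ∫ x, lc5 ηt c x ^ 2 = X at *
  generalize (∫ x, gsq (fun x => v x - lc5 ηt c x) x) + ∫ x, (v x - lc5 ηt c x) ^ 2 = Y at *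
  generalize ∫ x, W x * (lc5 ηt c x * (v x - lc5 ηt c x)) = Z at *
  have b7 : |2 * Z| ≤ ε ^ 2 * t * X + Y / t := by
    refine abs_le_of_sq_le_sq' ?_ (by positivity) |> abs_le.2
    have a1 : (ε ^ 2 * t * X + Y / t) ^ 2 = (ε ^ 2 * t * X - Y / t) ^ 2 + 4 * (ε ^ 2 * X * Y) := by
      field_simp
      ring
    nlinarith [sq_nonneg (ε ^ 2 * t * X - Y / t)]
  have b8 : ε * Y ≤ Y / t := by
    rw [le_div_iff₀ ht]
    nlinarith
  have b9 : ε ^ 2 * t * X ≤ 16 * B * ε ^ 2 * t * ∑ a, c a ^ 2 := by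
    have := mul_le_mul_of_nonneg_left H1 (by positivity : 0 ≤ ε ^ 2 * t)
    linarith
  have b10 : 2 / t * Y = Y / t + Y / t := by ring
  rw [abs_le] at b3 b6 b7 ⊢
  constructor <;> linarith [b3.1, b3.2, b6.1, b6.2, b7.1, b7.2]

theorem d5_num {lam B ε : ℝ} (hB : 10 ^ 200 ≤ B) (hlam : 0 < lam) (hl : lam * B ^ 10 ≤ 1)
    (hε : 0 ≤ ε) (hε' : ε ^ 2 * B ^ 10 ≤ lam) : ε * B ^ 10 ≤ 1 ∧ ε * B ^ 3 ≤ 1 ∧
      lam * 10 ^ 30 ≤ gam ∧ ε * B ≤ gam / 2 ∧ 16 * B * ε ^ 2 * B ^ 3 ≤ tol / 10 * (lam / Lc) ∧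
      5 * ε * B ^ 2 * lam ≤ tol / 10 * (lam / Lc) ∧ (∀ H Q n : ℝ, 0 ≤ Q → 0 ≤ n →
        H ≤ 10 * B ^ 2 * Q + 200 * B ^ 2 * (lam * n) →
          2 / B ^ 3 * H ≤ tol / 100 * Q + tol / 10 * (lam / Lc) * n) := by
  have h1 : (1 : ℝ) ≤ B := le_trans (by norm_num) hB
  have h0 : 0 < B := by linarith
  have a1 : ε * B ^ 10 ≤ 1 := by
    have : (ε * B ^ 10) ^ 2 ≤ 1 := by nlinarith [pow_pos h0 10]
    nlinarith [mul_nonneg hε (pow_pos h0 10).le]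
  have p : ∀ i j : ℕ, i ≤ j → B ^ i ≤ B ^ j := fun i j h => pow_le_pow_right₀ h1 h
  have q : ∀ i : ℕ, i ≤ 9 → 10 ^ 200 * B ^ i ≤ B ^ 10 := fun i h =>
    calc 10 ^ 200 * B ^ i ≤ B * B ^ i := by gcongr
      _ = B ^ (i + 1) := by ring
      _ ≤ _ := p _ _ (by omega)
  refine ⟨a1, ?_, ?_, ?_, ?_, ?_, fun H Q n hQ hn hH => ?_⟩
  · nlinarith [p 3 10 (by norm_num)]
  · have := q 0 (by norm_num)
    unfold gam
    nlinarith
  · have := mul_le_mul_of_nonneg_left (q 1 (by norm_num)) hε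
    unfold gam
    nlinarith
  · have := mul_le_mul_of_nonneg_left (q 4 (by norm_num)) (sq_nonneg ε)
    unfold tol Lc
    nlinarith
  · have a2 := mul_le_mul_of_nonneg_left (q 2 (by norm_num)) hε
    have a3 : ε * B ^ 2 ≤ 1 / 10 ^ 200 := by linarith
    have := mul_le_mul_of_nonneg_right a3 hlam.le
    unfold tol Lc
    nlinarith
  · have a2 : 2 / B ^ 3 * (10 * B ^ 2 * Q + 200 * B ^ 2 * (lam * n)) =
        1 / B * (20 * Q + 400 * (lam * n)) := by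
      field_simp
      ring
    have a3 : 1 / B ≤ 1 / 10 ^ 200 := one_div_le_one_div_of_le (by norm_num) hB
    have a4 : 0 ≤ lam * n := mul_nonneg hlam.le hn
    have a5 := mul_le_mul_of_nonneg_left hH (by positivity : 0 ≤ 2 / B ^ 3)
    have a6 := mul_le_mul_of_nonneg_right a3 (by positivity : 0 ≤ 20 * Q + 400 * (lam * n))
    unfold tol Lc
    nlinarith

theorem d5_low {B lam e ε δ E n s s' K q Q Qr Qx Nr C H w w2 : ℝ} (hB : 10 ^ 200 ≤ B)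
    (hlam : 0 < lam) (he : 0 ≤ e) (he' : e ≤ lam) (n4 : ε * B ≤ gam / 2)
    (n5 : 16 * B * ε ^ 2 * B ^ 3 ≤ tol / 10 * e) (hδ : |δ| ≤ ε * B)
    (a2 : (E - tol / 10 * e) * n + e * K + 2 * gam * (n - s) ≤ q)
    (a3 : Nr ≤ 2 * (n - s) + 2 * C) (a4 : Qr ≤ 2 * Q + 2 * Qx) (a5 : H ≤ 2 * Qr + 5 * B * Nr)
    (a6 : -((tol / 10 * e + 16 * B * ε ^ 2 * B ^ 3) * s + 2 / B ^ 3 * H) ≤ w - δ * s - 2 * e * s')
    (a7 : 0 ≤ w2) (a8 : 0 ≤ n - s) (a9 : 0 ≤ s) (k1 : 0 ≤ K) (k2 : K ≤ 2 * s)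
    (a10 : H ≤ 10 * B ^ 2 * Q + 200 * B ^ 2 * (lam * n) →
      2 / B ^ 3 * H ≤ tol / 100 * Q + tol / 10 * e * n)
    (a11 : C ≤ 5 * (B * lam) * s) (a12 : Qx ≤ 16 * (B * lam) * s) (a13 : 0 ≤ Q)
    (a14 : Q = q - E * n) :
    (E + δ - tol * e) * n + e * (K + 2 * s') + gam * (n - s) ≤ q + w + w2 := by
  have hB1 : (1 : ℝ) ≤ B := le_trans (by norm_num) hB
  have hn : 0 ≤ n := by linarith
  have b1 : e * n ≤ lam * n := mul_le_mul_of_nonneg_right he' hn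
  have b2 : lam * s ≤ lam * n := mul_le_mul_of_nonneg_left (by linarith) hlam.le
  have b3 : 0 ≤ lam * s := mul_nonneg hlam.le a9
  have b4 : 0 ≤ e * K := mul_nonneg he k1
  have b5 : 0 ≤ e * n := mul_nonneg he hn
  have b6 : n - s ≤ 10 ^ 100 * (Q + lam * n) / 2 := by
    unfold tol gam at a2
    linarith
  have b7 : 10 ^ 100 * (Q + lam * n) ≤ B * (Q + lam * n) :=
    mul_le_mul_of_nonneg_right (le_trans (by norm_num) hB) (by linarith)
  have b8 : Nr ≤ B * (Q + lam * n) + 10 * B * (lam * n) := by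
    have := mul_le_mul_of_nonneg_left b2 (by linarith : 0 ≤ B)
    linarith
  have b9 : Qr ≤ 2 * Q + 32 * B * (lam * n) := by
    have := mul_le_mul_of_nonneg_left b2 (by linarith : 0 ≤ B)
    linarith
  have c1 := mul_le_mul_of_nonneg_left b8 (by linarith : 0 ≤ 5 * B)
  have c2 : B ≤ B ^ 2 := by nlinarith
  have c3 := mul_le_mul_of_nonneg_right c2 (by linarith : 0 ≤ lam * n)
  have c4 := mul_le_mul_of_nonneg_right (hB1.trans c2) a13
  have c5 : 0 ≤ B ^ 2 * (lam * n) := mul_nonneg (sq_nonneg _) (by linarith)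
  have c6 := a10 (by linarith)
  have c7 := mul_le_mul_of_nonneg_right n5 a9
  have c8 : δ * (n - s) ≤ gam / 2 * (n - s) :=
    mul_le_mul_of_nonneg_right ((le_abs_self δ).trans (hδ.trans n4)) a8
  have c9 : e * K ≤ 2 * (e * s) := by linarith [mul_le_mul_of_nonneg_left k2 he]
  have c10 : e * s ≤ e * n := mul_le_mul_of_nonneg_left (by linarith) he
  have c11 : 0 ≤ e * s := mul_nonneg he a9
  unfold tol gam at *
  linarith

theorem d5_up {B lam e ε δ E n s s' K q Q Qr Qx Nr C D H w : ℝ} (hB : 10 ^ 200 ≤ B)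
    (hlam : 0 < lam) (he : 0 ≤ e) (he' : e ≤ lam) (hε : 0 ≤ ε)
    (n5 : 16 * B * ε ^ 2 * B ^ 3 ≤ tol / 10 * e) (n6 : 5 * ε * B ^ 2 * lam ≤ tol / 10 * e)
    (hδ : |δ| ≤ ε * B) (a1 : n = s + D) (a2 : q ≤ E * n + e * K + tol / 10 * e * s)
    (a3 : Nr ≤ 2 * D + 2 * C) (a4 : Qr ≤ 2 * Q + 2 * Qx) (a5 : H ≤ 2 * Qr + 5 * B * Nr)
    (a6 : w - δ * s - 2 * e * s' ≤ (tol / 10 * e + 16 * B * ε ^ 2 * B ^ 3) * s + 2 / B ^ 3 * H)
    (a8 : 0 ≤ D) (a9 : 0 ≤ s) (k2 : K ≤ 2 * s)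
    (a10 : H ≤ 10 * B ^ 2 * 0 + 200 * B ^ 2 * (lam * s) →
      2 / B ^ 3 * H ≤ tol / 100 * 0 + tol / 10 * e * s)
    (a11 : C ≤ 5 * (B * lam) * s) (a12 : Qx ≤ 16 * (B * lam) * s) (a13 : D ≤ 5 * (B * lam) * s)
    (a14 : Q = q - E * n) :
    q + w + 0 ≤ (E + δ) * n + e * (K + 2 * s') + tol * e * s := by
  have hB1 : (1 : ℝ) ≤ B := le_trans (by norm_num) hB
  have b1 : e * s ≤ lam * s := mul_le_mul_of_nonneg_right he' a9
  have b3 : 0 ≤ lam * s := mul_nonneg hlam.le a9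
  have c9 : e * K ≤ 2 * (e * s) := by linarith [mul_le_mul_of_nonneg_left k2 he]
  have c11 : 0 ≤ e * s := mul_nonneg he a9
  have b6 : Q ≤ 3 * (lam * s) := by
    unfold tol at a2
    linarith
  have b8 : Nr ≤ 20 * B * (lam * s) := by linarith
  have c1 := mul_le_mul_of_nonneg_left b8 (by linarith : 0 ≤ 5 * B)
  have c2 : B ≤ B ^ 2 := by nlinarith
  have c3 := mul_le_mul_of_nonneg_right c2 b3
  have c4 := mul_le_mul_of_nonneg_right (hB1.trans c2) b3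
  have c6 := a10 (by linarith)
  have c7 := mul_le_mul_of_nonneg_right n5 a9
  have c8 : -δ * D ≤ ε * B * D := mul_le_mul_of_nonneg_right ((neg_le_abs δ).trans hδ) a8
  have c10 := mul_le_mul_of_nonneg_left a13 (mul_nonneg hε (by linarith : 0 ≤ B))
  have c12 := mul_le_mul_of_nonneg_right n6 a9
  subst a1
  unfold tol at *
  linarith

/-- D5a: perturbation of the one-body estimates. -/
theorem ob_pert {U W₁ W₂ V : Pt → ℝ} {lam E B ε : ℝ} {φ η ηt : Fin 5 → Pt → ℝ} (ho : Orb φ η)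
    (h : OBU U lam E B φ η ηt) (mU : Measurable U) (hU : ∀ x, |U x| ≤ B) (hE : |E| ≤ B)
    (hB : 10 ^ 200 ≤ B) (hlam : 0 < lam) (hl : lam * B ^ 10 ≤ 1) (hε : 0 ≤ ε)
    (hε' : ε ^ 2 * B ^ 10 ≤ lam) (hV : ∀ x, V x = U x + W₁ x + W₂ x) (h1 : Small W₁ ε)
    (m2 : Measurable W₂) (h2 : ∀ x, 0 ≤ W₂ x ∧ W₂ x ≤ 1) (h3 : ∀ x, nrm x ≤ 3 * Lc → W₂ x = 0)
    (fb : FB V) (sym : ∀ i : Fin 3, i ≠ 2 → ∀ x, V (rf i x) = V x)
    (tun : ∀ a : Fin 5, a ≠ 0 → |(∫ x, W₁ x * ηt a x ^ 2) - (∫ x, W₁ x * ηt 0 x ^ 2) -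
      2 * (lam / Lc)| ≤ tol / 10 * (lam / Lc)) :
    OB V lam (E + ∫ x, W₁ x * ηt 0 x ^ 2) φ η := by
  obtain ⟨-, n2, n3, n4, n5, n6, n7⟩ := d5_num hB hlam hl hε hε'
  have hB1 : (1 : ℝ) ≤ B := le_trans (by norm_num) hB
  have hB0 : 0 < B := by linarith
  have he : 0 ≤ lam / Lc := div_nonneg hlam.le (by unfold Lc; norm_num)
  have he' : lam / Lc ≤ lam := div_le_self hlam.le (by unfold Lc; norm_num)
  have ct : ∀ a, C1c (ηt a) := fun a => ⟨(h.smooth a).1.of_le (by simp), (h.smooth a).2⟩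
  have iU : ∀ ψ, C1c ψ → Integrable fun x => U x * ψ x ^ 2 := fun ψ => d5_bdd mU hU
  have iW : ∀ ψ, C1c ψ → Integrable fun x => W₂ x * ψ x ^ 2 := fun ψ =>
    d5_bdd m2 (C := 1) fun x => abs_le.2 ⟨by linarith [(h2 x).1], (h2 x).2⟩
  obtain ⟨Q, hQ⟩ : ∃ Q : (Pt → ℝ) → ℝ, ∀ u, Q u = qV U u - E * ∫ x, u x ^ 2 := ⟨_, fun _ => rfl⟩
  have qQ : d5Q Q := by
    have a1 := (d5Q_G.lin (d5Q_W iU) (1 / 2) 1).lin d5Q_N 1 (-E)
    have a2 : Q = fun u => 1 * (1 / 2 * (∫ x, gsq u x) + 1 * ∫ x, U x * u x ^ 2) +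
        -E * ∫ x, u x ^ 2 := funext fun u => by rw [hQ, qV]; ring
    rw [a2]
    exact a1
  have pQ : ∀ u, C1c u → 0 ≤ Q u := fun u hu => by linarith [hQ u, h.pos u hu]
  have Qχ := qQ.lc_le pQ ct (M := B * lam) fun a => by linarith [hQ (ηt a), h.en a]
  have hH : ∀ u, C1c u → (∫ x, gsq u x) + ∫ x, u x ^ 2 ≤ 2 * Q u + 5 * B * ∫ x, u x ^ 2 := by
    intro u hu
    have a1 : -B * ∫ x, u x ^ 2 ≤ ∫ x, U x * u x ^ 2 := by
      rw [← integral_const_mul]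
      exact integral_mono ((d5_mem hu).integrable_sq.const_mul _) (iU u hu) fun x =>
        mul_le_mul_of_nonneg_right (abs_le.1 (hU x)).1 (sq_nonneg _)
    have a2 : 0 ≤ ∫ x, u x ^ 2 := integral_nonneg fun x => sq_nonneg _
    have a3 := mul_le_mul_of_nonneg_right (abs_le.1 hE).2 a2
    have a4 := mul_le_mul_of_nonneg_right hB1 a2
    rw [hQ, qV]
    linarith
  have hqV : ∀ u, C1c u → qV V u = qV U u + (∫ x, W₁ x * u x ^ 2) + ∫ x, W₂ x * u x ^ 2 := by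
    intro u hu
    have a1 : ∫ x, V x * u x ^ 2 =
        (∫ x, U x * u x ^ 2) + (∫ x, W₁ x * u x ^ 2) + ∫ x, W₂ x * u x ^ 2 := by
      have a0 : Integrable fun x => U x * u x ^ 2 + W₁ x * u x ^ 2 := (iU u hu).add (h1.2 u hu).1
      rw [← integral_add (iU u hu) (h1.2 u hu).1, ← integral_add a0 (iW u hu)]
      congr 1
      funext x
      rw [hV]
      ring
    rw [qV, qV, a1]
    ring
  have hδ : |∫ x, W₁ x * ηt 0 x ^ 2| ≤ ε * B :=
    ((abs_integral_le_integral_abs.trans (le_of_eq (by simp only [abs_mul, abs_pow, sq_abs]))).trans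
      (h1.2 _ (ct 0)).2).trans (mul_le_mul_of_nonneg_left (h.h1 0) hε)
  have cl := d5_close (d5_memφ ho) (fun a => d5_mem (ct a)) h.close
  have ex := fun v (hv : C1c v) c => d5_exp h1 (pow_pos hB0 3) n2 ct h.disj h.h1 tun he hv c
  have ht : 0 < tol := by unfold tol; norm_num
  have ht' : tol ≤ 1 := by unfold tol; norm_num
  refine ⟨ho, fb, sym, hlam, n3, fun ψ hψ => ?_, fun c => ?_⟩
  · obtain ⟨c, hc⟩ : ∃ c, c = co5 φ ψ := ⟨_, rfl⟩
    have a1 := d5_proj ho (d5_mem hψ)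
    have a2 := h.low ψ hψ
    rw [← hc] at a1 a2 ⊢
    have hr := d5_sub hψ (d5_lc ct c)
    have a3 := d5_tri (d5_mem hψ) (d5_mem (d5_lc ct c)) (d5_mem_lc (d5_memφ ho) c)
    have a4 := qQ.sub_le pQ hψ (d5_lc ct c)
    have a5 := hH _ hr
    have a6 := (abs_le.1 (ex ψ hψ c)).1
    have a7 : 0 ≤ ∫ x, W₂ x * ψ x ^ 2 := integral_nonneg fun x => mul_nonneg (h2 x).1 (sq_nonneg _)
    have a8 : 0 ≤ ∫ x, (ψ x - lc5 φ c x) ^ 2 := integral_nonneg fun x => sq_nonneg _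
    have a9 : 0 ≤ ∑ a, c a ^ 2 := Finset.sum_nonneg fun _ _ => sq_nonneg _
    obtain ⟨k1, k2, k3⟩ := d5_K0 c
    have a10 := n7 ((∫ x, gsq (fun x => ψ x - lc5 ηt c x) x) + ∫ x, (ψ x - lc5 ηt c x) ^ 2) (Q ψ)
      (∫ x, ψ x ^ 2) (pQ ψ hψ) (by linarith)
    have a11 := cl c
    have a12 := Qχ c
    have a13 := pQ ψ hψ
    have a14 := hQ ψ
    rw [hqV ψ hψ, k3]
    rw [a1] at a3 a8
    exact d5_low hB hlam he he' n4 n5 hδ a2 a3 a4 a5 a6 a7 a8 a9 k1 k2 a10 a11 a12 a13 a14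
  · have hv := d5_lc (d5_c1η ho) c
    have hr := d5_sub hv (d5_lc ct c)
    have a1 := d5_agree ho c
    have a2 := h.up c
    have a3 := d5_tri (d5_mem hv) (d5_mem (d5_lc ct c)) (d5_mem_lc (d5_memφ ho) c)
    have a4 := qQ.sub_le pQ hv (d5_lc ct c)
    have a5 := hH _ hr
    have a6 := (abs_le.1 (ex _ hv c)).2
    have a7 : ∫ x, W₂ x * lc5 η c x ^ 2 = 0 := by
      refine integral_eq_zero_of_ae (Filter.Eventually.of_forall fun x => ?_)
      by_cases b1 : ∃ a, η a x ≠ 0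
      · obtain ⟨a, ha⟩ := b1
        simp [h3 x (h.suppη a x ha)]
      · push Not at b1
        simp [lc5, b1]
    have a8 : 0 ≤ ∫ x, (lc5 η c x - lc5 φ c x) ^ 2 := integral_nonneg fun x => sq_nonneg _
    have a9 : 0 ≤ ∑ a, c a ^ 2 := Finset.sum_nonneg fun _ _ => sq_nonneg _
    obtain ⟨k1, k2, k3⟩ := d5_K0 c
    have a10 := n7 ((∫ x, gsq (fun x => lc5 η c x - lc5 ηt c x) x) +
      ∫ x, (lc5 η c x - lc5 ηt c x) ^ 2) 0 (∑ a, c a ^ 2) le_rfl a9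
    have a11 := cl c
    have a12 := Qχ c
    have a13 := d5_close (d5_memφ ho) (fun a => d5_mem (d5_c1η ho a)) h.closeη c
    have a14 := hQ (lc5 η c)
    rw [hqV _ hv, k3, a7]
    exact d5_up hB hlam he he' hε n5 n6 hδ a1 a2 a3 a4 a5 a6 a8 a9 k2 a10 a11 a12 a13 a14

end Vale.Agent.P363
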