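import Vale.Agent.P363.D6b

/-! Part D6 (see `skeleton/P363/PROOF.md`). -/

namespace Vale.Agent.P363

open MeasureTheory Vale.Agent.P370 D26
open scoped ContDiff

namespace D26

variable {D : Des}

theorem d6_gsqG (h : D.OK) (hK : 0 < D.Kp) (x : Pt) : gsq D.G x =
    (1 - Real.smoothTransition (gK D.Kp (D.Zf x) + D.Yf x + 7 * D.n - D.s1)) ^ 2 *
      ∑ k, ((1 - D.Kp / max (D.Zf x) D.Kp) * pd k D.Zf x + pd k D.Yf x) ^ 2 := by
  have d1 : DifferentiableAt ℝ (fun y => gK D.Kp (D.Zf y)) x :=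
    (d6_gK hK _).differentiableAt.comp x (h.sm_Zf.da x)
  have d2 := d1.fun_add (D.sm_Yf.da x)
  rw [gsq, Finset.mul_sum]
  refine Finset.sum_congr rfl fun k _ => ?_
  rw [← mul_pow, ← d2_comp (d6_gK hK _) (h.sm_Zf.da x), ← d2_add d1 (D.sm_Yf.da x)]
  have e := d2_add d2 (differentiableAt_const (7 * D.n)) k
  rw [d2_pd_const, add_zero] at e
  rw [← e, ← d2_comp (f := fun y => gK D.Kp (D.Zf y) + D.Yf y + 7 * D.n) (frz_hasDerivAt _ _)
    (d2.add_const _)]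
  rfl

theorem d6_R (h : D.OK) (h1 : 4 * Lc ≤ D.n) (h2 : Num D (100 * CW)) : 20 * D.n ≤ D.R ∧
    D.Lg ≤ D.R ∧ 4 * Lc ≤ D.Ls ∧ 4 * D.Kp * Real.log (D.R + 1) ≤ √D.n := by
  obtain ⟨t1, t2, t3, -⟩ := d2_size h1
  have a1 : D.n ^ 3 ≤ D.Lg := h.L_le
  have a2 := h2.ll
  have a3 : Real.log (D.R + 1) ≤ Real.log (D.n * D.Lg) :=
    Real.log_le_log (by rw [Des.R]; linarith) (by rw [Des.R]; nlinarith)
  have a4 : 0 ≤ Real.log (D.R + 1) := Real.log_nonneg (by rw [Des.R]; linarith)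
  have a5 := Real.log_nonneg h2.n_ge
  have a6 := mul_le_mul_of_nonneg_left a3 a5
  have a7 := mul_nonneg a5 a4
  refine ⟨by rw [Des.R]; linarith, by rw [Des.R]; linarith, by rw [Des.Ls]; linarith, ?_⟩
  rw [Des.Kp]
  nlinarith [CW_ge]

theorem d6_far (h : D.OK) (hL : 4 * Lc ≤ D.Ls) (hK : 1 ≤ D.Kp) {x : Pt} (hx : D.Lg ≤ nrm x)
    (h2 : 2 ≤ nrm x) : 1 / 2 * nrm x ^ 2 + 7 * D.n - 4 * D.Kp * Real.log (nrm x) ≤
      gK D.Kp (D.Zf x) + D.Yf x + 7 * D.n := by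
  have a1 := h.S_far hL hx
  have hZ := h.Zf_nonneg x
  have a2 := d6_gK_ge hK hZ
  have a3 : Real.log (1 + D.Zf x) ≤ 2 * Real.log (nrm x) := by
    rw [show (2 : ℝ) = (2 : ℕ) from rfl, ← Real.log_pow]
    refine Real.log_le_log (by linarith) ?_
    rw [Des.Zf, h.out x hx]
    nlinarith [d2_nrm_sq x, sq_nonneg (x 0), sq_nonneg (x 1)]
  rw [Des.S] at a1
  nlinarith

theorem d6_frozen (h : D.OK) (h1 : 4 * Lc ≤ D.n) (h2 : Num D (100 * CW)) {x : Pt}
    (hx : D.R + 1 ≤ nrm x) : gsq D.G x = 0 := by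
  obtain ⟨-, s2, s3, -⟩ := d6_num h1 h2
  obtain ⟨t1, t2, -⟩ := d2_size h1
  obtain ⟨r1, r2, r3, r4⟩ := d6_R h h1 h2
  have a1 := d6_far h r3 (by linarith) (x := x) (by linarith) (by linarith)
  have a2 : Real.log (nrm x) - Real.log (D.R + 1) ≤ (nrm x - D.R) / (D.R + 1) := by
    rw [← Real.log_div (by linarith) (by linarith)]
    refine (Real.log_le_sub_one_of_pos (div_pos (by linarith) (by linarith))).trans ?_
    rw [div_sub_one (by linarith)]
    exact div_le_div_of_nonneg_right (by linarith) (by linarith)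
  have a3 : 4 * D.Kp * ((nrm x - D.R) / (D.R + 1)) ≤ 4 * (nrm x - D.R) := by
    rw [← mul_div_assoc, div_le_iff₀ (by linarith)]
    nlinarith
  have a4 : √D.n ≤ D.n := Real.sqrt_le_iff.2 ⟨by linarith, t2⟩
  have a5 : (D.R + 1 / D.R) ^ 2 ≤ D.R ^ 2 + 3 := by
    have : 1 / D.R ≤ 1 := (div_le_one (by linarith)).2 (by linarith)
    have : D.R * (1 / D.R) = 1 := mul_one_div_cancel (by linarith)
    have : 0 ≤ 1 / D.R := div_nonneg zero_le_one (by linarith)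
    nlinarith
  have a6 := mul_le_mul_of_nonneg_left a2 (show 0 ≤ 4 * D.Kp by linarith)
  rw [d6_gsqG h (by linarith), Real.smoothTransition.one_of_one_le, sub_self, zero_pow two_ne_zero,
    zero_mul]
  rw [Des.s1]
  nlinarith [mul_le_mul_of_nonneg_left (show 1 ≤ nrm x - D.R by linarith)
    (show 0 ≤ D.R - 4 by linarith), sq_nonneg (nrm x - D.R)]

theorem d6_gsqG_le (h : D.OK) (hK : 0 < D.Kp) (x : Pt) : gsq D.G x ≤
    ∑ k, ((1 - D.Kp / max (D.Zf x) D.Kp) * pd k D.Zf x + pd k D.Yf x) ^ 2 := by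
  rw [d6_gsqG h hK]
  exact mul_le_of_le_one_left (by positivity) (pow_le_one₀
    (sub_nonneg.2 (Real.smoothTransition.le_one _)) (sub_le_self _ (Real.smoothTransition.nonneg _)))

theorem d6_Gd (h : D.OK) (h1 : 4 * Lc ≤ D.n) (h2 : Num D (100 * CW)) (x : Pt) :
    gsq D.G x ≤ 200 * D.R ^ 18 := by
  obtain ⟨-, s2, -, -, s5, -, -, s8⟩ := d6_num h1 h2
  obtain ⟨t1, t2, -⟩ := d2_size h1
  obtain ⟨r1, -⟩ := d6_R h h1 h2
  rcases le_total (D.R + 1) (nrm x) with hx | hx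
  · rw [d6_frozen h h1 h2 hx]
    exact mul_nonneg (by norm_num) (pow_nonneg (by linarith) _)
  have hR : 1 ≤ D.R := by linarith
  have a1 := (d6_gsqZ h (by linarith [Lc_pos]) x).2
  have hc := h.nonneg x
  have a2 : 1 + D.c x ≤ 2 * D.R ^ 8 := by
    have : D.Om ≤ D.R ^ 8 := pow_le_pow_left₀ (by linarith) (by linarith) 8
    linarith [h.le x, one_le_pow₀ hR (n := 8)]
  have a3 : ∀ k, |x k| ≤ 2 * D.R := fun k => by linarith [abs_le_nrm x k]
  have a4 : ((1 + D.c x) * |x 2|) ^ 2 ≤ (2 * D.R ^ 8 * (2 * D.R)) ^ 2 := by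
    gcongr
    exact a3 2
  rw [mul_pow, sq_abs] at a4
  have a5 : ∀ k, pd k D.Yf x ^ 2 ≤ (3 * D.R ^ 2) ^ 2 := fun k => by
    have b1 := (D.sm_Wd2.abs_pd k x).trans (D.Wd2_le (by linarith) (by norm_num) x)
    have b2 : |![1, 1, 0] k * x k| ≤ 2 * D.R := by
      have := a3 k
      fin_cases k <;> simp at this ⊢ <;> linarith
    have b3 : |pd k D.Yf x| ≤ 3 * D.R ^ 2 := by
      rw [d6_pdY]
      refine (abs_sub _ _).trans ?_
      nlinarith
    exact sq_le_sq' (abs_le.1 b3).1 (abs_le.1 b3).2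
  have a6 : D.R ^ 4 ≤ D.R ^ 18 := pow_le_pow_right₀ hR (by norm_num)
  have a7 := gK_int_mem (show 0 < D.Kp by linarith) (D.Zf x)
  refine (d6_gsqG_le h (by linarith) x).trans ((Finset.sum_le_sum
    (g := fun k => 2 * pd k D.Zf x ^ 2 + 2 * (3 * D.R ^ 2) ^ 2) fun k _ => ?_).trans ?_)
  · have := mul_le_of_le_one_left (sq_nonneg (pd k D.Zf x)) (pow_le_one₀ a7.1 a7.2 (n := 2))
    nlinarith [a5 k, sq_nonneg ((1 - D.Kp / max (D.Zf x) D.Kp) * pd k D.Zf x - pd k D.Yf x)]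
  · rw [gsq, Des.Zf] at a1
    simp only [Fin.sum_univ_three] at a1 ⊢
    nlinarith

theorem d6_pt (h : D.OK) (h1 : 4 * Lc ≤ D.n) (h2 : Num D (100 * CW)) (hP : 5 * D.n ^ 2 ≤ D.P)
    (x : Pt) : 4 ≤ (1 + (20 * D.Om)⁻¹ * Real.exp (D.Zf x))⁻¹ * (lap D.Zf x - gsq D.Zf x) / 2 +
      (D.U x - D.E1) - 1 / 2 * gsq D.G x + D.N.indicator (fun _ => D.P) x := by
  obtain ⟨-, s2, s3, -, s5, -, s7, -⟩ := d6_num h1 h2
  obtain ⟨t1, t2, -⟩ := d2_size h1
  obtain ⟨r1, r2, r3, -⟩ := d6_R h h1 h2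
  have hu := d6_ub_ge (R := D.R) (by linarith) x
  rcases le_total (nrm x) (D.R + 1) with hx | hx
  · have a1 := d6_W h h1 h2 hP x
    have a2 := d6_gsqG_le h (by linarith) x
    have a3 := hu.1 hx
    rw [nrm_sq'] at a3
    rw [Des.U, Des.F, Des.E1]
    linarith
  have hL : 0 < D.Ls := by linarith [Lc_pos]
  have a1 := (d6_gsqZ h hL x).2
  have a2 := (d6_lapZ h hL x).1
  have hZ := h.Zf_nonneg x
  have hΩ : 0 < D.Om := by linarith
  have θ0 : 0 ≤ (1 + (20 * D.Om)⁻¹ * Real.exp (D.Zf x))⁻¹ := by positivity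
  have θ1 : (1 + (20 * D.Om)⁻¹ * Real.exp (D.Zf x))⁻¹ * D.Zf x ≤ D.Kp := by
    rcases le_total D.Kp (D.Zf x) with hK | hK
    · have := d6_th (K := D.Kp) t1 rfl (by linarith) hK
      rw [le_div_iff₀ (by linarith)] at this
      rw [Des.Om] at θ0 ⊢
      nlinarith [mul_nonneg θ0 hZ]
    · exact (mul_le_of_le_one_left hZ
        (inv_le_one_of_one_le₀ (le_add_of_nonneg_right (by positivity)))).trans hK
  have hI : 0 ≤ D.N.indicator (fun _ => D.P) x :=
    Set.indicator_nonneg (fun _ _ => by nlinarith) x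
  have a3 := hu.2 (by linarith)
  rw [h.out x (by linarith)] at a1
  rw [d6_frozen h h1 h2 hx, Des.U, h.F_far r3 (by linarith), Des.E1]
  have a4 := mul_le_mul_of_nonneg_left a1 θ0
  have a5 := mul_nonneg θ0 a2
  have a6 := Real.sqrt_nonneg D.n
  nlinarith

theorem d6_N (h1 : 4 * Lc ≤ D.n) (h2 : Num D (100 * CW)) (h : D.OK) {x : Pt} (hx : x ∈ D.N) :
    nrm x ≤ 3 * Lc ∧ D.G x ≤ D.n * (7 - dd x) := by
  obtain ⟨-, s2, -, -, s5, -, s7, -⟩ := d6_num h1 h2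
  obtain ⟨a1, a2, a3⟩ := hx
  have hz : |x 2| ≤ 1 := by
    rw [← sq_le_one_iff_abs_le_one]
    nlinarith [sq_nonneg (x 2)]
  have a4 := nrm_le_of (x := x) (by linarith) (by linarith) (by linarith)
  refine ⟨a4, (frz_le _ _).1.trans ?_⟩
  rw [gK_zero (by linarith), D.Yf_box a1 a2 hz]
  · linarith
  · rw [Des.Zf, h.core x (by linarith)]
    linarith

end D26

/-- D6 -/
theorem wt_ev : Ev fun D => Wt D.U D.E1 D.R D.P D.sm D.nu D.G D.φ D.N Apl := by
  refine (((ev_ge (4 * Lc)).and (ev_num (100 * CW) (by linarith [CW_ge]))).and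
    (((ev_poly' 200 18).and (ev_poly' 5 2)).and ((ev_poly' 1 5).and (ev_Iz.and ev_mass)))).mono
    fun D h ⟨⟨h1, h2⟩, ⟨p1, p2⟩, p3, p4, p5⟩ => ?_
  obtain ⟨-, s2, -, -, -, -, s7, -⟩ := d6_num h1 h2
  obtain ⟨t1, t2, -⟩ := d2_size h1
  obtain ⟨r1, r2, r3, r4⟩ := d6_R h h1 h2
  have hK : 0 < D.Kp := by linarith
  have G1 : ContDiff ℝ 1 D.G := (d6_frz1 _).comp ((((d6_gK1 hK).comp (h.sm_Zf.of_le (by simp))).add
    (D.sm_Yf.of_le (by simp))).add contDiff_const)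
  have cp := sm_pc.continuous
  have cq := sm_qc.continuous
  have mN : MeasurableSet D.N := ((isClosed_le cp.abs (continuous_const (y := 2 * Lc))).inter
    ((isClosed_le cq.abs (continuous_const (y := 2 * Lc))).inter (isClosed_le
      (f := fun x : Pt => (1 + D.Om) * x 2 ^ 2) (by fun_prop)
      (continuous_const (y := 2 * D.Kp))))).measurableSet
  refine ⟨G1, ⟨D.s1 + 1, fun x => ?_⟩, fun x => (d6_Gd h h1 h2 x).trans p1.1, fun v hv =>
    d6_ag h.sm_Zf (inv_nonneg.2 (by linarith)) ((d6_ub (by linarith)).add h.cd_F.continuous) G1 mN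
      (d6_pt h h1 h2 p2.2) hv, mN, ((isClosed_le (cp.sub continuous_const).abs
        continuous_const).inter (isClosed_le cq.abs continuous_const)).measurableSet,
    fun x ⟨a1, a2⟩ => ?_, fun x hx => by linarith [(d6_N h1 h2 h hx).1, Lc_pos],
    fun x hx => ?_, fun x hx => ?_, fun i x _ => ?_, fun x hx => ?_⟩
  · rw [Des.G, abs_of_nonneg (d6_frz0 (by rw [Des.s1]; positivity) ?_)]
    · exact (frz_le _ _).2
    · linarith [(gK_mem hK (h.Zf_nonneg x)).1, D.Yf_ge (by linarith) x]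
  · have b1 := abs_le.1 a1
    have b2 := abs_le.1 a2
    have b3 : 0 < √2 := by positivity
    have b4 := aw_Lc
    have b5 := aw_pos
    have b6 : 0 < (x 0 + x 0) / √2 := by
      rw [show (x 0 + x 0) / √2 = pc x + qc x by rw [pc, qc]; ring]
      linarith [b1.1, b2.1]
    have b7 : 0 < (x 1 + x 1) / √2 := by
      rw [show (x 1 + x 1) / √2 = pc x - qc x by rw [pc, qc]; ring]
      linarith [b1.1, b2.2]
    rw [div_pos_iff_of_pos_right b3] at b6 b7
    exact ⟨by linarith, by linarith⟩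
  · rw [Des.sm, ← Real.exp_nat_mul, ← Real.exp_add, Real.exp_le_one_iff]
    push_cast
    nlinarith [(d6_N h1 h2 h hx).2, (dd_mem x).1]
  · have := (d6_N h1 h2 h hx.1).2
    rwa [dd_plateau (a := 1) hx.2.1 (by simpa [ctr] using hx.2.2), sub_self, mul_zero] at this
  · have hP : 1 ≤ D.P := by nlinarith [p2.2]
    have b1 : 1 / D.n ^ 5 ≤ D.mass i := by
      have : (1 : ℝ) ≤ 4 * aw ^ 2 := by norm_num [aw]
      have b0 : 0 ≤ 1 / D.n ^ 5 := by positivity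
      nlinarith [(p5 i).2.1, p4.1]
    have b2 : 1 ≤ D.P * √(D.mass i) := by
      rw [← Real.sqrt_sq (show 0 ≤ D.P by linarith), ← Real.sqrt_mul (sq_nonneg _), Real.one_le_sqrt]
      have b0 : 0 ≤ D.mass i := le_trans (by positivity) b1
      rw [div_le_iff₀ (by positivity)] at b1
      nlinarith [mul_le_mul_of_nonneg_left (show D.n ^ 5 ≤ D.P ^ 2 by nlinarith [p3.2]) b0]
    by_cases hi : x ∈ Aw i
    · rw [Des.φ, Set.indicator_of_mem hi, Des.φ0, ← mul_div_assoc, ← Real.exp_add]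
      refine div_le_of_le_mul₀ (Real.sqrt_nonneg _) (by linarith) (le_trans ?_ b2)
      rw [Real.exp_le_one_iff]
      linarith [(h.G_le (by linarith) x).1]
    · rw [Des.φ, Set.indicator_of_notMem hi]
      linarith
  · obtain ⟨a1, a2⟩ := hx
    have b0 : 0 < 1 / D.R := one_div_pos.2 (by linarith)
    have b1 : 1 / D.R ≤ 1 := (div_le_one (by linarith)).2 (by linarith)
    rw [show 1 / 8 / D.R = 1 / 8 * (1 / D.R) by ring] at a1
    rw [show 7 / 8 / D.R = 7 / 8 * (1 / D.R) by ring] at a2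
    have b2 := d6_far h r3 (by linarith) (x := x) (by linarith) (by linarith)
    have b3 := h.S_far r3 (x := x) (by linarith)
    have b4 := (gK_mem hK (h.Zf_nonneg x)).2
    have b5 : nrm x ^ 2 ≤ (D.R + 1 / D.R) ^ 2 := pow_le_pow_left₀ (nrm_nonneg x) (by linarith) 2
    have b6 : D.R ^ 2 ≤ nrm x ^ 2 := pow_le_pow_left₀ (by linarith) (by linarith) 2
    have b7 := mul_le_mul_of_nonneg_left (Real.log_le_log (show 0 < nrm x by linarith)
      (show nrm x ≤ D.R + 1 by linarith)) (show 0 ≤ 4 * D.Kp by linarith)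
    have b8 : √D.n ≤ D.n ^ (3 / 4 : ℝ) := by
      rw [Real.sqrt_eq_rpow]
      exact Real.rpow_le_rpow_of_exponent_le (by linarith) (by norm_num)
    rw [Des.S] at b3
    rw [Des.G, frz_eq (by rw [Des.s1]; linarith), Des.P, Des.nu, ← Real.exp_add, ← Real.exp_add]
    exact Real.one_le_exp (by linarith)

end Vale.Agent.P363
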