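import Vale.Agent.P363.LD
import Vale.Agent.P363.D7T
import Vale.Agent.P363.D7M
import Vale.Agent.P363.D7Cut
import Vale.Agent.P363.D7S
import Vale.Agent.P363.D7N
import Vale.Agent.P363.D7Sh

/-! Part D7 (see `skeleton/P363/PROOF.md`). -/

namespace Vale.Agent.P363

open MeasureTheory Vale.Agent.P370
open scoped ContDiff Topology

namespace D7

variable {D : Des} {t t1 t2 : ℝ → ℝ} {χ : Pt → ℝ}

theorem pd_const {f : Pt → ℝ} {x : Pt} {c : ℝ} (h : f =ᶠ[𝓝 x] fun _ => c) (k : Fin 3) :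
    pd k f x = 0 := by
  rw [pd, h.fderiv_eq]
  simp

theorem lap_const {f : Pt → ℝ} {x : Pt} {c : ℝ} (h : f =ᶠ[𝓝 x] fun _ => c) : lap f x = 0 := by
  rw [lap_congr h]
  refine Finset.sum_eq_zero fun k _ => pd_const (c := 0) (.of_forall fun y => ?_) k
  exact pd_const (c := c) (.of_forall fun _ => rfl) k

theorem th_out (hc : Cut D χ) (u v : Pt → ℝ) {x : Pt} (hx : x ∉ Bx D) :
    (fun y => u y * (v y * χ y)) =ᶠ[𝓝 x] fun _ => 0 := by
  filter_upwards [hc.out x hx] with y hy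
  rw [hy, mul_zero, mul_zero]

theorem eG_le (hD : D.OK) (hb : Big D) (x : Pt) : Real.exp (D.G x) * D.φ0 x ≤ 1 := by
  rw [Des.φ0, ← Real.exp_add, Real.exp_le_one_iff]
  have := (hD.G_le (le_trans (by norm_num) hb.n_ge) x).1
  linarith

theorem Big.pow_le (hb : Big D) {j k : ℕ} (h : j + k ≤ 48) : 10 * (D.n ^ j * D.R ^ k) ≤ D.P := by
  have h1 : 1 ≤ D.R := hb.one_le.trans hb.n_le
  have h2 : D.n ^ j * D.R ^ k ≤ D.R ^ 48 := by
    refine le_trans ?_ (pow_le_pow_right₀ h1 h)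
    rw [pow_add]
    exact mul_le_mul_of_nonneg_right (pow_le_pow_left₀ hb.pos.le hb.n_le j) (by positivity)
  have h3 : 10 ≤ D.R ^ 2 := by
    have h4 : 10 ≤ D.R := le_trans (le_trans (by norm_num) hb.n_ge) hb.n_le
    nlinarith
  refine le_trans ?_ hb.poly
  rw [show D.R ^ 50 = D.R ^ 2 * D.R ^ 48 by ring]
  exact mul_le_mul h3 h2 (by have := hb.pos; positivity) (by positivity)

theorem L_eq (hD : D.OK) {w : Pt → ℝ} (hw : ContDiff ℝ 2 w) (hχ : ContDiff ℝ 2 χ) (x : Pt)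
    (q : ℝ) : -(1 / 2) * lap (fun y => D.φ0 y * (w y * χ y)) x + q * (D.φ0 x * (w x * χ x)) =
      D.φ0 x * (χ x * (-(1 / 2) * lap w x + (∑ k, pd k D.S x * pd k w x) + (q - D.Vref x) * w x) +
        (-(∑ k, pd k w x * pd k χ x) - 1 / 2 * (w x * lap χ x) +
          w x * ∑ k, pd k D.S x * pd k χ x)) := by
  have hS : ContDiff ℝ 2 D.S := hD.cd_S.of_le (rg_le 2)
  have hφ : ContDiff ℝ 2 D.φ0 := hD.cd_φ0.of_le (rg_le 2)
  have e1 : lap D.φ0 x = D.φ0 x * (gsq D.S x - lap D.S x) := lap_exp hS x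
  have e2 : ∀ k, pd k D.φ0 x = -(D.φ0 x * pd k D.S x) := fun k => pd_exp hS k x
  rw [lap_mul hφ (hw.mul hχ), lap_mul hw hχ, e1, Des.Vref]
  simp only [e2, pd_mul hw hχ, Fin.sum_univ_three]
  ring

theorem err_le (h : TOK D t t1 t2) (hb : Big D) (hc : Cut D χ) (hS : SF D) {x : Pt}
    (hx : x ∈ Bx D) (hQ : x ∈ Qd) :
    -(∑ k, pd k (ww D t) x * pd k χ x) - 1 / 2 * (ww D t x * lap χ x) +
      ww D t x * ∑ k, pd k D.S x * pd k χ x ≤ D.P * Real.exp (-(Dq x / (2 * t (x 2)))) := by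
  obtain ⟨b0, b1⟩ := ww_bdQ h hb hx hQ
  obtain ⟨e, he⟩ : ∃ e, e = Real.exp (-(Dq x / (2 * t (x 2)))) := ⟨_, rfl⟩
  have e0 : 0 ≤ e := he ▸ (Real.exp_pos _).le
  rw [← he] at b0 b1 ⊢
  have n0 := hb.pos
  have c1 : ∀ k, |pd k (ww D t) x * pd k χ x| ≤ D.n ^ 25 * D.R ^ 0 * e := fun k => by
    rw [abs_mul]
    refine (mul_le_mul (b1 k) (hc.d1 k x) (abs_nonneg _) (by positivity)).trans_eq ?_
    ring
  have c2 : |ww D t x * lap χ x| ≤ D.n ^ 30 * D.R ^ 0 * e := by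
    rw [abs_mul]
    refine (mul_le_mul b0 (hc.d2 x) (abs_nonneg _) (by positivity)).trans_eq ?_
    ring
  have c3 : ∀ k, |ww D t x * (pd k D.S x * pd k χ x)| ≤ D.n ^ 25 * D.R ^ 4 * e := fun k => by
    rw [abs_mul, abs_mul]
    refine (mul_le_mul b0 (mul_le_mul (hS.sb x hx k) (hc.d1 k x) (abs_nonneg _) (by positivity))
      (by positivity) (by positivity)).trans_eq ?_
    ring
  have p1 := mul_le_mul_of_nonneg_right (hb.pow_le (j := 25) (k := 0) (by norm_num)) e0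
  have p2 := mul_le_mul_of_nonneg_right (hb.pow_le (j := 30) (k := 0) (by norm_num)) e0
  have p3 := mul_le_mul_of_nonneg_right (hb.pow_le (j := 25) (k := 4) (by norm_num)) e0
  have p4 : 0 ≤ D.P * e := mul_nonneg (Real.exp_pos _).le e0
  simp only [Fin.sum_univ_three, mul_add]
  linarith [abs_le.1 (c1 0), abs_le.1 (c1 1), abs_le.1 (c1 2), abs_le.1 c2, abs_le.1 (c3 0),
    abs_le.1 (c3 1), abs_le.1 (c3 2)]

theorem th_L (hD : D.OK) (h : TOK D t t1 t2) (hb : Big D) (hc : Cut D χ) (hS : SF D) {x : Pt}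
    (hQ : x ∈ Qd) : Real.exp (D.G x) * (-(1 / 2) * lap (fun y => D.φ0 y * (ww D t y * χ y)) x +
      (D.U x - D.E1 + 3) * (D.φ0 x * (ww D t x * χ x))) ≤
      D.sm + (D.N ∩ Apl).indicator (fun _ => D.P) x := by
  have r0 : 0 ≤ D.sm + (D.N ∩ Apl).indicator (fun _ => D.P) x :=
    add_nonneg (Real.exp_pos _).le (Set.indicator_nonneg (fun _ _ => (Real.exp_pos _).le) x)
  by_cases hx : x ∈ Bx D
  · have g0 : 0 ≤ Real.exp (D.G x) * D.φ0 x := (mul_pos (Real.exp_pos _) (Real.exp_pos _)).le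
    have m0 : χ x * (-(1 / 2) * lap (ww D t) x + (∑ k, pd k D.S x * pd k (ww D t) x) +
        (D.U x - D.E1 + 3 - D.Vref x) * ww D t x) ≤ 0 := by
      refine mul_nonpos_of_nonneg_of_nonpos (hc.mem x).1 (le_trans ?_ (main_le h hb hS hx hQ))
      have h1 := D.U_le (hb.pos.trans_le hb.n_le) x
      have h2 := ww_pos h hb hQ
      nlinarith
    rw [L_eq hD (cd_ww h hb) hc.C2, ← mul_assoc]
    by_cases hP : x ∈ Pl D
    · refine le_trans (mul_nonpos_of_nonneg_of_nonpos g0 ?_) r0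
      simp only [pd_const (hc.one x hP), lap_const (hc.one x hP), mul_zero, Finset.sum_const_zero]
      linarith
    · refine le_trans (mul_le_mul_of_nonneg_left ?_ g0) (layer hD h hb hx hQ hP)
      linarith [err_le h hb hc hS hx hQ]
  · have h1 := th_out hc D.φ0 (ww D t) hx
    rw [lap_const h1, show D.φ0 x * (ww D t x * χ x) = 0 from h1.eq_of_nhds]
    simpa using r0

theorem th_b (hD : D.OK) (h : TOK D t t1 t2) (hb : Big D) (hc : Cut D χ) (hS : SF D) (x : Pt) :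
    Real.exp (D.G x) * |D.φ0 x * (ww D t x * χ x)| ≤ D.P ∧
      ∀ k, Real.exp (D.G x) * |pd k (fun y => D.φ0 y * (ww D t y * χ y)) x| ≤ D.P := by
  have P0 : 0 ≤ D.P := (Real.exp_pos _).le
  by_cases hx : x ∈ Bx D
  · obtain ⟨b0, b1⟩ := ww_bd h hb hx
    have n0 := hb.pos
    have f0 : 0 < D.φ0 x := Real.exp_pos _
    have c0 : |χ x| ≤ 1 := abs_le.2 ⟨by linarith [(hc.mem x).1], (hc.mem x).2⟩
    have key : ∀ a, |a| ≤ D.P → Real.exp (D.G x) * |D.φ0 x * a| ≤ D.P := fun a ha => by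
      rw [abs_mul, abs_of_pos f0, ← mul_assoc]
      exact (mul_le_mul (eG_le hD hb x) ha (abs_nonneg _) zero_le_one).trans_eq (one_mul _)
    have c1 : |ww D t x * χ x| ≤ D.n ^ 20 * D.R ^ 0 := by
      rw [abs_mul]
      exact (mul_le_mul b0 c0 (abs_nonneg _) (by positivity)).trans_eq (by ring)
    have p1 := hb.pow_le (j := 20) (k := 0) (by norm_num)
    have p2 := hb.pow_le (j := 25) (k := 0) (by norm_num)
    have p3 := hb.pow_le (j := 20) (k := 4) (by norm_num)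
    refine ⟨key _ (by linarith [abs_nonneg (ww D t x * χ x)]), fun k => ?_⟩
    have hw := cd_ww h hb
    have e2 : pd k D.φ0 x = -(D.φ0 x * pd k D.S x) := pd_exp (hD.cd_S.of_le (rg_le 2)) k x
    rw [pd_mul (hD.cd_φ0.of_le (rg_le 2)) (hw.mul hc.C2), pd_mul hw hc.C2, e2,
      show ∀ a b c d : ℝ, a * b + c * -(a * d) = a * (b - c * d) from fun _ _ _ _ => by ring]
    refine key _ ?_
    have c2 : |ww D t x * pd k χ x| ≤ D.n ^ 25 * D.R ^ 0 := by
      rw [abs_mul]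
      exact (mul_le_mul b0 (hc.d1 k x) (abs_nonneg _) (by positivity)).trans_eq (by ring)
    have c3 : |χ x * pd k (ww D t) x| ≤ D.n ^ 20 * D.R ^ 0 := by
      rw [abs_mul]
      exact (mul_le_mul c0 (b1 k) (abs_nonneg _) zero_le_one).trans_eq (by ring)
    have c4 : |ww D t x * χ x * pd k D.S x| ≤ D.n ^ 20 * D.R ^ 4 := by
      rw [abs_mul]
      exact (mul_le_mul c1 (hS.sb x hx k) (abs_nonneg _) (by positivity)).trans_eq (by ring)
    rw [abs_le]
    constructor <;> linarith [abs_le.1 c2, abs_le.1 c3, abs_le.1 c4]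
  · have h1 := th_out hc D.φ0 (ww D t) hx
    rw [show D.φ0 x * (ww D t x * χ x) = 0 from h1.eq_of_nhds]
    simpa only [pd_const h1, abs_zero, mul_zero, implies_true, and_self, forall_const] using P0

end D7

open D7 in
/-- D7 -/
theorem th_ev : Ev fun D => ∃ Θ, Th D.U D.E1 D.R D.P D.sm D.nu D.G Θ D.φ D.N Apl := by
  refine (big_ev.and (cut_ev.and (sf_ev.and well))).mono fun D hD ⟨hb, ⟨χ, hc⟩, hS, hw⟩ => ?_
  obtain ⟨t, t1, t2, h⟩ := exists_t hD hb
  have f0 : ∀ x, 0 < D.φ0 x := fun x => Real.exp_pos _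
  have nn : ∀ x ∈ Qd, 0 ≤ D.φ0 x * (ww D t x * χ x) := fun x hx =>
    mul_nonneg (f0 x).le (mul_nonneg (ww_pos h hb hx).le (hc.mem x).1)
  have up : ∀ x a, 0 ≤ a → (x ∈ Bx D → |ww D t x| ≤ a) → ww D t x * χ x ≤ a := fun x a a0 ha => by
    by_cases hx : x ∈ Bx D
    · refine (le_abs_self _).trans ?_
      rw [abs_mul, abs_of_nonneg (hc.mem x).1]
      exact (mul_le_mul (ha hx) (hc.mem x).2 (hc.mem x).1 a0).trans_eq (mul_one a)
    · rw [show χ x = 0 from (hc.out x hx).eq_of_nhds, mul_zero]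
      exact a0
  have n0 := hb.pos
  refine ⟨fun x => D.φ0 x * (ww D t x * χ x),
    (hD.cd_φ0.of_le (rg_le 2)).mul ((cd_ww h hb).mul hc.C2), fun x hx => Bx_sub hb ?_,
    fun x hx => by simp only [ww_zero D t hx, zero_mul, mul_zero], nn, fun x hx => ?_,
    fun x hN hQ hA => ?_, fun x hQ => th_L hD h hb hc hS hQ, th_b hD h hb hc hS,
    fun x hx hQ => ?_⟩
  · by_contra h1
    exact notMem_tsupport_iff_eventuallyEq.2 (th_out hc D.φ0 (ww D t) h1) hx
  · exact le_trans (mul_le_mul_of_nonneg_left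
      (up x _ (by positivity) fun h1 => (ww_bd h hb h1).1) (f0 x).le) (hw x hx)
  · have h1 := up x _ (by positivity) fun h1 => (ww_bdQ h hb h1 hQ).1
    have h2 := off_A h hb (by linarith [abs_le.1 (N_le hb hN)]) hA
    have h3 := hb.pow_le (j := 20) (k := 0) (by norm_num)
    have h4 : D.n ^ 20 ≤ D.P := by nlinarith [pow_pos n0 20]
    rw [← mul_assoc]
    refine (mul_le_mul (eG_le hD hb x) h1 (mul_nonneg (ww_pos h hb hQ).le (hc.mem x).1)
      zero_le_one).trans ?_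
    rw [one_mul]
    exact (mul_le_mul_of_nonneg_right h4 (Real.exp_pos _).le).trans h2
  · have v0 : 0 < D.nu := Real.exp_pos _
    rcases sh_cases hb hx hQ with h1 | ⟨h1, h2⟩
    · exact le_trans (mul_nonpos_of_nonneg_of_nonpos v0.le (sub_nonpos.2 h1)) (nn x hQ)
    · rw [show χ x = 1 from (hc.one x h1).eq_of_nhds, mul_one]
      refine le_trans (mul_le_mul_of_nonneg_left (sub_le_self _ (Real.exp_pos _).le) v0.le) ?_
      exact sh_main hD h hb hx hQ h2

end Vale.Agent.P363
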