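import Vale.Agent.P363.Des
import Vale.Agent.P363.LD

/-! Tools for part D8: small potentials, the hub bump, the tuning charge. -/

namespace Vale.Agent.P363

open MeasureTheory Vale.Agent.P370
open scoped ContDiff

variable {W W' ψ : Pt → ℝ} {ε ε' : ℝ}

theorem d8_int_sq (h : C1c ψ) : Integrable fun x => ψ x ^ 2 := by
  simp only [sq]
  exact (h.1.continuous.mul h.1.continuous).integrable_of_hasCompactSupport h.2.mul_right

theorem d8_gsq (ψ : Pt → ℝ) : 0 ≤ ∫ x, gsq ψ x :=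
  integral_nonneg fun _ => Finset.sum_nonneg fun _ _ => sq_nonneg _

theorem d8_sq (ψ : Pt → ℝ) : 0 ≤ ∫ x, ψ x ^ 2 := integral_nonneg fun _ => sq_nonneg _

theorem d8_iabs (h : Integrable fun x => W x * ψ x ^ 2) : Integrable fun x => |W x| * ψ x ^ 2 := by
  have h1 := h.abs
  simpa only [abs_mul, abs_sq] using h1

theorem d8_mono (h : Small W ε) (he : ε ≤ ε') : Small W ε' :=
  ⟨h.1, fun ψ hψ => ⟨(h.2 ψ hψ).1, (h.2 ψ hψ).2.trans
    (mul_le_mul_of_nonneg_right he (add_nonneg (d8_gsq ψ) (d8_sq ψ)))⟩⟩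

theorem d8_add (h : Small W ε) (h' : Small W' ε') : Small (fun x => W x + W' x) (ε + ε') := by
  refine ⟨h.1.add h'.1, fun ψ hψ => ?_⟩
  obtain ⟨a1, a2⟩ := h.2 ψ hψ
  obtain ⟨b1, b2⟩ := h'.2 ψ hψ
  have h1 : Integrable fun x => (W x + W' x) * ψ x ^ 2 := by
    simp only [add_mul]
    exact a1.add b1
  refine ⟨h1, ?_⟩
  have h2 := integral_mono (d8_iabs h1) ((d8_iabs a1).add (d8_iabs b1)) fun x => by
    simp only [Pi.add_apply, ← add_mul]
    exact mul_le_mul_of_nonneg_right (abs_add_le _ _) (sq_nonneg _)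
  rw [integral_add' (d8_iabs a1) (d8_iabs b1)] at h2
  linarith

theorem d8_smul (h : Small W ε) (c : ℝ) : Small (fun x => c * W x) (|c| * ε) := by
  refine ⟨h.1.const_mul c, fun ψ hψ => ?_⟩
  obtain ⟨a1, a2⟩ := h.2 ψ hψ
  simp only [abs_mul, mul_assoc, integral_const_mul]
  exact ⟨a1.const_mul c, mul_le_mul_of_nonneg_left a2 (abs_nonneg c)⟩

theorem d8_bdd (hm : Measurable W) {C : ℝ} (h : ∀ x, |W x| ≤ C) : Small W C := by
  refine ⟨hm, fun ψ hψ => ?_⟩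
  have h1 : Integrable fun x => W x * ψ x ^ 2 :=
    (d8_int_sq hψ).bdd_mul hm.aestronglyMeasurable (Filter.Eventually.of_forall h)
  refine ⟨h1, ?_⟩
  have h2 := integral_mono (d8_iabs h1) ((d8_int_sq hψ).const_mul C) fun x =>
    mul_le_mul_of_nonneg_right (h x) (sq_nonneg _)
  rw [integral_const_mul] at h2
  have h3 := mul_nonneg ((abs_nonneg _).trans (h 0)) (d8_gsq ψ)
  linarith

theorem d8_ker (p : Pt) : Small (fun x => ker (x - p)) 1 := by
  have hm : Measurable fun x : Pt => ker (x - p) :=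
    measurable_ker.comp (measurable_id.sub measurable_const)
  refine ⟨hm, fun ψ hψ => ?_⟩
  obtain ⟨a1, a2⟩ := H1.hardy (C1c.h1 hψ) p
  have a3 : ∑ k, ∫ x, gr1 ψ k x ^ 2 = ∫ x, gsq ψ x := by
    refine (integral_finsetSum _ fun k _ => ?_).symm
    exact ((C1c.h1 hψ).2 k).1.integrable_sq
  have h0 : ∀ x, |ker (x - p)| * ψ x ^ 2 ≤ 1 / 4 * (ker (x - p) ^ 2 * ψ x ^ 2) + ψ x ^ 2 := by
    intro x
    rw [abs_of_nonneg (ker_nonneg _)]
    nlinarith [mul_nonneg (sq_nonneg (ker (x - p) - 2)) (sq_nonneg (ψ x))]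
  have h1 : Integrable fun x => ker (x - p) * ψ x ^ 2 := by
    refine ((a1.const_mul (1 / 4)).add (d8_int_sq hψ)).mono'
      (hm.mul (hψ.1.continuous.measurable.pow_const 2)).aestronglyMeasurable
      (Filter.Eventually.of_forall fun x => ?_)
    rw [Real.norm_eq_abs, abs_mul, abs_sq]
    exact h0 x
  refine ⟨h1, ?_⟩
  have h2 := integral_mono (d8_iabs h1) ((a1.const_mul (1 / 4)).add (d8_int_sq hψ)) h0
  rw [integral_add' (a1.const_mul _) (d8_int_sq hψ), integral_const_mul] at h2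
  linarith

theorem d8_abs (h : Small W ε) (hψ : C1c ψ) :
    |∫ x, W x * ψ x ^ 2| ≤ ε * ((∫ x, gsq ψ x) + ∫ x, ψ x ^ 2) := by
  refine le_trans ?_ (h.2 ψ hψ).2
  have h1 := abs_integral_le_integral_abs (μ := volume) (f := fun x => W x * ψ x ^ 2)
  simpa only [abs_mul, abs_sq] using h1

theorem d8_vp (pts : List Pt) (k : ℕ) (p : Pt) (lam : ℝ) (x : Pt) :
    vp (pts ++ List.replicate k p) lam x = vp pts lam x + -(k * lam) * ker (x - p) := by
  simp only [vp, pot, List.map_append, List.sum_append, List.map_replicate, List.sum_replicate,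
    nsmul_eq_mul]
  ring

theorem d8_nrm_rf (i : Fin 3) {p : Pt} (hp : p i = 0) (x : Pt) : nrm (rf i x - p) = nrm (x - p) := by
  unfold nrm
  congr 1
  refine Finset.sum_congr rfl fun k _ => ?_
  by_cases h : k = i
  · subst h
    simp [rf, hp]
  · simp [rf, Function.update_of_ne h]

theorem d8_bmp_one {a t : ℝ} (h : |t| ≤ a) : bmp a t = 1 := by
  have := abs_le.1 h
  rw [bmp, Real.smoothTransition.one_of_one_le (by linarith),
    Real.smoothTransition.one_of_one_le (by linarith), one_mul]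

theorem d8_bmp_ne {a t : ℝ} (h : bmp a t ≠ 0) : |t| < a + 1 := by
  by_contra h'
  rcases le_abs.1 (not_lt.1 h') with h' | h'
  · exact h (by rw [bmp, Real.smoothTransition.zero_of_nonpos (by linarith), zero_mul])
  · exact h (by
      rw [bmp, Real.smoothTransition.zero_of_nonpos (x := a + 1 + t) (by linarith), mul_zero])

theorem d8_bmp_abs (a t : ℝ) : |bmp a t| ≤ 1 := by
  rw [bmp, abs_of_nonneg (mul_nonneg (Real.smoothTransition.nonneg _)
    (Real.smoothTransition.nonneg _))]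
  exact mul_le_one₀ (Real.smoothTransition.le_one _) (Real.smoothTransition.nonneg _)
    (Real.smoothTransition.le_one _)

theorem d8_bmp_neg (a t : ℝ) : bmp a (-t) = bmp a t := by
  rw [bmp, bmp, sub_neg_eq_add, ← sub_eq_add_neg, mul_comm]

theorem d8_bmp_cd (a : ℝ) : ContDiff ℝ ∞ (bmp a) :=
  (Real.smoothTransition.contDiff.comp (contDiff_const.sub contDiff_id)).mul
    (Real.smoothTransition.contDiff.comp (contDiff_const.add contDiff_id))

theorem d8_hub_eq (x : Pt) : hub x = bmp (aw + 2) (pc x) * bmp (aw + 2) (qc x) * bmp 1 (x 2) := by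
  simp [hub, sqb, ctr]

theorem d8_hub_cd : ContDiff ℝ ∞ hub := by
  have h1 : ContDiff ℝ ∞ pc := by unfold pc; fun_prop
  have h2 : ContDiff ℝ ∞ qc := by unfold qc; fun_prop
  rw [funext d8_hub_eq]
  exact (((d8_bmp_cd _).comp h1).mul ((d8_bmp_cd _).comp h2)).mul
    ((d8_bmp_cd _).comp (contDiff_apply ℝ ℝ 2))

theorem d8_hub_abs (x : Pt) : |hub x| ≤ 1 := by
  rw [d8_hub_eq, abs_mul, abs_mul]
  exact mul_le_one₀ (mul_le_one₀ (d8_bmp_abs _ _) (abs_nonneg _) (d8_bmp_abs _ _)) (abs_nonneg _)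
    (d8_bmp_abs _ _)

theorem d8_hub_rf (i : Fin 3) (hi : i ≠ 2) (x : Pt) : hub (rf i x) = hub x := by
  have h0 : pc (rf 0 x) = -qc x ∧ qc (rf 0 x) = -pc x ∧ rf 0 x 2 = x 2 := by
    refine ⟨?_, ?_, ?_⟩ <;> simp [rf, pc, qc] <;> ring
  have h1 : pc (rf 1 x) = qc x ∧ qc (rf 1 x) = pc x ∧ rf 1 x 2 = x 2 := by
    refine ⟨?_, ?_, ?_⟩ <;> simp [rf, pc, qc, sub_eq_add_neg]
  rw [d8_hub_eq, d8_hub_eq]
  fin_cases i
  · simp only [Fin.zero_eta, h0.1, h0.2.1, h0.2.2, d8_bmp_neg]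
    ring
  · simp only [Fin.mk_one, h1.1, h1.2.1, h1.2.2]
    ring
  · exact absurd rfl hi

theorem d8_pq (x : Pt) : x 0 ^ 2 + x 1 ^ 2 = pc x ^ 2 + qc x ^ 2 := by
  rw [pc, qc, div_pow, div_pow, Real.sq_sqrt (by norm_num)]
  ring

theorem d8_nrm_eq (x : Pt) : nrm x = √(pc x ^ 2 + qc x ^ 2 + x 2 ^ 2) := by
  rw [nrm, Fin.sum_univ_three, d8_pq]

theorem d8_hub_ne {x : Pt} (h : hub x ≠ 0) : nrm x < Lc := by
  rw [d8_hub_eq] at h
  have h1 := abs_lt.1 (d8_bmp_ne (left_ne_zero_of_mul (left_ne_zero_of_mul h)))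
  have h2 := abs_lt.1 (d8_bmp_ne (right_ne_zero_of_mul (left_ne_zero_of_mul h)))
  have h3 := abs_lt.1 (d8_bmp_ne (right_ne_zero_of_mul h))
  rw [d8_nrm_eq, Real.sqrt_lt' (by norm_num [Lc])]
  simp only [aw, Lc] at h1 h2 ⊢
  nlinarith [h1.1, h1.2, h2.1, h2.2, h3.1, h3.2]

theorem d8_hub_lap : ∃ C : ℝ, ∀ x, |lap hub x| ≤ C := by
  have h1 : HasCompactSupport hub := HasCompactSupport.intro (isCompact_closedBall (0 : Pt) Lc)
    fun x hx => by
      by_contra h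
      exact hx (mem_closedBall_zero_iff.2 ((norm_le_nrm x).trans (d8_hub_ne h).le))
  have h2 : HasCompactSupport (lap hub) :=
    h1.of_isClosed_subset (isClosed_tsupport _) (tsupport_lap hub)
  exact h2.exists_bound_of_continuous
    (continuous_lap (contDiff_infty.1 d8_hub_cd 2))

theorem d8_pd_add {f g : Pt → ℝ} (hf : Differentiable ℝ f) (hg : Differentiable ℝ g) (t : ℝ)
    (k : Fin 3) : pd k (fun x => f x + t * g x) = fun x => pd k f x + t * pd k g x := by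
  funext x
  rw [pd, fderiv_fun_add (hf x) ((hg x).const_mul t), fderiv_const_mul (hg x)]
  rfl

theorem d8_lap_add {f g : Pt → ℝ} (hf : ContDiff ℝ ∞ f) (hg : ContDiff ℝ ∞ g) (t : ℝ) (x : Pt) :
    lap (fun x => f x + t * g x) x = lap f x + t * lap g x := by
  have h : ∀ {u : Pt → ℝ}, ContDiff ℝ ∞ u → ∀ k, Differentiable ℝ (pd k u) := fun hu k =>
    (nw_contDiff_pd (m := 1) (contDiff_infty.1 hu 2) (by norm_num) k).differentiable one_ne_zero
  simp only [lap, d8_pd_add (hf.differentiable (by simp)) (hg.differentiable (by simp)),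
    fun k => d8_pd_add (h hf k) (h hg k) t k, Finset.sum_add_distrib, Finset.mul_sum]

theorem d8_mass {η φ : Pt → ℝ} (hη : C1c η) (hφ : Measurable φ) (h1 : ∫ x, φ x ^ 2 = 1)
    (h2 : ∫ x, (η x - φ x) ^ 2 ≤ 1 / 10 ^ 23) : |(∫ x, η x ^ 2) - 1| ≤ 1 / 10 ^ 10 := by
  have a1 := d8_int_sq hη
  have a2 : Integrable fun x => φ x ^ 2 := Integrable.of_integral_ne_zero (by rw [h1]; norm_num)
  have a3 : Integrable fun x => (η x - φ x) ^ 2 := by
    refine ((a1.const_mul 2).add (a2.const_mul 2)).mono'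
      ((hη.1.continuous.measurable.sub hφ).pow_const 2).aestronglyMeasurable
      (Filter.Eventually.of_forall fun x => ?_)
    rw [Real.norm_eq_abs, abs_sq, Pi.add_apply]
    nlinarith [sq_nonneg (η x + φ x)]
  have k : ∀ a b : ℝ, a ^ 2 ≤ (1 + 1 / 10 ^ 11) * b ^ 2 + (1 + 10 ^ 11) * (a - b) ^ 2 := by
    intro a b
    nlinarith [sq_nonneg (b / 10 ^ 11 - (a - b))]
  have b1 := integral_mono a1 ((a2.const_mul _).add (a3.const_mul _)) fun x => k (η x) (φ x)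
  have b2 := integral_mono a2 ((a1.const_mul (1 + 1 / 10 ^ 11)).add
    (a3.const_mul (1 + 10 ^ 11))) fun x => by
      have := k (φ x) (η x)
      rwa [← neg_sub, neg_sq] at this
  rw [integral_add' (a2.const_mul _) (a3.const_mul _), integral_const_mul, integral_const_mul,
    h1] at b1
  rw [integral_add' (a1.const_mul _) (a3.const_mul _), integral_const_mul, integral_const_mul,
    h1] at b2
  rw [abs_le]
  constructor <;> linarith

theorem d8_kint {η : Pt → ℝ} (hη : C1c η) {p : Pt} {r₁ r₂ : ℝ} (h0 : 0 < r₁)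
    (h : ∀ x, η x ≠ 0 → r₁ ≤ nrm (x - p) ∧ nrm (x - p) ≤ r₂) :
    r₂⁻¹ * (∫ x, η x ^ 2) ≤ ∫ x, ker (x - p) * η x ^ 2 ∧
      ∫ x, ker (x - p) * η x ^ 2 ≤ r₁⁻¹ * ∫ x, η x ^ 2 := by
  have a1 := d8_int_sq hη
  have a2 := ((d8_ker p).2 η hη).1
  rw [← integral_const_mul, ← integral_const_mul]
  refine ⟨integral_mono (a1.const_mul _) a2 fun x => ?_, integral_mono a2 (a1.const_mul _) fun x => ?_⟩
  · by_cases hx : η x = 0
    · simp [hx]
    · exact mul_le_mul_of_nonneg_right (inv_anti₀ (h0.trans_le (h x hx).1) (h x hx).2) (sq_nonneg _)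
  · by_cases hx : η x = 0
    · simp [hx]
    · exact mul_le_mul_of_nonneg_right (inv_anti₀ h0 (h x hx).1) (sq_nonneg _)

/-- The position of the tuning charges. -/
def d8p : Pt := ![0, 0, 10 ^ 19]

theorem d8_nrm_p (x : Pt) : nrm (x - d8p) = √(pc x ^ 2 + qc x ^ 2 + (x 2 - 10 ^ 19) ^ 2) := by
  rw [nrm, Fin.sum_univ_three, ← d8_pq]
  simp [d8p]

theorem d8_d {η₀ η₁ : Pt → ℝ} (h0 : C1c η₀) (h1 : C1c η₁)
    (m0 : |(∫ x, η₀ x ^ 2) - 1| ≤ 1 / 10 ^ 10) (m1 : |(∫ x, η₁ x ^ 2) - 1| ≤ 1 / 10 ^ 10)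
    (s0 : ∀ x, η₀ x ≠ 0 → |pc x| ≤ aw + 2 ∧ |qc x| ≤ aw + 2 ∧ |x 2| ≤ 1)
    (s1 : ∀ x, η₁ x ≠ 0 → |pc x - Lc| ≤ aw + 2 ∧ |qc x| ≤ aw + 2 ∧ |x 2| ≤ 1) :
    1 / 10 ^ 26 ≤ (∫ x, ker (x - d8p) * η₀ x ^ 2) - ∫ x, ker (x - d8p) * η₁ x ^ 2 ∧
      (∫ x, ker (x - d8p) * η₀ x ^ 2) - ∫ x, ker (x - d8p) * η₁ x ^ 2 ≤ 1 / 10 ^ 24 := by
  have a0 := d8_kint h0 (p := d8p) (r₁ := 10 ^ 19 - 1) (r₂ := 10 ^ 19 + 2) (by norm_num)
    fun x hx => by
      obtain ⟨k1, k2, k3⟩ := s0 x hx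
      rw [abs_le] at k1 k2 k3
      simp only [aw] at k1 k2
      rw [d8_nrm_p]
      refine ⟨Real.le_sqrt_of_sq_le ?_, Real.sqrt_le_iff.2 ⟨by norm_num, ?_⟩⟩
      · nlinarith [sq_nonneg (pc x), sq_nonneg (qc x), k3.1, k3.2]
      · nlinarith [k1.1, k1.2, k2.1, k2.2, k3.1, k3.2]
  have a1 := d8_kint h1 (p := d8p) (r₁ := 10 ^ 19 + 4 * 10 ^ 12) (r₂ := 10 ^ 19 + 6 * 10 ^ 12)
    (by norm_num) fun x hx => by
      obtain ⟨k1, k2, k3⟩ := s1 x hx
      rw [abs_le] at k1 k2 k3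
      simp only [aw, Lc] at k1 k2
      rw [d8_nrm_p]
      refine ⟨Real.le_sqrt_of_sq_le ?_, Real.sqrt_le_iff.2 ⟨by norm_num, ?_⟩⟩
      · nlinarith [sq_nonneg (qc x), k1.1, k1.2, k3.1, k3.2]
      · nlinarith [k1.1, k1.2, k2.1, k2.2, k3.1, k3.2]
  rw [abs_le] at m0 m1
  obtain ⟨a2, a3⟩ := a0
  obtain ⟨a4, a5⟩ := a1
  norm_num at a2 a3 a4 a5
  constructor <;> linarith [m0.1, m0.2, m1.1, m1.2]

theorem d8_sym {f : Pt → ℝ} {η η' : Pt → ℝ} {i : Fin 3} (hf : ∀ x, f (rf i x) = f x)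
    (h : ∀ x, η' (rf i x) = η x) : ∫ x, f x * η' x ^ 2 = ∫ x, f x * η x ^ 2 := by
  have h1 : Function.Involutive (rf i) := fun x => by simp [rf]
  have h2 := (mp_rf i).integral_comp
    (MeasurableEquiv.ofInvolutive (rf i) h1 (mp_rf i).measurable).measurableEmbedding
    fun x => f x * η' x ^ 2
  rw [← h2]
  simp only [hf, h]

theorem d8_supp {a : Fin 5} {x : Pt}
    (h : |pc x - (ctr a).1| ≤ aw + 2 ∧ |qc x - (ctr a).2| ≤ aw + 2 ∧ |x 2| ≤ 1) :
    nrm x ≤ 3 * Lc := by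
  have h0 : |(ctr a).1| ≤ Lc ∧ |(ctr a).2| ≤ Lc := by
    fin_cases a <;> simp [ctr, Lc]
  obtain ⟨k1, k2, k3⟩ := h
  obtain ⟨k4, k5⟩ := h0
  rw [abs_le] at k1 k2 k3 k4 k5
  simp only [aw, Lc] at k1 k2 k4 k5 ⊢
  rw [d8_nrm_eq, Real.sqrt_le_iff]
  refine ⟨by norm_num, ?_⟩
  have e1 : pc x ^ 2 ≤ (2 * 10 ^ 16) ^ 2 := sq_le_sq' (by linarith [k1.1]) (by linarith [k1.2])
  have e2 : qc x ^ 2 ≤ (2 * 10 ^ 16) ^ 2 := sq_le_sq' (by linarith [k2.1]) (by linarith [k2.2])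
  have e3 : x 2 ^ 2 ≤ 1 ^ 2 := sq_le_sq' k3.1 k3.2
  linarith

theorem d8_coer {V U W₁ W₂ : Pt → ℝ} {E R P : ℝ} (hV : ∀ x, V x = U x + W₁ x + W₂ x)
    (h1 : Small W₁ (1 / 4)) (m2 : Measurable W₂) (h2 : ∀ x, 0 ≤ W₂ x ∧ W₂ x ≤ 1)
    (mU : Measurable U) (hU : ∀ x, |U x| ≤ P) (hE : E + 11 ≤ 0)
    (ho : ∀ x, R + 1 < nrm x → E + 11 ≤ U x) : Coer V E R P := by
  intro v hv
  have mS : MeasurableSet {x | nrm x ≤ R + 1} :=
    measurableSet_le continuous_nrm.measurable measurable_const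
  have a0 := d8_int_sq hv
  have a1 := ((d8_bdd mU hU).2 v hv).1
  have a2 := (h1.2 v hv).1
  have a3 := ((d8_bdd m2 (C := 1) fun x => by
    rw [abs_of_nonneg (h2 x).1]; exact (h2 x).2).2 v hv).1
  have b1 := (abs_le.1 (d8_abs h1 hv)).1
  have b2 : 0 ≤ ∫ x, W₂ x * v x ^ 2 := integral_nonneg fun x => mul_nonneg (h2 x).1 (sq_nonneg _)
  have b3 := integral_mono ((a0.const_mul (E + 11)).sub ((a0.indicator mS).const_mul P)) a1
    fun x => by
      simp only [Pi.sub_apply]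
      by_cases hx : nrm x ≤ R + 1
      · rw [Set.indicator_of_mem (show x ∈ {x | nrm x ≤ R + 1} from hx), ← sub_mul]
        exact mul_le_mul_of_nonneg_right (by linarith [(abs_le.1 (hU x)).1]) (sq_nonneg _)
      · rw [Set.indicator_of_notMem (show x ∉ {x | nrm x ≤ R + 1} from hx), mul_zero, sub_zero]
        exact mul_le_mul_of_nonneg_right (ho x (not_le.1 hx)) (sq_nonneg _)
  rw [integral_sub' (a0.const_mul _) ((a0.indicator mS).const_mul P), integral_const_mul,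
    integral_const_mul, integral_indicator mS] at b3
  have b4 : ∫ x, V x * v x ^ 2 =
      (∫ x, U x * v x ^ 2) + (∫ x, W₁ x * v x ^ 2) + ∫ x, W₂ x * v x ^ 2 := by
    simp only [hV, add_mul]
    have a4 : Integrable fun x => U x * v x ^ 2 + W₁ x * v x ^ 2 := a1.add a2
    rw [integral_add a4 a3, integral_add a1 a2]
  have b5 := d8_sq v
  rw [qV, b4]
  linarith

theorem d8_vac {x : Pt} (hx : 2 * 10 ^ 19 ≤ nrm x) :
    |1 / nrm x - ker (x - d8p)| ≤ 2 * 10 ^ 19 / nrm x ^ 2 := by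
  have h0 : nrm d8p = 10 ^ 19 := by
    rw [nrm, Fin.sum_univ_three]
    simp [d8p]
  have h1 := nrm_add_le (x - d8p) d8p
  have h2 := nrm_add_le x (-d8p)
  rw [sub_add_cancel, h0] at h1
  rw [← sub_eq_add_neg, nrm_neg, h0] at h2
  rw [ker]
  generalize nrm (x - d8p) = s at h1 h2
  generalize nrm x = r at hx h1 h2
  have hr : 0 < r := by linarith
  have hs : 0 < s := by linarith
  have e : 1 / r - s⁻¹ = (s - r) / (r * s) := by field_simp
  rw [e, abs_div, abs_of_pos (mul_pos hr hs), div_le_div_iff₀ (mul_pos hr hs) (by positivity)]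
  have h3 : |s - r| ≤ 10 ^ 19 := abs_le.2 ⟨by linarith, by linarith⟩
  have h4 := mul_le_mul_of_nonneg_right h3 (sq_nonneg r)
  nlinarith [mul_le_mul_of_nonneg_left (by linarith : r ≤ 2 * s) hr.le]

theorem d8_ub {R : ℝ} (hR : 0 < R) (x : Pt) : |ub R x| ≤ 3 / 2 * R ^ 2 ∧
    (R < nrm x → -R ^ 2 ≤ ub R x) := by
  have h0 := nrm_nonneg x
  have h1 : R < nrm x → R ^ 3 / nrm x ≤ R ^ 2 := fun h => by
    rw [div_le_iff₀ (by linarith), pow_succ]
    exact mul_le_mul_of_nonneg_left h.le (by positivity)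
  unfold ub
  split_ifs with h
  · refine ⟨abs_le.2 ⟨by nlinarith, by nlinarith⟩, fun h' => absurd h (not_le.2 h')⟩
  · have h2 := h1 (not_le.1 h)
    have h3 : 0 ≤ R ^ 3 / nrm x := by positivity
    exact ⟨abs_le.2 ⟨by nlinarith, by nlinarith⟩, fun _ => by linarith⟩

theorem d8_ub_meas (R : ℝ) : Measurable (ub R) :=
  Measurable.ite (measurableSet_le continuous_nrm.measurable measurable_const)
    (((continuous_nrm.measurable.pow_const 2).const_mul _).sub measurable_const)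
    (measurable_const.div continuous_nrm.measurable).neg

theorem d8_ub_rf (R : ℝ) (i : Fin 3) (x : Pt) : ub R (rf i x) = ub R x := by
  have h := d8_nrm_rf i (p := 0) rfl x
  rw [sub_zero, sub_zero] at h
  simp only [ub, h]

end Vale.Agent.P363
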