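import Vale.Agent.P363.PartD1
import Vale.Agent.P363.PartD2
import Vale.Agent.P363.PartD3
import Vale.Agent.P363.PartD4a
import Vale.Agent.P363.PartD4b
import Vale.Agent.P363.PartD5
import Vale.Agent.P363.PartD6
import Vale.Agent.P363.PartD7
import Vale.Agent.P363.PartD8X1

/-! Part D8 (see `skeleton/P363/PROOF.md`). -/

namespace Vale.Agent.P363

open MeasureTheory Vale.Agent.P370
open scoped ContDiff

theorem d8_symV {pts : List Pt} {lam : ℝ}
    (h : ∀ i : Fin 3, i ≠ 2 → ∀ x, vp pts lam (rf i x) = vp pts lam x) (k : ℕ) (i : Fin 3)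
    (hi : i ≠ 2) (x : Pt) : vp (pts ++ List.replicate k d8p) lam (rf i x) =
      vp (pts ++ List.replicate k d8p) lam x := by
  have h0 : d8p i = 0 := by
    fin_cases i
    · rfl
    · rfl
    · exact absurd rfl hi
  rw [d8_vp, d8_vp, h i hi, ker, ker, d8_nrm_rf i h0]

theorem d8_tune {φ η ηt : Fin 5 → Pt → ℝ} {U F W₁ W₂ : Pt → ℝ} {R L lam E B ε Z : ℝ}
    {pts : List Pt} (ho : Orb φ η) (h : OBU U lam E B φ η ηt) (hU : ∀ x, U x = ub R x + F x)
    (sF : ∀ i : Fin 3, i ≠ 2 → ∀ x, F (rf i x) = F x)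
    (hD : Disc R L lam ε (fun x => F x + 8 * ε * B * hub x) pts Z W₁ W₂) (hL : 3 * Lc ≤ L)
    (hlam : 0 < lam) (hε : lam ≤ ε) (hB : 10 ^ 200 ≤ B) (hBl : B * lam ≤ 1 / 10 ^ 23) :
    ∃ k : ℕ, k * lam ≤ ε * B ^ 2 / 2 ∧ ∀ a : Fin 5, a ≠ 0 →
      |(∫ x, (W₁ x + 8 * ε * B * hub x + -(k * lam) * ker (x - d8p)) * ηt a x ^ 2) -
        (∫ x, (W₁ x + 8 * ε * B * hub x + -(k * lam) * ker (x - d8p)) * ηt 0 x ^ 2) -
        2 * (lam / Lc)| ≤ tol / 10 * (lam / Lc) := by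
  have hc : ∀ a, C1c (ηt a) := fun a => ⟨contDiff_infty.1 (h.smooth a).1 1, (h.smooth a).2⟩
  have hm := fun a => d8_mass (hc a) (ho.bm a).1 (ho.one a) ((h.close a).trans hBl)
  have s0 : ∀ x, ηt 0 x ≠ 0 → |pc x| ≤ aw + 2 ∧ |qc x| ≤ aw + 2 ∧ |x 2| ≤ 1 := fun x hx => by
    simpa [ctr] using h.supp 0 x hx
  have s1 : ∀ x, ηt 1 x ≠ 0 → |pc x - Lc| ≤ aw + 2 ∧ |qc x| ≤ aw + 2 ∧ |x 2| ≤ 1 := fun x hx => by
    simpa [ctr] using h.supp 1 x hx
  obtain ⟨d1, d2⟩ := d8_d (hc 0) (hc 1) (hm 0) (hm 1) s0 s1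
  have hε0 : 0 < ε := hlam.trans_le hε
  have hB0 : 0 < B := lt_of_lt_of_le (by norm_num) hB
  have hA : ∀ a, |∫ x, W₁ x * ηt a x ^ 2| ≤ ε * B := fun a =>
    (d8_abs hD.small (hc a)).trans (mul_le_mul_of_nonneg_left (h.h1 a) hε0.le)
  have k0 : ∫ x, hub x * ηt 0 x ^ 2 = ∫ x, ηt 0 x ^ 2 := by
    refine integral_congr_ae (Filter.Eventually.of_forall fun x => ?_)
    by_cases hx : ηt 0 x = 0
    · simp [hx]
    · obtain ⟨a1, a2, a3⟩ := s0 x hx
      simp only [d8_hub_eq, d8_bmp_one a1, d8_bmp_one a2, d8_bmp_one a3, one_mul]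
  have k1 : ∫ x, hub x * ηt 1 x ^ 2 = 0 := by
    refine integral_eq_zero_of_ae (Filter.Eventually.of_forall fun x => ?_)
    by_cases hx : ηt 1 x = 0
    · simp [hx]
    · have a1 := (abs_le.1 (s1 x hx).1).1
      have a2 : bmp (aw + 2) (pc x) = 0 := by
        by_contra a2
        have a3 := (abs_lt.1 (d8_bmp_ne a2)).2
        simp only [aw, Lc] at a1 a3
        linarith
      simp [d8_hub_eq, a2]
  have k2 : ∀ (k : ℕ) a,
      ∫ x, (W₁ x + 8 * ε * B * hub x + -(k * lam) * ker (x - d8p)) * ηt a x ^ 2 =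
      (∫ x, W₁ x * ηt a x ^ 2) + 8 * ε * B * (∫ x, hub x * ηt a x ^ 2) +
        -(k * lam) * ∫ x, ker (x - d8p) * ηt a x ^ 2 := by
    intro k a
    have a1 := (hD.small.2 _ (hc a)).1
    have a2 := (((d8_bdd d8_hub_cd.continuous.measurable d8_hub_abs).2 _ (hc a)).1).const_mul
      (8 * ε * B)
    have a3 := (((d8_ker d8p).2 _ (hc a)).1).const_mul (-(k * lam))
    have a4 : Integrable fun x => W₁ x * ηt a x ^ 2 + 8 * ε * B * (hub x * ηt a x ^ 2) := a1.add a2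
    rw [← integral_const_mul, ← integral_const_mul, ← integral_add a1 a2, ← integral_add a4 a3]
    exact integral_congr_ae (Filter.Eventually.of_forall fun x => by ring)
  have k3 : ∀ (k : ℕ) (i : Fin 3), i ≠ 2 → ∀ a,
      ∫ x, (W₁ x + 8 * ε * B * hub x + -(k * lam) * ker (x - d8p)) * ηt (pr i a) x ^ 2 =
      ∫ x, (W₁ x + 8 * ε * B * hub x + -(k * lam) * ker (x - d8p)) * ηt a x ^ 2 := by
    intro k i hi a
    have e : ∀ a, ∫ x, (W₁ x + 8 * ε * B * hub x + -(k * lam) * ker (x - d8p)) * ηt a x ^ 2 =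
        ∫ x, (vp (pts ++ List.replicate k d8p) lam x - U x) * ηt a x ^ 2 := by
      intro a
      refine integral_congr_ae (Filter.Eventually.of_forall fun x => ?_)
      by_cases hx : ηt a x = 0
      · simp [hx]
      · simp only [d8_vp, hD.split, hU, hD.core x ((d8_supp (h.supp a x hx)).trans hL)]
        ring
    rw [e, e]
    exact d8_sym (fun x => by rw [d8_symV hD.sym k i hi, hU, hU, d8_ub_rf, sF i hi])
      (h.sym i hi a)
  obtain ⟨d, hd⟩ : ∃ d, d = (∫ x, ker (x - d8p) * ηt 0 x ^ 2) -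
    ∫ x, ker (x - d8p) * ηt 1 x ^ 2 := ⟨_, rfl⟩
  obtain ⟨g, hg⟩ : ∃ g, g = (∫ x, W₁ x * ηt 1 x ^ 2) - (∫ x, W₁ x * ηt 0 x ^ 2) -
    8 * ε * B * ∫ x, ηt 0 x ^ 2 := ⟨_, rfl⟩
  rw [← hd] at d1 d2
  have hεB : 0 < ε * B := mul_pos hε0 hB0
  have g1 : g ≤ 0 ∧ -(18 * (ε * B)) ≤ g := by
    have a0 := abs_le.1 (hA 0)
    have a1 := abs_le.1 (hA 1)
    have a2 := abs_le.1 (hm 0)
    have a3 := mul_le_mul_of_nonneg_left a2.1 hεB.le
    have a4 := mul_le_mul_of_nonneg_left a2.2 hεB.le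
    rw [hg]
    constructor <;> nlinarith [a0.1, a0.2, a1.1, a1.2]
  have hd0 : 0 < lam * d := mul_pos hlam (lt_of_lt_of_le (by norm_num) d1)
  have he : lam / Lc = lam / 10 ^ 16 := rfl
  have c1 := Nat.le_ceil ((2 * (lam / Lc) - g) / (lam * d))
  have c2 := Nat.ceil_lt_add_one (a := (2 * (lam / Lc) - g) / (lam * d))
    (div_nonneg (by rw [he]; linarith [g1.1]) hd0.le)
  generalize ⌈(2 * (lam / Lc) - g) / (lam * d)⌉₊ = k at c1 c2
  rw [div_le_iff₀ hd0] at c1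
  rw [← sub_lt_iff_lt_add, lt_div_iff₀ hd0] at c2
  have c3 := mul_le_mul_of_nonneg_left d2 hlam.le
  refine ⟨k, ?_, ?_⟩
  · have c4 := mul_le_mul_of_nonneg_left d1 (by positivity : 0 ≤ k * lam)
    have c5 : ε ≤ ε * B := le_mul_of_one_le_right hε0.le (le_trans (by norm_num) hB)
    have c6 := mul_le_mul_of_nonneg_left hB hεB.le
    rw [he] at c2
    nlinarith [g1.2]
  · have c4 : |(∫ x, (W₁ x + 8 * ε * B * hub x + -(k * lam) * ker (x - d8p)) * ηt 1 x ^ 2) -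
        (∫ x, (W₁ x + 8 * ε * B * hub x + -(k * lam) * ker (x - d8p)) * ηt 0 x ^ 2) -
        2 * (lam / Lc)| ≤ tol / 10 * (lam / Lc) := by
      have e : (∫ x, (W₁ x + 8 * ε * B * hub x + -(k * lam) * ker (x - d8p)) * ηt 1 x ^ 2) -
          (∫ x, (W₁ x + 8 * ε * B * hub x + -(k * lam) * ker (x - d8p)) * ηt 0 x ^ 2) =
          g + k * (lam * d) := by
        rw [k2, k2, k0, k1, hg, hd]
        ring
      rw [e, abs_le, tol]
      rw [he] at c1 c2 ⊢
      constructor <;> linarith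
    have e2 := k3 k 0 (by decide) 1
    have e4 := k3 k 1 (by decide) 1
    have e3 := k3 k 1 (by decide) 2
    rw [show pr 0 1 = 2 from rfl] at e2
    rw [show pr 1 1 = 4 from rfl] at e4
    rw [show pr 1 2 = 3 from rfl, e2] at e3
    intro a ha
    fin_cases a
    · exact absurd rfl ha
    · exact c4
    · exact e2 ▸ c4
    · exact e3 ▸ c4
    · exact e4 ▸ c4

theorem d8_grow (K : ℝ) (m : ℕ) :
    ∀ᶠ n : ℝ in Filter.atTop, K * n ^ m ≤ Real.exp (n ^ (3 / 4 : ℝ)) := by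
  have h1 := (tendsto_exp_div_rpow_atTop (4 / 3 * m)).comp
    (tendsto_rpow_atTop (y := 3 / 4) (by norm_num))
  filter_upwards [h1.eventually_ge_atTop K, Filter.eventually_gt_atTop 0] with n h hn
  have e : (n ^ (3 / 4 : ℝ)) ^ (4 / 3 * m : ℝ) = n ^ m := by
    rw [← Real.rpow_mul hn.le, ← Real.rpow_natCast]
    congr 1
    ring
  rw [Function.comp_apply, e, le_div_iff₀ (by positivity)] at h
  exact h

theorem d8_Ple {n : ℝ} (hn : 10 ^ 12 ≤ n) :
    Real.exp (n ^ (3 / 4 : ℝ)) ^ 1000 * Real.exp (-n) ≤ 1 := by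
  have hn0 : 0 < n := lt_of_lt_of_le (by norm_num) hn
  rw [← Real.exp_nat_mul, ← Real.exp_add, Real.exp_le_one_iff]
  have h1 : (1000 : ℝ) ≤ n ^ (1 / 4 : ℝ) := by
    rw [one_div, Real.le_rpow_inv_iff_of_pos (by norm_num) hn0.le (by norm_num)]
    norm_num at hn ⊢
    exact hn
  have h2 : n ^ (1 / 4 : ℝ) * n ^ (3 / 4 : ℝ) = n := by
    rw [← Real.rpow_add hn0]
    norm_num
  have h3 := mul_le_mul_of_nonneg_right h1 (Real.rpow_nonneg hn0.le (3 / 4))
  push_cast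
  linarith

theorem d8_pt {P t : ℝ} (hP : 1 ≤ P) (ht : 0 < t) (h : P ^ 1000 * t ≤ 1) {a b : ℕ}
    (ha : a ≤ 1000) (hb : 1 ≤ b) : P ^ a * t ^ b ≤ 1 := by
  have h1 : t ≤ 1 := le_trans (le_mul_of_one_le_left ht.le (one_le_pow₀ hP)) h
  refine le_trans (mul_le_mul (pow_le_pow_right₀ hP ha) ?_ (by positivity) (by positivity)) h
  simpa using pow_le_pow_of_le_one ht.le h1 hb

/-- D8 (with D5b, the tuning): assembly of the design. -/
theorem exists_mol (R₀ : ℝ) : ∃ M : Mol, M.OK ∧ R₀ ≤ M.R := by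
  obtain ⟨C₀, hslow⟩ := exists_slow
  obtain ⟨C, hC1, hdis⟩ := discr
  obtain ⟨Ch, hCh⟩ := d8_hub_lap
  obtain ⟨n₀, hev⟩ := ((((F_facts.and orb_ev).and obu_ev).and wt_ev).and th_ev) (3 + 9 * C₀)
  obtain ⟨n, hn1, hn2, hn3, hK⟩ := ((Filter.eventually_ge_atTop n₀).and
    ((Filter.eventually_ge_atTop R₀).and ((Filter.eventually_ge_atTop (10 ^ 12)).and
      (d8_grow (10 ^ 200 + C + |Ch|) (20 + 2 * (3 + 9 * C₀)))))).exists
  have n1 : 1 ≤ n := le_trans (by norm_num) hn3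
  have n0 : 0 < n := by linarith
  obtain ⟨Lg, c, ch, hS, hLg⟩ := hslow (n ^ 8) (n ^ 3) (one_le_pow₀ n1) (one_le_pow₀ n1)
  have hLg' : Lg ≤ n ^ (3 + 9 * C₀) := by
    refine hLg.trans ?_
    rw [pow_add, pow_mul]
    refine mul_le_mul_of_nonneg_left (pow_le_pow_left₀ (by positivity) ?_ _) (by positivity)
    have := one_le_pow₀ (n := 8) n1
    rw [pow_succ n 8]
    nlinarith
  obtain ⟨D, hD⟩ : ∃ D : Des, D = ⟨n, Lg, c, ch⟩ := ⟨_, rfl⟩
  have en : D.n = n := by rw [hD]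
  have eL : D.Lg = Lg := by rw [hD]
  obtain ⟨⟨⟨⟨⟨f1, f2, f3, f4, f5⟩, ho⟩, hobu⟩, hwt⟩, Θ, hth⟩ :=
    hev D (en ▸ hn1) (by rw [hD]; exact hS) (by rw [en, eL]; exact hLg')
  rw [en] at f4 f5
  rw [eL] at f2 f5
  have eR : D.R = 20 * Lg := by rw [Des.R, eL]
  have eE : D.E1 = -(3 / 2 * D.R ^ 2) + 3 / 2 - √n := by rw [Des.E1, en]
  have hPle : D.P ^ 1000 * D.sm ≤ 1 := d8_Ple (en ▸ hn3)
  have hK' : (10 ^ 200 + C + |Ch|) * n ^ (20 + 2 * (3 + 9 * C₀)) ≤ D.P := by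
    rw [Des.P, en]
    exact hK
  have hsm : 0 < D.sm := Real.exp_pos _
  have hls : D.lam = D.sm ^ 12 / 10 ^ 8 := by
    rw [Des.lam, Des.sm, ← Real.exp_nat_mul, aw]
    congr 2
    push_cast
    ring
  have hl0 : 0 < D.lam := by rw [hls]; positivity
  have hL1 : n ≤ Lg := (le_self_pow₀ n1 (by norm_num)).trans hS.L_le
  have hL2 : 10 ^ 24 ≤ Lg := by
    refine le_trans ?_ ((pow_le_pow_left₀ (by norm_num) hn3 3).trans hS.L_le)
    norm_num
  have hsq : √n ≤ n := Real.sqrt_le_iff.2 ⟨n0.le, by nlinarith⟩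
  have hsq0 := Real.sqrt_nonneg n
  have hQ : n ^ 20 * Lg ^ 2 ≤ n ^ (20 + 2 * (3 + 9 * C₀)) := by
    rw [pow_add, pow_mul']
    exact mul_le_mul_of_nonneg_left (pow_le_pow_left₀ (by linarith) hLg' 2) (by positivity)
  have q1 : 1 ≤ n ^ 20 := one_le_pow₀ n1
  have q2 : Lg ≤ Lg ^ 2 := by nlinarith
  have q3 : Lg ^ 2 ≤ n ^ 20 * Lg ^ 2 := le_mul_of_one_le_left (by positivity) q1
  have q4 : n ^ 20 ≤ n ^ 20 * Lg ^ 2 := le_mul_of_one_le_right (by positivity) (by linarith)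
  generalize n ^ (20 + 2 * (3 + 9 * C₀)) = Q at hK' hQ
  generalize n ^ 20 * Lg ^ 2 = Q' at hQ q3 q4 f5
  have hCh0 := abs_nonneg Ch
  have p0 : (10 ^ 200 + C + |Ch|) * 1 ≤ D.P :=
    (mul_le_mul_of_nonneg_left (by linarith) (by linarith)).trans hK'
  have p1 : 10 ^ 200 * Q ≤ D.P :=
    (mul_le_mul_of_nonneg_right (by linarith) (by linarith)).trans hK'
  have hP : 10 ^ 200 ≤ D.P := by linarith
  have hP1 : 1 ≤ D.P := le_trans (by norm_num) hP
  have hP0 : 0 < D.P := by linarith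
  obtain ⟨t, ht0, htl⟩ : ∃ t : ℝ, 0 < t ∧ t ^ 12 = D.lam :=
    ⟨D.lam ^ ((12 : ℕ)⁻¹ : ℝ), Real.rpow_pos_of_pos hl0 _, Real.rpow_inv_natCast_pow hl0.le
      (by norm_num)⟩
  have e7 : D.lam ^ (7 / 12 : ℝ) = t ^ 7 := by
    rw [← htl, ← Real.rpow_natCast, ← Real.rpow_mul ht0.le, ← Real.rpow_natCast]
    norm_num
  have hll : D.lam ≤ D.sm ^ 12 := by
    rw [hls]
    exact div_le_self (by positivity) (by norm_num)
  have hts : t ≤ D.sm := (pow_le_pow_iff_left₀ ht0.le hsm.le (by norm_num : 12 ≠ 0)).1 (htl ▸ hll)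
  have pt : ∀ {a b : ℕ}, a ≤ 1000 → 1 ≤ b → D.P ^ a * t ^ b ≤ 1 := fun ha hb =>
    d8_pt hP1 ht0 ((mul_le_mul_of_nonneg_left hts (by positivity)).trans hPle) ha hb
  obtain ⟨ε, hε⟩ : ∃ ε, ε = D.P ^ 20 * t ^ 7 := ⟨_, rfl⟩
  have hε0 : 0 < ε := by rw [hε]; positivity
  have r1 : ε * D.P ^ 2 * D.P ≤ 1 := by
    have := pt (a := 23) (b := 7) (by norm_num) (by norm_num)
    rw [hε]
    linarith
  have r0 : 0 < ε * D.P ^ 2 := by positivity
  have r2 : ε * D.P ^ 2 * 10 ^ 200 ≤ 1 := (mul_le_mul_of_nonneg_left hP r0.le).trans r1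
  have hb : ∀ x, |8 * ε * D.P * lap hub x| ≤ 1 / 4 := by
    intro x
    have a1 : |lap hub x| ≤ D.P := by linarith [hCh x, le_abs_self Ch]
    have a2 := mul_le_mul_of_nonneg_left a1 (by positivity : 0 ≤ 8 * ε * D.P)
    rw [abs_mul, abs_of_pos (by positivity)]
    linarith
  obtain ⟨pts, Z, W₁, W₂, hdc⟩ := hdis D.R Lg D.P D.lam
    (fun x => D.F x + 8 * ε * D.P * hub x) (by linarith) eR.ge (by linarith) (by linarith) hl0
    (by
      have := pt (a := 300) (b := 12) (by norm_num) (by norm_num)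
      rwa [htl, mul_comm] at this)
    (f1.add (contDiff_const.mul d8_hub_cd))
    (fun x hx => by
      have a1 : hub x = 0 := by
        by_contra a1
        have a2 := d8_hub_ne a1
        simp only [Lc] at a2
        linarith
      simp only [f2 x hx, a1, mul_zero, add_zero])
    (fun i hi x => by simp only [f3 i hi, d8_hub_rf i hi])
    (fun x => by
      rw [d8_lap_add f1 d8_hub_cd]
      have a1 := abs_le.1 (hb x)
      constructor <;> linarith [(f4 x).1, (f4 x).2, a1.1, a1.2])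
  rw [e7, ← hε] at hdc
  have hL3 : 3 * Lc ≤ Lg := le_trans (by norm_num [Lc]) hL2
  obtain ⟨k, hk, htun⟩ := d8_tune ho hobu (fun _ => rfl) f3 hdc hL3 hl0
    (by
      have a1 := pt (a := 0) (b := 5) (by norm_num) (by norm_num)
      have a2 := mul_le_mul_of_nonneg_right a1 (by positivity : 0 ≤ t ^ 7)
      have a3 := le_mul_of_one_le_left (by positivity : 0 ≤ t ^ 7) (one_le_pow₀ (n := 20) hP1)
      rw [← htl, hε]
      linarith) hP
    (by
      have a1 := pt (a := 2) (b := 12) (by norm_num) (by norm_num)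
      rw [htl] at a1
      have a2 := mul_le_mul_of_nonneg_right hP (mul_pos hP0 hl0).le
      linarith)
  have hk0 : 0 ≤ k * D.lam := by positivity
  have hW : Small (fun x => W₁ x + 8 * ε * D.P * hub x + -(k * D.lam) * ker (x - d8p))
      (ε * D.P ^ 2) := by
    refine d8_mono (d8_add (d8_add hdc.small (d8_smul
      (d8_bdd d8_hub_cd.continuous.measurable d8_hub_abs) _)) (d8_smul (d8_ker d8p) _)) ?_
    rw [abs_neg, abs_of_nonneg hk0, abs_of_pos (by positivity)]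
    have a1 : ε ≤ ε * D.P := le_mul_of_one_le_right hε0.le hP1
    have a2 := mul_le_mul_of_nonneg_left hP (mul_pos hε0 hP0).le
    linarith
  have hV : ∀ x, vp (pts ++ List.replicate k d8p) D.lam x = D.U x +
      (W₁ x + 8 * ε * D.P * hub x + -(k * D.lam) * ker (x - d8p)) + W₂ x := fun x => by
    rw [d8_vp, hdc.split, Des.U]
    ring
  have hR0 : 0 < D.R := by linarith
  have hR2 : D.R ^ 2 = 400 * Lg ^ 2 := by rw [eR]; ring
  have mU : Measurable D.U := (d8_ub_meas _).add f1.continuous.measurable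
  have hUb : ∀ x, |D.U x| ≤ D.P := fun x => by
    have a1 := abs_add_le (ub D.R x) (D.F x)
    rw [Des.U]
    linarith [(d8_ub hR0 x).1, f5 x]
  have hob := ob_pert ho hobu mU hUb (by rw [eE, abs_le]; constructor <;> linarith) hP hl0
    (by
      have := pt (a := 10) (b := 12) (by norm_num) (by norm_num)
      rwa [htl, mul_comm] at this) r0.le
    (by
      have a1 := pt (a := 54) (b := 2) (by norm_num) (by norm_num)
      have a2 := mul_le_mul_of_nonneg_right a1 (by positivity : 0 ≤ t ^ 12)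
      rw [← htl, hε]
      linarith) hV hW hdc.meas hdc.W2 (fun x hx => hdc.core x (hx.trans hL3)) (fb_pot _)
    (d8_symV hdc.sym k) htun
  have hδ := (d8_abs hW ⟨contDiff_infty.1 (hobu.smooth 0).1 1, (hobu.smooth 0).2⟩).trans
    ((mul_le_mul_of_nonneg_left (hobu.h1 0) r0.le).trans r1)
  generalize ∫ x, (W₁ x + 8 * ε * D.P * hub x + -(k * D.lam) * ker (x - d8p)) * D.ηt 0 x ^ 2 = δ
    at hob hδ
  have hδ' := abs_le.1 hδ
  have hRs : 0 ≤ 1 / 8 / D.R := by positivity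
  refine ⟨⟨pts ++ List.replicate k d8p, D.lam, D.R, D.P, D.sm, D.nu, Z + k * D.lam, D.E1 + δ, D.U,
    fun x => W₁ x + 8 * ε * D.P * hub x + -(k * D.lam) * ker (x - d8p), W₂, D.G, Θ, D.φ, D.η, D.N,
    Apl⟩, ⟨List.append_ne_nil_of_left_ne_nil hdc.ne _, hob, hsm, Real.exp_pos _, ?_, ?_, hP, hPle,
      hll, ?_, ?_, ?_, fun x hx => ?_, ?_, hV, mU, hUb, d8_mono hW ?_, hdc.meas, hdc.W2,
      fun x hx => ?_, D.E1, ?_, hwt, hth⟩, ?_⟩
  · change 10 ≤ D.R
    linarith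
  · change D.R ≤ D.P
    linarith
  · change D.sm ^ 12 ≤ D.P * D.lam
    have a1 := mul_le_mul_of_nonneg_right hP hl0.le
    linarith
  · change |D.E1 + δ + 3 / 2 * D.R ^ 2| ≤ D.R / 2
    rw [eE, abs_le]
    constructor <;> linarith [hδ'.1, hδ'.2]
  · change |Z + k * D.lam - D.R ^ 3| ≤ 1
    have a1 := abs_le.1 hdc.Z_eq
    rw [abs_le]
    constructor <;> linarith [a1.1, a1.2]
  · change |vp (pts ++ List.replicate k d8p) D.lam x + (Z + k * D.lam) / nrm x| ≤ 1 / nrm x ^ 2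
    have hx' : D.R + 1 / 8 / D.R ≤ nrm x := hx
    have a1 := (hdc.vac x hx').1
    have a2 := mul_le_mul_of_nonneg_left (d8_vac (x := x) (by linarith)) hk0
    have a3 := abs_add_le (vp pts D.lam x + Z / nrm x) (k * D.lam * (1 / nrm x - ker (x - d8p)))
    rw [abs_mul, abs_of_nonneg hk0] at a3
    have e : vp (pts ++ List.replicate k d8p) D.lam x + (Z + k * D.lam) / nrm x =
        vp pts D.lam x + Z / nrm x + k * D.lam * (1 / nrm x - ker (x - d8p)) := by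
      rw [d8_vp]
      ring
    have a4 := mul_le_mul_of_nonneg_right (by linarith : k * D.lam * (2 * 10 ^ 19) ≤ 1 / 2)
      (by positivity : 0 ≤ 1 / nrm x ^ 2)
    rw [e]
    simp only [div_eq_mul_inv] at a1 a2 a3 a4 ⊢
    linarith
  · refine d8_coer hV (d8_mono hW (by linarith)) hdc.meas hdc.W2 mU hUb ?_ fun x hx => ?_
    · change D.E1 + δ + 11 ≤ 0
      linarith [hδ'.2]
    · change D.E1 + δ + 11 ≤ D.U x
      have hx' : D.R + 1 < nrm x := hx
      have a1 := (d8_ub hR0 x).2 (by linarith)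
      rw [Des.U, f2 x (by linarith)]
      linarith [hδ'.2]
  · change ε * D.P ^ 2 ≤ D.sm
    have a1 := pt (a := 22) (b := 6) (by norm_num) (by norm_num)
    have a2 := mul_le_mul_of_nonneg_right a1 ht0.le
    rw [hε]
    linarith
  · change vp (pts ++ List.replicate k d8p) D.lam x ≤ D.U x + 1
    have hx' : D.R + 1 / 8 / D.R ≤ nrm x := hx.1
    have a1 := (hdc.vac x hx').2
    have a2 := mul_nonneg hk0 (ker_nonneg (x - d8p))
    rw [d8_vp, Des.U, f2 x (by linarith)]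
    linarith
  · change |D.E1 - (D.E1 + δ)| ≤ 1
    rwa [sub_add_cancel_left, abs_neg]
  · change R₀ ≤ D.R
    linarith

end Vale.Agent.P363
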