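import Vale.Agent.P363.F0
import Vale.Agent.P363.F1
import Vale.Agent.P363.F3
import Vale.Agent.P363.F5
import Vale.Agent.P363.F6
import Vale.Agent.P363.F7

/-! Part F (see `skeleton/P363/PROOF.md`). -/

namespace Vale.Agent.P363

open MeasureTheory Vale.Agent.P370
open scoped ContDiff

theorem far_num {R μ a₀ S : ℝ} (hR : 100 ≤ R) (hμ : 0 < μ) (ha : 0 ≤ a₀) (hS : 0 ≤ S)
    (h : (a₀ + S) * R ^ 50 ≤ μ) :
    2 * 10 ^ 6 * (20 * R ^ 2 * a₀ + 15 * S) < μ * R ^ 2 * Real.exp (-11) := by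
  have h1 : (1 / 3 : ℝ) ≤ Real.exp (-1) := by
    rw [Real.exp_neg, one_div]
    exact inv_anti₀ (Real.exp_pos _) (by linarith [Real.exp_one_lt_d9])
  have h2 : (1 / 3 : ℝ) ^ 11 ≤ Real.exp (-11) := by
    rw [show (-11 : ℝ) = (11 : ℕ) * (-1) by norm_num, Real.exp_nat_mul]
    exact pow_le_pow_left₀ (by norm_num) h1 11
  have h3 : (100 : ℝ) ^ 50 ≤ R ^ 50 := pow_le_pow_left₀ (by norm_num) hR 50
  have h4 := (mul_le_mul_of_nonneg_left h3 (add_nonneg ha hS)).trans h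
  have h5 : 1 ≤ R ^ 2 := by nlinarith
  have h6 : 0 < μ * R ^ 2 := by positivity
  have h7 := mul_le_mul_of_nonneg_left h2 h6.le
  have h8 := mul_le_mul_of_nonneg_right h4 (by positivity : 0 ≤ R ^ 2)
  have h9 := mul_le_mul_of_nonneg_left h5 hS
  nlinarith

/-- Part F -/
theorem far : ∃ R₀ : ℝ, ∀ {V : Pt → ℝ} {lam k g Λ β A R Z Ca μ a₀ : ℝ} {φ : Fin 5 → Pt → ℝ}
    {f a ρ b n : Pt → ℝ}, R₀ ≤ R → FB V → Scal V lam k g Λ β A φ f a ρ b n → Vac V R Z →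
    |Z - R ^ 3| ≤ 1 → |k - 3 / 2 * R ^ 2| ≤ R → 0 ≤ lam → lam ≤ 1 / 100 → 0 < g → g ≤ 1 →
    0 ≤ Λ → Λ ≤ 1 → 0 < μ → 0 ≤ a₀ → 0 ≤ Ca → Shell R Ca μ a₀ f a →
    (a₀ + Ca * Λ / √g) * R ^ 50 ≤ μ → Nodal n := by
  refine ⟨100, ?_⟩
  intro V lam k g Λ β A R Z Ca μ a₀ φ5 f a ρ b n hR hV hs hv hZ hk l0 l1 g0 g1 Λ0 Λ1 hμ ha hC hsh hμ'
  obtain ⟨p, φ, W⟩ := exists_wk (Z := Z - 2 * lam) hR (by
    rw [abs_le] at hZ ⊢
    constructor <;> linarith [hZ.1, hZ.2]) hk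
  obtain ⟨q, s, gf, E, hs'⟩ := f0_f hV hv hR Λ1 hs
  obtain ⟨ga, a1, a2⟩ := hs.ha
  obtain ⟨gρ, τ, r1, r2, r3, r4⟩ := hs.hρ
  obtain ⟨gb, b1, b2⟩ := hs.hb
  have qg := f0_q hV hv hR l0 l1 k g
  have R0 : 0 < R := by linarith
  have hle : ∀ᵐ x, |f x| ≤ a x ∧ ρ x ≤ a x := hs.pyth.mono fun x h =>
    ⟨abs_le_of_sq_le_sq (by linarith [sq_nonneg (ρ x)]) (hs.nonneg x).1,
      le_of_sq_le_sq (by linarith [sq_nonneg (f x)]) (hs.nonneg x).1⟩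
  have hr : ∀ x : Pt, R + 1 / 4 / R ≤ nrm x → R ≤ nrm x := fun x h =>
    (le_add_of_nonneg_right (by positivity)).trans h
  have F1 := f1_a W (by simpa only [add_zero] using f0_q hV hv hR l0 l1 k 0) a1 a2 hC
    (hsh.mono fun x h h' => (h h').1)
  have hτ : ∀ᵐ x, τ x ≤ |f x| / nrm x ^ 2 := r4.mono fun x h => h.trans (by
    rw [div_mul_eq_mul_div]
    exact div_le_div_of_nonneg_right (mul_le_of_le_one_left (abs_nonneg _) Λ1) (sq_nonneg _))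
  have F2 := f1_rho W g0 g1 qg r1 r2 r3 hC (by
    filter_upwards [hτ, hle, F1] with x h1 h2 h3 hx
    exact h1.trans (div_le_div_of_nonneg_right (h2.1.trans (h3 hx)) (sq_nonneg _))) (by
    filter_upwards [hsh, hle] with x h1 h2 hx
    exact h2.2.trans (h1 hx).1)
  have S0 : 0 ≤ Ca * Λ / √g := by positivity
  have hS : ∀ᵐ x, R + 1 / 4 / R ≤ nrm x → |s x| ≤
      15 * (Ca * Λ / √g) * (φ (nrm x) * (R / nrm x) ^ (3 / 8 : ℝ)) / nrm x ^ 2 := by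
    filter_upwards [hs', F2] with x h1 h2 hx
    refine ((h1 (hr x hx)).trans (mul_le_mul_of_nonneg_left (h2 hx) (by positivity))).trans_eq ?_
    ring
  have F3 := f3_low W E (by positivity) hS hμ.le ha (hsh.mono fun x h h' => (h h').2)
  obtain ⟨C, C0, F4⟩ := f3_up W E (by positivity) hS hC (by
    filter_upwards [hsh, hle] with x h1 h2 hx
    exact h2.1.trans (h1 hx).1)
  obtain ⟨C₁, R₁, c1, F5⟩ := f5 W g0 g1 qg r1 (fun x => (hs.nonneg x).2.1) r2 r3 C0 (by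
    filter_upwards [hτ, F4] with x h1 h2 hx
    refine (h1.trans (div_le_div_of_nonneg_right (h2 hx) (sq_nonneg _))).trans_eq ?_
    ring)
  obtain ⟨C₂, R₂, c2, F6⟩ := f5 (τ := 0) W g0 g1 qg b1 (fun x => (hs.nonneg x).2.2) MemLp.zero b2
    le_rfl (.of_forall fun x _ => by simp)
  refine nodal_of E.qn.1 E.h1 E.hs E.sol E.odd r1.1 b1.1 (fun x => (hs.nonneg x).2.1)
    (fun x => (hs.nonneg x).2.2) (by
      filter_upwards [hs.dens, hs.pyth] with x h1 h2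
      rw [h1, h2]) hs.symm
    (fn_of (C := C + C₁ + C₂) (R₁ := max (R + 1 / 4 / R) (max R₁ R₂)) W E.qn (by positivity)
      (by positivity) (far_num hR hμ ha S0 hμ') ?_)
  filter_upwards [F3, F4, F5, F6, hs'] with x h3 h4 h5 h6 h7 hx
  rw [max_le_iff, max_le_iff] at hx
  have p0 := W.pos (nrm x)
  have x1 := hr x hx.1
  refine ⟨(h4 hx.1).trans ?_, (h5 hx.2.1).trans ?_, (h6 hx.2.2).trans ?_,
    (h7 x1).trans (mul_le_of_le_one_left (hs.nonneg x).2.1 ?_), fun h => h3 h hx.1⟩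
  · gcongr
    linarith
  · gcongr
    linarith
  · gcongr
    linarith
  · exact div_le_one_of_le₀ (by nlinarith) (sq_nonneg _)

end Vale.Agent.P363
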