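import Vale.Agent.P363.I5

/-! Part I (see `skeleton/P363/PROOF.md`). -/

namespace Vale.Agent.P363

open MeasureTheory Vale.Agent.P370
open scoped ContDiff

namespace ICtx

open I3 Filter

variable {M : Mol} {E₁ k : ℝ} (c : ICtx M E₁ k)
include c

theorem s_pos : 0 < 1 / 8 / M.R := div_pos (by norm_num) c.R0

theorem s_le : 1 / 8 / M.R ≤ 1 / 8 := div_le_self (by norm_num) (by linarith [c.ok.R_ge])

theorem root_le {v : Pt → ℝ} {g : Fin 3 → Pt → ℝ} (hv : H1 v g) (h0 : ∀ x, 0 ≤ v x) {b : ℝ}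
    (hb : 0 ≤ b) (h : ∫ x, (M.w x * v x) ^ 2 ≤ b ^ 2) {x : Pt} (hx : x ∈ Sh M.R (1 / 4) (3 / 4)) :
    √((∫ y in {y | nrm (y - x) ≤ 1 / 8 / M.R}, max (v y) 0 ^ 2) / (1 / 8 / M.R) ^ 3) ≤
      M.nu * M.P ^ 3 * b := by
  have P0 := c.P0
  have n0 := c.ok.nu_pos
  simp only [fun y => max_eq_left (h0 y)]
  refine Real.sqrt_le_iff.2 ⟨by positivity, ?_⟩
  have h1 := (c.ball_le hv (I0.meas_ball x _) (I0.ball_sub hx)).trans
    (mul_le_mul_of_nonneg_left h (sq_nonneg _))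
  have s0 := c.s_pos
  rw [div_eq_mul_one_div]
  calc _ ≤ (M.P * M.nu) ^ 2 * b ^ 2 * M.P ^ 4 :=
        mul_le_mul h1 c.s_cube (by positivity) (by positivity)
    _ = _ := by ring

theorem src_le {a : Pt → ℝ} {ga : Fin 3 → Pt → ℝ} (ha : H1 a ga)
    (hwa : ∫ x, (M.w x * a x) ^ 2 ≤ M.P ^ 8 / M.sm ^ 2)
    (hτ : MemLp (fun x => (Sh M.R (1 / 8) (7 / 8)).indicator (fun _ => M.nu * M.sm) x +
      M.lam * M.P ^ 5 * a x) 2) {x : Pt} (hx : x ∈ Sh M.R (1 / 4) (3 / 4)) :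
    √(1 / 8 / M.R * ∫ y in {y | nrm (y - x) ≤ 1 / 8 / M.R},
      ((Sh M.R (1 / 8) (7 / 8)).indicator (fun _ => M.nu * M.sm) y + M.lam * M.P ^ 5 * a y) ^ 2) ≤
      2 * (M.nu * M.sm) := by
  have P0 := c.P0
  have n0 := c.ok.nu_pos
  have s0 := c.s0
  have r0 := c.s_pos
  have r1 := c.s_le
  obtain ⟨v1, v2⟩ := I0.vol (S := {y | nrm (y - x) ≤ 1 / 8 / M.R}) (c := x) r0.le fun y hy => hy
  have v3 : volume.real {y | nrm (y - x) ≤ 1 / 8 / M.R} ≤ 1 := by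
    have := pow_le_pow_left₀ r0.le r1 3
    linarith
  have i1 := (c.h1w ha).1.integrable_sq.const_mul (2 * (M.lam * M.P ^ 5) ^ 2 * (M.P * M.nu) ^ 2)
  have h1 := I0.set_le (I0.meas_ball x _) v1 hτ.integrable_sq i1 (fun y => by positivity)
    (c := 2 * (M.nu * M.sm) ^ 2) (by positivity) v3 (Eventually.of_forall fun y hy => by
      have hy' := I0.ball_sub hx hy
      rw [Set.indicator_of_mem hy']
      have b1 : 1 ≤ (M.P * M.nu * M.w y) ^ 2 := one_le_pow₀ (c.wt.Gsh y hy')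
      have b2 := mul_le_mul_of_nonneg_right b1 (sq_nonneg (M.lam * M.P ^ 5 * a y))
      nlinarith [sq_nonneg (M.nu * M.sm - M.lam * M.P ^ 5 * a y)])
  rw [integral_const_mul] at h1
  have h2 : 2 * (M.lam * M.P ^ 5) ^ 2 * (M.P * M.nu) ^ 2 * ∫ y, (M.w y * a y) ^ 2 ≤
      2 * (M.nu * M.sm) ^ 2 := by
    calc _ ≤ 2 * (M.P ^ 10 * M.sm ^ 24) * (M.P * M.nu) ^ 2 * (M.P ^ 8 / M.sm ^ 2) :=
          mul_le_mul (mul_le_mul_of_nonneg_right (by linarith [c.lam_sq]) (sq_nonneg _)) hwa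
            (I0.sq_int_nonneg _) (by positivity)
      _ = 2 * M.nu ^ 2 * (M.P ^ 20 * M.sm ^ (19 + 3)) := by field_simp
      _ ≤ 2 * M.nu ^ 2 * M.sm ^ 2 :=
          mul_le_mul_of_nonneg_left (c.pw 20 19 (by norm_num)) (by positivity)
      _ = _ := by ring
  refine Real.sqrt_le_iff.2 ⟨by positivity, ?_⟩
  refine (mul_le_of_le_one_left (integral_nonneg fun _ => sq_nonneg _) (by linarith)).trans ?_
  linarith

theorem final {C X θ v f : ℝ} (hC : C ≤ M.P) (hX : 0 ≤ X) (hθ : M.nu * (X / M.P - M.sm) ≤ θ)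
    (hv : v ≤ C * (M.nu * M.P ^ 3 * (M.P ^ 5 * M.sm) + 2 * (M.nu * M.sm)))
    (hf : M.mu * θ - f ≤ v) : M.nu / M.P ^ 3 * X - M.nu * M.P ^ 30 * M.sm ≤ f := by
  have P0 := c.P0
  have n0 := c.ok.nu_pos
  have s0 := c.s0
  have h1 : v ≤ M.P * (M.nu * M.P ^ 3 * (M.P ^ 5 * M.sm) + 2 * (M.nu * M.sm)) :=
    hv.trans (mul_le_mul_of_nonneg_right hC (by positivity))
  have h2 := mul_le_mul_of_nonneg_left hθ c.mu0.le
  have h3 : M.nu / M.P ^ 3 * X ≤ M.mu * (M.nu * (X / M.P)) := by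
    have e : M.mu * (M.nu * (X / M.P)) = M.P / 16 * (M.nu / M.P ^ 3 * X) := by
      unfold Mol.mu
      field_simp
    rw [e]
    exact le_mul_of_one_le_left (by positivity) (by linarith [c.P3])
  have h4 : M.mu * (M.nu * M.sm) ≤ M.nu * M.sm := mul_le_of_le_one_left (by positivity) c.mu1
  have h5 : M.P ^ 9 + 2 * M.P + 1 ≤ M.P ^ 30 := by
    have a1 : M.P ^ 9 ≤ M.P ^ 29 := pow_le_pow_right₀ c.P1 (by norm_num)
    have a3 : M.P ≤ M.P ^ 29 := le_self_pow₀ c.P1 (by norm_num)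
    have a4 : 1 ≤ M.P ^ 29 := one_le_pow₀ c.P1
    nlinarith [c.P3]
  have h6 := mul_le_mul_of_nonneg_left h5 (by positivity : 0 ≤ M.nu * M.sm)
  linarith

end ICtx

open I3 Filter in
/-- Part I -/
theorem inside : ∃ P₀ : ℝ, ∀ {M : Mol} {k g A : ℝ} {f a ρ b n : Pt → ℝ}, M.OK → P₀ ≤ M.P →
    Scal M.V M.lam k g (M.lam * M.P ^ 5) (M.lam / gam) A M.φ f a ρ b n →
    |k + M.E| ≤ 20 * (M.lam / Lc) → 1 / 4 ≤ A →
    Shell M.R (M.nu * M.P ^ 30 / M.sm) (M.nu / M.P ^ 3) (M.nu * M.P ^ 30 * M.sm) f a := by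
  obtain ⟨C, -, hC⟩ := mean_value_loc
  obtain ⟨C', -, hC'⟩ := mean_value'
  refine ⟨max C C', fun {M k g A f a ρ b n} h hP hs hk hA => ?_⟩
  obtain ⟨E₁, e1, wt, th⟩ := h.wt
  have c : ICtx M E₁ k := ⟨h, e1, wt, th, hk⟩
  obtain ⟨gf, s, q₁, s₂, hf, ms, -, sol, hsa⟩ := hs.hf
  have hsa' : ∀ᵐ x, |s x| ≤ M.lam * M.P ^ 5 * a x := hsa.mono fun x hx => hx.1
  obtain ⟨ga, ha, sub⟩ := hs.ha
  obtain ⟨e, me, be, ce⟩ := hs.close_a
  have a0 : ∀ x, 0 ≤ a x := fun x => (hs.nonneg x).1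
  have P0 := c.P0
  have n0 := h.nu_pos
  have s0 := c.s0
  have hwa := c.wa_le ha sub a0 me be ce
  have hn := c.neg_le hf ms sol hsa' ha.1 hs.norm hs.odd hA hs.close_f
  have hwv := c.wv_le hf ms sol hsa' ha hwa hs.odd hA hs.close_f hn
  obtain ⟨hτ, hloc⟩ := c.loc_ineq hf ms sol hsa' ha.1 a0 hs.odd
  have hv := c.h1v hf hs.odd
  have m1 := hC' _ 0 a ga (Sh M.R (1 / 8) (7 / 8)) _ ha c.fb MemLp.zero c.s_pos sub
    (Eventually.of_forall fun x hx => mul_nonneg (c.q_nonneg hx) (a0 x))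
  have m2 := hC _ _ _ (Sh M.R (1 / 8) (7 / 8)) _ hv hτ c.s_pos hloc
  filter_upwards [m1, m2] with x h1 h2 hx
  have h3 := h1 (I0.ball_sub hx)
  have h4 := h2 (I0.ball_sub hx)
  have h5 := c.root_le ha a0 (b := M.P ^ 4 / M.sm) (by positivity)
    (hwa.trans_eq (by ring)) hx
  have h6 := c.root_le hv (pq_nonneg _) (b := M.P ^ 5 * M.sm) (by positivity)
    (hwv.trans_eq (by ring)) hx
  have h7 := c.src_le ha hwa hτ hx
  refine ⟨?_, fun hQ => ?_⟩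
  · simp only [Pi.zero_apply, ne_eq, OfNat.ofNat_ne_zero, not_false_eq_true, zero_pow,
      integral_zero, mul_zero, Real.sqrt_zero, add_zero] at h3
    calc a x ≤ _ := h3
      _ ≤ M.P * (M.nu * M.P ^ 3 * (M.P ^ 4 / M.sm)) :=
        mul_le_mul ((le_max_right _ _).trans hP) h5 (Real.sqrt_nonneg _) P0.le
      _ = M.nu * M.P ^ 8 / M.sm := by ring
      _ ≤ M.nu * M.P ^ 30 / M.sm := div_le_div_of_nonneg_right
        (mul_le_mul_of_nonneg_left (pow_le_pow_right₀ c.P1 (by norm_num)) n0.le) s0.le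
  · refine c.final (C := max C 0) (max_le ((le_max_left _ _).trans hP) P0.le)
      (mul_nonneg (mul_nonneg hQ.1.le hQ.2.le) (Real.exp_pos _).le) (th.Θsh x hx hQ)
      (v := pq (M.du f) x) ?_ ?_
    · exact h4.trans (mul_le_mul (le_max_left _ _) (add_le_add h6 h7)
        (add_nonneg (Real.sqrt_nonneg _) (Real.sqrt_nonneg _)) (le_max_right _ _))
    · rw [pq_mem hQ]
      exact le_max_left _ _

end Vale.Agent.P363
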