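import Vale.Agent.P363.MTwo
import Vale.Agent.P363.MThree
import Vale.Agent.P363.MAmp
import Vale.Agent.P363.MCert

/-! Part M (see `skeleton/P363/PROOF.md`). -/

namespace Vale.Agent.P363

open MeasureTheory Vale.Agent.P370
open scoped ContDiff

/-- Part M -/
theorem many {V : Pt → ℝ} {lam E : ℝ} {φ η : Fin 5 → Pt → ℝ} (h : OB V lam E φ η) :
    ∃ Φ GΦ ψ Gψ E₂ E₃ A, MB V lam E φ Φ GΦ ψ Gψ E₂ E₃ A := by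
  obtain ⟨w₂, w₃, e₂, e₃, hc⟩ := cert
  obtain ⟨Φ, GΦ, E₂, a1, a2, a3, a4, a5, a6, a7, a8⟩ := two h hc
  obtain ⟨ψ, Gψ, E₃, b1, b2, b3, b4, b5, b6, b7⟩ := three h hc
  exact ⟨Φ, GΦ, ψ, Gψ, E₂, E₃, _, a1, a2, a3, a4, a5, a6, b1, b2, b3, a7, b4,
    ⟨cf φ ψ, b5, b6⟩, rfl, amp_ge h.orb hc a1.1 b1.1.1 a2 a8 b7⟩

end Vale.Agent.P363
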