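import Vale.Agent.P363.R0

/-! Part R, file 10: closeness to the model.
`orb_l2`: `φ a` is square integrable (`one`, `Integrable.of_integral_ne_zero`, `l2_of_sq`), orthonormal (`disj`).
Let `ψ⁰ = ∑ α, c α * ∏ i, φ (α i) (z i)`, `e = nsl (ψ - ψ⁰)` (`nsl_l2`).
`close_a`: `l2_tri` on slices; by disjoint supports `ψ⁰ ^ 2 = ∑ α, c α ^ 2 * ∏ i, φ (α i) (z i) ^ 2`, so
`nsl ψ⁰ x ^ 2 = ∑ α, c α ^ 2 * φ (α 0) x ^ 2 ≤ (∑ a, φ a x) ^ 2` (`integral_fintype_prod_volume_eq_prod`).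
`close_f`: `rctr ψ⁰ Φ = ∑ a, d a * φ a`, `|rctr ψ Φ - rctr ψ⁰ Φ| ≤ e` (`l2_cs'`).  With `m a = ∫ φ a * f` oddness and `symφ`
(`mp_rf`) give `m (pr i a) = - m a`, so `A = 2 m 1`, `∑ m a ^ 2 = A ^ 2`, and
`∫ (f - A oo) ^ 2 = ∫ f ^ 2 - A ^ 2 ≤ ∫ (f - ∑ d a φ a) ^ 2`. -/

namespace Vale.Agent.P363

open MeasureTheory Vale.Agent.P370 Filter Topology
open scoped ContDiff

variable {φ η : Fin 5 → Pt → ℝ} {Φ : Cf 2 → ℝ} {ψ : Cf 3 → ℝ} {β : ℝ}

theorem r10_l2 (h : Orb φ η) (a : Fin 5) : MemLp (φ a) 2 :=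
  l2_of_sq (h.bm a).1.aestronglyMeasurable
    (Integrable.of_integral_ne_zero (by rw [h.one]; exact one_ne_zero))

theorem r10_prod (h : Orb φ η) {n : ℕ} (α : Fin n → Fin 5) :
    MemLp (fun z : Cf n => ∏ i, φ (α i) (z i)) 2 ∧ ∫ z : Cf n, (∏ i, φ (α i) (z i)) ^ 2 = 1 := by
  simp only [← Finset.prod_pow]
  refine ⟨l2_of_sq (Finset.measurable_prod _ fun i _ =>
    (h.bm (α i)).1.comp (measurable_pi_apply i)).aestronglyMeasurable ?_, ?_⟩
  · simp only [← Finset.prod_pow]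
    exact Integrable.fintype_prod (f := fun i x => φ (α i) x ^ 2) fun i => l2_sq (r10_l2 h _)
  · rw [integral_fintype_prod_volume_eq_prod fun i x => φ (α i) x ^ 2]
    simp only [h.one, Finset.prod_const_one]

theorem r10_sum (h : Orb φ η) (c : (Fin 3 → Fin 5) → ℝ) :
    MemLp (fun z : Cf 3 => ∑ α, c α * ∏ i, φ (α i) (z i)) 2 :=
  memLp_finsetSum _ fun α _ => (r10_prod h α).1.const_mul _

theorem r10_sq (h : Orb φ η) (c : (Fin 3 → Fin 5) → ℝ) (z : Cf 3) :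
    (∑ α, c α * ∏ i, φ (α i) (z i)) ^ 2 = ∑ α, c α ^ 2 * (∏ i, φ (α i) (z i)) ^ 2 := by
  rw [sq, Finset.sum_mul_sum]
  refine Finset.sum_congr rfl fun α _ => (Finset.sum_eq_single α (fun γ _ e => ?_)
    fun e => absurd (Finset.mem_univ _) e).trans (by ring)
  obtain ⟨i, hi⟩ := Function.ne_iff.1 e
  rw [mul_mul_mul_comm, ← Finset.prod_mul_distrib,
    Finset.prod_eq_zero (Finset.mem_univ i) (h.disj _ _ _ hi.symm), mul_zero]

theorem r10_cons (α : Fin 3 → Fin 5) (x : Pt) (y : Cf 2) :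
    ∏ i, φ (α i) ((Fin.cons x y : Cf 3) i) = φ (α 0) x * ∏ i : Fin 2, φ (α i.succ) (y i) := by
  rw [Fin.prod_univ_succ]
  rfl

theorem r10_ctr {F : Cf 3 → ℝ} (hF : MemLp F 2) (hΦ : MemLp Φ 2) (one : ∫ y, Φ y ^ 2 = 1) :
    MemLp (rctr F Φ) 2 ∧ ∫ x, rctr F Φ x ^ 2 ≤ ∫ z, F z ^ 2 := by
  have h1 : AEStronglyMeasurable (rctr F Φ) volume :=
    ((hF.1.comp_measurePreserving rmp_cons).mul hΦ.1.comp_snd).integral_prod_right'
  have h2 : ∀ᵐ x, rctr F Φ x ^ 2 ≤ nsl F x ^ 2 := (l2_cons hF).mono fun x hx => by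
    have h3 := l2_cs hx hΦ
    rw [one, mul_one] at h3
    rw [nsl_sq]
    exact h3
  have h4 : Integrable fun x => rctr F Φ x ^ 2 := (l2_sq (nsl_l2 hF).1).mono' (h1.pow 2)
    (h2.mono fun x hx => by rwa [Real.norm_of_nonneg (sq_nonneg _)])
  exact ⟨l2_of_sq h1 h4, (integral_mono_ae h4 (l2_sq (nsl_l2 hF).1) h2).trans_eq (nsl_l2 hF).2⟩

theorem r10_on (h : Orb φ η) (a b : Fin 5) : ∫ x, φ a x * φ b x = if a = b then 1 else 0 := by
  split_ifs with e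
  · simp only [e, ← sq, h.one]
  · simp only [h.disj a b _ e, integral_zero]

theorem r10_oo (h : Orb φ η) {u : Pt → ℝ} (hu : MemLp u 2) : MemLp (oo φ) 2 ∧
    ∫ x, oo φ x * u x = ((∫ x, φ 1 x * u x) - (∫ x, φ 2 x * u x) + (∫ x, φ 3 x * u x) -
      ∫ x, φ 4 x * u x) / 2 := by
  have i := fun a => l2_mul (r10_l2 h a) hu
  have i1 : Integrable fun x => φ 1 x * u x - φ 2 x * u x := (i 1).sub (i 2)
  have i2 : Integrable fun x => φ 1 x * u x - φ 2 x * u x + φ 3 x * u x := i1.add (i 3)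
  constructor
  · exact (((((r10_l2 h 1).sub (r10_l2 h 2)).add (r10_l2 h 3)).sub (r10_l2 h 4)).const_mul
      (1 / 2)).ae_eq (Eventually.of_forall fun x => by simp [oo]; ring)
  · rw [← integral_sub (i 1) (i 2), ← integral_add i1 (i 3), ← integral_sub i2 (i 4),
      ← integral_div]
    exact integral_congr_ae (Eventually.of_forall fun x => by simp only [oo]; ring)

theorem r10_orth (h : Orb φ η) {f : Pt → ℝ} (hf : MemLp f 2)
    (ho : ∀ i : Fin 3, i ≠ 2 → ∀ᵐ x, f (rf i x) = -f x) (a : Fin 5) :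
    ∫ x, φ a x * (f x - (∫ x, oo φ x * f x) * oo φ x) = 0 := by
  have k : ∀ i : Fin 3, i ≠ 2 → ∀ a, ∫ x, φ (pr i a) x * f x = -∫ x, φ a x * f x := fun i hi a => by
    rw [← (mp_rf i).integral_comp (ldR i).toHomeomorph.measurableEmbedding
      fun x => φ (pr i a) x * f x, ← integral_neg]
    refine integral_congr_ae ((ho i hi).mono fun x hx => ?_)
    simp only [h.symφ i hi, hx, mul_neg]
  have k0 : ∫ x, φ 0 x * f x = -∫ x, φ 0 x * f x := k 0 (by decide) 0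
  have k1 : ∫ x, φ 2 x * f x = -∫ x, φ 1 x * f x := k 0 (by decide) 1
  have k2 : ∫ x, φ 4 x * f x = -∫ x, φ 3 x * f x := k 0 (by decide) 3
  have k3 : ∫ x, φ 4 x * f x = -∫ x, φ 1 x * f x := k 1 (by decide) 1
  have e : ∫ x, φ a x * (f x - (∫ x, oo φ x * f x) * oo φ x) =
      (∫ x, φ a x * f x) - (∫ x, oo φ x * f x) * ∫ x, oo φ x * φ a x := by
    rw [← integral_const_mul, ← integral_sub (l2_mul (r10_l2 h a) hf)
      ((l2_mul (r10_oo h hf).1 (r10_l2 h a)).const_mul _)]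
    exact integral_congr_ae (Eventually.of_forall fun x => by ring)
  rw [e, (r10_oo h hf).2, (r10_oo h (r10_l2 h a)).2]
  simp only [r10_on h]
  fin_cases a <;> simp <;> linarith

theorem close_a (h : Orb φ η) (hψ : MemLp ψ 2) (c : (Fin 3 → Fin 5) → ℝ) (hc : ∑ α, c α ^ 2 ≤ 1)
    (hβ : ∫ z, (ψ z - ∑ α, c α * ∏ i, φ (α i) (z i)) ^ 2 ≤ β) :
    ∃ e : Pt → ℝ, MemLp e 2 ∧ ∫ x, e x ^ 2 ≤ β ∧ ∀ᵐ x, nsl ψ x ≤ (∑ i, φ i x) + e x := by
  have h0 := r10_sum h c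
  have hd : MemLp (fun z : Cf 3 => ψ z - ∑ α, c α * ∏ i, φ (α i) (z i)) 2 := hψ.sub h0
  refine ⟨_, (nsl_l2 hd).1, (nsl_l2 hd).2.trans_le hβ, ?_⟩
  filter_upwards [l2_cons hψ, l2_cons h0] with x h1 h2
  refine (l2_tri h1 h2).trans (add_le_add ?_ le_rfl)
  have h3 : 0 ≤ ∑ i, φ i x := Finset.sum_nonneg fun i _ => h.nonneg i x
  refine Real.sqrt_le_iff.2 ⟨h3, ?_⟩
  simp only [sl, r10_sq h]
  simp only [r10_cons, mul_pow, ← mul_assoc]
  rw [integral_finsetSum _ fun α _ => (l2_sq (r10_prod h fun i : Fin 2 => α i.succ).1).const_mul _]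
  simp only [integral_const_mul, (r10_prod h _).2, mul_one]
  refine (Finset.sum_le_sum fun α _ => mul_le_mul_of_nonneg_left (pow_le_pow_left₀ (h.nonneg _ x)
    (Finset.single_le_sum (f := fun i => φ i x) (fun i _ => h.nonneg i x) (Finset.mem_univ _)) 2)
    (sq_nonneg _)).trans ?_
  rw [← Finset.sum_mul]
  exact mul_le_of_le_one_left (sq_nonneg _) hc

theorem close_f (h : Orb φ η) (hψ : MemLp ψ 2) (hΦ : MemLp Φ 2) (one : ∫ y, Φ y ^ 2 = 1)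
    (c : (Fin 3 → Fin 5) → ℝ)
    (hβ : ∫ z, (ψ z - ∑ α, c α * ∏ i, φ (α i) (z i)) ^ 2 ≤ β)
    (ho : ∀ i : Fin 3, i ≠ 2 → ∀ᵐ x, rctr ψ Φ (rf i x) = -rctr ψ Φ x) :
    ∫ x, (rctr ψ Φ x - (∫ x, oo φ x * rctr ψ Φ x) * oo φ x) ^ 2 ≤ β := by
  have h0 := r10_sum h c
  have hd : MemLp (fun z : Cf 3 => ψ z - ∑ α, c α * ∏ i, φ (α i) (z i)) 2 := hψ.sub h0
  have hf := (r10_ctr hψ hΦ one).1
  refine le_trans ?_ ((r10_ctr hd hΦ one).2.trans hβ)
  set A := ∫ x, oo φ x * rctr ψ Φ x with hA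
  set w : (Fin 3 → Fin 5) → ℝ := fun α =>
    c α * ∫ y : Cf 2, (∏ i : Fin 2, φ (α i.succ) (y i)) * Φ y with hw
  have e1 : ∀ᵐ x, rctr (fun z : Cf 3 => ψ z - ∑ α, c α * ∏ i, φ (α i) (z i)) Φ x =
      rctr ψ Φ x - ∑ α, w α * φ (α 0) x := by
    filter_upwards [l2_cons hψ, l2_cons h0] with x h1 h2
    simp only [rctr, sub_mul]
    refine (integral_sub (l2_mul h1 hΦ) (l2_mul h2 hΦ)).trans (congrArg₂ _ rfl ?_)
    simp only [sl, r10_cons, Finset.sum_mul, mul_assoc]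
    rw [integral_finsetSum _ fun α _ => ((l2_mul (r10_prod h fun i : Fin 2 => α i.succ).1
      hΦ).const_mul _).const_mul _]
    refine Finset.sum_congr rfl fun α _ => ?_
    rw [integral_const_mul, integral_const_mul, hw]
    ring
  have ho' := (r10_oo h hf).1
  have hg : MemLp (fun x => rctr ψ Φ x - A * oo φ x) 2 := hf.sub (ho'.const_mul A)
  have hs : MemLp (fun x => ∑ α : Fin 3 → Fin 5, w α * φ (α 0) x) 2 :=
    memLp_finsetSum _ fun α _ => (r10_l2 h _).const_mul _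
  have hv : MemLp (fun x => A * oo φ x - ∑ α, w α * φ (α 0) x) 2 := (ho'.const_mul A).sub hs
  have z1 : ∫ x, oo φ x * (rctr ψ Φ x - A * oo φ x) = 0 := by
    rw [(r10_oo h hg).2]
    simp only [hA, r10_orth h hf ho]
    norm_num
  have z2 : ∫ x, (∑ α : Fin 3 → Fin 5, w α * φ (α 0) x) * (rctr ψ Φ x - A * oo φ x) = 0 := by
    simp only [Finset.sum_mul, mul_assoc]
    rw [integral_finsetSum _ fun α _ => (l2_mul (r10_l2 h _) hg).const_mul _]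
    simp only [integral_const_mul, hA, r10_orth h hf ho, mul_zero, Finset.sum_const_zero]
  have z3 : ∫ x, (A * oo φ x - ∑ α, w α * φ (α 0) x) * (rctr ψ Φ x - A * oo φ x) = 0 := by
    simp only [sub_mul _ _ (rctr ψ Φ _ - _), mul_assoc A]
    rw [integral_sub ((l2_mul ho' hg).const_mul A) (l2_mul hs hg), integral_const_mul, z1, z2,
      mul_zero, sub_zero]
  have i1 := (l2_mul hv hg).const_mul 2
  have z4 : ∫ x, (rctr ψ Φ x - A * oo φ x) ^ 2 = ∫ x, ((rctr ψ Φ x - A * oo φ x) ^ 2 +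
      2 * ((A * oo φ x - ∑ α, w α * φ (α 0) x) * (rctr ψ Φ x - A * oo φ x))) := by
    rw [integral_add (l2_sq hg) i1, integral_const_mul, z3, mul_zero, add_zero]
  rw [z4]
  refine integral_mono_ae ((l2_sq hg).add i1) (l2_sq (r10_ctr hd hΦ one).1) (e1.mono fun x hx => ?_)
  beta_reduce
  rw [hx]
  nlinarith [sq_nonneg (A * oo φ x - ∑ α, w α * φ (α 0) x)]

end Vale.Agent.P363
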