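import Vale.Agent.P363.R6

/-! Part R, file 7: bounds for the repulsion from the two-electron state, and the source term.
`wb_of_mom`: for `x ≠ 0`, `r = nrm x`, `|ker (x - y) - 1 / r| ≤ (nrm y + nrm y ^ 2 * ker (x - y)) / r ^ 2` (also for
`y = x`); position `1` from position `0` by `int_prm`/`mp_prm` with the swap; `(a + b) ^ 2 ≤ 2 a ^ 2 + 2 b ^ 2`.
`s_split`: on a.e. slice (`l2_cons`) write `ψ = f Φ + res`, `res` orthogonal to `Φ`; `l2_cs'`;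
`q₁` is a measurable version (`AEStronglyMeasurable.mk`) of `∫ y, (rWk - 2 lam / r) Φ * Φ`. -/

namespace Vale.Agent.P363

open MeasureTheory Vale.Agent.P370 Filter Topology
open scoped ContDiff

/-- Bounds for the repulsion. -/
def WB (lam Λ : ℝ) (Φ : Cf 2 → ℝ) : Prop :=
  ∀ x : Pt, x ≠ 0 → MemLp (fun y => rWk lam x y * Φ y) 2 ∧ √(∫ y, (rWk lam x y * Φ y) ^ 2) ≤ Λ ∧
    √(∫ y, ((rWk lam x y - 2 * lam / nrm x) * Φ y) ^ 2) ≤ Λ / nrm x ^ 2

/-- The hypotheses of the reduction, with Sobolev tests. -/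
structure RB (V : Pt → ℝ) (lam Λ g E₂ E₃ : ℝ) (Φ : Cf 2 → ℝ) (GΦ : Fin 2 → Fin 3 → Cf 2 → ℝ)
    (ψ : Cf 3 → ℝ) (Gψ : Fin 3 → Fin 3 → Cf 3 → ℝ) : Prop where
  fb : FB V
  l0 : 0 ≤ lam
  g0 : 0 ≤ g
  L0 : 0 ≤ Λ
  hΦ : RH Φ GΦ
  hψ : RH ψ Gψ
  one : ∫ y, Φ y ^ 2 = 1
  eq2 : ∀ T H, RH T H → bil V lam Φ GΦ T H = E₂ * ∫ y, Φ y * T y
  eq3 : ∀ T H, RH T H → bil V lam ψ Gψ T H = E₃ * ∫ z, ψ z * T z
  gap : ∀ T H, RH T H → (E₂ + g) * (∫ y, T y ^ 2) - g * (∫ y, Φ y * T y) ^ 2 ≤ bil V lam T H T H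
  wb : WB lam Λ Φ

/-- The part of `ψ` orthogonal to `Φ`. -/
noncomputable def res (ψ : Cf 3 → ℝ) (Φ : Cf 2 → ℝ) (z : Cf 3) : ℝ :=
  ψ z - rctr ψ Φ (z 0) * Φ (Fin.tail z)

/-- The source term. -/
noncomputable def src (lam : ℝ) (ψ : Cf 3 → ℝ) (Φ : Cf 2 → ℝ) (x : Pt) : ℝ :=
  ∫ y, rWk lam x y * Φ y * ψ (Fin.cons x y)

theorem r7_ker {x : Pt} (hx : x ≠ 0) (y : Pt) :
    |P370.ker (x - y) - 1 / nrm x| ≤ (nrm y + nrm y ^ 2 * P370.ker (x - y)) / nrm x ^ 2 := by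
  have hr := nrm_pos hx
  have hs := nrm_nonneg y
  by_cases hd : x - y = 0
  · have e : y = x := (sub_eq_zero.1 hd).symm
    have e0 : P370.ker (0 : Pt) = 0 := by simp [P370.ker, nrm]
    rw [hd, e0, e, zero_sub, abs_neg, abs_of_pos (by positivity), mul_zero, add_zero]
    exact le_of_eq (by field_simp)
  · have hd' := nrm_pos hd
    have h1 : nrm x ≤ nrm (x - y) + nrm y := by
      have := nrm_add_le (x - y) y
      rwa [sub_add_cancel] at this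
    have h2 : nrm (x - y) ≤ nrm x + nrm y := by
      have := nrm_add_le x (-y)
      rwa [nrm_neg, ← sub_eq_add_neg] at this
    have e1 : P370.ker (x - y) - 1 / nrm x = (nrm x - nrm (x - y)) / (nrm x * nrm (x - y)) := by
      unfold P370.ker
      field_simp
    have e2 : (nrm y + nrm y ^ 2 * P370.ker (x - y)) / nrm x ^ 2 =
        nrm y * ((nrm (x - y) + nrm y) / nrm x) / (nrm x * nrm (x - y)) := by
      unfold P370.ker
      field_simp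
    rw [e1, e2, abs_div, abs_of_pos (mul_pos hr hd')]
    refine div_le_div_of_nonneg_right ?_ (mul_pos hr hd').le
    exact (abs_le.2 ⟨by linarith, by linarith⟩ : |nrm x - nrm (x - y)| ≤ nrm y).trans
      (le_mul_of_one_le_right hs ((one_le_div hr).2 h1))

theorem r7_bound {Φ F : Cf 2 → ℝ} {c P : ℝ} {x : Pt} {a : Pt → ℝ}
    (hs : ∀ᵐ y : Cf 2, Φ (y ∘ Equiv.swap 0 1) = Φ y) (hM : MomB Φ (P ^ 6)) (hc : 0 ≤ c)
    (hP : 10 ≤ P) (hF : AEStronglyMeasurable F volume)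
    (ha : ∀ z, a z ^ 2 ≤ 2 * ((100 + nrm z ^ 2) ^ 2 * (1 + P370.ker (z - x) ^ 2)))
    (hle : ∀ y, F y ^ 2 ≤ (c * (a (y 0) + a (y 1)) * Φ y) ^ 2) :
    MemLp F 2 ∧ √(∫ y, F y ^ 2) ≤ c * P ^ 5 := by
  let B : Cf 2 → ℝ := fun y => ((100 + nrm (y 0) ^ 2) * Φ y) ^ 2 +
    P370.ker (y 0 - x) ^ 2 * ((100 + nrm (y 0) ^ 2) * Φ y) ^ 2
  have iB : Integrable B := hM.1.1.add (hM.2 x).1
  have bB : ∫ y, B y ≤ 2 * P ^ 6 := by
    rw [integral_add hM.1.1 (hM.2 x).1]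
    linarith [hM.1.2, (hM.2 x).2]
  have iB' : Integrable fun y : Cf 2 => B (y ∘ Equiv.swap 0 1) :=
    (mp_prm (Equiv.swap 0 1)).integrable_comp_of_integrable iB
  have iS : Integrable fun y : Cf 2 => B y + B (y ∘ Equiv.swap 0 1) := iB.add iB'
  have hb : ∀ᵐ y : Cf 2, F y ^ 2 ≤ 4 * c ^ 2 * (B y + B (y ∘ Equiv.swap 0 1)) := by
    filter_upwards [hs] with y hy
    have e : (y ∘ Equiv.swap 0 1) 0 = y 1 := by
      rw [Function.comp_apply, Equiv.swap_apply_left]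
    simp only [B]
    rw [hy, e]
    have h1 : (a (y 0) + a (y 1)) ^ 2 ≤
        4 * ((100 + nrm (y 0) ^ 2) ^ 2 * (1 + P370.ker (y 0 - x) ^ 2) +
          (100 + nrm (y 1) ^ 2) ^ 2 * (1 + P370.ker (y 1 - x) ^ 2)) := by
      nlinarith [ha (y 0), ha (y 1), sq_nonneg (a (y 0) - a (y 1))]
    have h2 := mul_le_mul_of_nonneg_left h1 (sq_nonneg (c * Φ y))
    refine (hle y).trans (le_of_eq_of_le (by ring) (h2.trans_eq (by ring)))
  have iF : Integrable fun y => F y ^ 2 :=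
    (iS.const_mul (4 * c ^ 2)).mono' (hF.pow 2) (hb.mono fun y hy => by
      rwa [Real.norm_of_nonneg (sq_nonneg _)])
  refine ⟨l2_of_sq hF iF, Real.sqrt_le_iff.2 ⟨by positivity, ?_⟩⟩
  refine (integral_mono_ae iF (iS.const_mul (4 * c ^ 2)) hb).trans ?_
  rw [integral_const_mul, integral_add iB iB', int_prm (Equiv.swap 0 1) B]
  have h3 : 16 * P ^ 6 ≤ (P ^ 5) ^ 2 := by
    have h4 : (16 : ℝ) ≤ P ^ 4 := le_trans (by norm_num) (pow_le_pow_left₀ (by norm_num) hP 4)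
    have h5 : 0 ≤ P ^ 6 := by positivity
    nlinarith
  nlinarith [sq_nonneg c]

theorem r7_meas (lam : ℝ) : Measurable fun p : Pt × Cf 2 => rWk lam p.1 p.2 :=
  ((measurable_ker.comp (measurable_fst.sub ((measurable_pi_apply 0).comp measurable_snd))).add
    (measurable_ker.comp (measurable_fst.sub
      ((measurable_pi_apply 1).comp measurable_snd)))).const_mul lam

theorem r7_a1 (t k : ℝ) : k ^ 2 ≤ 2 * ((100 + t ^ 2) ^ 2 * (1 + k ^ 2)) := by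
  have h2 : 1 ≤ (100 + t ^ 2) ^ 2 := one_le_pow₀ (by nlinarith [sq_nonneg t])
  have h3 := mul_le_mul_of_nonneg_right h2 (by positivity : 0 ≤ 1 + k ^ 2)
  nlinarith [sq_nonneg k]

theorem r7_a2 (t k : ℝ) : (t + t ^ 2 * k) ^ 2 ≤ 2 * ((100 + t ^ 2) ^ 2 * (1 + k ^ 2)) := by
  have h3 : t ^ 2 ≤ (100 + t ^ 2) ^ 2 := by nlinarith [sq_nonneg t]
  have h4 : (t ^ 2) ^ 2 ≤ (100 + t ^ 2) ^ 2 := by nlinarith [sq_nonneg t]
  have h5 := mul_le_mul_of_nonneg_right h4 (sq_nonneg k)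
  nlinarith [sq_nonneg (t - t ^ 2 * k)]

theorem r7_diff {lam : ℝ} (hl : 0 ≤ lam) {x : Pt} (hx : x ≠ 0) (y : Cf 2) :
    |rWk lam x y - 2 * lam / nrm x| ≤ lam / nrm x ^ 2 *
      ((nrm (y 0) + nrm (y 0) ^ 2 * P370.ker (x - y 0)) +
        (nrm (y 1) + nrm (y 1) ^ 2 * P370.ker (x - y 1))) := by
  have e : rWk lam x y - 2 * lam / nrm x = lam * ((P370.ker (x - y 0) - 1 / nrm x) +
      (P370.ker (x - y 1) - 1 / nrm x)) := by
    unfold rWk
    ring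
  rw [e, abs_mul, abs_of_nonneg hl]
  have h3 := mul_le_mul_of_nonneg_left ((abs_add_le _ _).trans
    (add_le_add (r7_ker hx (y 0)) (r7_ker hx (y 1)))) hl
  exact h3.trans_eq (by ring)

theorem wb_of_mom {Φ : Cf 2 → ℝ} {lam P : ℝ} (hΦ : MemLp Φ 2)
    (hs : ∀ᵐ y : Cf 2, Φ (y ∘ Equiv.swap 0 1) = Φ y) (hl : 0 ≤ lam) (hP : 10 ≤ P)
    (hM : MomB Φ (P ^ 6)) : WB lam (lam * P ^ 5) Φ := by
  intro x hx
  have hr := nrm_pos hx
  have hW : Measurable fun y : Cf 2 => rWk lam x y := (r7_meas lam).of_uncurry_left (f := rWk lam)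
  have m1 : AEStronglyMeasurable (fun y => rWk lam x y * Φ y) volume :=
    hW.aestronglyMeasurable.mul hΦ.1
  have m2 : AEStronglyMeasurable (fun y => (rWk lam x y - 2 * lam / nrm x) * Φ y) volume :=
    (hW.sub_const _).aestronglyMeasurable.mul hΦ.1
  have h1 := r7_bound (x := x) (a := fun z => P370.ker (x - z)) hs hM hl hP m1
    (fun z => by rw [ker_sub_comm x z]; exact r7_a1 _ _) fun y => le_of_eq (by unfold rWk; rfl)
  have h2 := r7_bound (c := lam / nrm x ^ 2) (x := x)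
    (a := fun z => nrm z + nrm z ^ 2 * P370.ker (x - z)) hs hM (by positivity) hP m2
    (fun z => by rw [ker_sub_comm x z]; exact r7_a2 _ _) fun y => by
      rw [mul_pow, mul_pow _ (Φ y)]
      exact mul_le_mul_of_nonneg_right
        (sq_le_sq.2 ((r7_diff hl hx y).trans (le_abs_self _))) (sq_nonneg _)
  exact ⟨h1.1, h1.2, h2.2.trans_eq (by ring)⟩

variable {V : Pt → ℝ} {lam Λ g E₂ E₃ : ℝ} {Φ : Cf 2 → ℝ} {GΦ : Fin 2 → Fin 3 → Cf 2 → ℝ}
  {ψ : Cf 3 → ℝ} {Gψ : Fin 3 → Fin 3 → Cf 3 → ℝ}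

/-- Orthogonal splitting of the slices. -/
theorem RB.pyth (h : RB V lam Λ g E₂ E₃ Φ GΦ ψ Gψ) : ∀ᵐ x, MemLp (sl (res ψ Φ) x) 2 ∧
    ∫ y, Φ y * res ψ Φ (Fin.cons x y) = 0 ∧
    nsl ψ x ^ 2 = rctr ψ Φ x ^ 2 + nsl (res ψ Φ) x ^ 2 := by
  filter_upwards [l2_cons h.hψ.1] with x hx
  have hΦ := h.hΦ.1
  have e : ∀ y : Cf 2, res ψ Φ (Fin.cons x y) = ψ (Fin.cons x y) - rctr ψ Φ x * Φ y := fun y => by
    unfold res
    rw [Fin.cons_zero, Fin.tail_cons]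
  have h1 : MemLp (fun y : Cf 2 => res ψ Φ (Fin.cons x y)) 2 := by
    simp only [e]
    exact hx.sub (hΦ.const_mul _)
  have h2 : ∫ y, Φ y * res ψ Φ (Fin.cons x y) = 0 := by
    have e2 : ∀ y : Cf 2, Φ y * res ψ Φ (Fin.cons x y) =
        ψ (Fin.cons x y) * Φ y - rctr ψ Φ x * Φ y ^ 2 := fun y => by rw [e]; ring
    have i1 : Integrable fun y : Cf 2 => ψ (Fin.cons x y) * Φ y := l2_mul hx hΦ
    simp only [e2]
    rw [integral_sub i1 ((l2_sq hΦ).const_mul _), integral_const_mul, h.one, mul_one]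
    exact sub_self _
  refine ⟨h1, h2, ?_⟩
  rw [nsl_sq, nsl_sq]
  have e3 : ∀ y : Cf 2, ψ (Fin.cons x y) ^ 2 = rctr ψ Φ x ^ 2 * Φ y ^ 2 +
      2 * rctr ψ Φ x * (Φ y * res ψ Φ (Fin.cons x y)) + res ψ Φ (Fin.cons x y) ^ 2 := fun y => by
    rw [e]; ring
  have i1 := (l2_sq hΦ).const_mul (rctr ψ Φ x ^ 2)
  have i2 := (l2_mul hΦ h1).const_mul (2 * rctr ψ Φ x)
  have i3 : Integrable fun y : Cf 2 => rctr ψ Φ x ^ 2 * Φ y ^ 2 +
      2 * rctr ψ Φ x * (Φ y * res ψ Φ (Fin.cons x y)) := i1.add i2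
  rw [integral_congr_ae (Eventually.of_forall e3), integral_add i3 (l2_sq h1), integral_add i1 i2,
    integral_const_mul, integral_const_mul, h.one, h2]
  ring

theorem RB.s_split (h : RB V lam Λ g E₂ E₃ Φ GΦ ψ Gψ) : MemLp (src lam ψ Φ) 2 ∧
    ∃ q₁ s₂ : Pt → ℝ, Measurable q₁ ∧ ∀ᵐ x, |src lam ψ Φ x| ≤ Λ * nsl ψ x ∧
      src lam ψ Φ x = (2 * lam / nrm x + q₁ x) * rctr ψ Φ x + s₂ x ∧ |q₁ x| ≤ Λ / nrm x ^ 2 ∧
      |s₂ x| ≤ Λ / nrm x ^ 2 * nsl (res ψ Φ) x := by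
  have hΦ := h.hΦ.1
  have h0 : ∀ᵐ x : Pt, x ≠ 0 := compl_mem_ae_iff.2 (measure_singleton (0 : Pt))
  have mΦ : AEStronglyMeasurable (fun p : Pt × Cf 2 => Φ p.2) (volume.prod volume) :=
    hΦ.1.comp_snd
  have ms : AEStronglyMeasurable (src lam ψ Φ) volume :=
    (((r7_meas lam).aestronglyMeasurable.mul mΦ).mul
      (h.hψ.1.1.comp_measurePreserving rmp_cons)).integral_prod_right'
  have bs : ∀ᵐ x, |src lam ψ Φ x| ≤ Λ * nsl ψ x := by
    filter_upwards [h0, l2_cons h.hψ.1] with x hx h1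
    exact (l2_cs' (h.wb x hx).1 h1).trans
      (mul_le_mul_of_nonneg_right (h.wb x hx).2.1 (Real.sqrt_nonneg _))
  have mW : Measurable fun p : Pt × Cf 2 => rWk lam p.1 p.2 - 2 * lam / nrm p.1 :=
    (r7_meas lam).sub (measurable_const.div (continuous_nrm.measurable.comp measurable_fst))
  have mq : AEStronglyMeasurable
      (fun x : Pt => ∫ y : Cf 2, (rWk lam x y - 2 * lam / nrm x) * Φ y * Φ y) volume :=
    ((mW.aestronglyMeasurable.mul mΦ).mul mΦ).integral_prod_right'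
  refine ⟨((nsl_l2 h.hψ.1).1.const_mul Λ).of_le ms (bs.mono fun x hx => hx.trans (le_abs_self _)),
    mq.mk _, fun x => ∫ y : Cf 2, (rWk lam x y - 2 * lam / nrm x) * Φ y * res ψ Φ (Fin.cons x y),
    mq.stronglyMeasurable_mk.measurable, ?_⟩
  filter_upwards [h0, bs, mq.ae_eq_mk, h.pyth] with x hx h1 h2 h3
  have hD : MemLp (fun y : Cf 2 => (rWk lam x y - 2 * lam / nrm x) * Φ y) 2 := by
    simp only [sub_mul]
    exact (h.wb x hx).1.sub (hΦ.const_mul _)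
  have hb := (h.wb x hx).2.2
  have hr : MemLp (fun y : Cf 2 => res ψ Φ (Fin.cons x y)) 2 := h3.1
  rw [← h2]
  refine ⟨h1, ?_, ?_, ?_⟩
  · have e : ∀ y : Cf 2, rWk lam x y * Φ y * ψ (Fin.cons x y) =
        2 * lam / nrm x * rctr ψ Φ x * Φ y ^ 2 +
          2 * lam / nrm x * (Φ y * res ψ Φ (Fin.cons x y)) +
          rctr ψ Φ x * ((rWk lam x y - 2 * lam / nrm x) * Φ y * Φ y) +
          (rWk lam x y - 2 * lam / nrm x) * Φ y * res ψ Φ (Fin.cons x y) := fun y => by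
      unfold res
      rw [Fin.cons_zero, Fin.tail_cons]
      ring
    have i1 := (l2_sq hΦ).const_mul (2 * lam / nrm x * rctr ψ Φ x)
    have i2 := (l2_mul hΦ hr).const_mul (2 * lam / nrm x)
    have i3 := (l2_mul hD hΦ).const_mul (rctr ψ Φ x)
    have i4 : Integrable fun y : Cf 2 => 2 * lam / nrm x * rctr ψ Φ x * Φ y ^ 2 +
        2 * lam / nrm x * (Φ y * res ψ Φ (Fin.cons x y)) := i1.add i2
    have i5 : Integrable fun y : Cf 2 => 2 * lam / nrm x * rctr ψ Φ x * Φ y ^ 2 +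
        2 * lam / nrm x * (Φ y * res ψ Φ (Fin.cons x y)) +
        rctr ψ Φ x * ((rWk lam x y - 2 * lam / nrm x) * Φ y * Φ y) := i4.add i3
    unfold src
    rw [integral_congr_ae (Eventually.of_forall e), integral_add i5 (l2_mul hD hr),
      integral_add i4 i3, integral_add i1 i2, integral_const_mul, integral_const_mul,
      integral_const_mul, h.one, h3.2.1]
    ring
  · refine (l2_cs' hD hΦ).trans ?_
    rw [h.one, Real.sqrt_one, mul_one]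
    exact hb
  · exact (l2_cs' hD hr).trans (mul_le_mul_of_nonneg_right hb (Real.sqrt_nonneg _))

end Vale.Agent.P363
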