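import Vale.Agent.P363.R5
import Vale.Agent.P363.R7

/-! Part R, file 9: the amplitudes `a` and `b`, the density, symmetries.
`a_sub`, `b_sub`: `kato` with `S = 0`, `τ = 0`; the gap on a.e. slice (`RH.sliceY`); for `a` use `l2_cs`, for `b`
the slices of `rrot ψ` are antisymmetric under the swap (`ae_ins 2`), `Φ` is symmetric (`int_prm`).  The equation for
`rrot ψ`: `bil_perm`, `RH.perm` with the inverse permutation, `int_prm`.  `(Fin.cons x y) ∘ finRotate 3 =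
(2 : Fin 3).insertNth x y` and `(Fin.cons x y) ∘ swap 0 1 = (1 : Fin 3).insertNth x y` by `funext`, `fin_cases`, `rfl`.
Symmetries: `mp_rf`, `mp_rfN`, `ae_ins`. -/

namespace Vale.Agent.P363

open MeasureTheory Vale.Agent.P370 Filter Topology
open scoped ContDiff

/-- The third position moved to the front. -/
def rrot (ψ : Cf 3 → ℝ) (z : Cf 3) : ℝ := ψ (z ∘ finRotate 3)

variable {V : Pt → ℝ} {lam Λ g E₂ E₃ : ℝ} {Φ : Cf 2 → ℝ} {GΦ : Fin 2 → Fin 3 → Cf 2 → ℝ}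
  {ψ : Cf 3 → ℝ} {Gψ : Fin 3 → Fin 3 → Cf 3 → ℝ}

theorem r9_rot (x : Pt) (y : Cf 2) :
    (Fin.cons x y : Cf 3) ∘ finRotate 3 = (2 : Fin 3).insertNth x y := by
  funext j
  fin_cases j <;> rfl

theorem r9_swap (x : Pt) (y : Cf 2) :
    (Fin.cons x y : Cf 3) ∘ Equiv.swap 0 1 = (1 : Fin 3).insertNth x y := by
  funext j
  fin_cases j <;> rfl

theorem r9_swap2 (x : Pt) (y : Cf 2) : ((2 : Fin 3).insertNth x y : Cf 3) ∘ Equiv.swap 0 1 =
    (2 : Fin 3).insertNth x (y ∘ Equiv.swap 0 1) := by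
  funext j
  fin_cases j <;> rfl

theorem r9_rf_rf (i : Fin 3) (x : Pt) : rf i (rf i x) = x := by
  simp [rf]

theorem r9_int_rf {N : ℕ} (i : Fin 3) (F : Cf N → ℝ) :
    ∫ y : Cf N, F (fun j => rf i (y j)) = ∫ y, F y :=
  (mp_rfN i).integral_comp (MeasurableEquiv.ofInvolutive (fun (y : Cf N) j => rf i (y j))
    (fun y => funext fun j => r9_rf_rf i (y j)) (mp_rfN i).measurable).measurableEmbedding F

theorem r9_ins_rf (i j : Fin 3) (x : Pt) (y : Cf 2) :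
    (fun l => rf i ((j.insertNth x y : Cf 3) l)) =
      (j.insertNth (rf i x) fun l => rf i (y l) : Cf 3) := by
  rw [Fin.eq_insertNth_iff]
  refine ⟨by simp, ?_⟩
  funext l
  simp [Fin.removeNth]

theorem RB.a_sub (h : RB V lam Λ g E₂ E₃ Φ GΦ ψ Gψ) :
    ∃ ga, H1 (nsl ψ) ga ∧ Sub (fun x => V x + (E₂ - E₃)) 0 (nsl ψ) ga := by
  refine kato (S := fun _ => 0) h.fb h.l0 h.hψ MemLp.zero MemLp.zero (fun _ => le_rfl)
    (fun T H hT => by simp [h.eq3 T H hT]) (h.hψ.sliceY.mono fun x hx => ?_)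
    (ae_of_all _ fun x => by simp)
  have h1 := h.gap _ _ hx
  have h2 := mul_le_mul_of_nonneg_left (l2_cs h.hΦ.1 hx.1) h.g0
  rw [h.one, one_mul] at h2
  have h3 : nsl ψ x ^ 2 = ∫ y, sl ψ x y ^ 2 := nsl_sq ψ x
  rw [h3]
  linarith

theorem RB.b_sub (h : RB V lam Λ g E₂ E₃ Φ GΦ ψ Gψ) (ha : Asym ψ)
    (hs : ∀ᵐ y : Cf 2, Φ (y ∘ Equiv.swap 0 1) = Φ y) :
    ∃ gb, H1 (nsl (rrot ψ)) gb ∧ Sub (fun x => V x + (E₂ - E₃) + g) 0 (nsl (rrot ψ)) gb := by
  have hr : RH (rrot ψ) fun i k z => Gψ ((finRotate 3).symm i) k (z ∘ finRotate 3) := h.hψ.perm _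
  rw [show (fun x => V x + (E₂ - E₃) + g) = fun x => V x + (E₂ + g - E₃) from
    funext fun x => by ring]
  refine kato (S := fun _ => 0) h.fb h.l0 hr MemLp.zero MemLp.zero (fun _ => le_rfl)
    (fun T H hT => ?_) ?_ (ae_of_all _ fun x => by simp)
  · have h1 := h.eq3 _ _ (hT.perm (finRotate 3).symm)
    rw [← bil_perm (finRotate 3), ← int_prm (finRotate 3)] at h1
    simp only [Function.comp_assoc, Equiv.self_comp_symm, Function.comp_id, Equiv.symm_symm,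
      Equiv.apply_symm_apply] at h1
    simp only [zero_mul, integral_zero, add_zero]
    exact h1
  · filter_upwards [hr.sliceY, ae_ins 2 ha] with x hx h2
    have h1 := h.gap _ _ hx
    have h3 : nsl (rrot ψ) x ^ 2 = ∫ y, sl (rrot ψ) x y ^ 2 := nsl_sq _ x
    have h4 : ∫ y, Φ y * sl (rrot ψ) x y = -∫ y, Φ y * sl (rrot ψ) x y := by
      rw [← integral_neg, ← int_prm (Equiv.swap 0 1)]
      refine integral_congr_ae ?_
      filter_upwards [hs, h2] with y a1 a2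
      rw [r9_swap2] at a2
      simp only [sl, rrot, r9_rot, a1, a2, mul_neg]
    have h5 : ∫ y, Φ y * sl (rrot ψ) x y = 0 := by linarith
    rw [h5] at h1
    rw [h3]
    linarith

theorem dens_split (ha : Asym ψ) : ∀ᵐ x, dens3 ψ x = 2 * nsl ψ x ^ 2 + nsl (rrot ψ) x ^ 2 := by
  filter_upwards [ae_cons ha] with x hx
  have h1 : ∫ y : Cf 2, ψ ((1 : Fin 3).insertNth x y) ^ 2 = ∫ y : Cf 2, ψ (Fin.cons x y) ^ 2 :=
    integral_congr_ae (hx.mono fun y hy => by simp only [← r9_swap, hy, neg_sq])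
  rw [dens3, Fin.sum_univ_three, h1, nsl_sq, nsl_sq]
  simp only [Fin.insertNth_zero', rrot, r9_rot]
  ring

theorem dens_symm {i : Fin 3} (ho : ∀ᵐ z : Cf 3, ψ (fun j => rf i (z j)) = -ψ z) :
    ∀ᵐ x, dens3 ψ (rf i x) = dens3 ψ x := by
  filter_upwards [ae_all_iff.2 fun j : Fin 3 => ae_ins j ho] with x hx
  refine Finset.sum_congr rfl fun j _ => ?_
  rw [← r9_int_rf i]
  exact integral_congr_ae ((hx j).mono fun y hy => by simp only [← r9_ins_rf, hy, neg_sq])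

theorem ctr_odd {i : Fin 3} (ho : ∀ᵐ z : Cf 3, ψ (fun j => rf i (z j)) = -ψ z)
    (he : ∀ᵐ y : Cf 2, Φ (fun j => rf i (y j)) = Φ y) :
    ∀ᵐ x, rctr ψ Φ (rf i x) = -rctr ψ Φ x := by
  filter_upwards [ae_ins 0 ho] with x hx
  rw [rctr, rctr, ← r9_int_rf i, ← integral_neg]
  refine integral_congr_ae ?_
  filter_upwards [hx, he] with y a1 a2
  rw [r9_ins_rf] at a1
  simp only [Fin.insertNth_zero'] at a1
  rw [a1, a2, neg_mul]

end Vale.Agent.P363
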