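import Vale.Agent.P363.R8
import Vale.Agent.P363.R9
import Vale.Agent.P363.R10

/-! Part R (see `skeleton/P363/PROOF.md`). -/

namespace Vale.Agent.P363

open MeasureTheory Vale.Agent.P370
open scoped ContDiff

/-- Part R -/
theorem reduce {V : Pt → ℝ} {lam E R P : ℝ} {φ η : Fin 5 → Pt → ℝ} (h : OB V lam E φ η)
    {Φ GΦ ψ Gψ E₂ E₃ A} (hm : MB V lam E φ Φ GΦ ψ Gψ E₂ E₃ A) (hc : Coer V E R P)
    (hR : 10 ≤ R) (hRP : R ≤ P) (hP : 10 ^ 200 ≤ P) :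
    ∃ f a ρ b, Scal V lam (E₂ - E₃) (lam / Lc / 100) (lam * P ^ 5) (lam / gam) A φ f a ρ b
      (dens3 ψ) := by
  have l0 := h.lam_pos
  have P10 : 10 ≤ P := hR.trans hRP
  have hψ := hm.min.1
  have hb : RB V lam (lam * P ^ 5) (lam / Lc / 100) E₂ E₃ Φ GΦ ψ Gψ :=
    { fb := h.fb
      l0 := l0.le
      g0 := by unfold Lc; positivity
      L0 := by positivity
      hΦ := hm.hΦ
      hψ := hψ
      one := hm.one
      eq2 := fun T H hT => eq_rh h.fb hm.hΦ hm.eq2 hT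
      eq3 := fun T H hT => eq_rh h.fb hψ hm.eq3 hT
      gap := fun T H hT => gap_rh h.fb hm.hΦ.1 hm.gap hT
      wb := wb_of_mom hm.hΦ.1 hm.swap l0.le P10 (moments h hm hc hR hRP hP) }
  have hodd : ∀ i : Fin 3, i ≠ 2 → ∀ᵐ x, rctr ψ Φ (rf i x) = -rctr ψ Φ x := fun i hi =>
    ctr_odd (hm.odd i hi) (hm.even i hi)
  obtain ⟨c, hc1, hc2⟩ := hm.close
  obtain ⟨hs, q₁, s₂, hq, hsp⟩ := hb.s_split
  refine ⟨rctr ψ Φ, nsl ψ, nsl (res ψ Φ), nsl (rrot ψ),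
    { hf := ⟨_, src lam ψ Φ, q₁, s₂, hψ.contract hm.hΦ.1, hs, hq, hb.f_eq, hsp⟩
      odd := hodd
      ha := hb.a_sub
      hρ := hb.rho_sub
      hb := hb.b_sub hm.min.2.1 hm.swap
      nonneg := fun x => ⟨nsl_nonneg _ _, nsl_nonneg _ _, nsl_nonneg _ _⟩
      pyth := hb.pyth.mono fun x hx => hx.2.2
      dens := dens_split hm.min.2.1
      symm := fun i hi => dens_symm (hm.odd i hi)
      norm := ((nsl_l2 hψ.1).2.trans hm.min.2.2.1).le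
      close_f := ?_
      close_a := close_a h.orb hψ.1 c hc1 hc2 }⟩
  rw [hm.amp]
  exact close_f h.orb hψ.1 hm.hΦ.1 hm.one c hc2 hodd

end Vale.Agent.P363
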