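import Vale.Agent.P363.Spin

/-! Part S (see `skeleton/P363/PROOF.md`). -/

namespace Vale.Agent.P363

open MeasureTheory Vale.Agent.P370
open scoped ContDiff

section Scale

variable {N : ℕ} {c : ℝ}

theorem PartS_J (N : ℕ) (hc : 0 < c) : 0 < scJ N c := inv_pos.2 (pow_pos hc _)

theorem PartS_J' (N : ℕ) (hc : 0 < c) : scJ N c * scJ N c⁻¹ = 1 := by
  rw [scJ, scJ, inv_pow, inv_inv, inv_mul_cancel₀ (pow_pos hc _).ne']

theorem PartS_mem {f : Cf N → ℝ} (h : MemLp f 2) (hc : c ≠ 0) : MemLp (fun x => f (c • x)) 2 := by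
  refine MemLp.comp_of_map (f := fun x : Cf N => c • x) ?_ (measurable_const_smul c).aemeasurable
  rw [Measure.map_addHaar_smul _ hc]
  exact h.smul_measure ENNReal.ofReal_ne_top

theorem PartS_rh {f : Cf N → ℝ} {G : Fin N → Fin 3 → Cf N → ℝ} (h : RH f G) (hc : 0 < c) (t : ℝ) :
    RH (fun x => t * f (c • x)) fun i k x => t * (c * G i k (c • x)) := by
  refine ⟨(PartS_mem h.1 hc.ne').const_mul t, fun i k =>
    ⟨((PartS_mem (h.2 i k).1 hc.ne').const_mul c).const_mul t, fun φ h1 h2 => ?_⟩⟩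
  have h3 := (h.2 i k).2 (fun y => φ (c⁻¹ • y)) (h1.comp (contDiff_const_smul _))
    (h2.comp_smul (inv_ne_zero hc.ne'))
  have e1 := sc_int hc fun y => f y * fderiv ℝ (fun y => φ (c⁻¹ • y)) y (dirn i k)
  have e2 := sc_int hc fun y => G i k y * φ (c⁻¹ • y)
  rw [h3, mul_neg, ← e2] at e1
  simp only [fderiv_comp_smul, inv_smul_smul₀ hc.ne', smul_apply, smul_eq_mul,
    mul_left_comm _ c⁻¹, integral_const_mul] at e1
  simp only [mul_assoc, integral_const_mul]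
  rw [← mul_neg, ← mul_neg, ← e1, mul_inv_cancel_left₀ hc.ne']

theorem PartS_asym {f : Cf 3 → ℝ} (h : Asym f) (hc : c ≠ 0) (t : ℝ) :
    Asym fun x => t * f (c • x) := by
  filter_upwards [(Measure.quasiMeasurePreserving_smul volume hc).ae h] with x hx
  rw [← mul_neg, ← hx]
  rfl

theorem PartS_sq (f : Cf N → ℝ) (hc : 0 < c) (t : ℝ) :
    ∫ x, (t * f (c • x)) ^ 2 = t ^ 2 * scJ N c * ∫ x, f x ^ 2 := by
  simp only [mul_pow, integral_const_mul]
  rw [sc_int hc fun x => f x ^ 2, mul_assoc]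

theorem PartS_bil {V W : Pt → ℝ} (hc : 0 < c) (hV : ∀ y, V y = c ^ 2 * W (c • y)) (t : ℝ)
    {f f₁ : Cf N → ℝ} {G G₁ : Fin N → Fin 3 → Cf N → ℝ} (hf : ∀ x, f₁ x = t * f (c • x))
    (hG : ∀ i k x, G₁ i k x = t * (c * G i k (c • x))) :
    bil V c f₁ G₁ f₁ G₁ = t ^ 2 * c ^ 2 * scJ N c * bil W 1 f G f G := by
  have h1 : ∀ i k, ∫ x, G₁ i k x * G₁ i k x =
      t ^ 2 * c ^ 2 * scJ N c * ∫ x, G i k x * G i k x := fun i k => by
    rw [mul_assoc, ← sc_int hc fun x => G i k x * G i k x, ← integral_const_mul]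
    exact integral_congr_ae (ae_of_all _ fun x => by simp only [hG]; ring)
  have h2 : ∀ i, ∫ x : Cf N, V (x i) * (f₁ x * f₁ x) =
      t ^ 2 * c ^ 2 * scJ N c * ∫ x : Cf N, W (x i) * (f x * f x) := fun i => by
    rw [mul_assoc, ← sc_int hc fun x => W (x i) * (f x * f x), ← integral_const_mul]
    exact integral_congr_ae (ae_of_all _ fun x => by simp only [hf, hV, Pi.smul_apply]; ring)
  have h3 : ∀ i j, ∫ x : Cf N, ker (x i - x j) * (f₁ x * f₁ x) =
      t ^ 2 * c * scJ N c * ∫ x : Cf N, ker (x i - x j) * (f x * f x) := fun i j => by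
    rw [mul_assoc, ← sc_int hc fun x => ker (x i - x j) * (f x * f x), ← integral_const_mul]
    refine integral_congr_ae (ae_of_all _ fun x => ?_)
    simp only [hf, Pi.smul_apply]
    rw [sc_ker hc, smul_sub]
    ring
  have h4 : ∀ i j : Fin N, (if i < j then ∫ x : Cf N, ker (x i - x j) * (f₁ x * f₁ x) else 0) =
      t ^ 2 * c * scJ N c *
        if i < j then ∫ x : Cf N, ker (x i - x j) * (f x * f x) else 0 := fun i j => by
    split_ifs
    · exact h3 i j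
    · rw [mul_zero]
  simp only [bil, h1, h2, h4, ← Finset.mul_sum]
  ring

theorem PartS_min {V W : Pt → ℝ} (hc : 0 < c) (hV : ∀ y, V y = c ^ 2 * W (c • y))
    {ψ : Cf 3 → ℝ} {G : Fin 3 → Fin 3 → Cf 3 → ℝ} (h : MinA V c ψ G) :
    MinA W 1 (fun x => √(scJ 3 c) * ψ (c⁻¹ • x))
      fun i k x => √(scJ 3 c) * (c⁻¹ * G i k (c⁻¹ • x)) := by
  have hJ := PartS_J 3 hc
  have ha : 0 < √(scJ 3 c) := Real.sqrt_pos.2 hJ
  have hc' := inv_pos.2 hc
  refine ⟨PartS_rh h.1 hc' _, PartS_asym h.2.1 hc'.ne' _, ?_, fun φ H h1 h2 => ?_⟩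
  · rw [PartS_sq ψ hc', Real.sq_sqrt hJ.le, PartS_J' 3 hc, h.2.2.1, mul_one]
  · have h3 := h.2.2.2 _ _ (PartS_rh h1 hc 1) (PartS_asym h2 hc.ne' 1)
    rw [PartS_sq φ hc, PartS_bil hc hV 1 (f := φ) (G := H) (fun _ => rfl) (fun _ _ _ => rfl),
      PartS_bil hc hV (√(scJ 3 c))⁻¹ (f := fun x => √(scJ 3 c) * ψ (c⁻¹ • x))
        (G := fun i k x => √(scJ 3 c) * (c⁻¹ * G i k (c⁻¹ • x)))
        (fun x => by rw [inv_smul_smul₀ hc.ne', inv_mul_cancel_left₀ ha.ne'])
        (fun i k x => by rw [inv_smul_smul₀ hc.ne']; field_simp),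
      inv_pow, Real.sq_sqrt hJ.le] at h3
    refine le_of_mul_le_mul_left ?_ (mul_pos (pow_pos hc 2) hJ)
    refine le_trans (le_of_eq ?_) (h3.trans_eq (by ring))
    field_simp

theorem PartS_dens (ψ : Cf 3 → ℝ) (hc : 0 < c) (t : ℝ) (x : Pt) :
    dens3 (fun x => t * ψ (c • x)) x = t ^ 2 * scJ 2 c * dens3 ψ (c • x) := by
  rw [dens3, dens3, Finset.mul_sum]
  refine Finset.sum_congr rfl fun i _ => ?_
  rw [← PartS_sq (fun y : Cf 2 => ψ (i.insertNth (c • x) y)) hc]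
  refine integral_congr_ae (ae_of_all _ fun y => ?_)
  have : c • (i.insertNth x y : Cf 3) = i.insertNth (c • x) (c • y) := by
    rw [Fin.eq_insertNth_iff]
    refine ⟨by simp, ?_⟩
    funext j
    simp [Fin.removeNth]
  simp only [this]

theorem PartS_rf (i : Fin 3) (c : ℝ) (x : Pt) : rf i (c • x) = c • rf i x := by
  funext k
  rcases eq_or_ne k i with rfl | h
  · simp [rf]
  · simp [rf, Function.update_of_ne h]

theorem PartS_ball (hc : 0 < c) (g : Pt → ℝ) (p : Pt) (s : ℝ) :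
    ∫ x in Metric.ball (c⁻¹ • p) s, g (c • x) =
      (c ^ Module.finrank ℝ Pt)⁻¹ * ∫ x in Metric.ball p (c * s), g x := by
  rw [Measure.setIntegral_comp_smul_of_pos volume g _ hc, smul_ball hc.ne', smul_inv_smul₀ hc.ne',
    Real.norm_of_nonneg hc.le, smul_eq_mul]

theorem PartS_nodal {n : Pt → ℝ} (h : Nodal n) (hc : 0 < c) {b : ℝ} (hb : 0 < b) :
    Nodal fun x => b * n (c • x) := by
  obtain ⟨h0, h1, r₀, C, c₀, hr₀, hc₀, h⟩ := h
  have q := Measure.quasiMeasurePreserving_smul (volume : Measure Pt) hc.ne'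
  refine ⟨(q.ae h0).mono fun x hx => by simp only [← PartS_rf, hx],
    (q.ae h1).mono fun x hx => by simp only [← PartS_rf, hx], r₀ / c, C, c₀ * c ^ 7,
    by positivity, by positivity, fun r K η hr hK hη => ?_⟩
  obtain ⟨p, θ, p0, p1, hθ, h2, h3⟩ := h (c * r) K η (by positivity) hK hη
  have hJ : 0 < b * (c ^ Module.finrank ℝ Pt)⁻¹ := by positivity
  have e : ∀ s, ∫ x in Metric.ball (c⁻¹ • p) s, b * n (c • x) =
      b * (c ^ Module.finrank ℝ Pt)⁻¹ * ∫ x in Metric.ball p (c * s), n x := fun s => by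
    rw [integral_const_mul, PartS_ball hc, mul_assoc]
  refine ⟨c⁻¹ • p, b * (c ^ Module.finrank ℝ Pt)⁻¹ * θ, by simp [p0], by simp [p1],
    mul_pos hJ hθ, ?_, fun s hs hs' => ?_⟩
  · rw [e, mul_div_cancel₀ _ hc.ne', mul_left_comm C]
    exact mul_le_mul_of_nonneg_left h2 hJ.le
  · obtain ⟨h4, h5⟩ := h3 (c * s) (mul_le_mul_of_nonneg_left hs hc.le)
      (by rwa [le_div_iff₀' hc] at hs')
    rw [e]
    refine ⟨le_trans (le_of_eq (by ring)) (mul_le_mul_of_nonneg_left h4 hJ.le), fun i hi => ?_⟩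
    refine le_trans (le_of_eq ?_) ((mul_le_mul_of_nonneg_left (h5 i hi) hJ.le).trans_eq (by ring))
    rw [mul_div_assoc, mul_assoc b, ← PartS_ball hc, ← integral_const_mul]
    refine integral_congr_ae (ae_of_all _ fun x => ?_)
    simp only [Pi.smul_apply, smul_eq_mul, mul_pow, mul_div_mul_left _ _ (pow_pos hc 2).ne']
    ring

theorem PartS_congr {n n' : Pt → ℝ} (h : Nodal n) (e : ∀ᵐ x, n' x = n x) : Nodal n' := by
  obtain ⟨h0, h1, r₀, C, c₀, hr₀, hc₀, h⟩ := h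
  have e1 : ∀ (w : Pt → ℝ) (S : Set Pt), ∫ x in S, w x * n' x = ∫ x in S, w x * n x :=
    fun w S => integral_congr_ae (ae_restrict_of_ae (e.mono fun x hx => by simp only [hx]))
  have e2 : ∀ S : Set Pt, ∫ x in S, n' x = ∫ x in S, n x :=
    fun S => integral_congr_ae (ae_restrict_of_ae e)
  refine ⟨?_, ?_, r₀, C, c₀, hr₀, hc₀, ?_⟩
  · filter_upwards [h0, e, (mp_rf 0).quasiMeasurePreserving.ae e] with x a1 a2 a3
    rw [a3, a2, a1]
  · filter_upwards [h1, e, (mp_rf 1).quasiMeasurePreserving.ae e] with x a1 a2 a3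
    rw [a3, a2, a1]
  · simpa only [e1, e2] using h

end Scale

theorem PartS_vp (pts : List Pt) {lam : ℝ} (hl : 0 < lam) (y : Pt) :
    vp pts lam y = lam ^ 2 * pot ((pts.map fun p => lam • p).map fun p => (p, 1)) (lam • y) := by
  rw [← sc_pot hl, vp, unscale, List.map_map, List.map_map]
  congr 2
  funext p
  simp [inv_smul_smul₀ hl.ne']

theorem PartS_merge [DecidableEq Pt] (l : List Pt) :
    pot ((l.dedup.map fun p => (p, l.count p)).map fun p => (p.1, (p.2 : ℝ))) =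
      pot (l.map fun p => (p, 1)) := by
  funext y
  simp only [pot, List.map_map, Function.comp_def, one_mul]
  rw [Finset.sum_list_map_count l, ← List.sum_toFinset _ l.nodup_dedup]
  congr 1
  refine Finset.sum_congr (by ext; simp) fun p _ => by rw [nsmul_eq_mul]

theorem PartS_form {N : ℕ} (nuc : List (Pt × ℝ)) {Ψ : Wave N} {G : Grad N} (h : Dom Ψ G) :
    form nuc Ψ G = formB (pot nuc) 1 Ψ G := by
  obtain ⟨C, hC, hd⟩ := hd_coulomb
  have key : ∀ s i, Integrable (fun x : Cf N => pot nuc (x i) * ‖Ψ s x‖ ^ 2) ∧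
      (nuc.map fun p => p.2 * ∫ x, ‖Ψ s x‖ ^ 2 / nrm (x i - p.1)).sum =
        -∫ x : Cf N, pot nuc (x i) * ‖Ψ s x‖ ^ 2 := fun s i => by
    induction nuc with
    | nil => simp [pot_nil]
    | cons p nuc ih =>
      have h1 := ((((hd N).1 i p.1).h1 hC (h.1 s)).1).const_mul (-p.2)
      rw [List.map_cons, List.sum_cons, ih.2, pot_cons]
      simp_rw [add_mul, mul_assoc]
      refine ⟨h1.add ih.1, ?_⟩
      rw [integral_add h1 ih.1, integral_const_mul]
      simp only [ker, div_eq_inv_mul]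
      ring
  have key2 := fun s i => (key s i).2
  simp only [form, formB, key2, Finset.sum_neg_distrib, sub_neg_eq_add]
  simp only [one_mul, ker, div_eq_inv_mul]

/-- Part S -/
theorem lift {pts : List Pt} {lam : ℝ} {ψ : Cf 3 → ℝ} {G : Fin 3 → Fin 3 → Cf 3 → ℝ}
    (hne : pts ≠ []) (hl : 0 < lam) (h : MinA (vp pts lam) lam ψ G) (hn : Nodal (dens3 ψ)) :
    ∃ nuc : List (Pt × ℕ), nuc ≠ [] ∧ (nuc.map Prod.fst).Nodup ∧ (∀ p ∈ nuc, 0 < p.2) ∧
      ∃ Ψ : Wave 3, IsGround (form (nuc.map fun p => (p.1, (p.2 : ℝ)))) Ψ ∧ Nodal (dens Ψ) ∧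
        Integrable (dens Ψ) := by
  classical
  have hm := PartS_min hl (PartS_vp pts hl) h
  have hn' : Nodal (dens3 fun x => √(scJ 3 lam) * ψ (lam⁻¹ • x)) := by
    have hl' := inv_pos.2 hl
    rw [funext (PartS_dens ψ hl' √(scJ 3 lam))]
    exact PartS_nodal hn hl'
      (mul_pos (pow_pos (Real.sqrt_pos.2 (PartS_J 3 hl)) 2) (PartS_J 2 hl'))
  generalize (fun x => √(scJ 3 lam) * ψ (lam⁻¹ • x)) = f at hm hn'
  generalize (fun i k x => √(scJ 3 lam) * (lam⁻¹ * G i k (lam⁻¹ • x))) = H at hm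
  have hne' : (pts.map fun p => lam • p) ≠ [] := by simpa using hne
  generalize (pts.map fun p => lam • p) = l at hm hne'
  obtain ⟨Ψ, GΨ, hD, h1, h2, h3⟩ := spin_lift hm.1 hm.2.1
  refine ⟨l.dedup.map fun p => (p, l.count p), by simpa using hne', ?_, ?_, Ψ,
    ⟨GΨ, hD, h1.trans hm.2.2.1, fun Φ GΦ hΦ hΦ1 => ?_⟩, PartS_congr hn' h3, ?_⟩
  · simpa [List.map_map, Function.comp_def] using l.nodup_dedup
  · intro p hp
    obtain ⟨q, hq, rfl⟩ := List.mem_map.1 hp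
    exact List.count_pos_iff.2 (List.mem_dedup.1 hq)
  · obtain ⟨g, Hg, a1, a2, a3, -⟩ := spin_split hΦ
    have a4 := Finset.sum_le_sum fun m (_ : m ∈ Finset.univ) => hm.2.2.2 _ _ (a1 m).1 (a1 m).2
    rw [← Finset.mul_sum, ← a2, hΦ1, mul_one] at a4
    rwa [PartS_form _ hD, PartS_form _ hΦ, PartS_merge, h2 _ _ (fb_pot _), a3 _ _ (fb_pot _)]
  · have := (dens3_int (w := fun _ => 1) measurable_const hm.1.1 fun _ => by
      simpa using hm.1.1.integrable_sq).1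
    refine this.congr (h3.mono fun x hx => ?_)
    simp only [hx, one_mul]

end Vale.Agent.P363
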