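import Vale.Agent.P363.PartK
import Vale.Agent.P363.PartS
import Vale.Agent.P363.PartM
import Vale.Agent.P363.PartR
import Vale.Agent.P363.PartI
import Vale.Agent.P363.PartF
import Vale.Agent.P363.PartD8

/-! Assembly of the parts. -/

namespace Vale.Agent.P363

open MeasureTheory Vale.Agent.P370

theorem num_small {P s l : ℝ} (hP : 10 ^ 200 ≤ P) (hs : 0 < s) (h : P ^ 1000 * s ≤ 1)
    (hl : l ≤ s ^ 12) : s ≤ 1 ∧ l * P ^ 5 ≤ 1 ∧ l ≤ 1 / 100 ∧ P ^ 90 * s ≤ 1 / 4 := by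
  have P1 : 1 ≤ P := le_trans (by norm_num) hP
  have a : ∀ j ≤ 999, P ^ j * s ≤ 1 / 100 := fun j hj => by
    have h1 : P ^ j * 100 ≤ P ^ 1000 := by
      calc P ^ j * 100 ≤ P ^ 999 * P := by
            gcongr
            exact le_trans (by norm_num) hP
        _ = P ^ 1000 := by ring
    nlinarith
  have s1 : s ≤ 1 / 100 := by simpa using a 0 (by norm_num)
  have l1 : l ≤ s := hl.trans (pow_le_of_le_one hs.le (by linarith) (by norm_num))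
  have := a 5 (by norm_num)
  have := a 90 (by norm_num)
  have := mul_le_mul_of_nonneg_right l1 (pow_nonneg (by linarith : 0 ≤ P) 5)
  exact ⟨by linarith, by linarith, by linarith, by linarith⟩

theorem num_far {P s l ν R : ℝ} (hP : 10 ^ 200 ≤ P) (hs : 0 < s) (h : P ^ 1000 * s ≤ 1)
    (hl0 : 0 < l) (hl : l ≤ s ^ 12) (hν : 0 < ν) (hR0 : 0 ≤ R) (hR : R ≤ P) :
    (ν * P ^ 30 * s + ν * P ^ 30 / s * (l * P ^ 5) / √(l / Lc / 100)) * R ^ 50 ≤ ν / P ^ 3 := by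
  obtain ⟨s1, -, -, h4⟩ := num_small hP hs h hl
  have P1 : 1 ≤ P := le_trans (by norm_num) hP
  have e : √(l / Lc / 100) = √l / 10 ^ 9 := by
    rw [show l / Lc / 100 = l / (10 ^ 9) ^ 2 by unfold Lc; ring, Real.sqrt_div' _ (by positivity),
      Real.sqrt_sq (by positivity)]
  have q0 : 0 < √l := Real.sqrt_pos.2 hl0
  have q1 : √l ≤ s ^ 2 := Real.sqrt_le_iff.2 ⟨by positivity, hl.trans (by
    rw [← pow_mul]; exact pow_le_pow_of_le_one hs.le s1 (by norm_num))⟩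
  have e2 : ν * P ^ 30 / s * (l * P ^ 5) / √(l / Lc / 100) = ν * P ^ 35 * 10 ^ 9 * (√l / s) := by
    rw [e]
    nth_rewrite 1 [← Real.mul_self_sqrt hl0.le]
    field_simp
  have q2 : √l / s ≤ s := by rw [div_le_iff₀ hs]; linarith
  have q3 : ν * P ^ 35 * 10 ^ 9 * (√l / s) ≤ ν * P ^ 35 * P * s := by
    gcongr
    exact le_trans (by norm_num) hP
  have q4 : ν * P ^ 30 * s ≤ ν * P ^ 36 * s := by gcongr; norm_num
  have q5 : P ^ 89 * s ≤ P ^ 90 * s := by gcongr; norm_num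
  rw [e2, le_div_iff₀ (by positivity)]
  have P0 : 0 ≤ P := by linarith
  have r1 : R ^ 50 ≤ P ^ 50 := pow_le_pow_left₀ hR0 hR 50
  have r2 : 0 ≤ R ^ 50 := pow_nonneg hR0 50
  have r3 : 0 ≤ ν * P ^ 36 * s + ν * P ^ 35 * P * s :=
    add_nonneg (mul_nonneg (mul_nonneg hν.le (pow_nonneg P0 _)) hs.le)
      (mul_nonneg (mul_nonneg (mul_nonneg hν.le (pow_nonneg P0 _)) P0) hs.le)
  have r4 := mul_le_mul_of_nonneg_right (mul_le_mul (add_le_add q4 q3) r1 r2 r3) (pow_nonneg P0 3)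
  have r5 : (ν * P ^ 36 * s + ν * P ^ 35 * P * s) * P ^ 50 * P ^ 3 = ν * (2 * (P ^ 89 * s)) := by
    ring
  have r6 : ν * (2 * (P ^ 89 * s)) ≤ ν * 1 := mul_le_mul_of_nonneg_left (by linarith) hν.le
  linarith

theorem main : ∃ nuc : List (Pt × ℕ), nuc ≠ [] ∧ (nuc.map Prod.fst).Nodup ∧ (∀ p ∈ nuc, 0 < p.2) ∧
    ∃ Ψ : Wave 3, IsGround (form (nuc.map fun p => (p.1, (p.2 : ℝ)))) Ψ ∧ ¬Repr 2 (dens Ψ) := by
  obtain ⟨R₀, hfar⟩ := far
  obtain ⟨P₀, hin⟩ := inside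
  obtain ⟨M, h, hR'⟩ := exists_mol (max R₀ P₀)
  have hR : R₀ ≤ M.R := (le_max_left _ _).trans hR'
  have hP : P₀ ≤ M.P := ((le_max_right _ _).trans hR').trans h.R_le
  obtain ⟨Φ, GΦ, ψ, Gψ, E₂, E₃, A, hm⟩ := many h.ob
  obtain ⟨f, a, ρ, b, hs⟩ := reduce h.ob hm h.coer h.R_ge h.R_le h.P_ge
  have l0 := h.ob.lam_pos
  obtain ⟨-, n2, n3, -⟩ := num_small h.P_ge h.sm_pos h.P_le h.lam_le
  have P0 : 0 < M.P := lt_of_lt_of_le (by norm_num) h.P_ge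
  have L1 : M.lam / Lc ≤ 1 / 100 := (div_le_self l0.le (by unfold Lc; norm_num)).trans n3
  have L0 : 0 < M.lam / Lc := div_pos l0 (by unfold Lc; norm_num)
  have hk : |E₂ - E₃ + M.E| ≤ 20 * (M.lam / Lc) := by
    have h2 := abs_le.1 hm.e2
    have h3 := abs_le.1 hm.e3
    exact abs_le.2 ⟨by linarith, by linarith⟩
  have hk' : |E₂ - E₃ - 3 / 2 * M.R ^ 2| ≤ M.R := by
    have h2 := abs_le.1 hk
    have h3 := abs_le.1 h.E_eq
    have := h.R_ge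
    exact abs_le.2 ⟨by linarith, by linarith⟩
  have hν := h.nu_pos
  have hsm := h.sm_pos
  have hn : Nodal (dens3 ψ) := hfar hR h.ob.fb hs h.vac h.Z_eq hk' l0.le n3 (by positivity)
    (by linarith) (by positivity) n2 (by positivity) (by positivity) (by positivity)
    (hin h hP hs hk hm.amp_ge)
    (num_far h.P_ge hsm h.P_le l0 h.lam_le hν (by linarith [h.R_ge]) h.R_le)
  obtain ⟨nuc, a1, a2, a3, Ψ, a4, a5, a6⟩ := lift h.ne l0 hm.min hn
  exact ⟨nuc, a1, a2, a3, Ψ, a4, not_repr a5 a6⟩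

end Vale.Agent.P363
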