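import Vale.Agent.P363.Des
import Vale.Agent.P363.LD

/-! Part D1 (see `skeleton/P363/PROOF.md`). -/

namespace Vale.Agent.P363

open MeasureTheory Vale.Agent.P370
open scoped ContDiff

theorem d1_le (j : ℕ) : (j : WithTop ℕ∞) ≤ ∞ := by exact_mod_cast le_top

section General

variable {E F : Type} [NormedAddCommGroup E] [NormedSpace ℝ E] [NormedAddCommGroup F]
  [NormedSpace ℝ F]

theorem d1_lin {f : F → ℝ} (hf : ContDiff ℝ ∞ f) (A : E →L[ℝ] F) {a : ℝ} (hA : ‖A‖ ≤ a) (j : ℕ)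
    (x : E) : ‖iteratedFDeriv ℝ j (fun y => f (A y)) x‖ ≤ ‖iteratedFDeriv ℝ j f (A x)‖ * a ^ j := by
  rw [show (fun y => f (A y)) = f ∘ A from rfl, A.iteratedFDeriv_comp_right hf x (d1_le j)]
  refine (ContinuousMultilinearMap.norm_compContinuousLinearMap_le _ _).trans ?_
  rw [Finset.prod_const, Finset.card_univ, Fintype.card_fin]
  gcongr

theorem d1_aff {f : E → ℝ} (hf : ContDiff ℝ ∞ f) (a b : ℝ) {j : ℕ} (hj : 1 ≤ j) (x : E) :
    ‖iteratedFDeriv ℝ j (fun y => a * f y + b) x‖ = |a| * ‖iteratedFDeriv ℝ j f x‖ := by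
  obtain ⟨j, rfl⟩ := Nat.exists_eq_add_of_le' hj
  have h1 : fderiv ℝ (fun y => a * f y + b) = fderiv ℝ (fun y => a • f y) := by
    funext y
    exact fderiv_add_const b
  rw [← norm_iteratedFDeriv_fderiv, h1, norm_iteratedFDeriv_fderiv,
    iteratedFDeriv_const_smul_apply' (hf.of_le (d1_le _)).contDiffAt, norm_smul, Real.norm_eq_abs]

theorem d1_bdd {f : ℝ → F} (hf : ContDiff ℝ ∞ f) (hc : HasCompactSupport f) :
    ∃ B : ℝ, 1 ≤ B ∧ ∀ j ≤ 4, ∀ t, ‖iteratedFDeriv ℝ j f t‖ ≤ B := by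
  have h := fun j : ℕ => (hf.continuous_iteratedFDeriv (d1_le j)).bounded_above_of_compact_support
    (hc.iteratedFDeriv j)
  choose B hB using h
  have h0 : ∀ j, 0 ≤ B j := fun j => (norm_nonneg _).trans (hB j 0)
  have h1 : 0 ≤ ∑ j ∈ Finset.range 5, B j := Finset.sum_nonneg fun j _ => h0 j
  refine ⟨1 + ∑ j ∈ Finset.range 5, B j, by linarith, fun j hj t => ?_⟩
  have := Finset.single_le_sum (f := B) (fun j _ => h0 j)
    (Finset.mem_range.2 (Nat.lt_succ_of_le hj))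
  linarith [hB j t]

theorem d1_comp {g : ℝ → ℝ} {f : E → ℝ} (hg : ContDiff ℝ ∞ g) (hf : ContDiff ℝ ∞ f) {n : ℕ}
    (h1 : 1 ≤ n) (h4 : n ≤ 4) (x : E) {C D : ℝ} (hC0 : 0 ≤ C) (hD0 : 0 ≤ D)
    (hC : ∀ i, 1 ≤ i → i ≤ 4 → ‖iteratedFDeriv ℝ i g (f x)‖ ≤ C)
    (hD : ∀ i, 1 ≤ i → i ≤ 4 → ‖iteratedFDeriv ℝ i f x‖ ≤ D ^ i) :
    ‖iteratedFDeriv ℝ n (fun y => g (f y)) x‖ ≤ 24 * C * D ^ n := by
  have h := norm_iteratedFDeriv_comp_le (g := fun t => 1 * g t + -g (f x)) (f := f)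
    ((contDiff_const.mul hg).add contDiff_const) hf (d1_le n) x (C := C) (D := D)
    (fun i hi => by
      rcases Nat.eq_zero_or_pos i with rfl | h0
      · simpa using hC0
      · rw [d1_aff hg _ _ h0, abs_one, one_mul]
        exact hC i h0 (hi.trans h4))
    (fun i h0 hi => hD i h0 (hi.trans h4))
  have e1 := d1_aff (hg.comp hf) 1 (-g (f x)) h1 x
  rw [abs_one, one_mul] at e1
  have h2 : (n.factorial : ℝ) ≤ 24 := by exact_mod_cast Nat.factorial_le h4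
  calc _ = _ := e1.symm
    _ ≤ _ := h
    _ ≤ _ := by gcongr

end General

theorem d1_st : ∃ B : ℝ, 1 ≤ B ∧ ∀ j, 1 ≤ j → j ≤ 4 → ∀ t,
    ‖iteratedFDeriv ℝ j Real.smoothTransition t‖ ≤ B := by
  have hs : ContDiff ℝ ∞ Real.smoothTransition := Real.smoothTransition.contDiff
  obtain ⟨B, hB, h⟩ := d1_bdd (f := fderiv ℝ Real.smoothTransition) (hs.fderiv_right le_rfl)
    (HasCompactSupport.intro (isCompact_Icc (a := 0) (b := 1)) fun t ht => by
      rcases not_and_or.1 ht with h0 | h1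
      · have : Real.smoothTransition =ᶠ[nhds t] fun _ => 0 :=
          (gt_mem_nhds (not_le.1 h0)).mono fun s hs => Real.smoothTransition.zero_of_nonpos hs.le
        rw [this.fderiv_eq, fderiv_fun_const, Pi.zero_apply]
      · have : Real.smoothTransition =ᶠ[nhds t] fun _ => 1 :=
          (lt_mem_nhds (not_le.1 h1)).mono fun s hs => Real.smoothTransition.one_of_one_le hs.le
        rw [this.fderiv_eq, fderiv_fun_const, Pi.zero_apply])
  refine ⟨B, hB, fun j h1 h4 t => ?_⟩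
  obtain ⟨j, rfl⟩ := Nat.exists_eq_add_of_le' h1
  rw [← norm_iteratedFDeriv_fderiv]
  exact h j (by omega) t

/-- Fourth power, cut off near zero. -/
noncomputable def d1th (t : ℝ) : ℝ := t ^ 4 * Real.smoothTransition (t ^ 2 - 1)

/-- Regularised fourth power of the norm. -/
noncomputable def d1N (x : Pt) : ℝ := 1 * ∑ k, d1th (x k) + 1

theorem d1_th_smooth : ContDiff ℝ ∞ d1th :=
  (contDiff_id.pow 4).mul (Real.smoothTransition.contDiff.comp
    ((contDiff_id.pow 2).sub contDiff_const))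

theorem d1_th_nonneg (t : ℝ) : 0 ≤ d1th t :=
  mul_nonneg (by positivity) (Real.smoothTransition.nonneg _)

theorem d1_th_zero {t : ℝ} (h : t ^ 2 ≤ 1) : d1th t = 0 := by
  rw [d1th, Real.smoothTransition.zero_of_nonpos (by linarith), mul_zero]

theorem d1_th_neg (t : ℝ) : d1th (-t) = d1th t := by
  rw [d1th, d1th, neg_sq, Even.neg_pow (by decide)]

theorem d1_th_low (t : ℝ) : t ^ 4 - 4 ≤ d1th t := by
  rcases le_total (t ^ 2) 2 with h | h
  · have := d1_th_nonneg t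
    nlinarith [sq_nonneg t]
  · rw [d1th, Real.smoothTransition.one_of_one_le (by linarith)]
    linarith

theorem d1_th_der : ∃ B : ℝ, 1 ≤ B ∧ ∀ j ≤ 4, ∀ t,
    ‖iteratedFDeriv ℝ j d1th t‖ ≤ B * (1 + |t|) ^ (4 - j) := by
  have hp : ContDiff ℝ ∞ fun t : ℝ => t ^ 4 := contDiff_id.pow 4
  obtain ⟨B, hB, h⟩ := d1_bdd (f := fun t => d1th t - t ^ 4) (d1_th_smooth.sub hp)
    (HasCompactSupport.intro (isCompact_Icc (a := -2) (b := 2)) fun t ht => by
      have h2 : 2 ≤ t ^ 2 := by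
        rcases not_and_or.1 ht with h0 | h1 <;> nlinarith
      rw [d1th, Real.smoothTransition.one_of_one_le (by linarith), mul_one, sub_self])
  refine ⟨B + 24, by linarith, fun j hj t => ?_⟩
  have h1 := h j hj t
  rw [fun_iteratedFDeriv_sub_apply (d1_th_smooth.of_le (d1_le j)).contDiffAt
    (hp.of_le (d1_le j)).contDiffAt] at h1
  have h2 : ‖iteratedFDeriv ℝ j (fun t : ℝ => t ^ 4) t‖ ≤ 24 * (1 + |t|) ^ (4 - j) := by
    rw [norm_iteratedFDeriv_eq_norm_iteratedDeriv, iteratedDeriv_pow, norm_mul, norm_pow,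
      Real.norm_natCast, Real.norm_eq_abs]
    have : (Nat.descFactorial 4 j : ℝ) ≤ 24 := by
      interval_cases j <;> norm_num [Nat.descFactorial]
    gcongr
    linarith
  have h3 : 1 ≤ (1 + |t|) ^ (4 - j) := one_le_pow₀ (by linarith [abs_nonneg t])
  have h4 := norm_sub_norm_le (iteratedFDeriv ℝ j d1th t)
    (iteratedFDeriv ℝ j (fun t : ℝ => t ^ 4) t)
  nlinarith

theorem d1_sum_smooth : ContDiff ℝ ∞ fun x : Pt => ∑ k, d1th (x k) :=
  ContDiff.sum fun k _ => d1_th_smooth.comp (contDiff_apply ℝ ℝ k)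

theorem d1_N_smooth : ContDiff ℝ ∞ d1N := (contDiff_const.mul d1_sum_smooth).add contDiff_const

theorem d1_N_one (x : Pt) : 1 ≤ d1N x := by
  have : 0 ≤ ∑ k, d1th (x k) := Finset.sum_nonneg fun k _ => d1_th_nonneg _
  unfold d1N
  linarith

theorem d1_N_low (x : Pt) : (1 + nrm x) ^ 4 ≤ 296 * d1N x := by
  have h1 : nrm x ^ 2 = x 0 ^ 2 + x 1 ^ 2 + x 2 ^ 2 := by
    rw [nrm, Real.sq_sqrt (Finset.sum_nonneg fun k _ => sq_nonneg _), Fin.sum_univ_three]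
  have h2 : nrm x ^ 4 ≤ 3 * (x 0 ^ 4 + x 1 ^ 4 + x 2 ^ 4) := by
    rw [show nrm x ^ 4 = (nrm x ^ 2) ^ 2 by ring, h1]
    nlinarith [sq_nonneg (x 0 ^ 2 - x 1 ^ 2), sq_nonneg (x 0 ^ 2 - x 2 ^ 2),
      sq_nonneg (x 1 ^ 2 - x 2 ^ 2)]
  have h3 : (1 + nrm x) ^ 4 ≤ 8 * (1 + nrm x ^ 4) := by
    nlinarith [sq_nonneg (nrm x - 1), sq_nonneg (nrm x ^ 2 - 1), sq_nonneg (nrm x + 1),
      mul_nonneg (sq_nonneg (nrm x - 1)) (sq_nonneg (nrm x + 1)),
      mul_nonneg (sq_nonneg (nrm x - 1)) (sq_nonneg (nrm x))]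
  have h4 := d1_N_one x
  have h5 : x 0 ^ 4 + x 1 ^ 4 + x 2 ^ 4 - 11 ≤ d1N x := by
    rw [d1N, Fin.sum_univ_three]
    linarith [d1_th_low (x 0), d1_th_low (x 1), d1_th_low (x 2)]
  linarith

theorem d1_N_der : ∃ B : ℝ, 1 ≤ B ∧ ∀ j, 1 ≤ j → j ≤ 4 → ∀ x,
    ‖iteratedFDeriv ℝ j d1N x‖ ≤ B * (1 + nrm x) ^ (4 - j) := by
  obtain ⟨B, hB, h⟩ := d1_th_der
  refine ⟨3 * B, by linarith, fun j h1 h4 x => ?_⟩
  have e1 := d1_aff d1_sum_smooth 1 1 h1 x
  rw [abs_one, one_mul, iteratedFDeriv_fun_sum_apply (f := fun k (y : Pt) => d1th (y k)) fun k _ =>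
    ((d1_th_smooth.comp (contDiff_apply ℝ ℝ k)).of_le (d1_le j)).contDiffAt] at e1
  have h2 : ∀ k : Fin 3, ‖iteratedFDeriv ℝ j (fun y : Pt => d1th (y k)) x‖ ≤
      B * (1 + nrm x) ^ (4 - j) := by
    intro k
    have hL : ‖(ContinuousLinearMap.proj k : Pt →L[ℝ] ℝ)‖ ≤ 1 :=
      ContinuousLinearMap.opNorm_le_bound _ zero_le_one fun y => by
        rw [one_mul]; exact norm_le_pi_norm y k
    have h3 := d1_lin d1_th_smooth _ hL j x
    rw [one_pow, mul_one] at h3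
    refine h3.trans ((h j h4 _).trans ?_)
    have := abs_le_nrm' x k
    have h5 : (0 : ℝ) ≤ B := by linarith
    show B * (1 + |x k|) ^ (4 - j) ≤ _
    gcongr
  refine e1.le.trans ((norm_sum_le _ _).trans ?_)
  rw [Fin.sum_univ_three]
  linarith [h2 0, h2 1, h2 2]

theorem d1_sig_smooth : ContDiff ℝ ∞ fun x => Real.log (d1N x) :=
  d1_N_smooth.log fun x => (zero_lt_one.trans_le (d1_N_one x)).ne'

theorem d1_sig : ∃ A : ℝ, 1 ≤ A ∧ ∀ j, 1 ≤ j → j ≤ 4 → ∀ x,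
    ‖iteratedFDeriv ℝ j (fun x => Real.log (d1N x)) x‖ ≤ (A / (1 + nrm x)) ^ j := by
  obtain ⟨B, hB, h⟩ := d1_N_der
  obtain ⟨C, hC1, hC⟩ : ∃ C : ℝ, 1 ≤ C ∧
      ∀ i ≤ 4, ‖iteratedFDerivWithin ℝ i Real.log (Set.Ioi 0) 1‖ ≤ C := by
    refine ⟨1 + ∑ i ∈ Finset.range 5, ‖iteratedFDerivWithin ℝ i Real.log (Set.Ioi 0) 1‖,
      le_add_of_nonneg_right (Finset.sum_nonneg fun _ _ => norm_nonneg _), fun i hi => ?_⟩
    have := Finset.single_le_sum
      (f := fun i => ‖iteratedFDerivWithin ℝ i Real.log (Set.Ioi 0) 1‖)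
      (fun _ _ => norm_nonneg _) (Finset.mem_range.2 (Nat.lt_succ_of_le hi))
    linarith
  refine ⟨24 * C * (296 * B), by nlinarith, fun j h1 h4 x => ?_⟩
  have hN : ∀ y, 0 < d1N y := fun y => zero_lt_one.trans_le (d1_N_one y)
  have hr : 0 < 1 + nrm x := by linarith [nrm_nonneg x]
  have h2 := norm_iteratedFDeriv_comp_le' (g := Real.log)
    (f := fun y => (d1N x)⁻¹ * d1N y + 0) (t := Set.Ioi 0)
    (by
      rintro _ ⟨y, rfl⟩
      have := hN x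
      have := hN y
      show (0 : ℝ) < _
      positivity)
    (uniqueDiffOn_Ioi 0) (Real.contDiffOn_log.mono fun t ht => ne_of_gt ht)
    ((contDiff_const.mul d1_N_smooth).add contDiff_const) (d1_le j) x (C := C)
    (D := 296 * B / (1 + nrm x))
    (fun i hi => by
      rw [inv_mul_cancel₀ (hN x).ne', add_zero]
      exact hC i (hi.trans h4))
    (fun i h0 hi => by
      have hi4 := hi.trans h4
      rw [d1_aff d1_N_smooth _ _ h0, abs_of_pos (inv_pos.2 (hN x)), inv_mul_le_iff₀ (hN x),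
        div_pow, ← mul_div_assoc, le_div_iff₀ (by positivity)]
      have h3 : 296 * B ≤ (296 * B) ^ i := le_self_pow₀ (by linarith) (by omega)
      calc _ ≤ B * (1 + nrm x) ^ (4 - i) * (1 + nrm x) ^ i := by gcongr; exact h i h0 hi4 x
        _ = B * (1 + nrm x) ^ 4 := by rw [mul_assoc, ← pow_add, Nat.sub_add_cancel hi4]
        _ ≤ B * (296 * d1N x) := by gcongr; exact d1_N_low x
        _ = d1N x * (296 * B) := by ring
        _ ≤ _ := by have := hN x; gcongr)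
  have e1 : (Real.log ∘ fun y => (d1N x)⁻¹ * d1N y + 0) =
      fun y => 1 * Real.log (d1N y) + Real.log (d1N x)⁻¹ := by
    funext y
    rw [Function.comp_apply, add_zero, Real.log_mul (inv_pos.2 (hN x)).ne' (hN y).ne']
    ring
  rw [e1, d1_aff d1_sig_smooth _ _ h1, abs_one, one_mul] at h2
  have h5 : (j.factorial : ℝ) ≤ 24 := by exact_mod_cast Nat.factorial_le h4
  have h6 : 24 * C ≤ (24 * C) ^ j := le_self_pow₀ (by linarith) (by omega)
  calc _ ≤ _ := h2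
    _ ≤ 24 * C * (296 * B / (1 + nrm x)) ^ j := by gcongr
    _ ≤ (24 * C) ^ j * (296 * B / (1 + nrm x)) ^ j := by gcongr
    _ = _ := by rw [← mul_pow, ← mul_div_assoc]

theorem d1_unit : ∃ m : ℕ, 2 ≤ m ∧ ∀ Λ : ℝ, 1 / 2 ≤ Λ → ∀ j, 1 ≤ j → j ≤ 4 → ∀ x : Pt,
    ‖iteratedFDeriv ℝ j (fun y => Real.exp
      (-Λ * Real.smoothTransition ((m * Λ)⁻¹ * Real.log (d1N y)) + Λ)) x‖ ≤
      del * Real.exp (-Λ * Real.smoothTransition ((m * Λ)⁻¹ * Real.log (d1N x)) + Λ) /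
        (1 + nrm x) ^ j := by
  obtain ⟨B, hB, hst⟩ := d1_st
  obtain ⟨A, hA, hsig⟩ := d1_sig
  obtain ⟨η, hη, hη0, hη1⟩ : ∃ η : ℝ, 24 * η = del ∧ 0 < η ∧ η ≤ 1 :=
    ⟨del / 24, by ring, by unfold del; norm_num, by unfold del; norm_num⟩
  obtain ⟨m₀, hm₀⟩ := exists_nat_ge (24 * B * A ^ 4 / η ^ 4)
  refine ⟨m₀ + 2, by omega, fun Λ hΛ j h1 h4 x => ?_⟩
  obtain ⟨m, hm⟩ : ∃ m : ℝ, m = ((m₀ + 2 : ℕ) : ℝ) := ⟨_, rfl⟩
  rw [← hm]
  have hm2 : (m₀ : ℝ) + 2 = m := by rw [hm]; push_cast; ring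
  have hm3 : 2 ≤ m := by linarith [Nat.cast_nonneg (α := ℝ) m₀]
  have hm0 : 0 < m := by linarith
  have hΛ0 : 0 < Λ := by linarith
  have hT : 1 ≤ m * Λ := by nlinarith
  have hT1 : (m * Λ)⁻¹ ≤ 1 := inv_le_one_of_one_le₀ hT
  have hT0 : 0 < (m * Λ)⁻¹ := by positivity
  have hr : 0 < 1 + nrm x := by linarith [nrm_nonneg x]
  have hs : ContDiff ℝ ∞ Real.smoothTransition := Real.smoothTransition.contDiff
  have hs1 : ContDiff ℝ ∞ fun t : ℝ => Real.smoothTransition ((m * Λ)⁻¹ * t) :=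
    hs.comp (contDiff_const.mul contDiff_id)
  have hv : ContDiff ℝ ∞ fun t : ℝ => -Λ * Real.smoothTransition ((m * Λ)⁻¹ * t) + Λ :=
    (contDiff_const.mul hs1).add contDiff_const
  have hv' : ∀ i, 1 ≤ i → i ≤ 4 → ∀ t, ‖iteratedFDeriv ℝ i
      (fun t : ℝ => -Λ * Real.smoothTransition ((m * Λ)⁻¹ * t) + Λ) t‖ ≤ B / m := by
    intro i h0 hi t
    have hL : ‖((m * Λ)⁻¹ • ContinuousLinearMap.id ℝ ℝ)‖ ≤ (m * Λ)⁻¹ := by
      rw [norm_smul, ContinuousLinearMap.norm_id, mul_one, Real.norm_of_nonneg hT0.le]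
    have h2 := d1_lin hs _ hL i t
    have h3 : (m * Λ)⁻¹ ^ i ≤ (m * Λ)⁻¹ := pow_le_of_le_one hT0.le hT1 (by omega)
    rw [d1_aff hs1 _ _ h0, abs_neg, abs_of_pos hΛ0]
    calc _ ≤ Λ * (B * (m * Λ)⁻¹) := by
          refine mul_le_mul_of_nonneg_left (h2.trans ?_) hΛ0.le
          exact mul_le_mul (hst i h0 hi _) h3 (by positivity) (by linarith)
      _ = B / m := by field_simp
  have hu : ∀ i, 1 ≤ i → i ≤ 4 → ‖iteratedFDeriv ℝ i
      (fun y => -Λ * Real.smoothTransition ((m * Λ)⁻¹ * Real.log (d1N y)) + Λ) x‖ ≤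
      (η / (1 + nrm x)) ^ i := by
    intro i h0 hi
    refine (d1_comp hv d1_sig_smooth h0 hi x (by positivity) (by positivity)
      (fun k a b => hv' k a b _) (fun k a b => hsig k a b x)).trans ?_
    rw [div_pow, div_pow, ← mul_div_assoc]
    refine div_le_div_of_nonneg_right ?_ (by positivity)
    have h2 : A ^ i ≤ A ^ 4 := pow_le_pow_right₀ hA hi
    have h3 : η ^ 4 ≤ η ^ i := pow_le_pow_of_le_one hη0.le hη1 hi
    have h5 : 24 * B * A ^ 4 ≤ m * η ^ 4 := (div_le_iff₀ (by positivity)).1 (by linarith)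
    calc 24 * (B / m) * A ^ i ≤ 24 * (B / m) * A ^ 4 := by gcongr
      _ = 24 * B * A ^ 4 / m := by ring
      _ ≤ η ^ 4 := (div_le_iff₀' hm0).2 h5
      _ ≤ _ := h3
  refine (d1_comp Real.contDiff_exp
    (f := fun y => -Λ * Real.smoothTransition ((m * Λ)⁻¹ * Real.log (d1N y)) + Λ)
    (hv.comp d1_sig_smooth) h1 h4 x
    (C := Real.exp (-Λ * Real.smoothTransition ((m * Λ)⁻¹ * Real.log (d1N x)) + Λ))
    (Real.exp_pos _).le (by positivity) (fun k _ _ => ?_) hu).trans ?_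
  · rw [norm_iteratedFDeriv_eq_norm_iteratedDeriv, iteratedDeriv_eq_iterate, Real.iter_deriv_exp,
      Real.norm_of_nonneg (Real.exp_pos _).le]
  · rw [div_pow, ← mul_div_assoc, ← hη]
    refine div_le_div_of_nonneg_right ?_ (by positivity)
    have h3 : η ^ j ≤ η := pow_le_of_le_one hη0.le hη1 (by omega)
    calc _ ≤ 24 * Real.exp (-Λ * Real.smoothTransition ((m * Λ)⁻¹ * Real.log (d1N x)) + Λ) * η := by
          gcongr
      _ = _ := by ring

/-- D1 -/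
theorem exists_slow : ∃ C₀ : ℕ, ∀ Ω L : ℝ, 1 ≤ Ω → 1 ≤ L →
    ∃ Lg c ch, Slow Ω L Lg c ch ∧ Lg ≤ L * (Ω + 1) ^ C₀ := by
  obtain ⟨m, hm, hder⟩ := d1_unit
  refine ⟨m + 9, fun Ω L hΩ hL => ?_⟩
  obtain ⟨Λ, hΛ⟩ : ∃ Λ, Λ = Real.log (Ω + 1) := ⟨_, rfl⟩
  have hL0 : 0 < L := by linarith
  have hΩ0 : 0 < Ω + 1 := by linarith
  have heΛ : Real.exp Λ = Ω + 1 := by rw [hΛ, Real.exp_log hΩ0]
  have hΛ1 : 1 / 2 ≤ Λ := by
    have h1 : Real.log 2 ≤ Λ := hΛ ▸ Real.log_le_log two_pos (by linarith)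
    linarith [Real.log_two_gt_d9]
  have hm0 : (0 : ℝ) < m := by exact_mod_cast (by omega : 0 < m)
  have hT : 0 < m * Λ := by positivity
  obtain ⟨c₁, hc₁⟩ : ∃ c₁ : Pt → ℝ, c₁ = fun y => Real.exp
    (-Λ * Real.smoothTransition ((m * Λ)⁻¹ * Real.log (d1N y)) + Λ) := ⟨_, rfl⟩
  have hsm : ContDiff ℝ ∞ c₁ := by
    rw [hc₁]
    exact ((contDiff_const.mul (Real.smoothTransition.contDiff.comp
      (contDiff_const.mul d1_sig_smooth))).add contDiff_const).exp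
  have hcN : ∀ y y', d1N y = d1N y' → c₁ y = c₁ y' := fun y y' h => by simp only [hc₁, h]
  have hnr : ∀ x : Pt, nrm (L⁻¹ • x) = nrm x / L := fun x => by
    rw [nrm_smul, abs_of_pos (inv_pos.2 hL0), inv_mul_eq_div]
  have hsm1 : ContDiff ℝ ∞ fun x : Pt => c₁ (L⁻¹ • x) := hsm.comp (contDiff_id.const_smul _)
  have hsm2 : ContDiff ℝ ∞ fun x : Pt => 1 * c₁ (L⁻¹ • x) + -1 :=
    (contDiff_const.mul hsm1).add contDiff_const
  have hp1 : 1 ≤ (Ω + 1) ^ (m + 9) := one_le_pow₀ (by linarith)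
  refine ⟨L * (Ω + 1) ^ (m + 9), fun x => 1 * c₁ (L⁻¹ • x) + -1,
    fun z => 1 * c₁ (L⁻¹ • Pi.single 2 z) + -1, ⟨hsm2, ?_, fun x => ?_, fun x => ?_,
      fun x hx => ?_, fun x hx => ?_, fun i x => ?_, fun j h1 h4 x => ?_, fun x hx => ?_,
      le_mul_of_one_le_right hL0.le hp1⟩, le_rfl⟩
  · exact hsm2.comp (ContinuousLinearMap.single ℝ (fun _ : Fin 3 => ℝ) 2).contDiff
  · have h1 := Real.smoothTransition.le_one ((m * Λ)⁻¹ * Real.log (d1N (L⁻¹ • x)))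
    have h2 : 1 ≤ c₁ (L⁻¹ • x) := by
      rw [hc₁]
      exact Real.one_le_exp (by nlinarith)
    linarith
  · have h1 := Real.smoothTransition.nonneg ((m * Λ)⁻¹ * Real.log (d1N (L⁻¹ • x)))
    have h2 : c₁ (L⁻¹ • x) ≤ Real.exp Λ := by
      rw [hc₁]
      exact Real.exp_le_exp.2 (by nlinarith)
    linarith
  · have h1 : d1N (L⁻¹ • x) = 1 := by
      rw [d1N, Finset.sum_eq_zero, mul_zero, zero_add]
      intro k _
      have h2 := abs_le_nrm' (L⁻¹ • x) k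
      rw [hnr] at h2
      exact d1_th_zero ((sq_le_one_iff_abs_le_one _).2 (h2.trans ((div_le_one hL0).2 hx)))
    simp only [hc₁, h1, Real.log_one, mul_zero, Real.smoothTransition.zero, zero_add, heΛ]
    ring
  · have h1 := d1_N_low (L⁻¹ • x)
    rw [hnr] at h1
    have h2 : (Ω + 1) ^ (m + 9) ≤ nrm x / L := (le_div_iff₀' hL0).2 hx
    have h3 : 1 + nrm x / L ≤ (1 + nrm x / L) ^ 4 := le_self_pow₀ (by linarith) (by norm_num)
    have h4 : (2 : ℝ) ^ 9 ≤ (Ω + 1) ^ 9 := pow_le_pow_left₀ (by norm_num) (by linarith) 9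
    have h5 : 0 < (Ω + 1) ^ m := by positivity
    have h6 : (Ω + 1) ^ m ≤ d1N (L⁻¹ • x) := by
      rw [pow_add] at h2
      nlinarith
    have h7 : m * Λ ≤ Real.log (d1N (L⁻¹ • x)) := by
      rw [hΛ, ← Real.log_pow]
      exact Real.log_le_log h5 h6
    have h8 : 1 ≤ (m * Λ)⁻¹ * Real.log (d1N (L⁻¹ • x)) := (one_le_inv_mul₀ hT).2 h7
    simp only [hc₁, Real.smoothTransition.one_of_one_le h8]
    simp
  · have h1 : d1N (L⁻¹ • rf i x) = d1N (L⁻¹ • x) := by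
      unfold d1N
      congr 2
      refine Finset.sum_congr rfl fun k _ => ?_
      rcases eq_or_ne k i with rfl | hk
      · simp [rf, d1_th_neg]
      · simp [rf, Function.update_of_ne hk]
    simp only [hcN _ _ h1]
  · have hA : ‖(L⁻¹ • ContinuousLinearMap.id ℝ Pt)‖ ≤ L⁻¹ := by
      rw [norm_smul, ContinuousLinearMap.norm_id, mul_one, Real.norm_of_nonneg (by positivity)]
    have h2 := d1_lin hsm _ hA j x
    have h3 := hder Λ hΛ1 j h1 h4 (L⁻¹ • x)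
    rw [← hc₁] at h3
    have h5 : Real.exp (-Λ * Real.smoothTransition ((m * Λ)⁻¹ * Real.log (d1N (L⁻¹ • x))) + Λ) =
        c₁ (L⁻¹ • x) := by rw [hc₁]
    rw [h5, hnr] at h3
    rw [d1_aff hsm1 _ _ h1, abs_one, one_mul]
    refine h2.trans ((mul_le_mul_of_nonneg_right h3 (by positivity)).trans (le_of_eq ?_))
    have h6 : L + nrm x = (1 + nrm x / L) * L := by field_simp
    have h7 : 0 < 1 + nrm x / L := by have := nrm_nonneg x; positivity
    rw [h6, mul_pow, inv_pow]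
    field_simp
    ring
  · have h1 : d1N (L⁻¹ • x) = d1N (L⁻¹ • Pi.single 2 (x 2)) := by
      have h2 : ∀ t : ℝ, t ^ 2 ≤ (L / 2) ^ 2 → d1th (L⁻¹ * t) = 0 := fun t ht => by
        refine d1_th_zero ?_
        rw [mul_pow, inv_pow, inv_mul_le_iff₀ (by positivity)]
        nlinarith
      have h3 := h2 (x 0) (by nlinarith [sq_nonneg (x 1)])
      have h4 := h2 (x 1) (by nlinarith [sq_nonneg (x 0)])
      have h5 : d1th 0 = 0 := d1_th_zero (by norm_num)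
      simp [d1N, Fin.sum_univ_three, h3, h4, h5]
    simp only [hcN _ _ h1]

end Vale.Agent.P363
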