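import Vale.Agent.P363.LG

/-! Spin bookkeeping for three electrons, used by parts K and S. -/

namespace Vale.Agent.P363

open MeasureTheory Vale.Agent.P370

/-- The form of wave functions with one-body potential `V` and repulsion of coupling `lam`. -/
noncomputable def formB {N : ℕ} (V : Pt → ℝ) (lam : ℝ) (Ψ : Wave N) (G : Grad N) : ℝ :=
  ∑ s, ((1 / 2) * (∑ i, ∑ k, ∫ x, ‖G s i k x‖ ^ 2) + (∑ i, ∫ x, V (x i) * ‖Ψ s x‖ ^ 2) +
    lam * ∑ i, ∑ j, if i < j then ∫ x, ker (x i - x j) * ‖Ψ s x‖ ^ 2 else 0)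

lemma spin_mp_ins {n : ℕ} (i : Fin (n + 1)) :
    MeasurePreserving (fun p : Pt × Cf n => (i.insertNth p.1 p.2 : Cf (n + 1)))
      (volume.prod volume) volume :=
  (volume_preserving_piFinSuccAbove (fun _ : Fin (n + 1) => Pt) i).symm

lemma spin_emb_ins {n : ℕ} (i : Fin (n + 1)) :
    MeasurableEmbedding fun p : Pt × Cf n => (i.insertNth p.1 p.2 : Cf (n + 1)) :=
  (MeasurableEquiv.piFinSuccAbove (fun _ : Fin (n + 1) => Pt) i).symm.measurableEmbedding

lemma spin_dens_int {f : Cf 3 → ℝ} {w : Pt → ℝ}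
    (hi : ∀ i, Integrable fun x : Cf 3 => w (x i) * f x ^ 2) :
    Integrable (fun x => w x * dens3 f x) ∧
      ∫ x, w x * dens3 f x = ∑ i, ∫ x : Cf 3, w (x i) * f x ^ 2 := by
  have h1 : ∀ i : Fin 3, Integrable (fun p : Pt × Cf 2 => w p.1 * f (i.insertNth p.1 p.2) ^ 2)
      (volume.prod volume) := fun i => by
    have := (spin_mp_ins (n := 2) i).integrable_comp_of_integrable (hi i)
    simpa only [Function.comp_def, Fin.insertNth_apply_same] using this
  have e : (fun x => w x * dens3 f x) =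
      fun x => ∑ i : Fin 3, ∫ y : Cf 2, w x * f (i.insertNth x y) ^ 2 := by
    funext x
    simp only [dens3, integral_const_mul, Finset.mul_sum]
  rw [e]
  refine ⟨integrable_finsetSum _ fun i _ => (h1 i).integral_prod_left, ?_⟩
  rw [integral_finsetSum _ fun i _ => (h1 i).integral_prod_left]
  refine Finset.sum_congr rfl fun i _ => ?_
  rw [← integral_prod _ (h1 i), ← (spin_mp_ins (n := 2) i).integral_comp (spin_emb_ins i)]
  simp only [Fin.insertNth_apply_same]

lemma spin_ind {f : Cf 3 → ℝ} (hf : MemLp f 2) {S : Set Pt} (hS : MeasurableSet S) (i : Fin 3) :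
    Integrable fun x : Cf 3 => S.indicator (fun _ => (1 : ℝ)) (x i) * f x ^ 2 := by
  refine hf.integrable_sq.bdd_mul (c := 1) ?_ (Filter.Eventually.of_forall fun x => ?_)
  · exact ((measurable_const.indicator hS).comp (measurable_pi_apply i)).aestronglyMeasurable
  · by_cases h : x i ∈ S <;> simp [h]

lemma spin_set {f : Cf 3 → ℝ} (hf : MemLp f 2) {S : Set Pt} (hS : MeasurableSet S) :
    ∫ x in S, dens3 f x = ∑ i, ∫ x : Cf 3, S.indicator (fun _ => (1 : ℝ)) (x i) * f x ^ 2 := by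
  rw [← (spin_dens_int (spin_ind hf hS)).2, ← integral_indicator hS]
  congr 1
  funext x
  by_cases h : x ∈ S <;> simp [h]

lemma spin_dens_integrable {f : Cf 3 → ℝ} (hf : MemLp f 2) : Integrable (dens3 f) := by
  have := (spin_dens_int (w := fun _ => 1) (f := f) fun _ => by
    simpa using hf.integrable_sq).1
  simpa using this

lemma spin_dens_perm {f : Cf 3 → ℝ} (hf : MemLp f 2) (π : Equiv.Perm (Fin 3)) :
    dens3 (fun x => f (x ∘ π)) =ᵐ[volume] dens3 f := by
  have hf' : MemLp (fun x : Cf 3 => f (x ∘ π)) 2 := hf.comp_measurePreserving (mp_prm π)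
  refine (spin_dens_integrable hf').ae_eq_of_forall_setIntegral_eq _ _ (spin_dens_integrable hf)
    fun S hS _ => ?_
  rw [spin_set hf' hS, spin_set hf hS]
  refine (Fintype.sum_equiv π _ _ fun i => ?_).symm
  exact (int_prm π fun x => S.indicator (fun _ => (1 : ℝ)) (x i) * f x ^ 2).symm

/-- Real or imaginary part. -/
noncomputable def spinP (b : Bool) : ℂ →L[ℝ] ℝ := if b then Complex.imCLM else Complex.reCLM

lemma spin_norm (z : ℂ) : ‖z‖ ^ 2 = ∑ b, spinP b z * spinP b z := by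
  rw [Complex.sq_norm, Complex.normSq_apply, Fintype.sum_bool]
  simp [spinP, add_comm]

lemma spin_rh {N : ℕ} {F : Cf N → ℂ} {G : Fin N → Fin 3 → Cf N → ℂ} (h : InH1 F G)
    (L : ℂ →L[ℝ] ℝ) : RH (fun x => L (F x)) fun i k x => L (G i k x) := by
  refine ⟨L.comp_memLp' h.1, fun i k => ⟨L.comp_memLp' (h.2 i k).1, fun φ hφ hc => ?_⟩⟩
  have e : ∀ (z : ℂ) (r : ℝ), L z * r = L (z * r) := fun z r => by
    rw [mul_comm z, ← Complex.real_smul, map_smul, smul_eq_mul, mul_comm]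
  simp only [e]
  rw [L.integral_comp_comm (int_test' h.1 hφ hc _),
    L.integral_comp_comm (int_test (h.2 i k).1 hφ.continuous hc), (h.2 i k).2 φ hφ hc, map_neg]

lemma spin_int {X : Type} [MeasurableSpace X] {μ : Measure X} {w : X → ℝ} {F : X → ℂ}
    (h : ∀ b, Integrable (fun x => w x * (spinP b (F x) * spinP b (F x))) μ) :
    ∫ x, w x * ‖F x‖ ^ 2 ∂μ = ∑ b, ∫ x, w x * (spinP b (F x) * spinP b (F x)) ∂μ := by
  rw [← integral_finsetSum _ fun b _ => h b]
  simp only [spin_norm, Finset.mul_sum]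

lemma spin_int1 {X : Type} [MeasurableSpace X] {μ : Measure X} {F : X → ℂ}
    (h : ∀ b, Integrable (fun x => spinP b (F x) * spinP b (F x)) μ) :
    ∫ x, ‖F x‖ ^ 2 ∂μ = ∑ b, ∫ x, spinP b (F x) * spinP b (F x) ∂μ := by
  rw [← integral_finsetSum _ fun b _ => h b]
  simp only [spin_norm]

lemma spin_form {N : ℕ} {F : Cf N → ℂ} {G : Fin N → Fin 3 → Cf N → ℂ} (h : InH1 F G)
    {V : Pt → ℝ} (hV : FB V) (lam : ℝ) :
    (1 / 2) * (∑ i, ∑ k, ∫ x, ‖G i k x‖ ^ 2) + (∑ i, ∫ x, V (x i) * ‖F x‖ ^ 2) +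
      lam * ∑ i, ∑ j, (if i < j then ∫ x, ker (x i - x j) * ‖F x‖ ^ 2 else 0) =
    ∑ b, bil V lam (fun x => spinP b (F x)) (fun i k x => spinP b (G i k x))
      (fun x => spinP b (F x)) (fun i k x => spinP b (G i k x)) := by
  have r := fun b => spin_rh h (spinP b)
  have e1 : ∀ i k, ∫ x, ‖G i k x‖ ^ 2 = ∑ b, ∫ x, spinP b (G i k x) * spinP b (G i k x) :=
    fun i k => spin_int1 fun b => ((r b).2 i k).1.integrable_mul ((r b).2 i k).1
  have e2 : ∀ i, ∫ x, V (x i) * ‖F x‖ ^ 2 =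
      ∑ b, ∫ x, V (x i) * (spinP b (F x) * spinP b (F x)) :=
    fun i => spin_int fun b => hV.integrable_rh (r b) (r b) i
  have e3 : ∀ i j, (if i < j then ∫ x, ker (x i - x j) * ‖F x‖ ^ 2 else 0) =
      ∑ b, if i < j then ∫ x, ker (x i - x j) * (spinP b (F x) * spinP b (F x)) else 0 :=
    fun i j => by
      split_ifs with hij
      · exact spin_int fun b => RH.integrable_ker (r b) (r b) hij.ne
      · simp
  simp only [e1, e2, e3, bil, Fintype.sum_bool, Finset.sum_add_distrib]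
  ring

lemma spin_dens {F : Cf 3 → ℂ} (h : MemLp F 2) :
    ∀ᵐ x : Pt, ∑ i : Fin 3, ∫ y : Cf 2, ‖F (i.insertNth x y)‖ ^ 2 =
      ∑ b, dens3 (fun z => spinP b (F z)) x := by
  have h1 : ∀ (i : Fin 3) (b : Bool), ∀ᵐ x : Pt, Integrable fun y : Cf 2 =>
      spinP b (F (i.insertNth x y)) * spinP b (F (i.insertNth x y)) := fun i b => by
    have m : MemLp (fun z => spinP b (F z)) 2 := (spinP b).comp_memLp' h
    exact ((spin_mp_ins (n := 2) i).integrable_comp_of_integrable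
      (m.integrable_mul m)).prod_right_ae
  filter_upwards [ae_all_iff.2 fun i => ae_all_iff.2 (h1 i)] with x hx
  simp only [dens3, sq (spinP _ _)]
  rw [Finset.sum_comm]
  exact Finset.sum_congr rfl fun i _ => spin_int1 (hx i)

lemma spin_pick : ∀ s : Fin 3 → Fin 2, ∃ π τ : Equiv.Perm (Fin 3), s ∘ τ = s ∧
    Equiv.Perm.sign τ = -1 ∧ Equiv.swap 0 1 * π = π * τ := by
  decide

/-- Signs of the spin components. -/
def spinE (s : Fin 3 → Fin 2) : ℤ :=
  if s = ![0, 0, 1] then 1 else if s = ![0, 1, 0] then -1 else if s = ![1, 0, 0] then -1 else 0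

/-- Permutations of the spin components. -/
def spinQ (s : Fin 3 → Fin 2) : Equiv.Perm (Fin 3) :=
  if s = ![0, 0, 1] then 1 else if s = ![0, 1, 0] then Equiv.swap 1 2 else Equiv.swap 0 2

lemma spin_comb : ∀ (τ : Equiv.Perm (Fin 3)) (s : Fin 3 → Fin 2),
    (spinE (s ∘ τ) = 0 ∧ spinE s = 0) ∨
      (τ * spinQ (s ∘ τ) = spinQ s ∧ spinE (s ∘ τ) = (Equiv.Perm.sign τ : ℤ) * spinE s) ∨
      (τ * spinQ (s ∘ τ) = spinQ s * Equiv.swap 0 1 ∧
        spinE (s ∘ τ) = -((Equiv.Perm.sign τ : ℤ) * spinE s)) := by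
  decide

lemma spin_sum : ∑ s, spinE s ^ 2 = 3 := by
  decide

lemma spin_sum' : ∑ s, ((spinE s : ℝ) / √3) ^ 2 = 1 := by
  simp only [div_pow, ← Finset.sum_div]
  rw [Real.sq_sqrt (by norm_num), div_eq_one_iff_eq (by norm_num)]
  exact_mod_cast spin_sum

lemma spin_smul {N : ℕ} {f : Cf N → ℝ} {H : Fin N → Fin 3 → Cf N → ℝ} (h : RH f H) (c : ℝ) :
    RH (fun x => c * f x) fun i k x => c * H i k x := by
  refine ⟨h.1.const_mul c, fun i k => ⟨(h.2 i k).1.const_mul c, fun φ hφ hc => ?_⟩⟩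
  simp only [mul_assoc]
  rw [integral_const_mul, integral_const_mul, (h.2 i k).2 φ hφ hc, mul_neg]

lemma spin_ofReal {N : ℕ} {f : Cf N → ℝ} {H : Fin N → Fin 3 → Cf N → ℝ} (h : RH f H) :
    InH1 (fun x => (f x : ℂ)) fun i k x => (H i k x : ℂ) := by
  refine ⟨h.1.ofReal, fun i k => ⟨(h.2 i k).1.ofReal, fun φ hφ hc => ?_⟩⟩
  simp only [← Complex.ofReal_mul]
  rw [integral_complex_ofReal, integral_complex_ofReal, (h.2 i k).2 φ hφ hc, Complex.ofReal_neg]

lemma spin_bil_smul {N : ℕ} (V : Pt → ℝ) (lam c : ℝ) (f : Cf N → ℝ)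
    (H : Fin N → Fin 3 → Cf N → ℝ) :
    bil V lam (fun x => c * f x) (fun i k x => c * H i k x) (fun x => c * f x)
      (fun i k x => c * H i k x) = c ^ 2 * bil V lam f H f H := by
  have e1 : ∀ a : ℝ, c * a * (c * a) = c ^ 2 * (a * a) := fun a => by ring
  have e2 : ∀ a b : ℝ, b * (c ^ 2 * a) = c ^ 2 * (b * a) := fun a b => by ring
  have e3 : ∀ (p : Prop) [Decidable p] (a : ℝ),
      (if p then c ^ 2 * a else 0) = c ^ 2 * if p then a else 0 := fun p _ a => by
    split_ifs <;> simp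
  simp only [bil, e1, e2, integral_const_mul, e3, ← Finset.mul_sum]
  ring

lemma spin_nsq (r : ℝ) : ‖(r : ℂ)‖ ^ 2 = r * r := by
  rw [Complex.norm_real, Real.norm_eq_abs, sq_abs, sq]

/-- Real and imaginary parts of the spin components; two of the three spins agree, and a
permutation of the positions moves them to the first two places. -/
theorem spin_split {Ψ : Wave 3} {G : Grad 3} (h : Dom Ψ G) :
    ∃ (f : (Fin 3 → Fin 2) × Bool → Cf 3 → ℝ) (H : (Fin 3 → Fin 2) × Bool → Fin 3 → Fin 3 → Cf 3 → ℝ),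
      (∀ m, RH (f m) (H m) ∧ Asym (f m)) ∧ normSq Ψ = ∑ m, ∫ x, f m x ^ 2 ∧
      (∀ V lam, FB V → formB V lam Ψ G = ∑ m, bil V lam (f m) (H m) (f m) (H m)) ∧
      ∀ᵐ x, dens Ψ x = ∑ m, dens3 (f m) x := by
  choose π τ h1 h2 h3 using spin_pick
  have r := fun s b => spin_rh (h.1 s) (spinP b)
  refine ⟨fun m x => spinP m.2 (Ψ m.1 (x ∘ π m.1)),
    fun m i k x => spinP m.2 (G m.1 ((π m.1).symm i) k (x ∘ π m.1)),
    fun m => ⟨(r m.1 m.2).perm (π m.1), ?_⟩, ?_, fun V lam hV => ?_, ?_⟩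
  · filter_upwards [(mp_prm (π m.1)).quasiMeasurePreserving.ae (h.2 (τ m.1) m.1)] with x hx
    have e : (x ∘ Equiv.swap 0 1) ∘ π m.1 = (x ∘ π m.1) ∘ τ m.1 := by
      rw [Function.comp_assoc, Function.comp_assoc, ← Equiv.Perm.coe_mul, ← Equiv.Perm.coe_mul,
        h3]
    rw [h1, h2] at hx
    simp only [e, hx]
    simp
  · rw [normSq, Fintype.sum_prod_type]
    refine Finset.sum_congr rfl fun s _ => ?_
    rw [spin_int1 fun b => (r s b).1.integrable_mul (r s b).1]
    refine Finset.sum_congr rfl fun b _ => ?_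
    simp only [sq]
    exact (int_prm (π s) fun x => spinP b (Ψ s x) * spinP b (Ψ s x)).symm
  · rw [formB, Fintype.sum_prod_type]
    refine Finset.sum_congr rfl fun s _ => ?_
    rw [spin_form (h.1 s) hV lam]
    exact Finset.sum_congr rfl fun b _ => (bil_perm (π s)).symm
  · filter_upwards [ae_all_iff.2 fun s => spin_dens (h.1 s).1,
      ae_all_iff.2 fun s => ae_all_iff.2 fun b => spin_dens_perm (r s b).1 (π s)] with x hx hy
    rw [dens, Fintype.sum_prod_type]
    refine Finset.sum_congr rfl fun s _ => ?_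
    rw [hx s]
    exact Finset.sum_congr rfl fun b _ => (hy s b).symm

/-- The state with two spins up and one spin down built from `f / √3`. -/
theorem spin_lift {f : Cf 3 → ℝ} {H : Fin 3 → Fin 3 → Cf 3 → ℝ} (h : RH f H) (ha : Asym f) :
    ∃ (Ψ : Wave 3) (G : Grad 3), Dom Ψ G ∧ normSq Ψ = ∫ x, f x ^ 2 ∧
      (∀ V lam, FB V → formB V lam Ψ G = bil V lam f H f H) ∧ ∀ᵐ x, dens Ψ x = dens3 f x := by
  refine ⟨fun s x => ((spinE s / √3 * f (x ∘ spinQ s) : ℝ) : ℂ),
    fun s i k x => ((spinE s / √3 * H ((spinQ s).symm i) k (x ∘ spinQ s) : ℝ) : ℂ),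
    ⟨fun s => spin_ofReal (spin_smul (h.perm (spinQ s)) _), fun τ s => ?_⟩, ?_,
    fun V lam _ => ?_, ?_⟩
  · filter_upwards [(mp_prm (spinQ s)).quasiMeasurePreserving.ae ha] with x hx
    rw [Function.comp_assoc, ← Equiv.Perm.coe_mul]
    rcases spin_comb τ s with ⟨h1, h2⟩ | ⟨h1, h2⟩ | ⟨h1, h2⟩
    · simp [h1, h2]
    · rw [h1, h2]
      push_cast
      ring
    · rw [h1, h2, Equiv.Perm.coe_mul, ← Function.comp_assoc, hx]
      push_cast
      ring
  · have e : ∀ s, ∫ x : Cf 3, ‖((spinE s / √3 * f (x ∘ spinQ s) : ℝ) : ℂ)‖ ^ 2 =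
        ((spinE s : ℝ) / √3) ^ 2 * ∫ x, f x ^ 2 := fun s => by
      simp only [spin_nsq, ← sq, mul_pow]
      rw [integral_const_mul, int_prm (spinQ s) fun x => f x ^ 2]
    simp only [normSq, e, ← Finset.sum_mul, spin_sum', one_mul]
  · have e : ∀ s, bil V lam (fun x => spinE s / √3 * f (x ∘ spinQ s))
        (fun i k x => spinE s / √3 * H ((spinQ s).symm i) k (x ∘ spinQ s))
        (fun x => spinE s / √3 * f (x ∘ spinQ s))
        (fun i k x => spinE s / √3 * H ((spinQ s).symm i) k (x ∘ spinQ s)) =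
        ((spinE s : ℝ) / √3) ^ 2 * bil V lam f H f H := fun s => by
      rw [spin_bil_smul, bil_perm]
    rw [← one_mul (bil V lam f H f H), ← spin_sum', Finset.sum_mul, formB]
    refine Finset.sum_congr rfl fun s _ => ?_
    rw [← e s]
    simp only [spin_nsq, bil]
  · filter_upwards [ae_all_iff.2 fun s => spin_dens_perm h.1 (spinQ s)] with x hx
    rw [← one_mul (dens3 f x), ← spin_sum', Finset.sum_mul, dens]
    refine Finset.sum_congr rfl fun s _ => ?_
    rw [← hx s]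
    simp only [spin_nsq, ← sq, mul_pow, dens3, integral_const_mul, Finset.mul_sum]

/-- Marginals: integration against a function of one position. -/
theorem dens3_int {f : Cf 3 → ℝ} {w : Pt → ℝ} (hw : Measurable w) (hf : MemLp f 2)
    (hi : ∀ i, Integrable fun x : Cf 3 => w (x i) * f x ^ 2) :
    Integrable (fun x => w x * dens3 f x) ∧
      ∫ x, w x * dens3 f x = ∑ i, ∫ x : Cf 3, w (x i) * f x ^ 2 :=
  have _ := hw
  have _ := hf
  spin_dens_int hi

end Vale.Agent.P363
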