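import Vale.Agent.P363.LF
import Vale.Agent.P363.Spin
import Vale.Agent.P363.Ka
import Vale.Agent.P363.KbQ
import Vale.Agent.P363.KbAC
import Vale.Agent.P363.KbPig

/-! Part K (see `skeleton/P363/PROOF.md`). -/

namespace Vale.Agent.P363

open MeasureTheory Vale.Agent.P370 Metric
open scoped ContDiff

theorem pk_cases {i : Fin 3} (h : i ≠ 2) : i = 0 ∨ i = 1 := by
  revert i
  decide

theorem pk_ind (p : Pt) (ρ : ℝ) (w f : Pt → ℝ) :
    ∫ x, (ball p ρ).indicator w x * f x = ∫ x in ball p ρ, w x * f x := by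
  rw [← integral_indicator measurableSet_ball]
  congr 1
  funext x
  by_cases h : x ∈ ball p ρ <;> simp [h]

theorem pk_sq (i k : Fin 3) (x : Pt) : rf i x k ^ 2 = x k ^ 2 := by
  by_cases h : k = i
  · subst h
    simp [rf]
  · simp [rf, h]

/-- Part K -/
theorem not_repr {n : Pt → ℝ} (h : Nodal n) (hi : Integrable n) : ¬Repr 2 n := by
  intro hr
  have h0 : ∀ᵐ x, 0 ≤ n x := by
    obtain ⟨v, -, p, Φ, hp, -, -, e⟩ := hr
    filter_upwards [e] with x hx
    rw [hx]
    exact tsum_nonneg fun k => mul_nonneg (hp k) (Finset.sum_nonneg fun _ _ =>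
      Finset.sum_nonneg fun _ _ => integral_nonneg fun _ => sq_nonneg _)
  obtain ⟨ι, v, C, u, g, e, j, vm, vV, hm, hsum⟩ := orbitals
    (fun i hi => by rcases pk_cases hi with rfl | rfl; exacts [h.1, h.2.1]) hi hr
  refine kb_pig h hi h0 ?_
  obtain ⟨C₁, c1, hq⟩ := kb_quant
  refine ⟨C₁, c1, fun R ε hR hε => ?_⟩
  obtain ⟨K, δ, k0, d0, hq⟩ := hq R ε hR hε
  obtain ⟨ρ₀, r0, hs⟩ := kb_small vV C d0
  refine ⟨K, ρ₀, k0, r0, fun p s p0 p1 s0 hρ => ?_⟩
  have hp : ∀ i : Fin 3, i ≠ 2 → p i = 0 := fun i hi => by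
    rcases pk_cases hi with rfl | rfl
    exacts [p0, p1]
  have key : ∀ (ρ B : ℝ) (w : Pt → ℝ), Measurable w → (∀ x, 0 ≤ w x ∧ w x ≤ B) →
      (∀ i x, w (rf i x) = w x) →
      HasSum (fun m => ∫ x in ball p ρ, w x * u m x ^ 2) (∫ x in ball p ρ, w x * n x) := by
    intro ρ B w a1 a2 a3
    have a4 : ∀ x, 0 ≤ (ball p ρ).indicator w x := fun x =>
      Set.indicator_nonneg (fun y _ => (a2 y).1) x
    have a5 := hsum ((ball p ρ).indicator w) (a1.indicator measurableSet_ball)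
      ⟨B, fun x => by
        rw [abs_of_nonneg (a4 x)]
        exact (Set.indicator_le_self' (fun y _ => (a2 y).1) x).trans (a2 x).2⟩ a4
      fun i hi x => by
        by_cases hx : x ∈ ball p ρ
        · rw [Set.indicator_of_mem hx, Set.indicator_of_mem ((rf_ball (hp i hi) x).2 hx), a3]
        · rw [Set.indicator_of_notMem hx,
            Set.indicator_of_notMem fun c => hx ((rf_ball (hp i hi) x).1 c)]
    simpa only [pk_ind] using a5
  have k1 : ∀ ρ, HasSum (fun m => ∫ x in ball p ρ, u m x ^ 2) (∫ x in ball p ρ, n x) := fun ρ => by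
    simpa only [one_mul] using key ρ 1 (fun _ => 1) measurable_const (by simp) fun _ _ => rfl
  have w0 : ∀ (k : Fin 3) (x : Pt), 0 ≤ min (s ^ 2 / x k ^ 2) K := fun k x =>
    le_min (by positivity) k0.le
  have k2 : ∀ k : Fin 3,
      HasSum (fun m => ∫ x in ball p (R * s), min (s ^ 2 / x k ^ 2) K * u m x ^ 2)
        (∫ x in ball p (R * s), min (s ^ 2 / x k ^ 2) K * n x) := fun k =>
    key _ K (fun x => min (s ^ 2 / x k ^ 2) K) (by fun_prop)
      (fun x => ⟨w0 k x, min_le_right _ _⟩) fun i x => by simp only [pk_sq]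
  refine hasSum_le (fun m => ?_) (k1 s) (((k1 (R * s)).mul_left (C₁ / R ^ 10)).add
    ((((k1 (R * s)).add (k2 0)).add (k2 1)).mul_left ε))
  obtain ⟨a1, a2, a3, a4, a5⟩ := hm m
  obtain ⟨b1, b2⟩ := hs p (R * s) (e m) hρ a3
  have hW : FB fun x => v x - e m := by
    simpa only [sub_eq_add_neg] using (vV.fb vm).add_const (-e m)
  refine (hq _ _ _ p (j m) s a1 hW a2 a5 (hp _ a4) s0 b1 b2).trans
    (add_le_add le_rfl (mul_le_mul_of_nonneg_left ?_ hε.le))
  have w1 : ∀ k : Fin 3, 0 ≤ ∫ x in ball p (R * s), min (s ^ 2 / x k ^ 2) K * u m x ^ 2 :=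
    fun k => integral_nonneg fun x => mul_nonneg (w0 k x) (sq_nonneg _)
  rcases pk_cases a4 with e0 | e0 <;> rw [e0] <;> linarith [w1 0, w1 1]

end Vale.Agent.P363
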