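import Vale.Agent.P363.R0

/-! Part R, file 1: almost every slice of a Sobolev function is a Sobolev function.
Take `u m` from `RH.seq`. The functions `x ↦ ∑ (∫ y, (u m - f) (cons x y) ^ 2 + gradients)` tend to zero in
`L¹` (`int_cons`), so along a subsequence a.e. (`tendstoInMeasure_of_tendsto_eLpNorm`,
`TendstoInMeasure.exists_seq_tendsto_ae`; or choose `m j` with integral `≤ 2⁻ʲ` and sum).  Slices of `C1N` functions
are `C1N` or `C1c` (chain rule for the affine maps `Fin.cons x`, `i.insertNth · y`), then `WD.limit` with `l2_ins`.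
`low_rh`: `low_h1` on the slices, `int_ins'`. -/

namespace Vale.Agent.P363

open MeasureTheory Vale.Agent.P370 Filter Topology
open scoped ContDiff

variable {n : ℕ} {f : Cf (n + 1) → ℝ} {G : Fin (n + 1) → Fin 3 → Cf (n + 1) → ℝ}

theorem r1_sub {X : Type} [MeasurableSpace X] {μ : Measure X} {a : ℕ → X → ℝ}
    (hi : ∀ m, Integrable (a m) μ) (h0 : ∀ m x, 0 ≤ a m x)
    (h : Tendsto (fun m => ∫ x, a m x ∂μ) atTop (𝓝 0)) :
    ∃ ns : ℕ → ℕ, ∀ᵐ x ∂μ, Tendsto (fun j => a (ns j) x) atTop (𝓝 0) := by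
  have h1 : TendstoInMeasure μ a atTop 0 := by
    refine tendstoInMeasure_of_tendsto_eLpNorm one_ne_zero (fun m => (hi m).1)
      aestronglyMeasurable_zero ?_
    have h2 := (ENNReal.continuous_ofReal.tendsto 0).comp h
    rw [ENNReal.ofReal_zero] at h2
    refine h2.congr fun m => ?_
    rw [sub_zero, eLpNorm_one_eq_lintegral_enorm, ← ofReal_integral_norm_eq_lintegral_enorm (hi m)]
    simp only [Function.comp_apply, Real.norm_of_nonneg (h0 m _)]
  obtain ⟨ns, -, h2⟩ := h1.exists_seq_tendsto_ae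
  exact ⟨ns, h2⟩

theorem r1_slice {X E Z ι : Type} [MeasurableSpace X] [MeasurableSpace E] [MeasurableSpace Z]
    [Fintype ι] {ρ : Measure X} {μ : Measure E} {ν : Measure Z} {T : X → E → Z}
    (hT : ∀ F : Z → ℝ, Integrable F ν → Integrable (fun x => ∫ y, F (T x y) ∂μ) ρ ∧
      ∫ x, ∫ y, F (T x y) ∂μ ∂ρ = ∫ z, F z ∂ν)
    {u : ℕ → ι → Z → ℝ} {f : ι → Z → ℝ} (hu : ∀ m j, MemLp (u m j) 2 ν)
    (hf : ∀ j, MemLp (f j) 2 ν) (l : ∀ j, L2T ν (fun m => u m j) (f j)) :
    ∃ ns : ℕ → ℕ, ∀ᵐ x ∂ρ, ∀ j, L2T μ (fun m y => u (ns m) j (T x y)) fun y => f j (T x y) := by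
  have h1 := fun m j => hT (fun z => (u m j z - f j z) ^ 2) (l2_sq ((hu m j).sub (hf j)))
  have h0 : ∀ m j x, 0 ≤ ∫ y, (u m j (T x y) - f j (T x y)) ^ 2 ∂μ := fun m j x =>
    integral_nonneg fun _ => sq_nonneg _
  obtain ⟨ns, h2⟩ := r1_sub (μ := ρ)
    (a := fun m x => ∑ j, ∫ y, (u m j (T x y) - f j (T x y)) ^ 2 ∂μ)
    (fun m => integrable_finsetSum _ fun j _ => (h1 m j).1)
    (fun m x => Finset.sum_nonneg fun j _ => h0 m j x) (by
      have h3 := tendsto_finsetSum Finset.univ fun j _ => l j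
      rw [Finset.sum_const_zero] at h3
      refine h3.congr fun m => ?_
      rw [integral_finsetSum _ fun j _ => (h1 m j).1]
      exact Finset.sum_congr rfl fun j _ => (h1 m j).2.symm)
  refine ⟨ns, h2.mono fun x hx j => squeeze_zero (fun m => h0 _ j x) (fun m => ?_) hx⟩
  exact Finset.single_le_sum (fun j _ => h0 (ns m) j x) (Finset.mem_univ j)

theorem r1_aff {E Z ι : Type} [NormedAddCommGroup E] [NormedSpace ℝ E] [FiniteDimensional ℝ E]
    [MeasurableSpace E] [BorelSpace E] {μ : Measure E} [μ.IsAddHaarMeasure] [Fintype ι]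
    [NormedAddCommGroup Z] [NormedSpace ℝ Z] (L : E →L[ℝ] Z) (hL : Function.Injective L) (c : Z)
    {u : Z → ℝ} (hu : ContDiff ℝ 1 u) (hc : HasCompactSupport u) (v : ι → E) :
    WD μ v (fun y => u (c + L y)) fun j y => fderiv ℝ u (c + L y) (L (v j)) := by
  have h1 : Topology.IsClosedEmbedding fun y => c + L y :=
    (Homeomorph.addLeft c).isClosedEmbedding.comp
      (LinearMap.isClosedEmbedding_of_injective (f := (L : E →ₗ[ℝ] Z))
        (LinearMap.ker_eq_bot.2 hL))
  refine (wd_c1 (hu.comp (contDiff_const.add L.contDiff)) (hc.comp_isClosedEmbedding h1)).congr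
    (Eventually.of_forall fun _ => rfl) fun j => Eventually.of_forall fun y => ?_
  exact DFunLike.congr_fun (((hu.differentiable one_ne_zero _).hasFDerivAt.comp y
    (L.hasFDerivAt.const_add c)).fderiv) (v j)

theorem r1_cons {u : Cf (n + 1) → ℝ} (hu : C1N u) (x : Pt) : RH (sl u x) (slG (gr u) x) := by
  let L : Cf n →L[ℝ] Cf (n + 1) :=
    ContinuousLinearMap.pi fun i => Fin.cases 0 (fun j => ContinuousLinearMap.proj j) i
  have e1 : ∀ y, Pi.single 0 x + L y = Fin.cons x y := fun y => funext fun i => by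
    cases i using Fin.cases <;> simp [L]
  have e2 : ∀ j k, L (dirn j k) = dirn j.succ k := fun j k => funext fun i => by
    cases i using Fin.cases <;> simp [L, Pi.single_apply]
  have h := r1_aff (μ := volume) L (fun y y' h => funext fun j => congrFun h j.succ)
    (Pi.single 0 x) hu.1 hu.2 fun j : Fin n × Fin 3 => dirn j.1 j.2
  simp only [e1, e2] at h
  exact rh_iff.2 h

theorem r1_ins {u : Cf (n + 1) → ℝ} (hu : C1N u) (i : Fin (n + 1)) (y : Cf n) :
    H1 (fun x => u (i.insertNth x y)) fun k x => gr u i k (i.insertNth x y) := by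
  have e1 : ∀ x : Pt, (i.insertNth 0 y : Cf (n + 1))
      + ContinuousLinearMap.single ℝ (fun _ => Pt) i x = i.insertNth x y := fun x => by
    rw [ContinuousLinearMap.single_apply, ← Fin.insertNth_zero_right, ← Fin.insertNth_add,
      zero_add, add_zero]
  have h := r1_aff (μ := volume) (ContinuousLinearMap.single ℝ (fun _ => Pt) i)
    (fun x x' h => by simpa using congrFun h i) (i.insertNth 0 y) hu.1 hu.2 ek
  simp only [e1] at h
  exact h

theorem RH.sliceY (h : RH f G) : ∀ᵐ x : Pt, RH (sl f x) (slG G x) := by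
  obtain ⟨u, hu, l1, l2⟩ := h.seq
  obtain ⟨ns, hs⟩ := r1_slice (ι := Option (Fin n × Fin 3))
    (T := fun (x : Pt) (y : Cf n) => (Fin.cons x y : Cf (n + 1)))
    (fun F hF => ⟨(int_cons hF).1, (int_cons hF).2.2⟩)
    (u := fun m j => j.elim (u m) fun j => gr (u m) j.1.succ j.2)
    (f := fun j => j.elim f fun j => G j.1.succ j.2)
    (fun m j => by cases j; exacts [(hu m).rh.1, ((hu m).rh.2 _ _).1])
    (fun j => by cases j; exacts [h.1, (h.2 _ _).1]) fun j => by cases j; exacts [l1, l2 _ _]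
  filter_upwards [hs, l2_cons h.1,
    ae_all_iff.2 fun j : Fin n × Fin 3 => l2_cons (h.2 j.1.succ j.2).1] with x h1 h2 h3
  exact rh_iff.2 (WD.limit (fun m => rh_iff.1 (r1_cons (hu (ns m)) x)) h2 h3 (h1 none)
    fun j => h1 (some j))

theorem RH.sliceX (h : RH f G) (i : Fin (n + 1)) :
    ∀ᵐ y : Cf n, H1 (fun x => f (i.insertNth x y)) fun k x => G i k (i.insertNth x y) := by
  obtain ⟨u, hu, l1, l2⟩ := h.seq
  obtain ⟨ns, hs⟩ := r1_slice (ι := Option (Fin 3))
    (T := fun (y : Cf n) (x : Pt) => (i.insertNth x y : Cf (n + 1)))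
    (fun F hF => ⟨(int_ins' i hF).1, (int_ins' i hF).2.2⟩)
    (u := fun m j => j.elim (u m) fun k => gr (u m) i k) (f := fun j => j.elim f fun k => G i k)
    (fun m j => by cases j; exacts [(hu m).rh.1, ((hu m).rh.2 _ _).1])
    (fun j => by cases j; exacts [h.1, (h.2 _ _).1]) fun j => by cases j; exacts [l1, l2 _ _]
  filter_upwards [hs, (l2_ins i h.1).2,
    ae_all_iff.2 fun k : Fin 3 => (l2_ins i (h.2 i k).1).2] with y h1 h2 h3
  exact h1_iff.2 (WD.limit (fun m => h1_iff.1 (r1_ins (hu (ns m)) i y)) h2 h3 (h1 none)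
    fun j => h1 (some j))

/-- A one-body lower bound holds in every position. -/
theorem low_rh {V w : Pt → ℝ} (hV : FB V) (hw : Measurable w) {C c : ℝ} (hC : ∀ x, |w x| ≤ C)
    (h : ∀ ψ, C1c ψ → c * (∫ x, gsq ψ x) + ∫ x, w x * ψ x ^ 2 ≤ qV V ψ) (hf : RH f G)
    (i : Fin (n + 1)) :
    c * (∑ k, ∫ z, G i k z ^ 2) + ∫ z, w (z i) * f z ^ 2 ≤
      1 / 2 * (∑ k, ∫ z, G i k z * G i k z) + ∫ z, V (z i) * (f z * f z) := by
  have i1 := fun k => int_ins' i (l2_sq (hf.2 i k).1)
  have i2 := int_ins' i ((l2_sq hf.1).bdd_mul (aesm_coord i hw.aestronglyMeasurable)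
    (Eventually.of_forall fun z => hC (z i)))
  have i3 := fun k => int_ins' i (l2_mul (hf.2 i k).1 (hf.2 i k).1)
  have i4 := int_ins' i (hV.integrable_rh hf hf i)
  have j1 := (integrable_finsetSum Finset.univ fun k _ => (i1 k).1).const_mul c
  have j3 := (integrable_finsetSum Finset.univ fun k _ => (i3 k).1).const_mul (1 / 2)
  have key := integral_mono_ae (j1.add i2.1) (j3.add i4.1) ((hf.sliceX i).mono fun y hy => by
    simpa only [Pi.add_apply, Fin.insertNth_apply_same, q1] using low_h1 hV hw hC h hy)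
  simp only [Pi.add_apply] at key
  rw [integral_add j1 i2.1, integral_add j3 i4.1, integral_const_mul, integral_const_mul,
    integral_finsetSum _ fun k _ => (i1 k).1, integral_finsetSum _ fun k _ => (i3 k).1,
    i2.2.2, i4.2.2, Finset.sum_congr rfl fun k _ => (i1 k).2.2,
    Finset.sum_congr rfl fun k _ => (i3 k).2.2] at key
  exact key

end Vale.Agent.P363
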