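import Vale.Agent.P363.R0

/-! Part R, file 2: equations and gap for `RH` tests (`RH.seq`, `FB.tendsto_bil`,
`L2T.integral_mul` with `b = 1`), and the splitting of the three-body form (`Fin.sum_univ_three`,
`Fin.sum_univ_two`, `int_cons` for each of the six + two + one integrable terms, `FB.integrable_rh`,
`RH.integrable_ker`; `Fin.cons x y 1 = y 0`, `Fin.cons x y 2 = y 1` hold by `rfl`). -/

namespace Vale.Agent.P363

open MeasureTheory Vale.Agent.P370 Filter Topology
open scoped ContDiff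

variable {V : Pt → ℝ} {lam : ℝ}

theorem r2_c {N : ℕ} (u : Cf N → ℝ) : L2T volume (fun _ => u) u := by simp [L2T]

theorem r2_mul {N : ℕ} {a b : ℕ → Cf N → ℝ} {u u' : Cf N → ℝ} (ha : ∀ m, MemLp (a m) 2)
    (hb : ∀ m, MemLp (b m) 2) (hu : MemLp u 2) (hu' : MemLp u' 2) (l : L2T volume a u)
    (l' : L2T volume b u') : Tendsto (fun m => ∫ x, a m x * b m x) atTop (𝓝 (∫ x, u x * u' x)) := by
  simpa using L2T.integral_mul ha hb hu hu' l l' (b := fun _ => 1) aestronglyMeasurable_const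
    (C := 1) (by simp)

theorem eq_rh {N : ℕ} {f T : Cf N → ℝ} {G H : Fin N → Fin 3 → Cf N → ℝ} {E : ℝ} (hV : FB V)
    (hf : RH f G) (h : ∀ χ, C1N χ → bil V lam f G χ (gr χ) = E * ∫ x, f x * χ x) (hT : RH T H) :
    bil V lam f G T H = E * ∫ x, f x * T x := by
  obtain ⟨u, h1, h2, h3⟩ := hT.seq
  have h4 := hV.tendsto_bil (lam := lam) (fun _ => hf) (fun m => (h1 m).rh) hf hT (r2_c f)
    (fun i k => r2_c _) h2 h3
  simp only [fun m => h _ (h1 m)] at h4
  exact tendsto_nhds_unique h4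
    ((r2_mul (fun _ => hf.1) (fun m => (h1 m).rh.1) hf.1 hT.1 (r2_c f) h2).const_mul E)

theorem gap_rh {N : ℕ} {Φ T : Cf N → ℝ} {H : Fin N → Fin 3 → Cf N → ℝ} {a b : ℝ} (hV : FB V)
    (hΦ : MemLp Φ 2) (h : ∀ χ : Cf N → ℝ, C1N χ →
      a * (∫ y, χ y ^ 2) - b * (∫ y, Φ y * χ y) ^ 2 ≤ bil V lam χ (gr χ) χ (gr χ)) (hT : RH T H) :
    a * (∫ y, T y ^ 2) - b * (∫ y, Φ y * T y) ^ 2 ≤ bil V lam T H T H := by
  obtain ⟨u, h1, h2, h3⟩ := hT.seq
  have h0 := fun m => (h1 m).rh
  have h4 := r2_mul (fun m => (h0 m).1) (fun m => (h0 m).1) hT.1 hT.1 h2 h2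
  simp only [← sq] at h4
  exact le_of_tendsto_of_tendsto' ((h4.const_mul a).sub
    (((r2_mul (fun _ => hΦ) (fun m => (h0 m).1) hΦ hT.1 (r2_c Φ) h2).pow 2).const_mul b))
    (hV.tendsto_bil h0 h0 hT hT h2 h3 h2 h3) fun m => h _ (h1 m)

/-- Pointwise scaling of the second argument. -/
theorem bil_smul {N : ℕ} (f f' : Cf N → ℝ) (G G' : Fin N → Fin 3 → Cf N → ℝ) (c : ℝ) :
    bil V lam f G (fun x => c * f' x) (fun i k x => c * G' i k x) = c * bil V lam f G f' G' := by
  simp only [bil, mul_left_comm _ c, integral_const_mul, mul_add, Finset.mul_sum, mul_ite,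
    mul_zero]

theorem bil_cons {f f' : Cf 3 → ℝ} {G G' : Fin 3 → Fin 3 → Cf 3 → ℝ} (hV : FB V) (hf : RH f G)
    (hf' : RH f' G') :
    Integrable (fun x => bil V lam (sl f x) (slG G x) (sl f' x) (slG G' x)) ∧
    Integrable (fun z : Cf 3 => rWk lam (z 0) (Fin.tail z) * (f z * f' z)) ∧
    bil V lam f G f' G' = 1 / 2 * (∑ k, ∫ z, G 0 k z * G' 0 k z) +
      (∫ z, V (z 0) * (f z * f' z)) + (∫ z : Cf 3, rWk lam (z 0) (Fin.tail z) * (f z * f' z)) +
      ∫ x, bil V lam (sl f x) (slG G x) (sl f' x) (slG G' x) := by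
  have a := fun (i : Fin 2) k => int_cons (l2_mul (hf.2 i.succ k).1 (hf'.2 i.succ k).1)
  have b := fun i : Fin 2 => int_cons (hV.integrable_rh hf hf' i.succ)
  have c := int_cons (hf.integrable_ker hf' (i := 1) (j := 2) (by decide))
  have c1 := hf.integrable_ker hf' (i := 0) (j := 1) (by decide)
  have c2 := hf.integrable_ker hf' (i := 0) (j := 2) (by decide)
  have e : (fun x => bil V lam (sl f x) (slG G x) (sl f' x) (slG G' x)) = fun x =>
      1 / 2 * (∑ i : Fin 2, ∑ k, ∫ y, G i.succ k (Fin.cons x y) * G' i.succ k (Fin.cons x y)) +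
      (∑ i : Fin 2, ∫ y, V ((Fin.cons x y : Cf 3) i.succ) *
        (f (Fin.cons x y) * f' (Fin.cons x y))) +
      lam * ∫ y, P370.ker ((Fin.cons x y : Cf 3) 1 - (Fin.cons x y : Cf 3) 2) *
        (f (Fin.cons x y) * f' (Fin.cons x y)) := by
    funext x
    rw [bil]
    congr 2
    simp only [Fin.sum_univ_two, lt_self_iff_false, if_false, zero_lt_one, if_true, zero_add,
      add_zero, show ¬(1 : Fin 2) < 0 by decide]
    rfl
  have w : (fun z : Cf 3 => rWk lam (z 0) (Fin.tail z) * (f z * f' z)) = fun z =>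
      lam * (P370.ker (z 0 - z 1) * (f z * f' z) + P370.ker (z 0 - z 2) * (f z * f' z)) := by
    funext z
    rw [rWk, mul_assoc, add_mul]
    rfl
  have a1 := fun i : Fin 2 => integrable_finsetSum Finset.univ fun k _ => (a i k).1
  have a2 := (integrable_finsetSum Finset.univ fun i _ => a1 i).const_mul (1 / 2)
  have b1 := integrable_finsetSum Finset.univ fun i _ => (b i).1
  have d := a2.add b1
  rw [e, w]
  refine ⟨d.add (c.1.const_mul lam), (c1.add c2).const_mul lam, ?_⟩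
  refine Eq.trans ?_ (congrArg _ (integral_add d (c.1.const_mul lam)).symm)
  simp only [Pi.add_apply]
  rw [integral_add a2 b1, integral_const_mul,
    integral_const_mul, integral_const_mul, integral_add c1 c2, c.2.2,
    integral_finsetSum _ fun i _ => a1 i, integral_finsetSum _ fun i _ => (b i).1]
  simp only [fun i => integral_finsetSum Finset.univ fun k _ => (a i k).1, fun i k => (a i k).2.2,
    fun i => (b i).2.2]
  have k : ∀ t : Fin 3 → Fin 3 → ℝ,
      (∑ i, ∑ j, if i < j then t i j else 0) = t 0 1 + t 0 2 + t 1 2 := fun t => by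
    simp [Fin.sum_univ_three]
  rw [bil, Fin.sum_univ_succ, Fin.sum_univ_succ fun i => ∫ x : Cf 3, V (x i) * (f x * f' x), k]
  ring

end Vale.Agent.P363
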