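import Vale.Agent.P363.R1

/-! Part R, file 3: the norm of the slices is a Sobolev function.
`nsl_h1`, step A.  For `χ` in `C1N`, `χ ^ 2` is `C1N`; `RH.contract` with the indicator of a compact set containing
the tails of the support shows that `nsl χ ^ 2` is `H1` with gradient `2 ∫ χ * gr χ 0 k`.  `WD.comp` with
`F t = (t ^ 2 + ε ^ 4) ^ (1 / 4) - ε` gives a function with gradient bounded by `nsl (gr χ 0 k)` (`l2_cs`) and
`|F (t ^ 2) - t| ≤ min ε t`.  Take `χ = u m` from `RH.seq`, `ε = 1 / (m + 1)`, use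
`|nsl (u m) - nsl f| ≤ nsl (u m - f)` (`l2_tri`) and `WD.of_bdd`.
Step B.  For a test function `φ`, `WD.ibp` for `a` and `φ a` gives `∫ a ^ 2 ∂φ = - 2 ∫ a ga φ`; the same on a.e. slice
(`RH.sliceX` with `i = 0`) and `int_cons'`, `int_cons` give `∫ a ^ 2 ∂φ = - 2 ∫ φ ∫ f G`;
`ae_eq_of_integral_contDiff_smul_eq`. -/

namespace Vale.Agent.P363

open MeasureTheory Vale.Agent.P370 Filter Topology
open scoped ContDiff

variable {n : ℕ} {f : Cf (n + 1) → ℝ} {G : Fin (n + 1) → Fin 3 → Cf (n + 1) → ℝ}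

lemma r3_bd {φ : Pt → ℝ} (hφ : ContDiff ℝ 1 φ) (hc : HasCompactSupport φ) :
    ∃ C, (∀ x, |φ x| ≤ C) ∧ ∀ x j, |fderiv ℝ φ x (ek j)| ≤ C := by
  obtain ⟨C, hC⟩ := hφ.continuous.bounded_above_of_compact_support hc
  obtain ⟨D, hD⟩ := (hφ.continuous_fderiv one_ne_zero).bounded_above_of_compact_support
    (hc.fderiv ℝ)
  refine ⟨max C D, fun x => (hC x).trans (le_max_left _ _), fun x j => ?_⟩
  have := (fderiv ℝ φ x).le_opNorm (ek j)
  rw [nw_norm_ek, mul_one] at this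
  exact this.trans ((hD x).trans (le_max_right _ _))

lemma r3_sq {u φ : Pt → ℝ} {g : Fin 3 → Pt → ℝ} (hu : H1 u g) (hφ : C1c φ) (k : Fin 3) :
    ∫ x, pd k φ x * u x ^ 2 = -2 * ∫ x, φ x * (u x * g k x) := by
  obtain ⟨C, h0, h1⟩ := r3_bd hφ.1 hφ.2
  have e := (h1_iff.1 hu).ibp ((h1_iff.1 hu).mul LC_ek hφ.1 h0 h1) LC_ek k
  have i1 : Integrable fun x => φ x * (u x * g k x) :=
    (l2_mul hu.1 (hu.2 k).1).bdd_mul (c := C) hφ.1.continuous.aestronglyMeasurable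
      (ae_of_all _ h0)
  have i2 : Integrable fun x => pd k φ x * u x ^ 2 :=
    (l2_sq hu.1).bdd_mul (c := C) (nw_cont_pd hφ.1 k).aestronglyMeasurable
      (ae_of_all _ fun x => h1 x k)
  have e1 : ∫ x, u x * (φ x * g k x + fderiv ℝ φ x (ek k) * u x) =
      (∫ x, φ x * (u x * g k x)) + ∫ x, pd k φ x * u x ^ 2 := by
    rw [← integral_add i1 i2]
    exact integral_congr_ae (ae_of_all _ fun x => by simp only [pd]; ring)
  have e2 : ∫ x, g k x * (φ x * u x) = ∫ x, φ x * (u x * g k x) :=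
    integral_congr_ae (ae_of_all _ fun x => by simp only; ring)
  rw [e1, e2] at e
  linarith

lemma r3_B (h : RH f G) {ga : Fin 3 → Pt → ℝ} (ha : H1 (nsl f) ga) (k : Fin 3) :
    ∀ᵐ x, nsl f x * ga k x = ∫ y, f (Fin.cons x y) * G 0 k (Fin.cons x y) := by
  have j := l2_mul h.1 (h.2 0 k).1
  refine ae_eq_of_integral_contDiff_smul_eq (l2_mul ha.1 (ha.2 k).1).locallyIntegrable
    (int_cons j).1.locallyIntegrable fun φ hφ hc => ?_
  have hφ' : C1c φ := ⟨hφ.of_le (by exact_mod_cast le_top), hc⟩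
  obtain ⟨C, h0, h1⟩ := r3_bd hφ'.1 hc
  have i1 : Integrable fun z : Cf (n + 1) => φ (z 0) * (f z * G 0 k z) :=
    j.bdd_mul (c := C) (aesm_coord 0 hφ.continuous.aestronglyMeasurable)
      (ae_of_all _ fun z => h0 _)
  have i2 : Integrable fun z : Cf (n + 1) => pd k φ (z 0) * f z ^ 2 :=
    (l2_sq h.1).bdd_mul (c := C) (aesm_coord 0 (nw_cont_pd hφ'.1 k).aestronglyMeasurable)
      (ae_of_all _ fun z => h1 _ k)
  have e1 := r3_sq ha hφ' k
  have e2 : ∫ z : Cf (n + 1), pd k φ (z 0) * f z ^ 2 =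
      -2 * ∫ z : Cf (n + 1), φ (z 0) * (f z * G 0 k z) := by
    rw [← (int_cons' i1).2.2, ← (int_cons' i2).2.2, ← integral_const_mul]
    refine integral_congr_ae ((h.sliceX 0).mono fun y hy => ?_)
    simp only [Fin.insertNth_zero'] at hy
    simpa only [Fin.cons_zero] using r3_sq hy hφ' k
  rw [← (int_cons i1).2.2, ← (int_cons i2).2.2] at e2
  simp only [Fin.cons_zero, integral_const_mul, ← nsl_sq] at e2
  simp only [smul_eq_mul]
  linarith

/-- Regularised square root. -/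
noncomputable def r3F (ε t : ℝ) : ℝ := √(√(t ^ 2 + ε ^ 4)) - ε

lemma r3_pos {ε : ℝ} (hε : 0 < ε) (t : ℝ) : 0 < t ^ 2 + ε ^ 4 := by positivity

lemma r3_c1 {ε : ℝ} (hε : 0 < ε) : ContDiff ℝ 1 (r3F ε) :=
  ((((contDiff_id.pow 2).add contDiff_const).sqrt fun t => (r3_pos hε t).ne').sqrt
    fun t => (Real.sqrt_pos.2 (r3_pos hε t)).ne').sub contDiff_const

lemma r3_der {ε : ℝ} (hε : 0 < ε) (t : ℝ) :
    deriv (r3F ε) t = t / √(t ^ 2 + ε ^ 4) / (2 * √(√(t ^ 2 + ε ^ 4))) := by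
  have p := r3_pos hε t
  have h1 : HasDerivAt (fun t : ℝ => t ^ 2 + ε ^ 4) (2 * t) t := by
    simpa using (hasDerivAt_pow 2 t).add_const (ε ^ 4)
  have h2 := ((h1.sqrt p.ne').sqrt (Real.sqrt_pos.2 p).ne').sub_const ε
  rw [show deriv (r3F ε) t = _ from h2.deriv]
  have := (Real.sqrt_pos.2 p).ne'
  field_simp

lemma r3_ge {ε s t : ℝ} (h : s ^ 4 ≤ t ^ 2 + ε ^ 4) : s ≤ √(√(t ^ 2 + ε ^ 4)) :=
  Real.le_sqrt_of_sq_le (Real.le_sqrt_of_sq_le (by nlinarith))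

lemma r3_dle {ε : ℝ} (hε : 0 < ε) (t : ℝ) :
    |deriv (r3F ε) t| ≤ 1 / (2 * √(√(t ^ 2 + ε ^ 4))) := by
  have p := Real.sqrt_pos.2 (r3_pos hε t)
  have p' := Real.sqrt_pos.2 p
  rw [r3_der hε, abs_div, abs_of_pos (by positivity : 0 < 2 * √(√(t ^ 2 + ε ^ 4)))]
  refine div_le_div_of_nonneg_right ?_ (by positivity)
  rw [abs_div, abs_of_pos p, div_le_one p]
  exact Real.abs_le_sqrt (by nlinarith [pow_pos hε 4])

lemma r3_close {ε s : ℝ} (hε : 0 < ε) (hs : 0 ≤ s) : |r3F ε (s ^ 2) - s| ≤ min ε s := by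
  have h1 : s ≤ √(√((s ^ 2) ^ 2 + ε ^ 4)) := r3_ge (by nlinarith [pow_pos hε 4])
  have h2 : ε ≤ √(√((s ^ 2) ^ 2 + ε ^ 4)) := r3_ge (by nlinarith [sq_nonneg (s ^ 2)])
  have h3 : √(√((s ^ 2) ^ 2 + ε ^ 4)) ≤ s + ε := by
    refine Real.sqrt_le_iff.2 ⟨by positivity, Real.sqrt_le_iff.2 ⟨by positivity, ?_⟩⟩
    have a1 : s ^ 2 + ε ^ 2 ≤ (s + ε) ^ 2 := by nlinarith [mul_nonneg hs hε.le]
    nlinarith [pow_le_pow_left₀ (by positivity) a1 2, mul_nonneg (sq_nonneg s) (sq_nonneg ε)]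
  unfold r3F
  rw [abs_le, le_min_iff, neg_le, le_min_iff]
  refine ⟨⟨?_, ?_⟩, ?_, ?_⟩ <;> linarith

lemma r3_A1 {χ : Cf (n + 1) → ℝ} (h : C1N χ) : H1 (fun x => nsl χ x ^ 2)
    fun k x => 2 * ∫ y, χ (Fin.cons x y) * gr χ 0 k (Fin.cons x y) := by
  have h2 : C1N fun z => χ z ^ 2 :=
    ⟨h.1.pow 2, h.2.comp_left (g := fun t : ℝ => t ^ 2) (by simp)⟩
  have hK : IsCompact ((fun z : Cf (n + 1) => (Fin.tail z : Cf n)) '' tsupport χ) :=
    h.2.isCompact.image (continuous_pi fun j => continuous_apply _)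
  set K := (fun z : Cf (n + 1) => (Fin.tail z : Cf n)) '' tsupport χ with hKd
  have hw : MemLp (K.indicator fun _ => (1 : ℝ)) 2 :=
    memLp_indicator_const 2 hK.measurableSet 1 (Or.inr hK.measure_lt_top.ne)
  have e : ∀ (x : Pt) (y : Cf n) (c : ℝ), χ (Fin.cons x y) * c * K.indicator (fun _ => (1 : ℝ)) y =
      χ (Fin.cons x y) * c := fun x y c => by
    by_cases hy : y ∈ K
    · rw [Set.indicator_of_mem hy, mul_one]
    · have : χ (Fin.cons x y) = 0 := image_eq_zero_of_notMem_tsupport fun hz =>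
        hy ⟨_, hz, Fin.tail_cons _ _⟩
      simp [this]
  have e' : ∀ k z, gr (fun z => χ z ^ 2) 0 k z = χ z * (2 * gr χ 0 k z) := fun k z => by
    have := ((h.1.differentiable one_ne_zero z).hasFDerivAt.pow 2).fderiv
    simp only [gr]
    rw [show (fun z => χ z ^ 2) = χ ^ 2 from rfl]
    erw [this]
    simp
    ring
  have := h2.rh.contract hw
  simp only [e', e] at this
  simp only [sq, e, mul_left_comm (χ _) 2, integral_const_mul] at this
  simpa only [nsl_sq, sq (χ _)] using this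

lemma r3_A2 {χ : Cf (n + 1) → ℝ} (h : C1N χ) {ε : ℝ} (hε : 0 < ε) : ∃ H : Fin 3 → Pt → ℝ,
    H1 (fun x => r3F ε (nsl χ x ^ 2)) H ∧ ∀ k, ∫ x, H k x ^ 2 ≤ ∫ z, gr χ 0 k z ^ 2 := by
  have hd : ∀ t, |deriv (r3F ε) t| ≤ 1 / (2 * ε) := fun t => (r3_dle hε t).trans
    (one_div_le_one_div_of_le (by positivity)
      (mul_le_mul_of_nonneg_left (r3_ge (by nlinarith [sq_nonneg t])) zero_le_two))
  have h0 : r3F ε 0 = 0 := by
    have : ε ^ 4 = (ε ^ 2) ^ 2 := by ring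
    simp [r3F, this, Real.sqrt_sq (sq_nonneg ε), Real.sqrt_sq hε.le]
  have h1 := h1_iff.2 ((h1_iff.1 (r3_A1 h)).comp LC_ek (r3_c1 hε) h0 hd)
  refine ⟨_, h1, fun k => ?_⟩
  have hg := (h.rh.2 0 k).1
  rw [← (nsl_l2 hg).2]
  refine integral_mono_ae (l2_sq (h1.2 k).1) (l2_sq (nsl_l2 hg).1) ?_
  filter_upwards [l2_cons h.rh.1, l2_cons hg] with x a1 a2
  have c := l2_cs' a1 a2
  have s0 := nsl_nonneg χ x
  have g0 := nsl_nonneg (gr χ 0 k) x
  change |∫ y, χ (Fin.cons x y) * gr χ 0 k (Fin.cons x y)| ≤ nsl χ x * nsl (gr χ 0 k) x at c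
  have d := r3_dle hε (nsl χ x ^ 2)
  have r : nsl χ x ≤ √(√((nsl χ x ^ 2) ^ 2 + ε ^ 4)) := r3_ge (by nlinarith [pow_pos hε 4])
  have p := Real.sqrt_pos.2 (Real.sqrt_pos.2 (r3_pos hε (nsl χ x ^ 2)))
  rw [le_div_iff₀ (by positivity)] at d
  refine sq_le_sq' (neg_le_of_abs_le ?_) (le_of_abs_le ?_) <;>
  · rw [abs_mul, abs_mul, abs_two]
    have a := abs_nonneg (deriv (r3F ε) (nsl χ x ^ 2))
    nlinarith [mul_le_mul_of_nonneg_left c a, mul_le_mul_of_nonneg_left r (mul_nonneg a g0),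
      mul_le_mul_of_nonneg_right d g0]

lemma r3_lip {a b : Cf (n + 1) → ℝ} (ha : MemLp a 2) (hb : MemLp b 2) :
    ∀ᵐ x, |nsl a x - nsl b x| ≤ nsl (fun z => a z - b z) x := by
  filter_upwards [l2_cons ha, l2_cons hb] with x h1 h2
  have t1 := l2_tri h1 h2
  have t2 := l2_tri h2 h1
  simp only [sl, sub_sq_comm (b _)] at t1 t2
  unfold nsl
  rw [abs_le]
  constructor <;> linarith

theorem nsl_h1 (h : RH f G) : ∃ ga, H1 (nsl f) ga ∧
    ∀ k, ∀ᵐ x, nsl f x * ga k x = ∫ y, f (Fin.cons x y) * G 0 k (Fin.cons x y) := by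
  obtain ⟨u, hu, l1, l2⟩ := h.seq
  have he : ∀ m : ℕ, (0 : ℝ) < 1 / (m + 1) := fun m => by positivity
  choose H hH hb using fun m => r3_A2 (hu m) (he m)
  have ha := (nsl_l2 h.1).1
  have t1 : Tendsto (fun m => ∑ k, ∫ z, gr (u m) 0 k z ^ 2) atTop (𝓝 (∑ k, ∫ z, G 0 k z ^ 2)) :=
    tendsto_finsetSum _ fun k _ => by
      simpa only [one_mul, sq] using L2T.integral_mul (fun m => ((hu m).rh.2 0 k).1)
        (fun m => ((hu m).rh.2 0 k).1) (h.2 0 k).1 (h.2 0 k).1 (l2 0 k) (l2 0 k)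
        (b := fun _ => 1) aestronglyMeasurable_const (C := 1) fun _ => by simp
  obtain ⟨C, hC⟩ := t1.bddAbove_range
  have m1 : ∀ m : ℕ, AEStronglyMeasurable (fun x => min (1 / (m + 1 : ℝ)) (nsl f x) ^ 2) volume :=
    fun m => (aemeasurable_const.min ha.1.aemeasurable).aestronglyMeasurable.pow 2
  have b1 : ∀ (m : ℕ) x, ‖min (1 / (m + 1 : ℝ)) (nsl f x) ^ 2‖ ≤ nsl f x ^ 2 := fun m x => by
    rw [Real.norm_eq_abs, abs_of_nonneg (sq_nonneg _)]
    exact pow_le_pow_left₀ (le_min (he m).le (nsl_nonneg f x)) (min_le_right _ _) 2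
  have t2 : Tendsto (fun m : ℕ => ∫ x, min (1 / (m + 1 : ℝ)) (nsl f x) ^ 2) atTop
      (𝓝 (∫ _x : Pt, (0 : ℝ))) := by
    refine tendsto_integral_of_dominated_convergence _ m1 (l2_sq ha) (fun m => ae_of_all _ (b1 m))
      (ae_of_all _ fun x => ?_)
    have := ((tendsto_one_div_add_atTop_nhds_zero_nat (𝕜 := ℝ)).min
      (tendsto_const_nhds (x := nsl f x))).pow 2
    rwa [min_eq_left (nsl_nonneg f x), zero_pow two_ne_zero] at this
  have l : L2T volume (fun (m : ℕ) x => r3F (1 / (m + 1)) (nsl (u m) x ^ 2)) (nsl f) := by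
    have t3 := (t2.const_mul 2).add (Tendsto.const_mul 8 l1)
    simp only [integral_zero, mul_zero, add_zero] at t3
    refine squeeze_zero (fun m => integral_nonneg fun x => sq_nonneg _) (fun m => ?_) t3
    have hd : MemLp (fun z => u m z - f z) 2 := (hu m).rh.1.sub h.1
    have i1 : Integrable fun x => min (1 / (m + 1 : ℝ)) (nsl f x) ^ 2 :=
      (l2_sq ha).mono' (m1 m) (ae_of_all _ (b1 m))
    have i2 := l2_sq (nsl_l2 hd).1
    rw [← (nsl_l2 hd).2, ← integral_const_mul, ← integral_const_mul,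
      ← integral_add (i1.const_mul 2) (i2.const_mul 8)]
    refine integral_mono_ae (l2_sq ((hH m).1.sub ha)) ((i1.const_mul 2).add (i2.const_mul 8)) ?_
    filter_upwards [r3_lip (hu m).rh.1 h.1] with x hx
    have c := r3_close (he m) (nsl_nonneg (u m) x)
    have c1 : min (1 / (m + 1 : ℝ)) (nsl (u m) x) ≤
        min (1 / (m + 1 : ℝ)) (nsl f x) + nsl (fun z => u m z - f z) x := by
      rw [← min_add_add_right]
      exact min_le_min (le_add_of_nonneg_right (nsl_nonneg _ _)) (by linarith [(abs_le.1 hx).2])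
    have c2 : |r3F (1 / (m + 1)) (nsl (u m) x ^ 2) - nsl f x| ≤
        min (1 / (m + 1 : ℝ)) (nsl f x) + 2 * nsl (fun z => u m z - f z) x := by
      have := abs_sub_le (r3F (1 / (m + 1)) (nsl (u m) x ^ 2)) (nsl (u m) x) (nsl f x)
      linarith
    have c3 := pow_le_pow_left₀ (abs_nonneg _) c2 2
    rw [sq_abs] at c3
    nlinarith [sq_nonneg (min (1 / (m + 1 : ℝ)) (nsl f x) - 2 * nsl (fun z => u m z - f z) x)]
  obtain ⟨ga, hga, -⟩ := WD.of_bdd (fun m => h1_iff.1 (hH m)) ha l (C := C) fun m =>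
    (Finset.sum_le_sum fun k _ => hb m k).trans (hC ⟨m, rfl⟩)
  exact ⟨ga, hga, r3_B h hga⟩

end Vale.Agent.P363
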