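import Vale.Agent.P363.R1

/-! Part R, file 4: products with a bounded Sobolev function of the first position.
Check the definition of `RH` with a test function `φ`.  Position `j.succ`: `RH.sliceY` tested with
`φ (cons x ·)`, `int_cons`.  Position `0`: on a.e. slice (`RH.sliceX`) use `WD.ibp` for the slice of `f` and
`φ (cons · y) * β` (`WD.mul`), then `int_cons'`. -/

namespace Vale.Agent.P363

open MeasureTheory Vale.Agent.P370 Filter Topology
open scoped ContDiff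

variable {n : ℕ} {f : Cf (n + 1) → ℝ} {G : Fin (n + 1) → Fin 3 → Cf (n + 1) → ℝ}

theorem r4_dirn {N : ℕ} (j : Fin N × Fin 3) : ‖(dirn j.1 j.2 : Cf N)‖ ≤ 1 := by
  rw [Pi.norm_single, Pi.norm_single, norm_one]

theorem r4_bump (R : ℝ) :
    ∃ w : Cf n → ℝ, C1N w ∧ ∀ y, ‖y‖ ≤ R → w y = 1 ∧ fderiv ℝ w y = 0 := by
  let b : ContDiffBump (0 : Cf n) := ⟨|R| + 1, |R| + 2, by positivity, by linarith⟩
  refine ⟨b, ⟨b.contDiff, b.hasCompactSupport⟩, fun y hy => ?_⟩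
  have h : (b : Cf n → ℝ) =ᶠ[𝓝 y] 1 := b.eventuallyEq_one_of_mem_ball
    (mem_ball_zero_iff.2 ((hy.trans (le_abs_self R)).trans_lt (lt_add_one _)))
  exact ⟨h.eq_of_nhds, by rw [h.fderiv_eq]; simp⟩

theorem r4_bdd {N : ℕ} {φ : Cf N → ℝ} (h : C1N φ) : ∃ C, (∀ x, |φ x| ≤ C) ∧
    ∀ x (j : Fin N × Fin 3), |fderiv ℝ φ x (dirn j.1 j.2)| ≤ C := by
  obtain ⟨C₁, h1⟩ := h.1.continuous.bounded_above_of_compact_support h.2
  obtain ⟨C₂, h2⟩ := (h.1.continuous_fderiv one_ne_zero).bounded_above_of_compact_support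
    (h.2.fderiv ℝ)
  refine ⟨max C₁ C₂, fun x => (h1 x).trans (le_max_left _ _), fun x j => ?_⟩
  refine ((fderiv ℝ φ x).le_opNorm _).trans ((mul_le_of_le_one_right (norm_nonneg _)
    (r4_dirn j)).trans ((h2 x).trans (le_max_right _ _)))

theorem RH.mul0 (h : RH f G) {β : Pt → ℝ} {gβ : Fin 3 → Pt → ℝ} (hβ : H1 β gβ) {C : ℝ}
    (hb : ∀ x, |β x| ≤ C) (h2 : ∀ k, MemLp (fun z : Cf (n + 1) => gβ k (z 0) * f z) 2) :
    RH (fun z => β (z 0) * f z) fun i k z =>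
      β (z 0) * G i k z + if i = 0 then gβ k (z 0) * f z else 0 := by
  have mβ := aesm_coord (n := n) 0 hβ.1.1
  have hb' : ∀ z : Cf (n + 1), |β (z 0)| ≤ C := fun z => hb _
  have m0 := LB_mem h.1 mβ hb'
  have m1 := fun i k => LB_mem (h.2 i k).1 mβ hb'
  have m2 : ∀ (i : Fin (n + 1)) k,
      MemLp (fun z : Cf (n + 1) => if i = 0 then gβ k (z 0) * f z else 0) 2 := fun i k => by
    split_ifs
    exacts [h2 k, MemLp.zero]
  refine ⟨m0, fun i k => ⟨(m1 i k).add (m2 i k), fun φ hφ hc => ?_⟩⟩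
  have hφ' : C1N φ := ⟨hφ.of_le (by exact_mod_cast le_top), hc⟩
  obtain ⟨R, hR⟩ := hc.isBounded.exists_norm_le
  obtain ⟨w, hw, hw'⟩ := r4_bump (n := n) R
  obtain ⟨C', h0, h1⟩ := r4_bdd hφ'
  have key := (rh_iff.1 (hβ.tensor hw.rh)).ibp ((rh_iff.1 h).mul r4_dirn hφ'.1 h0 h1) r4_dirn (i, k)
  have hz : ∀ z : Cf (n + 1), (w (Fin.tail z) = 1 ∧ fderiv ℝ w (Fin.tail z) = 0) ∨
      (φ z = 0 ∧ fderiv ℝ φ z = 0) := fun z => by
    by_cases hz : z ∈ tsupport φ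
    · have h3 : ‖(Fin.tail z : Cf n)‖ ≤ ‖z‖ :=
        (pi_norm_le_iff_of_nonneg (norm_nonneg z)).2 fun j => norm_le_pi_norm z j.succ
      exact Or.inl (hw' _ (h3.trans (hR z hz)))
    · exact Or.inr ⟨image_eq_zero_of_notMem_tsupport hz, fderiv_of_notMem_tsupport ℝ hz⟩
  have e1 : ∀ z : Cf (n + 1), β (z 0) * w (Fin.tail z) *
      (φ z * G i k z + fderiv ℝ φ z (dirn i k) * f z) =
        β (z 0) * G i k z * φ z + β (z 0) * f z * fderiv ℝ φ z (dirn i k) := fun z => by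
    rcases hz z with ⟨a, -⟩ | ⟨a, b⟩
    · rw [a]; ring
    · simp [a, b]
  have e2 : ∀ z : Cf (n + 1), (Fin.cases (gβ k (z 0) * w (Fin.tail z))
      (fun j => β (z 0) * gr w j k (Fin.tail z)) i : ℝ) * (φ z * f z) =
        (if i = 0 then gβ k (z 0) * f z else 0) * φ z := fun z => by
    rcases hz z with ⟨a, b⟩ | ⟨a, -⟩
    · refine Fin.cases ?_ (fun j => ?_) i
      · rw [Fin.cases_zero, if_pos rfl, a]; ring
      · simp [gr, b]
    · simp [a]
  obtain ⟨l0, l1⟩ := LB_c1 (μ := volume) hφ' (dirn i k)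
  simp only [e1, e2] at key
  simp only [add_mul]
  rw [integral_add (l2_mul (m1 i k) l0) (l2_mul m0 l1)] at key
  rw [integral_add (l2_mul (m1 i k) l0) (l2_mul (m2 i k) l0)]
  linarith

end Vale.Agent.P363
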