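import Vale.Agent.P363.R2
import Vale.Agent.P363.R3
import Vale.Agent.P363.R4

/-! Part R, file 5: the inequality of Kato for the norm of the slices.
With `a = nsl Ξ`, `A = √(a ^ 2 + ε ^ 2)` test the equation with `β (z 0) * Ξ z`, `β = ζ / A`, and let `ε → 0`. -/

namespace Vale.Agent.P363

open MeasureTheory Vale.Agent.P370 Filter Topology
open scoped ContDiff

theorem r5_lim {a h : Pt → ℝ} (h0 : ∀ x, 0 ≤ a x) (ha : AEStronglyMeasurable a volume)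
    (hh : Integrable h) (hz : ∀ᵐ x, a x = 0 → h x = 0) :
    Tendsto (fun m : ℕ => ∫ x, h x * (a x / √(a x ^ 2 + (1 / ((m : ℝ) + 1)) ^ 2))) atTop
      (𝓝 (∫ x, h x)) := by
  refine tendsto_integral_of_dominated_convergence (fun x => |h x|) (fun m => ?_) hh.abs
    (fun m => Eventually.of_forall fun x => ?_) ?_
  · exact hh.1.mul (ha.aemeasurable.div ((ha.aemeasurable.pow_const 2).add_const _).sqrt
      ).aestronglyMeasurable
  · rw [Real.norm_eq_abs, abs_mul]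
    refine mul_le_of_le_one_right (abs_nonneg _) ?_
    rw [abs_of_nonneg (div_nonneg (h0 x) (Real.sqrt_nonneg _))]
    exact div_le_one_of_le₀ (Real.le_sqrt_of_sq_le (by nlinarith [sq_nonneg (1 / ((m : ℝ) + 1))]))
      (Real.sqrt_nonneg _)
  · filter_upwards [hz] with x hx
    rcases (h0 x).eq_or_lt with e | e
    · simp [hx e.symm]
    · have l : Tendsto (fun m : ℕ => √(a x ^ 2 + (1 / ((m : ℝ) + 1)) ^ 2)) atTop
          (𝓝 (√(a x ^ 2 + 0 ^ 2))) :=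
        ((tendsto_one_div_add_atTop_nhds_zero_nat.pow 2).const_add _).sqrt
      rw [show √(a x ^ 2 + 0 ^ 2) = a x by simp [Real.sqrt_sq e.le]] at l
      have := (tendsto_const_nhds (x := a x)).div l e.ne'
      rw [div_self e.ne'] at this
      simpa using this.const_mul (h x)

theorem r5_deriv {ε : ℝ} (hε : 0 < ε) (t : ℝ) :
    HasDerivAt (fun t => (√(t ^ 2 + ε ^ 2))⁻¹ - ε⁻¹) (-t / √(t ^ 2 + ε ^ 2) ^ 3) t := by
  have p : 0 < t ^ 2 + ε ^ 2 := by positivity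
  have q : 0 < √(t ^ 2 + ε ^ 2) := Real.sqrt_pos.2 p
  have h1 := (((hasDerivAt_pow 2 t).add_const (ε ^ 2)).sqrt p.ne').inv q.ne'
  refine (h1.sub_const _).congr_deriv ?_
  field_simp
  norm_num

theorem r5_c1c_bdd {ζ : Pt → ℝ} (hζ : C1c ζ) :
    ∃ C, 0 ≤ C ∧ (∀ x, |ζ x| ≤ C) ∧ ∀ x k, |pd k ζ x| ≤ C := by
  obtain ⟨C, hC⟩ := hζ.1.continuous.bounded_above_of_compact_support hζ.2
  have := fun k => (nw_cont_pd hζ.1 k).bounded_above_of_compact_support (nw_supp_pd hζ.2 k)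
  choose D hD using this
  have h0 : 0 ≤ C := (norm_nonneg _).trans (hC 0)
  have h1 : ∀ k, 0 ≤ D k := fun k => (norm_nonneg _).trans (hD k 0)
  have h2 : 0 ≤ ∑ k, D k := Finset.sum_nonneg fun k _ => h1 k
  refine ⟨C + ∑ k, D k, by positivity, fun x => (hC x).trans (by linarith), fun x k => ?_⟩
  have := Finset.single_le_sum (fun k _ => h1 k) (Finset.mem_univ k)
  exact (hD k x).trans (by linarith)

/-- The quotient `ζ / √(a ^ 2 + ε ^ 2)`. -/
theorem r5_beta {a ζ : Pt → ℝ} {ga : Fin 3 → Pt → ℝ} (ha : H1 a ga) (hζ : C1c ζ) {ε : ℝ}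
    (hε : 0 < ε) : H1 (fun x => ζ x / √(a x ^ 2 + ε ^ 2)) fun k x =>
      pd k ζ x / √(a x ^ 2 + ε ^ 2) - ζ x * (a x * ga k x) / √(a x ^ 2 + ε ^ 2) ^ 3 := by
  obtain ⟨C, -, hC, hD⟩ := r5_c1c_bdd hζ
  have hv : ∀ k, ‖ek k‖ ≤ 1 := fun k => (nw_norm_ek k).le
  have hF : ContDiff ℝ 1 fun t : ℝ => (√(t ^ 2 + ε ^ 2))⁻¹ - ε⁻¹ :=
    ((((contDiff_id.pow 2).add contDiff_const).sqrt fun t => by positivity).inv
      fun t => by positivity).sub contDiff_const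
  have h1 := (h1_iff.1 ha).comp hv hF (by simp [Real.sqrt_sq hε.le]) (C := (ε ^ 2)⁻¹) fun t => by
    have q : 0 < √(t ^ 2 + ε ^ 2) := by positivity
    have q1 : |t| ≤ √(t ^ 2 + ε ^ 2) := Real.abs_le_sqrt (by nlinarith)
    have q2 : ε ^ 2 ≤ √(t ^ 2 + ε ^ 2) ^ 2 := by
      rw [Real.sq_sqrt (by positivity)]
      nlinarith
    rw [(r5_deriv hε t).deriv, abs_div, abs_neg, abs_of_pos (pow_pos q 3),
      div_le_iff₀ (pow_pos q 3), inv_mul_eq_div, le_div_iff₀ (by positivity)]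
    calc |t| * ε ^ 2 ≤ √(t ^ 2 + ε ^ 2) * √(t ^ 2 + ε ^ 2) ^ 2 := by gcongr
      _ = _ := by ring
  have h2 := (h1.mul hv hζ.1 hC hD).add ((h1_iff.1 (C1c.h1 hζ)).smul ε⁻¹)
  refine h1_iff.2 (h2.congr (Eventually.of_forall fun x => ?_)
    fun k => Eventually.of_forall fun x => ?_)
  · simp only [div_eq_mul_inv]
    ring
  · simp only [(r5_deriv hε _).deriv, gr1, pd, div_eq_mul_inv]
    ring

theorem r5_eps {V τ ζ : Pt → ℝ} {lam E₃ E' : ℝ} {Ξ S : Cf 3 → ℝ} {G : Fin 3 → Fin 3 → Cf 3 → ℝ}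
    (hV : FB V) (hl : 0 ≤ lam) (hΞ : RH Ξ G) (hS : MemLp S 2) (hτ : MemLp τ 2)
    (τ0 : ∀ x, 0 ≤ τ x)
    (heq : ∀ T H, RH T H → bil V lam Ξ G T H = E₃ * (∫ z, Ξ z * T z) + ∫ z, S z * T z)
    (hy : ∀ᵐ x, E' * nsl Ξ x ^ 2 ≤ bil V lam (sl Ξ x) (slG G x) (sl Ξ x) (slG G x))
    (hs : ∀ᵐ x, ∫ y, S (Fin.cons x y) * Ξ (Fin.cons x y) ≤ τ x * nsl Ξ x)
    {ga : Fin 3 → Pt → ℝ} (ha : H1 (nsl Ξ) ga)
    (hid : ∀ k, ∀ᵐ x, nsl Ξ x * ga k x = ∫ y, Ξ (Fin.cons x y) * G 0 k (Fin.cons x y))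
    (hζ : C1c ζ) (ζ0 : ∀ x, 0 ≤ ζ x) {ε : ℝ} (hε : 0 < ε) :
    1 / 2 * (∑ k, ∫ x, ga k x * pd k ζ x * (nsl Ξ x / √(nsl Ξ x ^ 2 + ε ^ 2))) +
      (∫ x, V x * (nsl Ξ x * ζ x) * (nsl Ξ x / √(nsl Ξ x ^ 2 + ε ^ 2))) +
      (E' - E₃) * ∫ x, nsl Ξ x * ζ x * (nsl Ξ x / √(nsl Ξ x ^ 2 + ε ^ 2)) ≤ ∫ x, τ x * ζ x := by
  set a := nsl Ξ with hadef
  obtain ⟨C, C0, hC, hD⟩ := r5_c1c_bdd hζ
  have hβ := r5_beta ha hζ hε
  have hζ1 := C1c.h1 hζ
  set A : Pt → ℝ := fun x => √(a x ^ 2 + ε ^ 2) with hA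
  have A0 : ∀ x, 0 < A x := fun x => by simp only [hA]; positivity
  have Aε : ∀ x, ε ≤ A x := fun x => Real.le_sqrt_of_sq_le (by nlinarith [sq_nonneg (a x)])
  have a0 : ∀ x, 0 ≤ a x := nsl_nonneg Ξ
  have aA : ∀ x, a x ≤ A x := fun x => Real.le_sqrt_of_sq_le (by nlinarith [sq_nonneg ε])
  have θ1 : ∀ x, 0 ≤ a x / A x ∧ a x / A x ≤ 1 := fun x =>
    ⟨div_nonneg (a0 x) (A0 x).le, div_le_one_of_le₀ (aA x) (A0 x).le⟩
  set β : Pt → ℝ := fun x => ζ x / A x with hβd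
  set gβ : Fin 3 → Pt → ℝ := fun k x => pd k ζ x / A x - ζ x * (a x * ga k x) / A x ^ 3 with hgβ
  have β0 : ∀ x, 0 ≤ β x := fun x => div_nonneg (ζ0 x) (A0 x).le
  have βb : ∀ x, |β x| ≤ C / ε := fun x => by
    rw [abs_of_nonneg (β0 x)]
    exact div_le_div₀ C0 ((le_abs_self _).trans (hC x)) hε (Aε x)
  have θm : AEStronglyMeasurable (fun x => a x / A x) volume :=
    (ha.1.1.aemeasurable.div ((ha.1.1.aemeasurable.pow_const 2).add_const _).sqrt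
      ).aestronglyMeasurable
  have iθ : ∀ {h : Pt → ℝ}, Integrable h → Integrable fun x => h x * (a x / A x) := fun hh =>
    hh.mul_bdd (c := 1) θm (Eventually.of_forall fun x => by
      rw [Real.norm_eq_abs, abs_of_nonneg (θ1 x).1]; exact (θ1 x).2)
  have h2 : ∀ k, MemLp (fun z : Cf 3 => gβ k (z 0) * Ξ z) 2 := by
    intro k
    refine l2_of_slice ((aesm_coord 0 (hβ.2 k).1.1).mul hΞ.1.1)
      (B := fun x => 2 * pd k ζ x ^ 2 + 2 * (C / ε) ^ 2 * ga k x ^ 2)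
      (((l2_sq (hζ1.2 k).1).const_mul 2).add ((l2_sq (ha.2 k).1).const_mul _)) ?_
    filter_upwards [l2_cons hΞ.1] with x hx
    simp only [Fin.cons_zero, mul_pow]
    refine ⟨(l2_sq hx).const_mul _, ?_⟩
    rw [integral_const_mul, ← nsl_sq, ← hadef]
    have e : gβ k x * a x = pd k ζ x * (a x / A x) - β x * (a x / A x) ^ 2 * ga k x := by
      have := (A0 x).ne'
      simp only [hgβ, hβd]
      field_simp
    have b1 : (pd k ζ x * (a x / A x)) ^ 2 ≤ pd k ζ x ^ 2 := by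
      rw [mul_pow]
      exact mul_le_of_le_one_right (sq_nonneg _) (pow_le_one₀ (θ1 x).1 (θ1 x).2)
    have b2 : (β x * (a x / A x) ^ 2 * ga k x) ^ 2 ≤ (C / ε) ^ 2 * ga k x ^ 2 := by
      rw [mul_pow]
      refine mul_le_mul_of_nonneg_right (pow_le_pow_left₀ (mul_nonneg (β0 x) (sq_nonneg _)) ?_ 2)
        (sq_nonneg _)
      exact (mul_le_of_le_one_right (β0 x) (pow_le_one₀ (θ1 x).1 (θ1 x).2)).trans
        ((le_abs_self _).trans (βb x))
    rw [← mul_pow, e]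
    nlinarith [sq_nonneg (pd k ζ x * (a x / A x) + β x * (a x / A x) ^ 2 * ga k x)]
  have hT := hΞ.mul0 hβ βb h2
  obtain ⟨iY, -, hsplit⟩ := bil_cons (lam := lam) hV hΞ hT
  rw [heq _ _ hT] at hsplit
  have iaζ : Integrable fun x => a x * ζ x := l2_mul ha.1 hζ1.1
  have eN : ∫ z, Ξ z * (β (z 0) * Ξ z) = ∫ x, a x * ζ x * (a x / A x) := by
    rw [← (int_cons (l2_mul hΞ.1 hT.1)).2.2]
    refine integral_congr_ae (Eventually.of_forall fun x => ?_)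
    simp only [Fin.cons_zero]
    rw [show (fun y => Ξ (Fin.cons x y) * (β x * Ξ (Fin.cons x y))) =
      fun y => β x * Ξ (Fin.cons x y) ^ 2 by funext y; ring, integral_const_mul, ← nsl_sq]
    simp only [hβd, ← hadef]
    ring
  have eV : ∫ z, V (z 0) * (Ξ z * (β (z 0) * Ξ z)) = ∫ x, V x * (a x * ζ x) * (a x / A x) := by
    rw [← (int_cons (hV.integrable_rh hΞ hT 0)).2.2]
    refine integral_congr_ae (Eventually.of_forall fun x => ?_)
    simp only [Fin.cons_zero]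
    rw [show (fun y => V x * (Ξ (Fin.cons x y) * (β x * Ξ (Fin.cons x y)))) =
      fun y => V x * β x * Ξ (Fin.cons x y) ^ 2 by funext y; ring, integral_const_mul, ← nsl_sq]
    simp only [hβd, ← hadef]
    ring
  have eS : ∫ z, S z * (β (z 0) * Ξ z) ≤ ∫ x, τ x * ζ x := by
    have i := int_cons (l2_mul hS hT.1)
    rw [← i.2.2]
    refine integral_mono_ae i.1 (l2_mul hτ hζ1.1) (hs.mono fun x hx => ?_)
    simp only [Fin.cons_zero]
    rw [show (fun y => S (Fin.cons x y) * (β x * Ξ (Fin.cons x y))) =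
      fun y => β x * (S (Fin.cons x y) * Ξ (Fin.cons x y)) by funext y; ring, integral_const_mul]
    calc _ ≤ β x * (τ x * a x) := mul_le_mul_of_nonneg_left hx (β0 x)
      _ = τ x * ζ x * (a x / A x) := by simp only [hβd]; ring
      _ ≤ τ x * ζ x := mul_le_of_le_one_right (mul_nonneg (τ0 x) (ζ0 x)) (θ1 x).2
  have eW : 0 ≤ ∫ z : Cf 3, rWk lam (z 0) (Fin.tail z) * (Ξ z * (β (z 0) * Ξ z)) :=
    integral_nonneg fun z => mul_nonneg (mul_nonneg hl (add_nonneg (ker_nonneg _) (ker_nonneg _)))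
      (by rw [mul_left_comm]; exact mul_nonneg (β0 _) (mul_self_nonneg _))
  have eY : E' * ∫ x, a x * ζ x * (a x / A x) ≤ ∫ x, bil V lam (sl Ξ x) (slG G x)
      (sl (fun z => β (z 0) * Ξ z) x) (slG (fun i k z => β (z 0) * G i k z +
        if i = 0 then gβ k (z 0) * Ξ z else 0) x) := by
    rw [← integral_const_mul]
    refine integral_mono_ae ((iθ iaζ).const_mul _) iY (hy.mono fun x hx => ?_)
    have e1 : sl (fun z => β (z 0) * Ξ z) x = fun y => β x * sl Ξ x y := rfl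
    have e2 : slG (fun i k z => β (z 0) * G i k z + if i = 0 then gβ k (z 0) * Ξ z else 0) x =
        fun j k y => β x * slG G x j k y := by
      funext j k y
      simp [slG, Fin.succ_ne_zero]
    simp only [e1, e2, bil_smul]
    calc _ = β x * (E' * a x ^ 2) := by simp only [hβd]; ring
      _ ≤ _ := mul_le_mul_of_nonneg_left hx (β0 x)
  have eK : ∀ k, ∫ x, ga k x * pd k ζ x * (a x / A x) ≤ ∫ z, G 0 k z *
      (β (z 0) * G 0 k z + if (0 : Fin 3) = 0 then gβ k (z 0) * Ξ z else 0) := by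
    intro k
    have i := int_cons (l2_mul (hΞ.2 0 k).1 (hT.2 0 k).1)
    rw [← i.2.2]
    refine integral_mono_ae (iθ (l2_mul (ha.2 k).1 (hζ1.2 k).1)) i.1 ?_
    filter_upwards [hid k, l2_cons hΞ.1, l2_cons (hΞ.2 0 k).1] with x h1 h2 h3
    simp only [Fin.cons_zero, if_true]
    have j1 : Integrable fun y => β x * G 0 k (Fin.cons x y) ^ 2 := (l2_sq h3).const_mul _
    have j2 : Integrable fun y => gβ k x * (Ξ (Fin.cons x y) * G 0 k (Fin.cons x y)) :=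
      (l2_mul h2 h3).const_mul _
    rw [show (fun y => G 0 k (Fin.cons x y) * (β x * G 0 k (Fin.cons x y) +
        gβ k x * Ξ (Fin.cons x y))) = fun y => β x * G 0 k (Fin.cons x y) ^ 2 +
        gβ k x * (Ξ (Fin.cons x y) * G 0 k (Fin.cons x y)) by funext y; ring, integral_add j1 j2,
      integral_const_mul, integral_const_mul, ← h1]
    have cs : (a x * ga k x) ^ 2 ≤ a x ^ 2 * ∫ y, G 0 k (Fin.cons x y) ^ 2 := by
      rw [h1, hadef, nsl_sq]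
      exact l2_cs h2 h3
    have g0 : 0 ≤ ∫ y, G 0 k (Fin.cons x y) ^ 2 := integral_nonneg fun _ => sq_nonneg _
    have cs2 : (a x * ga k x) ^ 2 / A x ^ 2 ≤ ∫ y, G 0 k (Fin.cons x y) ^ 2 := by
      rw [div_le_iff₀ (pow_pos (A0 x) 2), mul_comm _ (A x ^ 2)]
      exact cs.trans (mul_le_mul_of_nonneg_right (pow_le_pow_left₀ (a0 x) (aA x) 2) g0)
    have e : gβ k x * (a x * ga k x) =
        ga k x * pd k ζ x * (a x / A x) - β x * ((a x * ga k x) ^ 2 / A x ^ 2) := by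
      have := (A0 x).ne'
      simp only [hgβ, hβd]
      field_simp
    rw [e]
    linarith [mul_le_mul_of_nonneg_left cs2 (β0 x)]
  have eK' := Finset.sum_le_sum fun k (_ : k ∈ Finset.univ) => eK k
  rw [eN, eV] at hsplit
  linarith

theorem kato {V τ : Pt → ℝ} {lam E₃ E' : ℝ} {Ξ S : Cf 3 → ℝ} {G : Fin 3 → Fin 3 → Cf 3 → ℝ}
    (hV : FB V) (hl : 0 ≤ lam) (hΞ : RH Ξ G) (hS : MemLp S 2) (hτ : MemLp τ 2)
    (τ0 : ∀ x, 0 ≤ τ x)
    (heq : ∀ T H, RH T H → bil V lam Ξ G T H = E₃ * (∫ z, Ξ z * T z) + ∫ z, S z * T z)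
    (hy : ∀ᵐ x, E' * nsl Ξ x ^ 2 ≤ bil V lam (sl Ξ x) (slG G x) (sl Ξ x) (slG G x))
    (hs : ∀ᵐ x, ∫ y, S (Fin.cons x y) * Ξ (Fin.cons x y) ≤ τ x * nsl Ξ x) :
    ∃ ga, H1 (nsl Ξ) ga ∧ Sub (fun x => V x + (E' - E₃)) τ (nsl Ξ) ga := by
  obtain ⟨ga, ha, hid⟩ := nsl_h1 hΞ
  refine ⟨ga, ha, fun ζ hζ ζ0 => ?_⟩
  have hζ1 := C1c.h1 hζ
  have a0 := nsl_nonneg Ξ
  have hv : ∀ k, ‖ek k‖ ≤ 1 := fun k => (nw_norm_ek k).le
  have hz : ∀ k, ∀ᵐ x, nsl Ξ x = 0 → ga k x = 0 := by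
    intro k
    have := (h1_iff.1 ha).unique ((h1_iff.1 ha).pos hv)
      (Eventually.of_forall fun x => (max_eq_left (a0 x)).symm) k
    filter_upwards [this] with x hx h0
    rw [hx, h0, if_neg (lt_irrefl _)]
  have iV : Integrable fun x => V x * (nsl Ξ x * ζ x) := hV.integrable ha hζ1
  have iN : Integrable fun x => nsl Ξ x * ζ x := l2_mul ha.1 hζ1.1
  have l1 := fun k => r5_lim a0 ha.1.1 (h := fun x => ga k x * pd k ζ x)
    (l2_mul (ha.2 k).1 (hζ1.2 k).1) ((hz k).mono fun x hx h0 => by rw [hx h0, zero_mul])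
  have l2 := r5_lim a0 ha.1.1 iV (Eventually.of_forall fun x h0 => by simp [h0])
  have l3 := r5_lim a0 ha.1.1 iN (Eventually.of_forall fun x h0 => by simp [h0])
  have l := (((tendsto_finsetSum Finset.univ fun k _ => l1 k).const_mul (1 / 2)).add l2).add
    (l3.const_mul (E' - E₃))
  have key := le_of_tendsto' l fun m => r5_eps hV hl hΞ hS hτ τ0 heq hy hs ha hid hζ ζ0
    (ε := 1 / ((m : ℝ) + 1)) (by positivity)
  have e : ∫ x, (V x + (E' - E₃)) * (nsl Ξ x * ζ x) =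
      (∫ x, V x * (nsl Ξ x * ζ x)) + (E' - E₃) * ∫ x, nsl Ξ x * ζ x := by
    rw [← integral_const_mul, ← integral_add iV (iN.const_mul _)]
    exact integral_congr_ae (Eventually.of_forall fun x => by ring)
  unfold q1
  rw [e]
  simp only [gr1]
  linarith

end Vale.Agent.P363
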