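import Vale.Agent.P363.R1
import Vale.Agent.P363.R2

/-! Part R, file 6: moments of the two-electron ground state.
`w m x = m s / (m + s)`, `s = 100 + nrm x ^ 2 = 100 + ∑ k, x k ^ 2` (use `m + 1`), is `C¹`, bounded, increases to `s`, and
`gsq w ≤ w ^ 2 / 100`.  `T = w (y 0) * Φ` and `T' = w (y 0) ^ 2 * Φ` are `RH` (`rh_iff`, `WD.mul`); expanding,
`bil Φ T' = bil T T - 1 / 2 ∫ gsq w (y 0) * Φ ^ 2`, and `bil Φ T' = E₂ ∫ T ^ 2` (`eq_rh`).  Lower bound for `bil T T`: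
`low_rh` in position `0` with `Coer` (`c = 1 / 4`, weight `E + 10 - P * indicator`), in position `1` with `OB.low`
(`c = 0`, constant weight `E - tol * e`; `Kf ≥ 0`, Bessel for the orthonormal `φ a`), repulsion `≥ 0`.  So
`1 / 4 ∑ k ∫ (∂T) ^ 2 + ∫ T ^ 2 ≤ P * (5 P ^ 2) ^ 2`.  `RH.hardy'`, then `fatou_int`. -/

namespace Vale.Agent.P363

open MeasureTheory Vale.Agent.P370 Filter Topology
open scoped ContDiff

/-- Weighted bounds in the first position. -/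
def MomB (Φ : Cf 2 → ℝ) (B : ℝ) : Prop :=
  (Integrable (fun y : Cf 2 => ((100 + nrm (y 0) ^ 2) * Φ y) ^ 2) ∧
    ∫ y : Cf 2, ((100 + nrm (y 0) ^ 2) * Φ y) ^ 2 ≤ B) ∧
  ∀ c : Pt, Integrable (fun y : Cf 2 => P370.ker (y 0 - c) ^ 2 * ((100 + nrm (y 0) ^ 2) * Φ y) ^ 2) ∧
    ∫ y : Cf 2, P370.ker (y 0 - c) ^ 2 * ((100 + nrm (y 0) ^ 2) * Φ y) ^ 2 ≤ B

theorem r6_bessel {φ η : Fin 5 → Pt → ℝ} (h : Orb φ η) {ψ : Pt → ℝ} (hψ : MemLp ψ 2) :
    ∑ a, co5 φ ψ a ^ 2 ≤ ∫ x, ψ x ^ 2 := by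
  have h1 : ∀ a, Integrable fun x => φ a x ^ 2 := fun a =>
    Integrable.of_integral_ne_zero (by rw [h.one a]; exact one_ne_zero)
  have h2 : ∀ a, MemLp (φ a) 2 := fun a => l2_of_sq (h.bm a).1.aestronglyMeasurable (h1 a)
  have h3 : MemLp (fun x => ∑ a, co5 φ ψ a * φ a x) 2 :=
    memLp_finsetSum _ fun a _ => (h2 a).const_mul _
  have h4 : ∫ x, (∑ a, co5 φ ψ a * φ a x) * ψ x = ∑ a, co5 φ ψ a ^ 2 := by
    simp only [Finset.sum_mul, mul_assoc]
    rw [integral_finsetSum _ fun a _ => (l2_mul (h2 a) hψ).const_mul _]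
    exact Finset.sum_congr rfl fun a _ => by rw [integral_const_mul, sq]; rfl
  have h5 : ∫ x, (∑ a, co5 φ ψ a * φ a x) ^ 2 = ∑ a, co5 φ ψ a ^ 2 := by
    have e : ∀ x, (∑ a, co5 φ ψ a * φ a x) ^ 2 = ∑ a, co5 φ ψ a ^ 2 * φ a x ^ 2 := fun x => by
      rw [sq, Finset.sum_mul_sum]
      refine Finset.sum_congr rfl fun a _ => ?_
      rw [Finset.sum_eq_single a (fun b _ hb => by
        rw [mul_mul_mul_comm, h.disj a b x hb.symm, mul_zero]) (by simp)]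
      ring
    simp only [e]
    rw [integral_finsetSum _ fun a _ => (h1 a).const_mul _]
    exact Finset.sum_congr rfl fun a _ => by rw [integral_const_mul, h.one a, mul_one]
  have h6 := l2_cs h3 hψ
  rw [h4, h5, sq] at h6
  have h7 : 0 ≤ ∑ a, co5 φ ψ a ^ 2 := Finset.sum_nonneg fun _ _ => sq_nonneg _
  rcases h7.eq_or_lt with h8 | h8
  · rw [← h8]
    exact integral_nonneg fun _ => sq_nonneg _
  · exact le_of_mul_le_mul_left h6 h8

theorem r6_e {V : Pt → ℝ} {lam E : ℝ} {φ η : Fin 5 → Pt → ℝ} (h : OB V lam E φ η) :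
    0 < lam / Lc ∧ lam / Lc ≤ 1 / 100 := by
  have h1 := h.lam_pos
  have h2 := h.lam_le
  unfold gam at h2
  unfold Lc
  refine ⟨by positivity, ?_⟩
  rw [div_le_iff₀ (by positivity)]
  have h3 : (1 : ℝ) / 10 ^ 100 ≤ 1 := by norm_num
  linarith

theorem r6_low1 {V : Pt → ℝ} {lam E : ℝ} {φ η : Fin 5 → Pt → ℝ} (h : OB V lam E φ η) (ψ : Pt → ℝ)
    (hψ : C1c ψ) : 0 * (∫ x, gsq ψ x) + ∫ x, (E - 1) * ψ x ^ 2 ≤ qV V ψ := by
  have h1 := h.low ψ hψ
  have h2 := r6_bessel h.orb (C1c.h1 hψ).1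
  obtain ⟨h3, h4⟩ := r6_e h
  have h5 : 0 ≤ Kf (co5 φ ψ) := by unfold Kf; positivity
  have h6 : 0 ≤ gam := by unfold gam; positivity
  have h7 : tol * (lam / Lc) ≤ 1 := by unfold tol; linarith
  have h8 : 0 ≤ ∫ x, ψ x ^ 2 := integral_nonneg fun _ => sq_nonneg _
  have a1 := mul_nonneg h3.le h5
  have a2 := mul_nonneg h6 (sub_nonneg.2 h2)
  have a3 := mul_le_mul_of_nonneg_right h7 h8
  rw [integral_const_mul]
  linarith

theorem r6_low0 {V : Pt → ℝ} {E R P : ℝ} (hc : Coer V E R P) (ψ : Pt → ℝ) (hψ : C1c ψ) :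
    1 / 4 * (∫ x, gsq ψ x) + ∫ x, (E + 10 - {x | nrm x ≤ R + 1}.indicator (fun _ => P) x) *
      ψ x ^ 2 ≤ qV V ψ := by
  have h1 := hc ψ hψ
  have h2 := l2_sq (C1c.h1 hψ).1
  have h3 : MeasurableSet {x | nrm x ≤ R + 1} :=
    (isClosed_le continuous_nrm continuous_const).measurableSet
  have e : ∀ x, (E + 10 - {x | nrm x ≤ R + 1}.indicator (fun _ => P) x) * ψ x ^ 2 =
      (E + 10) * ψ x ^ 2 - {x | nrm x ≤ R + 1}.indicator (fun x => P * ψ x ^ 2) x := fun x => by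
    rw [sub_mul, Set.indicator_mul_left]
  simp only [e]
  rw [integral_sub (h2.const_mul _) ((h2.const_mul P).indicator h3), integral_indicator h3,
    integral_const_mul, integral_const_mul]
  linarith

theorem r6_d {w : Pt → ℝ} (hw : ContDiff ℝ 1 w) (y : Cf 2) (k : Fin 3) :
    fderiv ℝ (fun y : Cf 2 => w (y 0)) y (dirn 0 k) = pd k w (y 0) ∧
      fderiv ℝ (fun y : Cf 2 => w (y 0)) y (dirn 1 k) = 0 := by
  have h1 : fderiv ℝ (fun y : Cf 2 => w (y 0)) y = _ :=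
    ((hw.differentiable one_ne_zero (y 0)).hasFDerivAt.comp y
      (hasFDerivAt_apply (𝕜 := ℝ) (0 : Fin 2) y)).fderiv
  rw [h1]
  constructor
  · simp [pd, ek]
  · simp

theorem r6_mul {w : Pt → ℝ} (hw : ContDiff ℝ 1 w) {C : ℝ} (h0 : ∀ x, |w x| ≤ C)
    (h1 : ∀ x k, |pd k w x| ≤ C) {f : Cf 2 → ℝ} {G} (hf : RH f G) :
    RH (fun y => w (y 0) * f y) fun i k y =>
      w (y 0) * G i k y + fderiv ℝ (fun y : Cf 2 => w (y 0)) y (dirn i k) * f y := by
  refine rh_iff.2 ((rh_iff.1 hf).mul (fun j => by simp [Pi.norm_single])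
    (hw.comp (contDiff_apply ℝ Pt (0 : Fin 2))) (fun y => h0 _) fun y j => ?_)
  obtain ⟨i, k⟩ := j
  fin_cases i
  · exact (r6_d hw y k).1 ▸ h1 _ k
  · exact (r6_d hw y k).2 ▸ (abs_zero.trans_le ((abs_nonneg _).trans (h0 0)))

theorem r6_core {V : Pt → ℝ} {lam E R P : ℝ} {φ η : Fin 5 → Pt → ℝ} (h : OB V lam E φ η)
    {Φ GΦ ψ Gψ E₂ E₃ A} (hm : MB V lam E φ Φ GΦ ψ Gψ E₂ E₃ A) (hc : Coer V E R P) (hP : 0 ≤ P)
    {w : Pt → ℝ} (hw : ContDiff ℝ 1 w) {C B : ℝ} (h0 : ∀ x, |w x| ≤ C)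
    (h1 : ∀ x k, |pd k w x| ≤ C) (h2 : ∀ x, gsq w x ≤ w x ^ 2 / 100) (hB : 0 ≤ B)
    (h3 : ∀ x, nrm x ≤ R + 1 → w x ^ 2 ≤ B) :
    ∃ G, RH (fun y => w (y 0) * Φ y) G ∧ ∫ y, (w (y 0) * Φ y) ^ 2 ≤ P * B ∧
      ∑ k, ∫ y, G 0 k y ^ 2 ≤ 4 * (P * B) := by
  obtain ⟨D, hD⟩ : ∃ D : Fin 2 → Fin 3 → Cf 2 → ℝ,
      D = fun i k y => fderiv ℝ (fun y : Cf 2 => w (y 0)) y (dirn i k) := ⟨_, rfl⟩
  obtain ⟨G, hG⟩ : ∃ G : Fin 2 → Fin 3 → Cf 2 → ℝ,
      G = fun i k y => w (y 0) * GΦ i k y + D i k y * Φ y := ⟨_, rfl⟩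
  obtain ⟨T, hT⟩ : ∃ T : Cf 2 → ℝ, T = fun y => w (y 0) * Φ y := ⟨_, rfl⟩
  have t1 : RH T G := by
    rw [hT, hG, hD]
    exact r6_mul hw h0 h1 hm.hΦ
  have t2 : RH (fun y => w (y 0) * T y) fun i k y => w (y 0) * G i k y + D i k y * T y := by
    rw [hD]
    exact r6_mul hw h0 h1 t1
  have d0 : ∀ k y, D 0 k y = pd k w (y 0) := fun k y => hD ▸ (r6_d hw y k).1
  have d1 : ∀ k y, D 1 k y = 0 := fun k y => hD ▸ (r6_d hw y k).2
  have i1 : ∀ k, Integrable fun y : Cf 2 => (pd k w (y 0) * Φ y) ^ 2 := fun k => by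
    have hm' : Continuous fun y : Cf 2 => pd k w (y 0) :=
      ((hw.continuous_fderiv one_ne_zero).clm_apply continuous_const).comp (continuous_apply 0)
    refine l2_sq (MemLp.of_le_mul (c := C) hm.hΦ.1 (hm'.aestronglyMeasurable.mul hm.hΦ.1.1)
      (Eventually.of_forall fun y => ?_))
    rw [norm_mul]
    exact mul_le_mul_of_nonneg_right (h1 _ k) (norm_nonneg _)
  have i2 := l2_sq t1.1
  have e0 : ∀ y, Φ y * (w (y 0) * T y) = T y * T y := fun y => by rw [hT]; ring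
  have e1 : ∀ k, ∫ y, GΦ 0 k y * (w (y 0) * G 0 k y + D 0 k y * T y) =
      (∫ y, G 0 k y * G 0 k y) - ∫ y, (pd k w (y 0) * Φ y) ^ 2 := fun k => by
    rw [← integral_sub (l2_mul (t1.2 0 k).1 (t1.2 0 k).1) (i1 k)]
    refine integral_congr_ae (Eventually.of_forall fun y => ?_)
    simp only [hG, hT, d0]
    ring
  have e2 : ∀ k, ∫ y, GΦ 1 k y * (w (y 0) * G 1 k y + D 1 k y * T y) =
      ∫ y, G 1 k y * G 1 k y := fun k => by
    refine integral_congr_ae (Eventually.of_forall fun y => ?_)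
    simp only [hG, hT, d1]
    ring
  have e3 : ∑ k, ∫ y : Cf 2, (pd k w (y 0) * Φ y) ^ 2 ≤ (∫ y, T y ^ 2) / 100 := by
    rw [← integral_finsetSum _ fun k _ => i1 k, ← integral_div]
    refine integral_mono (integrable_finsetSum _ fun k _ => i1 k) (i2.div_const _) fun y => ?_
    have a1 := mul_le_mul_of_nonneg_right (h2 (y 0)) (sq_nonneg (Φ y))
    simp only [hT, mul_pow, ← Finset.sum_mul]
    unfold gsq at a1
    linarith
  have q := eq_rh h.fb hm.hΦ hm.eq2 t2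
  have hS : MeasurableSet {x | nrm x ≤ R + 1} :=
    (isClosed_le continuous_nrm continuous_const).measurableSet
  have hW : ∀ x, |E + 10 - {x | nrm x ≤ R + 1}.indicator (fun _ => P) x| ≤ |E + 10| + |P| :=
    fun x => (abs_sub _ _).trans (add_le_add le_rfl (norm_indicator_le_norm_self (fun _ => P) x))
  have hW' : Measurable fun x => E + 10 - {x | nrm x ≤ R + 1}.indicator (fun _ => P) x :=
    measurable_const.sub (measurable_const.indicator hS)
  have l0 := low_rh h.fb hW' hW (r6_low0 hc) t1 0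
  have l1 := low_rh (w := fun _ => E - 1) h.fb measurable_const (fun _ => le_rfl) (r6_low1 h) t1 1
  have l2 : (E + 10) * (∫ y, T y ^ 2) - P * B ≤
      ∫ y : Cf 2, (E + 10 - {x | nrm x ≤ R + 1}.indicator (fun _ => P) (y 0)) * T y ^ 2 := by
    have a1 : ∫ y, ((E + 10) * T y ^ 2 - P * B * Φ y ^ 2) = (E + 10) * (∫ y, T y ^ 2) - P * B := by
      rw [integral_sub (i2.const_mul _) ((l2_sq hm.hΦ.1).const_mul _), integral_const_mul,
        integral_const_mul, hm.one, mul_one]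
    rw [← a1]
    refine integral_mono ((i2.const_mul _).sub ((l2_sq hm.hΦ.1).const_mul _))
      (i2.bdd_mul (c := |E + 10| + |P|) (hW'.comp (measurable_pi_apply 0)).aestronglyMeasurable
        (Eventually.of_forall fun y => hW _)) fun y => ?_
    by_cases hy : y 0 ∈ {x | nrm x ≤ R + 1}
    · have a2 := mul_le_mul_of_nonneg_left
        (mul_le_mul_of_nonneg_right (h3 _ hy) (sq_nonneg (Φ y))) hP
      simp only [Set.indicator_of_mem hy, hT, mul_pow]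
      linarith
    · have a2 := mul_nonneg (mul_nonneg hP hB) (sq_nonneg (Φ y))
      simp only [Set.indicator_of_notMem hy]
      linarith
  have l3 : 0 ≤ lam * ∫ y : Cf 2, P370.ker (y 0 - y 1) * (T y * T y) :=
    mul_nonneg h.lam_pos.le (integral_nonneg fun y => mul_nonneg (ker_nonneg _) (mul_self_nonneg _))
  simp only [bil, Fin.sum_univ_two, e0, e1, e2, Finset.sum_sub_distrib, lt_irrefl, if_false,
    Fin.zero_lt_one, if_true, show ¬(1 : Fin 2) < 0 by decide, zero_add, add_zero] at q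
  rw [integral_const_mul] at l1
  have n0 : 0 ≤ ∫ y, T y ^ 2 := integral_nonneg fun _ => sq_nonneg _
  have n1 : 0 ≤ ∑ k, ∫ y, G 0 k y ^ 2 :=
    Finset.sum_nonneg fun _ _ => integral_nonneg fun _ => sq_nonneg _
  have n2 : ∫ y, T y * T y = ∫ y, T y ^ 2 := by simp only [sq]
  have n3 : E₂ ≤ 2 * E + 1 := by linarith [(abs_le.1 hm.e2).2, (r6_e h).2]
  have n4 := mul_le_mul_of_nonneg_right n3 n0
  rw [n2] at q
  refine ⟨G, hT ▸ t1, ?_, by linarith⟩
  have n5 : ∫ y, T y ^ 2 ≤ P * B := by linarith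
  rwa [hT] at n5

theorem r6_sq (x : Pt) : nrm x ^ 2 = ∑ k, x k ^ 2 :=
  Real.sq_sqrt (Finset.sum_nonneg fun _ _ => sq_nonneg _)

theorem r6_w {M : ℝ} (hM : 0 < M) : ∃ w : Pt → ℝ, ContDiff ℝ 1 w ∧
    (∀ x, w x = (100 + nrm x ^ 2) - (100 + nrm x ^ 2) ^ 2 / (M + (100 + nrm x ^ 2))) ∧
    (∀ x, 0 ≤ w x ∧ w x ≤ M ∧ w x ≤ 100 + nrm x ^ 2) ∧ ∀ x, gsq w x ≤ w x ^ 2 / 100 := by
  have hs : ∀ x : Pt, 0 < M + (100 + ∑ k, x k ^ 2) := fun x => by positivity
  refine ⟨fun x => M * (100 + ∑ k, x k ^ 2) / (M + (100 + ∑ k, x k ^ 2)),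
    ContDiff.div (by fun_prop) (by fun_prop) fun x => (hs x).ne', fun x => ?_, fun x => ?_,
    fun x => ?_⟩
  · have := (hs x).ne'
    rw [r6_sq]
    field_simp
    ring
  · have a1 : 0 ≤ ∑ k, x k ^ 2 := by positivity
    rw [r6_sq, div_le_iff₀ (hs x), div_le_iff₀ (hs x)]
    exact ⟨by positivity, by nlinarith, by nlinarith⟩
  · have a1 : HasFDerivAt (fun x : Pt => 100 + ∑ k, x k ^ 2) _ x :=
      (HasFDerivAt.fun_sum fun k (_ : k ∈ Finset.univ) =>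
        (hasFDerivAt_apply (𝕜 := ℝ) k x).pow 2).const_add 100
    have a2 : HasDerivAt (fun t : ℝ => M * t / (M + t)) (M ^ 2 / (M + (100 + ∑ k, x k ^ 2)) ^ 2)
        (100 + ∑ k, x k ^ 2) := by
      have a3 := ((hasDerivAt_id' (100 + ∑ k, x k ^ 2)).const_mul M).fun_div
        ((hasDerivAt_id' _).const_add M) (hs x).ne'
      refine a3.congr_deriv ?_
      congr 1
      ring
    have a3 : ∀ k, pd k (fun x : Pt => M * (100 + ∑ k, x k ^ 2) / (M + (100 + ∑ k, x k ^ 2))) x =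
        M ^ 2 / (M + (100 + ∑ k, x k ^ 2)) ^ 2 * (2 * x k) := fun k => by
      have a4 := (a2.comp_hasFDerivAt x a1).fderiv
      simp only [Function.comp_def] at a4
      rw [pd, a4]
      simp [ek, Pi.single_apply]
    have a0 : 0 ≤ ∑ k, x k ^ 2 := by positivity
    have a5 := hs x
    simp only [gsq, a3, mul_pow, ← Finset.mul_sum]
    generalize ∑ k, x k ^ 2 = t at a0 a5
    obtain ⟨r, hr⟩ : ∃ r, r = M / (M + (100 + t)) := ⟨_, rfl⟩
    have b1 : 0 ≤ r := hr ▸ by positivity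
    have b2 : r ≤ 1 := hr ▸ (div_le_one a5).2 (by linarith)
    have b3 : r ^ 2 ≤ 1 := pow_le_one₀ b1 b2
    have b4 : r ^ 2 * (2 ^ 2 * t) ≤ (100 + t) ^ 2 / 100 := by
      have := mul_le_of_le_one_left (show 0 ≤ 2 ^ 2 * t by positivity) b3
      nlinarith [sq_nonneg (100 - t)]
    have b5 := mul_le_mul_of_nonneg_left b4 (sq_nonneg r)
    rw [← div_pow, mul_div_right_comm, ← hr]
    linarith

theorem moments {V : Pt → ℝ} {lam E R P : ℝ} {φ η : Fin 5 → Pt → ℝ} (h : OB V lam E φ η)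
    {Φ GΦ ψ Gψ E₂ E₃ A} (hm : MB V lam E φ Φ GΦ ψ Gψ E₂ E₃ A) (hc : Coer V E R P)
    (hR : 10 ≤ R) (hRP : R ≤ P) (hP : 10 ^ 200 ≤ P) : MomB Φ (P ^ 6) := by
  have hP1 : 400 ≤ P := le_trans (by norm_num) hP
  have hP0 : 0 ≤ P := by linarith
  choose w w1 w2 w3 w4 using fun m : ℕ => r6_w (M := m + 1) (by positivity)
  have key := fun m : ℕ => r6_core h hm hc hP0 (w1 m) (C := m + 1) (B := (5 * P ^ 2) ^ 2)
    (fun x => by rw [abs_of_nonneg (w3 m x).1]; exact (w3 m x).2.1)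
    (fun x k => by
      have a1 := Finset.single_le_sum (f := fun k => pd k (w m) x ^ 2) (fun _ _ => sq_nonneg _)
        (Finset.mem_univ k)
      have a2 := pow_le_pow_left₀ (w3 m x).1 (w3 m x).2.1 2
      have a3 := w4 m x
      unfold gsq at a3
      exact abs_le_of_sq_le_sq (by linarith [sq_nonneg (w m x)]) (by positivity))
    (w4 m) (by positivity) fun x hx => by
      have a1 := pow_le_pow_left₀ (nrm_nonneg x) (show nrm x ≤ 2 * P by linarith) 2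
      exact pow_le_pow_left₀ (w3 m x).1 ((w3 m x).2.2.trans (by nlinarith)) 2
  choose G k1 k2 k3 using key
  have hb : 16 * (P * (5 * P ^ 2) ^ 2) ≤ P ^ 6 := by
    have a1 := mul_le_mul_of_nonneg_right hP1 (pow_nonneg hP0 5)
    linarith
  have hb0 : 0 ≤ P * (5 * P ^ 2) ^ 2 := by positivity
  have hl : ∀ x, Tendsto (fun m => w m x) atTop (𝓝 (100 + nrm x ^ 2)) := fun x => by
    have a1 : Tendsto (fun m : ℕ => (m : ℝ) + 1 + (100 + nrm x ^ 2)) atTop atTop :=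
      tendsto_atTop_add_const_right _ _
        (tendsto_atTop_add_const_right _ _ tendsto_natCast_atTop_atTop)
    simpa only [w2, sub_zero] using
      (a1.const_div_atTop ((100 + nrm x ^ 2) ^ 2)).const_sub (100 + nrm x ^ 2)
  refine ⟨fatou_int (fun m => l2_sq (k1 m).1) (fun m y => sq_nonneg _)
    (fun m => by linarith [k2 m]) (Eventually.of_forall fun y => ((hl _).mul_const _).pow 2),
    fun c => fatou_int (fun m => ((k1 m).hardy' 0 c).1) (fun m y => by positivity)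
    (fun m => by linarith [((k1 m).hardy' 0 c).2, k3 m])
    (Eventually.of_forall fun y => (((hl _).mul_const _).pow 2).const_mul _)⟩

end Vale.Agent.P363
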