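import Vale.Agent.P363.R5
import Vale.Agent.P363.R7

/-! Part R, file 8: the equations for `f` and `ρ`.
`tens_bil`: `bil_cons` for `u (z 0) * Φ (tail z)` (`H1.tensor`) and `T`; on a.e. slice (`RH.sliceY`) `bil_comm`,
`bil_smul`, `eq2`; the other terms by `int_cons`.  `f_eq`: `tens_bil` with `u = ζ`, `T = ψ`, `bil_comm`, `eq3`.
`rho_sub`: `kato` for `res ψ Φ` with `S z = src (z 0) * Φ (tail z) - f (z 0) * rWk * Φ (tail z)` (square integrable by
`l2_of_slice` and `wb`), `τ = min Λ (Λ / r ^ 2) * |f|`; the equation from `bil_comm`, `bil_lin`, `eq3`, `tens_bil` with `u = f`,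
`Sol.h1` tested with `rctr T Φ` (`RH.contract`); the gap on slices from `RB.pyth`. -/

namespace Vale.Agent.P363

open MeasureTheory Vale.Agent.P370 Filter Topology
open scoped ContDiff

variable {V : Pt → ℝ} {lam Λ g E₂ E₃ : ℝ} {Φ : Cf 2 → ℝ} {GΦ : Fin 2 → Fin 3 → Cf 2 → ℝ}
  {ψ : Cf 3 → ℝ} {Gψ : Fin 3 → Fin 3 → Cf 3 → ℝ}

lemma r8_fub {a : Pt → ℝ} {w : Cf 2 → ℝ} {T F : Cf 3 → ℝ} (hF : Integrable F)
    (e : ∀ x y, F (Fin.cons x y) = a x * (T (Fin.cons x y) * w y)) :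
    ∫ z, F z = ∫ x, a x * rctr T w x := by
  rw [← (int_cons hF).2.2]
  simp only [e, integral_const_mul, rctr]

lemma r8_comm (V u u' : Pt → ℝ) (a a' : Fin 3 → Pt → ℝ) : q1 V u a u' a' = q1 V u' a' u a := by
  simp only [q1, mul_comm (a _ _), mul_comm (u _)]

lemma r8_addc (hV : FB V) {u u' : Pt → ℝ} {a a' : Fin 3 → Pt → ℝ} (hu : H1 u a) (hu' : H1 u' a')
    (c : ℝ) : q1 (fun x => V x + c) u a u' a' = q1 V u a u' a' + c * ∫ x, u x * u' x := by
  simp only [q1, add_mul]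
  rw [integral_add (hV.integrable hu hu') ((l2_mul hu.1 hu'.1).const_mul c), integral_const_mul]
  ring

theorem RB.tens_bil (h : RB V lam Λ g E₂ E₃ Φ GΦ ψ Gψ) {u : Pt → ℝ} {gu : Fin 3 → Pt → ℝ}
    (hu : H1 u gu) {T : Cf 3 → ℝ} {H : Fin 3 → Fin 3 → Cf 3 → ℝ} (hT : RH T H) :
    Integrable (fun z : Cf 3 => rWk lam (z 0) (Fin.tail z) * (u (z 0) * Φ (Fin.tail z) * T z)) ∧
    bil V lam (fun z : Cf 3 => u (z 0) * Φ (Fin.tail z)) (fun i k z =>
      Fin.cases (gu k (z 0) * Φ (Fin.tail z)) (fun j => u (z 0) * GΦ j k (Fin.tail z)) i) T H =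
      q1 V u gu (rctr T Φ) (fun k => rctr (H 0 k) Φ) + E₂ * (∫ x, u x * rctr T Φ x) +
        ∫ z : Cf 3, rWk lam (z 0) (Fin.tail z) * (u (z 0) * Φ (Fin.tail z) * T z) := by
  have hF := hu.tensor h.hΦ
  obtain ⟨-, i2, e⟩ := bil_cons (lam := lam) h.fb hF hT
  refine ⟨i2, e.trans ?_⟩
  have e1 : ∀ k, ∫ z : Cf 3, gu k (z 0) * Φ (Fin.tail z) * H 0 k z =
      ∫ x, gu k x * rctr (H 0 k) Φ x := fun k =>
    r8_fub (l2_mul (hF.2 0 k).1 (hT.2 0 k).1) fun x y => by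
      simp only [Fin.cons_zero, Fin.tail_cons]; ring
  have e2 : ∫ z : Cf 3, V (z 0) * (u (z 0) * Φ (Fin.tail z) * T z) =
      ∫ x, V x * (u x * rctr T Φ x) := by
    rw [r8_fub (a := fun x => V x * u x) (w := Φ) (T := T) (h.fb.integrable_rh hF hT 0)
      fun x y => by simp only [Fin.cons_zero, Fin.tail_cons]; ring]
    simp only [mul_assoc]
  have e3 : ∫ x, bil V lam (sl (fun z : Cf 3 => u (z 0) * Φ (Fin.tail z)) x) (slG (fun i k z =>
      Fin.cases (gu k (z 0) * Φ (Fin.tail z)) (fun j => u (z 0) * GΦ j k (Fin.tail z)) i) x)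
      (sl T x) (slG H x) = E₂ * ∫ x, u x * rctr T Φ x := by
    rw [← integral_const_mul]
    refine integral_congr_ae (hT.sliceY.mono fun x hx => ?_)
    have := bil_smul (V := V) (lam := lam) (sl T x) Φ (slG H x) GΦ (u x)
    rw [bil_comm (f := sl T x) (f' := Φ), h.eq2 _ _ hx] at this
    simp only
    rw [bil_comm]
    refine this.trans ?_
    simp only [rctr, sl, mul_comm (Φ _)]
    ring
  rw [e3]
  simp only [Fin.cases_zero, e1, e2, q1]
  ring

lemma r8_f (h : RB V lam Λ g E₂ E₃ Φ GΦ ψ Gψ) {T : Cf 3 → ℝ} {H : Fin 3 → Fin 3 → Cf 3 → ℝ}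
    (hT : RH T H) : H1 (rctr T Φ) fun k => rctr (H 0 k) Φ := hT.contract h.hΦ.1

theorem RB.f_eq (h : RB V lam Λ g E₂ E₃ Φ GΦ ψ Gψ) :
    Sol (fun x => V x + (E₂ - E₃)) (fun x => -src lam ψ Φ x) (rctr ψ Φ)
      fun k => rctr (Gψ 0 k) Φ := by
  intro ζ hζ
  have hz := C1c.h1 hζ
  have hF := hz.tensor h.hΦ
  obtain ⟨i1, e⟩ := h.tens_bil hz h.hψ
  rw [bil_comm, h.eq3 _ _ hF] at e
  have e1 : ∫ z : Cf 3, ψ z * (ζ (z 0) * Φ (Fin.tail z)) = ∫ x, ζ x * rctr ψ Φ x :=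
    r8_fub (l2_mul h.hψ.1 hF.1) fun x y => by simp only [Fin.cons_zero, Fin.tail_cons]; ring
  have e2 : ∫ z : Cf 3, rWk lam (z 0) (Fin.tail z) * (ζ (z 0) * Φ (Fin.tail z) * ψ z) =
      ∫ x, ζ x * src lam ψ Φ x := by
    rw [← (int_cons i1).2.2]
    simp only [src, ← integral_const_mul, Fin.cons_zero, Fin.tail_cons]
    refine integral_congr_ae (ae_of_all _ fun x => integral_congr_ae (ae_of_all _ fun y => ?_))
    simp only
    ring
  rw [r8_comm, r8_addc h.fb hz (r8_f h h.hψ)]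
  simp only [neg_mul, integral_neg, mul_comm (src lam ψ Φ _)]
  rw [e1, e2] at e
  linarith

lemma r8_meas (lam : ℝ) : Measurable fun z : Cf 3 => rWk lam (z 0) (Fin.tail z) := by
  unfold rWk
  refine Measurable.const_mul (Measurable.add ?_ ?_) lam
  · exact measurable_ker.comp ((measurable_pi_apply 0).sub (measurable_pi_apply 1))
  · exact measurable_ker.comp ((measurable_pi_apply 0).sub (measurable_pi_apply 2))

lemma r8_tail {w : Cf 2 → ℝ} (hw : AEStronglyMeasurable w volume) :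
    AEStronglyMeasurable (fun z : Cf 3 => w (Fin.tail z)) volume := by
  have h1 := volume_preserving_piFinSuccAbove (fun _ : Fin 3 => Pt) 0
  exact (hw.comp_quasiMeasurePreserving Measure.quasiMeasurePreserving_snd).comp_measurePreserving
    h1

lemma r8_S1 (h : RB V lam Λ g E₂ E₃ Φ GΦ ψ Gψ) {a : Pt → ℝ} (ha : MemLp a 2) :
    MemLp (fun z : Cf 3 => a (z 0) * Φ (Fin.tail z)) 2 := by
  refine l2_of_slice ((aesm_coord 0 ha.1).mul (r8_tail h.hΦ.1.1)) (l2_sq ha)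
    (ae_of_all _ fun x => ?_)
  simp only [Fin.cons_zero, Fin.tail_cons, mul_pow, integral_const_mul, h.one, mul_one, le_refl,
    and_true]
  exact (l2_sq h.hΦ.1).const_mul _

lemma r8_S2 (h : RB V lam Λ g E₂ E₃ Φ GΦ ψ Gψ) {a : Pt → ℝ} (ha : MemLp a 2) :
    MemLp (fun z : Cf 3 => a (z 0) * (rWk lam (z 0) (Fin.tail z) * Φ (Fin.tail z))) 2 := by
  refine l2_of_slice ((aesm_coord 0 ha.1).mul ((r8_meas lam).aestronglyMeasurable.mul
    (r8_tail h.hΦ.1.1))) ((l2_sq ha).mul_const (Λ ^ 2)) ((nw_ae_ne 0).mono fun x hx => ?_)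
  obtain ⟨w1, w2, -⟩ := h.wb x hx
  simp only [Fin.cons_zero, Fin.tail_cons]
  simp only [mul_pow (a x), integral_const_mul]
  exact ⟨(l2_sq w1).const_mul _, mul_le_mul_of_nonneg_left ((Real.sqrt_le_iff.1 w2).2)
    (sq_nonneg _)⟩

lemma r8_sub {a b : Cf 3 → ℝ} {A B : Fin 3 → Fin 3 → Cf 3 → ℝ} (ha : RH a A) (hb : RH b B) :
    RH (fun z => a z - b z) fun i k z => A i k z - B i k z :=
  rh_iff.2 ((rh_iff.1 ha).sub (rh_iff.1 hb))

theorem RB.rho_sub (h : RB V lam Λ g E₂ E₃ Φ GΦ ψ Gψ) :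
    ∃ gρ τ, H1 (nsl (res ψ Φ)) gρ ∧ MemLp τ 2 ∧
      Sub (fun x => V x + (E₂ - E₃) + g) τ (nsl (res ψ Φ)) gρ ∧
      ∀ᵐ x, τ x ≤ Λ / nrm x ^ 2 * |rctr ψ Φ x| := by
  have hf := r8_f h h.hψ
  have hF := hf.tensor h.hΦ
  have hs := h.s_split.1
  set f := rctr ψ Φ with hfd
  have hΞ : RH (res ψ Φ) _ := r8_sub h.hψ hF
  have S1 := r8_S1 h hs
  have S2 := r8_S2 h hf.1
  have m0 : ∀ x : Pt, 0 ≤ min Λ (Λ / nrm x ^ 2) := fun x =>
    le_min h.L0 (div_nonneg h.L0 (sq_nonneg _))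
  have hτ : MemLp (fun x => min Λ (Λ / nrm x ^ 2) * |f x|) 2 := by
    refine (hf.1.const_mul Λ).of_le (((measurable_const.min (measurable_const.div
      (continuous_nrm.measurable.pow_const 2))).aestronglyMeasurable).mul hf.1.1.norm)
      (ae_of_all _ fun x => ?_)
    rw [Real.norm_eq_abs, Real.norm_eq_abs, abs_mul, abs_mul, abs_abs, abs_of_nonneg (m0 x),
      abs_of_nonneg h.L0]
    exact mul_le_mul_of_nonneg_right (min_le_left _ _) (abs_nonneg _)
  refine (kato (E₃ := E₃) (E' := E₂ + g) h.fb h.l0 hΞ (S1.sub S2) hτ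
    (fun x => mul_nonneg (m0 x) (abs_nonneg _)) ?_ ?_ ?_).elim fun ga ⟨h1, h2⟩ => ?_
  rotate_right
  · refine ⟨ga, _, h1, hτ, ?_, ae_of_all _ fun x =>
      mul_le_mul_of_nonneg_right (min_le_right _ _) (abs_nonneg _)⟩
    have e : (fun x => V x + (E₂ - E₃) + g) = fun x => V x + (E₂ + g - E₃) := by
      funext x; ring
    rw [e]; exact h2
  · intro T H hT
    have l := bil_lin (lam := lam) h.fb hT h.hψ hF 1 (-1)
    obtain ⟨i1, e⟩ := h.tens_bil hf hT
    have ht := r8_f h hT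
    have e0 := h.f_eq.h1 (h.fb.add_const _) hf hs.neg ht
    rw [r8_addc h.fb hf ht] at e0
    rw [bil_comm (f := T) (f' := ψ), h.eq3 _ _ hT, bil_comm (f := T) (f' := fun z : Cf 3 =>
      f (z 0) * Φ (Fin.tail z)), e] at l
    have e1 : ∫ z : Cf 3, f (z 0) * Φ (Fin.tail z) * T z = ∫ x, f x * rctr T Φ x :=
      r8_fub (l2_mul hF.1 hT.1) fun x y => by simp only [Fin.cons_zero, Fin.tail_cons]; ring
    have e2 : ∫ z : Cf 3, src lam ψ Φ (z 0) * Φ (Fin.tail z) * T z =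
        ∫ x, src lam ψ Φ x * rctr T Φ x :=
      r8_fub (l2_mul S1 hT.1) fun x y => by simp only [Fin.cons_zero, Fin.tail_cons]; ring
    have e3 : ∫ z, res ψ Φ z * T z = (∫ z, ψ z * T z) - ∫ x, f x * rctr T Φ x := by
      rw [← e1, ← integral_sub (l2_mul h.hψ.1 hT.1) (l2_mul hF.1 hT.1)]
      exact integral_congr_ae (ae_of_all _ fun z => by simp only [res]; ring)
    have e4 : ∫ z : Cf 3, (src lam ψ Φ (z 0) * Φ (Fin.tail z) -
        f (z 0) * (rWk lam (z 0) (Fin.tail z) * Φ (Fin.tail z))) * T z =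
        (∫ x, src lam ψ Φ x * rctr T Φ x) - ∫ z : Cf 3, rWk lam (z 0) (Fin.tail z) *
          (f (z 0) * Φ (Fin.tail z) * T z) := by
      rw [← e2, ← integral_sub (l2_mul S1 hT.1) i1]
      exact integral_congr_ae (ae_of_all _ fun z => by simp only; ring)
    simp only [neg_mul, integral_neg, one_mul, ← sub_eq_add_neg] at l e0
    rw [bil_comm, e3]
    simp only [Pi.sub_apply]
    rw [e4]
    refine Eq.trans l ?_
    linarith
  · filter_upwards [hΞ.sliceY, h.pyth] with x hx hp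
    have := h.gap _ _ hx
    simp only [sl] at this
    rw [hp.2.1] at this
    rw [nsl_sq]
    simpa [sl] using this
  · filter_upwards [nw_ae_ne 0, h.pyth] with x hx hp
    obtain ⟨w1, w2, w3⟩ := h.wb x hx
    have w4 : MemLp (fun y => (rWk lam x y - 2 * lam / nrm x) * Φ y) 2 := by
      simp only [sub_mul]; exact w1.sub (h.hΦ.1.const_mul _)
    have j0 := l2_mul h.hΦ.1 hp.1
    have j1 := l2_mul w1 hp.1
    have c1 := l2_cs' w1 hp.1
    have c2 := l2_cs' w4 hp.1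
    simp only [sl] at j0 j1 c1 c2
    have e1 : ∫ y, (rWk lam x y - 2 * lam / nrm x) * Φ y * res ψ Φ (Fin.cons x y) =
        ∫ y, rWk lam x y * Φ y * res ψ Φ (Fin.cons x y) := by
      have : ∀ y, (rWk lam x y - 2 * lam / nrm x) * Φ y * res ψ Φ (Fin.cons x y) =
          rWk lam x y * Φ y * res ψ Φ (Fin.cons x y) -
            2 * lam / nrm x * (Φ y * res ψ Φ (Fin.cons x y)) := fun y => by ring
      simp only [this]
      rw [integral_sub j1 (j0.const_mul _), integral_const_mul, hp.2.1, mul_zero, sub_zero]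
    have e2 : ∫ y, (src lam ψ Φ x * Φ y - f x * (rWk lam x y * Φ y)) * res ψ Φ (Fin.cons x y) =
        -(f x * ∫ y, rWk lam x y * Φ y * res ψ Φ (Fin.cons x y)) := by
      simp only [sub_mul, mul_assoc (src lam ψ Φ x), mul_assoc (f x)]
      rw [integral_sub (j0.const_mul _) (j1.const_mul _), integral_const_mul, integral_const_mul,
        hp.2.1, mul_zero, zero_sub]
    rw [e1] at c2
    have n0 := nsl_nonneg (res ψ Φ) x
    have c3 : |∫ y, rWk lam x y * Φ y * res ψ Φ (Fin.cons x y)| ≤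
        min Λ (Λ / nrm x ^ 2) * nsl (res ψ Φ) x := by
      rw [min_mul_of_nonneg _ _ n0]
      exact le_min (c1.trans (mul_le_mul_of_nonneg_right w2 n0))
        (c2.trans (mul_le_mul_of_nonneg_right w3 n0))
    simp only [Pi.sub_apply, Fin.cons_zero, Fin.tail_cons]
    rw [e2]
    refine (neg_le_abs _).trans ?_
    rw [abs_mul, mul_right_comm, mul_comm]
    exact mul_le_mul_of_nonneg_right c3 (abs_nonneg _)

end Vale.Agent.P363
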